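import Mathlib
import Crest.Agent.R199.Defs

/-!
# Rows 177 / 184 (S0267, S0274): frozen definitions (captain helper427)

* `PMap X`    : finite map (darts `X`, face permutation `φ`, edge involution `α`, vertex permutation
                `x ↦ φ (α x)`), "planar" meaning `H¹(·;𝔽₂) = 0`.
* `PAct S V`  : (from row 199) folded `S`-labelled graph on the node set `V`.
* `Diag A X`  : diagram over the folded graph `A`, developed in the group `Grp A`.
* `Conf A`    : configuration = finitely many reduced paths in `A` with glued corners.
* `LocalIneq` : the local lemma;  `Iso` : linear isoperimetric inequality for reduced diagrams.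
* `Model S`   : type system of random folded graphs with a Perron certificate.
-/

set_option autoImplicit false

open scoped Classical

namespace Crest.Agent.R177

open Crest.Agent.R199 (PAct)

/-! ## Finite planar maps -/

/-- A finite map. The dart `x` starts at the vertex `[x]` (orbit of `x ↦ φ (α x)`), lies on the
boundary of the face `[x]` (orbit of `φ`), the next dart of this face is `φ x`, the reversed dart
is `α x`. `planar` says that `H¹` of the surface with coefficients in `𝔽₂` vanishes. -/
structure PMap (X : Type) where
  φ : Equiv.Perm X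
  α : Equiv.Perm X
  inv : ∀ x, α (α x) = x
  ne : ∀ x, α x ≠ x
  planar : ∀ a : X → ZMod 2, (∀ x, a x + a (φ x) + a (α x) + a (φ (α x)) = 0) →
    ∃ b h : X → ZMod 2, (∀ x, b (φ (α x)) = b x) ∧ (∀ x, h (φ x) = h x) ∧ ∀ x, a x = b x + h x

namespace PMap

variable {X : Type} (M : PMap X)

/-- faces = orbits of `φ` -/
abbrev Face : Type := Quotient (Equiv.Perm.SameCycle.setoid M.φ)

/-- the face of a dart -/
def face (x : X) : M.Face := Quotient.mk _ x

/-- rotation about the start vertex -/
def σ (x : X) : X := M.φ (M.α x)

/-- the corner `x` (between `φ⁻¹ x` and `x`) sits at a vertex of degree at most two -/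
def Smooth (x : X) : Prop := M.σ (M.σ x) = x

end PMap

/-- remove `x` and `x'` from the permutation `ψ * swap x x'`. For `ψ = φ` (faces) and `ψ = α`
(edges) this removes the dart pair `x, x'`: it merges or splits faces if `α x = x'`, and folds two
consecutive darts if `φ x = x'`. -/
noncomputable def rem2 {X : Type} (ψ : Equiv.Perm X) (x x' : X) : Equiv.Perm X :=
  let ψ₁ := ψ * Equiv.swap x x'
  let ψ₂ := Equiv.swap x (ψ₁ x) * ψ₁
  Equiv.swap x' (ψ₂ x') * ψ₂

/-! ## The group of a folded graph -/

variable {S V : Type}

-- realize the equation lemmas of `PAct.read` in this module (otherwise several modules create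
-- their own copies)

/-- inverse letter -/
def hinv (a : S × Bool) : S × Bool := (a.1, !a.2)

/-- relators: labels of closed words -/
def rels (A : PAct S V) : Set (FreeGroup S) :=
  {r | ∃ (x : V) (w : List (S × Bool)), A.read w x = some x ∧ r = FreeGroup.mk w}

/-- the group -/
abbrev Grp (A : PAct S V) : Type := PresentedGroup (rels A)

/-- the group element of a word -/
def gw (A : PAct S V) (w : List (S × Bool)) : Grp A := PresentedGroup.mk (rels A) (FreeGroup.mk w)

/-- every nonempty reduced closed word has length at least `g` -/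
def Girth (A : PAct S V) (g : ℕ) : Prop :=
  ∀ (x : V) (w : List (S × Bool)), FreeGroup.IsReduced w → w ≠ [] → A.read w x = some x →
    g ≤ w.length

/-! ## Diagrams -/

/-- A diagram over the folded graph `A`: a planar map with labels, developed in `Grp A` (`pos x` is
the position of the start vertex of `x`); the darts of inner faces (`¬ out x`) are mapped to the
edges of `A` (`node x` is the start node). -/
structure Diag (A : PAct S V) (X : Type) extends PMap X where
  lab : X → S × Bool
  pos : X → Grp A
  out : X → Prop
  node : X → V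
  lab_α : ∀ x, lab (α x) = hinv (lab x)
  pos_φ : ∀ x, pos (φ x) = pos x * gw A [lab x]
  pos_α : ∀ x, pos (α x) = pos (φ x)
  out_φ : ∀ x, out (φ x) ↔ out x
  node_step : ∀ x, ¬ out x → A.st (lab x) (node x) = some (node (φ x))

namespace Diag

variable {A : PAct S V} {X : Type} (D : Diag A X)

/-- reduced: no edge with the same edge of `A` on both sides, no backtracking along faces -/
def Reduced : Prop :=
  (∀ x, ¬ D.out x → ¬ D.out (D.α x) → D.node (D.α x) ≠ D.node (D.φ x)) ∧
  ∀ x, D.lab (D.φ x) ≠ hinv (D.lab x)

/-- the contribution of a dart to the chain of the diagram -/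
noncomputable def cel (x : X) : (Grp A × V × S) →₀ ℤ :=
  if D.out x then 0
  else if (D.lab x).2 then Finsupp.single (D.pos x, D.node x, (D.lab x).1) 1
  else - Finsupp.single (D.pos (D.φ x), D.node (D.φ x), (D.lab x).1) 1

/-- the chain of a diagram: the sum of its inner faces, as a chain on `Grp A × (edges of A)`;
`(p, v, s)` is the copy at the position `p` of the edge labelled `s` starting at the node `v` -/
noncomputable def cls [Fintype X] : (Grp A × V × S) →₀ ℤ := ∑ x, D.cel x

end Diag

/-- Linear isoperimetric inequality for all reduced diagrams over `A` with at most one outer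
face. -/
def Iso (A : PAct S V) (C : ℕ) : Prop :=
  ∀ (X : Type) [Finite X] (D : Diag A X), D.Reduced →
    (∀ x y, D.out x → D.out y → D.φ.SameCycle x y) →
    Nat.card {x // ¬ D.out x} ≤ C * Nat.card {x // D.out x}

/-! ## Chains on `Grp A × edges` -/

/-- boundary inside the cells: `(p, v, s) ↦ (p s, v s) - (p, v)` -/
noncomputable def cbd (A : PAct S V) : ((Grp A × V × S) →₀ ℤ) →+ ((Grp A × V) →₀ ℤ) :=
  Finsupp.liftAddHom fun e =>
    match A.st (e.2.2, true) e.2.1 with
    | some v' => Finsupp.singleAddHom (e.1 * gw A [(e.2.2, true)], v') -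
        Finsupp.singleAddHom (e.1, e.2.1)
    | none => 0

/-- push forward to the Cayley graph -/
noncomputable def push (A : PAct S V) : ((Grp A × V × S) →₀ ℤ) →+ ((Grp A × S) →₀ ℤ) :=
  Finsupp.liftAddHom fun e => Finsupp.singleAddHom (e.1, e.2.2)

/-- `H₂ = 0`: a finite sum of cycles in cells whose image in the Cayley graph is zero is zero -/
def Aspherical (A : PAct S V) : Prop :=
  ∀ z : (Grp A × V × S) →₀ ℤ, (∀ e ∈ z.support, (A.st (e.2.2, true) e.2.1).isSome) →
    cbd A z = 0 → push A z = 0 → z = 0

/-! ## Configurations -/

/-- A frame: `K` paths, path `i` has length `len i` and is closed iff `cl i`. -/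
structure Frame where
  K : ℕ
  len : Fin K → ℕ
  cl : Fin K → Bool
  len_pos : ∀ i, 0 < len i

namespace Frame

variable (F : Frame)

/-- darts (edge positions) -/
abbrev Dart : Type := Σ i : Fin F.K, Fin (F.len i)

/-- node positions -/
abbrev Pos : Type := Σ i : Fin F.K, Fin (F.len i + 1)

/-- start position of a dart -/
def start (x : F.Dart) : F.Pos := ⟨x.1, x.2.castSucc⟩

/-- end position of a dart -/
def stop (x : F.Dart) : F.Pos := ⟨x.1, x.2.succ⟩

/-- `y` is the dart after `x` on its path (cyclically if the path is closed) -/
def Next (x y : F.Dart) : Prop :=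
  x.1 = y.1 ∧ (y.2.val = x.2.val + 1 ∨ (y.2.val = 0 ∧ x.2.val + 1 = F.len x.1 ∧ F.cl x.1 = true))

/-- the corner before the dart `x` exists -/
def IsCorner (x : F.Dart) : Prop := ∃ y, F.Next y x

/-- number of open paths -/
noncomputable def openN : ℕ := Nat.card {i : Fin F.K // F.cl i = false}

end Frame

/-- A configuration in `A` on the frame `F`: reduced paths in `A` and a partial matching `mate` of
corners; the corner `x` is the turn between the dart before `x` and `x`. -/
structure Conf (A : PAct S V) (F : Frame) where
  node : F.Pos → V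
  lab : F.Dart → S × Bool
  mate : F.Dart → Option F.Dart
  step : ∀ x, A.st (lab x) (node (F.start x)) = some (node (F.stop x))
  closed : ∀ i, F.cl i = true → node ⟨i, Fin.last _⟩ = node ⟨i, 0⟩
  red : ∀ x y, F.Next x y → lab y ≠ hinv (lab x)
  mate_symm : ∀ x x', mate x = some x' → mate x' = some x
  mate_corner : ∀ x x', mate x = some x' → F.IsCorner x
  /-- matched corners show the same turn in opposite directions -/
  mate_lab : ∀ x x' y, mate x = some x' → F.Next y x → lab x' = hinv (lab y)
  mate_node : ∀ x x', mate x = some x' → node (F.start x) ≠ node (F.start x')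
  /-- coherence of consecutive matched corners -/
  mate_coh : ∀ x x' y y', mate x = some x' → F.Next x y → mate y = some y' → F.Next y' x'

namespace Conf

variable {A : PAct S V} {F : Frame} (c : Conf A F)

/-- number of matched corners -/
noncomputable def glued : ℕ := Nat.card {x : F.Dart // c.mate x ≠ none}

/-- number of unmatched corners -/
noncomputable def unglued : ℕ := Nat.card {x : F.Dart // F.IsCorner x ∧ c.mate x = none}

/-- number of matched corners whose next corner is not matched (or does not exist) -/
noncomputable def ends : ℕ :=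
  Nat.card {x : F.Dart // c.mate x ≠ none ∧ ∀ y, F.Next x y → c.mate y = none}

end Conf

/-- The local inequality (local lemma) for configurations with at most `K` paths of length at most
`L` and at most `D0` runs of matched corners. `κ` gain per matched corner, `C` cost per unmatched
corner, `P` cost per open path, `η` additive error. -/
def LocalIneq (A : PAct S V) (K D0 L : ℕ) (κ C P η : ℝ) : Prop :=
  ∀ (F : Frame) (c : Conf A F), F.K ≤ K → (∀ i, F.len i ≤ L) → c.ends ≤ D0 →
    κ * c.glued ≤ C * c.unglued + P * F.openN + η

/-! ## Random models -/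

/-- A type system for random folded graphs: for every `m` a finite node set `V m` of linear size
`sz m` with prescribed half-edges, linear bounds on the numbers of nodes, and a Perron
certificate. -/
structure Model (S : Type) [Fintype S] where
  V : ℕ → Type
  fin : ∀ m, Finite (V m)
  sz : ℕ → ℕ
  sz_large : ∀ B : ℕ, ∃ m, B ≤ sz m
  has : ∀ m, V m → S × Bool → Prop
  /-- as many outgoing as incoming `s`-half-edges -/
  bal : ∀ m s, Nat.card {v // has m v (s, true)} = Nat.card {v // has m v (s, false)}
  tot : ℝ
  tot_le : ∀ m, (Nat.card (V m) : ℝ) ≤ tot * sz m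
  /-- lower bounds for the numbers of `s`-edges -/
  N : S → ℝ
  N_pos : ∀ s, 0 < N s
  N_le : ∀ m s, N s * sz m ≤ Nat.card {v // has m v (s, true)}
  /-- upper bounds for the numbers of nodes with two given half-edges -/
  n : S × Bool → S × Bool → ℝ
  n_symm : ∀ h h', n h h' = n h' h
  n_nonneg : ∀ h h', 0 ≤ n h h'
  n_le : ∀ m h h', h ≠ h' → (Nat.card {v // has m v h ∧ has m v h'} : ℝ) ≤ n h h' * sz m
  δ : S → ℝ
  δ_pos : ∀ s, 0 < δ s
  u : S × Bool → ℝ
  u_pos : ∀ h, 0 < u h
  ρ : ℝ
  ρ_pos : 0 < ρ
  ρ_lt : ρ < 1
  q_le_one : ∀ h h', h ≠ h' →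
    n h h' ^ 2 / (N h.1 * N h'.1) * (if h.2 then δ h.1 else (δ h.1)⁻¹) *
      (if h'.2 then δ h'.1 else (δ h'.1)⁻¹) / ρ ≤ 1
  /-- sub-invariance of `u` under the transfer matrix of
  `q h h' = n h h' ^ 2 / (N h N h') δ(h) δ(h') / ρ` -/
  sub : ∀ h, (∑ h' ∈ Finset.univ.filter (fun h' => h' ≠ hinv h),
    n (hinv h) h' ^ 2 / (N h.1 * N h'.1) * (if h.2 then (δ h.1)⁻¹ else δ h.1) *
      (if h'.2 then δ h'.1 else (δ h'.1)⁻¹) / ρ * u h') ≤ u h

/-- admissible graphs of a model -/
def Model.Adm [Fintype S] (M : Model S) (m : ℕ) (A : PAct S (M.V m)) : Prop :=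
  ∀ v h, (A.st h v).isSome ↔ M.has m v h

end Crest.Agent.R177
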