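import Crest.Agent.R177.Defs

/-!
# Rows 177 / 184: frozen definitions, part 2 (chains of paths, outer words)
-/

set_option autoImplicit false

open scoped Classical

namespace Crest.Agent.R177

open Crest.Agent.R199 (PAct)

variable {S V : Type}

/-- chain of the path read by `w` from the node `v`, developed from the position `p`
(steps which cannot be performed contribute nothing and stop the path) -/
noncomputable def pathCh (A : PAct S V) : Grp A → V → List (S × Bool) → ((Grp A × V × S) →₀ ℤ)
  | _, _, [] => 0
  | p, v, a :: w =>
    match A.st a v with
    | some v' =>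
      (if a.2 then Finsupp.single (p, v, a.1) 1 else - Finsupp.single (p * gw A [a], v', a.1) 1) +
        pathCh A (p * gw A [a]) v' w
    | none => 0

-- realize the equation lemmas in this module (otherwise several modules create their own copies)

/-- the outer darts of `D` form one cycle of `φ` reading the word `w` -/
def OutW {A : PAct S V} {X : Type} (D : Diag A X) (w : List (S × Bool)) : Prop :=
  ∃ e : Fin w.length → X, Function.Injective e ∧ (∀ x, D.out x ↔ x ∈ Set.range e) ∧
    (∀ i, D.lab (e i) = w.get i) ∧
    ∀ i j : Fin w.length, (j.val = i.val + 1 ∨ (j.val = 0 ∧ i.val + 1 = w.length)) →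
      D.φ (e i) = e j

end Crest.Agent.R177
private theorem rz_97833258f7 : type_of% @_root_.Crest.Agent.R177.pathCh.eq_def := @_root_.Crest.Agent.R177.pathCh.eq_def -- L19
private theorem rz_5147d18935 : type_of% @_root_.Crest.Agent.R177.pathCh.eq_1 := @_root_.Crest.Agent.R177.pathCh.eq_1 -- L19
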