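import Crest.Agent.R177.GroupingDefs
import Crest.Agent.R177.Defs

-- ▼ part R177/EulerBase
section

/-!
# Row 177: Euler bound from property (P)

`X` finite, `φ α : Equiv.Perm X`, `α` a fixed point free involution.  Property (P): every
`a : X → ZMod 2` with `a x + a (φ x) + a (α x) + a (φ (α x)) = 0` for all `x` is `b + h` with
`b` invariant under `φ ∘ α` and `h` invariant under `φ`.
-/

set_option autoImplicit false

namespace Crest.Agent.R177

open Equiv.Perm

variable {X : Type*} [Fintype X]

/-- The functions invariant under a permutation. -/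
def invSub (σ : Equiv.Perm X) : Submodule (ZMod 2) (X → ZMod 2) where
  carrier := {f | ∀ x, f (σ x) = f x}
  add_mem' := by
    intro f g hf hg x
    simp only [Set.mem_ofPred_eq] at hf hg
    simp [hf x, hg x]
  zero_mem' := by intro x; rfl
  smul_mem' := by
    intro c f hf x
    simp only [Set.mem_ofPred_eq] at hf
    simp [hf x]

/-- The number of cycles (including fixed points) of a permutation. -/
noncomputable def cyc (σ : Equiv.Perm X) : ℕ := Nat.card (Quotient (SameCycle.setoid σ))

omit [Fintype X] in
lemma inv_zpow {σ : Equiv.Perm X} {f : X → ZMod 2} (hf : ∀ x, f (σ x) = f x) (i : ℤ) (x : X) :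
    f ((σ ^ i) x) = f x := by
  induction i using Int.induction_on generalizing x with
  | zero => simp
  | succ n ih => rw [zpow_add_one, Equiv.Perm.mul_apply, ih, hf]
  | pred n ih =>
    rw [zpow_sub_one, Equiv.Perm.mul_apply, ih]
    have := hf (σ⁻¹ x)
    simpa using this.symm

lemma finrank_invSub_le (σ : Equiv.Perm X) :
    Module.finrank (ZMod 2) (invSub σ) ≤ cyc σ := by
  classical
  have : Fintype (Quotient (SameCycle.setoid σ)) := Fintype.ofFinite _
  let L : (Quotient (SameCycle.setoid σ) → ZMod 2) →ₗ[ZMod 2] invSub σ :=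
    { toFun := fun f => ⟨fun x => f (Quotient.mk _ x), by
        intro x
        have : (Quotient.mk (SameCycle.setoid σ) (σ x)) = Quotient.mk _ x :=
          Quotient.sound (⟨-1, by simp⟩)
        simp [this]⟩
      map_add' := by intro f g; rfl
      map_smul' := by intro c f; rfl }
  have hL : Function.Surjective L := by
    rintro ⟨f, hf⟩
    refine ⟨Quotient.lift f ?_, ?_⟩
    · rintro x y ⟨i, hi⟩
      rw [← hi, inv_zpow hf]
    · rfl
  have h1 := LinearMap.finrank_le_finrank_of_surjective (f := L) hL
  rw [Module.finrank_fintype_fun_eq_card] at h1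
  rw [cyc, Nat.card_eq_fintype_card]
  exact h1

open scoped Classical in
/-- the weight `6 / (size of the cycle)`, at least -/
noncomputable def wt (σ : Equiv.Perm X) (x : X) : ℕ :=
  if σ x = x then 6 else if σ (σ x) = x then 3 else 2

lemma six_cyc_le (σ : Equiv.Perm X) : 6 * cyc σ ≤ ∑ x, wt σ x := by
  classical
  have : Fintype (Quotient (SameCycle.setoid σ)) := Fintype.ofFinite _
  rw [cyc, Nat.card_eq_fintype_card,
    ← Finset.sum_fiberwise (s := (Finset.univ : Finset X)) (g := fun x => (Quotient.mk (SameCycle.setoid σ) x))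
      (f := wt σ)]
  have key : ∀ q : Quotient (SameCycle.setoid σ),
      6 ≤ ∑ x ∈ Finset.univ.filter (fun x => (Quotient.mk (SameCycle.setoid σ) x) = q), wt σ x := by
    intro q
    induction q using Quotient.inductionOn with
    | _ x =>
    have hmem : ∀ y, SameCycle σ y x → y ∈ Finset.univ.filter
        (fun x' => (Quotient.mk (SameCycle.setoid σ) x') = Quotient.mk _ x) := by
      intro y hy
      simp only [Finset.mem_filter, Finset.mem_univ, true_and]
      exact Quotient.sound hy
    have hx : SameCycle σ x x := SameCycle.refl _ _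
    have hx1 : SameCycle σ (σ x) x := ⟨-1, by simp⟩
    have hx2 : SameCycle σ (σ (σ x)) x := ⟨-2, by
      rw [show (-2 : ℤ) = -1 + -1 by norm_num, zpow_add]; simp⟩
    by_cases h1 : σ x = x
    · have : ({x} : Finset X) ⊆ Finset.univ.filter
        (fun x' => (Quotient.mk (SameCycle.setoid σ) x') = Quotient.mk _ x) := by
        intro y hy
        rw [Finset.mem_singleton] at hy
        subst hy; exact hmem _ hx
      refine le_trans ?_ (Finset.sum_le_sum_of_subset this)
      simp [wt, h1]
    · by_cases h2 : σ (σ x) = x
      · have hs : ({x, σ x} : Finset X) ⊆ Finset.univ.filter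
          (fun x' => (Quotient.mk (SameCycle.setoid σ) x') = Quotient.mk _ x) := by
          intro y hy
          simp only [Finset.mem_insert, Finset.mem_singleton] at hy
          rcases hy with rfl | rfl
          · exact hmem _ hx
          · exact hmem _ hx1
        refine le_trans ?_ (Finset.sum_le_sum_of_subset hs)
        rw [Finset.sum_pair (fun h => h1 h.symm)]
        have h3 : σ (σ x) ≠ σ x := fun h => h1 (σ.injective h)
        have h4 : σ (σ (σ x)) = σ x := by rw [h2]
        have e1 : wt σ x = 3 := by simp [wt, h1, h2]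
        have e2 : wt σ (σ x) = 3 := by simp [wt, h3, h4]
        rw [e1, e2]
      · have hs : ({x, σ x, σ (σ x)} : Finset X) ⊆ Finset.univ.filter
          (fun x' => (Quotient.mk (SameCycle.setoid σ) x') = Quotient.mk _ x) := by
          intro y hy
          simp only [Finset.mem_insert, Finset.mem_singleton] at hy
          rcases hy with rfl | rfl | rfl
          · exact hmem _ hx
          · exact hmem _ hx1
          · exact hmem _ hx2
        refine le_trans ?_ (Finset.sum_le_sum_of_subset hs)
        have hw : ∀ y, 2 ≤ wt σ y := by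
          intro y; unfold wt; split_ifs <;> norm_num
        have hc : ({x, σ x, σ (σ x)} : Finset X).card = 3 := by
          rw [Finset.card_insert_of_notMem, Finset.card_pair]
          · exact fun h => h1 (σ.injective h).symm
          · simp only [Finset.mem_insert, Finset.mem_singleton, not_or]
            exact ⟨fun h => h1 h.symm, fun h => h2 h.symm⟩
        calc 6 = ({x, σ x, σ (σ x)} : Finset X).card * 2 := by rw [hc]
          _ ≤ _ := by
            rw [← smul_eq_mul]
            exact Finset.card_nsmul_le_sum _ _ _ (fun y _ => hw y)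
  calc 6 * Fintype.card (Quotient (SameCycle.setoid σ))
      = ∑ _q : Quotient (SameCycle.setoid σ), 6 := by
        simp [Finset.sum_const, Finset.card_univ, mul_comm]
    _ ≤ _ := Finset.sum_le_sum (fun q _ => key q)

/-! ## The dimension count -/

section

variable {α : Equiv.Perm X}

open scoped Classical in
lemma fiber_eq (h2 : ∀ x, α (α x) = x) (x : X) :
    Finset.univ.filter (fun y => (Quotient.mk (SameCycle.setoid α) y) = Quotient.mk _ x)
      = {x, α x} := by
  ext y
  simp only [Finset.mem_filter, Finset.mem_univ, true_and, Finset.mem_insert,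
    Finset.mem_singleton]
  constructor
  · intro h
    obtain ⟨i, hi⟩ : SameCycle α y x := Quotient.exact h
    have hz : ∀ i : ℤ, ∀ y, (α ^ i) y = y ∨ (α ^ i) y = α y := by
      intro i
      induction i using Int.induction_on with
      | zero => intro y; left; simp
      | succ n ih =>
        intro y
        rw [zpow_add_one, Equiv.Perm.mul_apply]
        rcases ih (α y) with h | h
        · right; exact h
        · left; rw [h, h2]
      | pred n ih =>
        intro y
        have hinv : α⁻¹ y = α y := by
          rw [Equiv.Perm.inv_eq_iff_eq, h2]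
        rw [zpow_sub_one, Equiv.Perm.mul_apply, hinv]
        rcases ih (α y) with h | h
        · right; exact h
        · left; rw [h, h2]
    rcases hz i y with h | h
    · left; rw [← hi, h]
    · right; rw [← hi, h, h2]
  · rintro (rfl | rfl)
    · rfl
    · exact Quotient.sound ⟨-1, by simp⟩

noncomputable local instance : Fintype (Quotient (SameCycle.setoid α)) := Fintype.ofFinite _

/-- push a symmetric sum to the edges -/
def edgeFun (h2 : ∀ x, α (α x) = x) (g : X → ZMod 2) :
    Quotient (SameCycle.setoid α) → ZMod 2 :=
  Quotient.lift (fun x => g x + g (α x)) (by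
    rintro x y ⟨i, hi⟩
    have h1 : ∀ z, (fun x => g x + g (α x)) (α z) = (fun x => g x + g (α x)) z := by
      intro z; simp only [h2]; rw [add_comm]
    have := inv_zpow (σ := α) (f := fun x => g x + g (α x)) h1 i x
    rw [hi] at this
    exact this.symm)

lemma sum_edgeFun (h2 : ∀ x, α (α x) = x) (h0 : ∀ x, α x ≠ x) (g : X → ZMod 2) :
    ∑ e, edgeFun h2 g e = ∑ x, g x := by
  classical
  rw [← Finset.sum_fiberwise (s := (Finset.univ : Finset X))
    (g := fun x => (Quotient.mk (SameCycle.setoid α) x)) (f := g)]
  refine Finset.sum_congr rfl (fun e _ => ?_)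
  induction e using Quotient.inductionOn with
  | _ x =>
  rw [fiber_eq h2, Finset.sum_pair (fun h => h0 x h.symm)]
  rfl

lemma card_eq_two_edges (h2 : ∀ x, α (α x) = x) (h0 : ∀ x, α x ≠ x) :
    Fintype.card X = 2 * Fintype.card (Quotient (SameCycle.setoid α)) := by
  classical
  have h := Finset.card_eq_sum_card_fiberwise (f := fun x => (Quotient.mk (SameCycle.setoid α) x))
    (s := (Finset.univ : Finset X)) (t := Finset.univ) (fun _ _ => Finset.mem_coe.2 (Finset.mem_univ _))
  rw [← Finset.card_univ, h]
  have : ∀ e ∈ (Finset.univ : Finset (Quotient (SameCycle.setoid α))),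
      (Finset.univ.filter (fun x => (Quotient.mk (SameCycle.setoid α) x) = e)).card = 2 := by
    intro e _
    induction e using Quotient.inductionOn with
    | _ x =>
    rw [fiber_eq h2, Finset.card_pair (fun h => h0 x h.symm)]
  rw [Finset.sum_congr rfl this]
  simp [mul_comm, Finset.card_univ]

/-- Euler inequality `V + F ≥ E + 2` from (P): `|X| + 4 ≤ 2 V + 2 F`. -/
theorem euler {φ : Equiv.Perm X} [Nonempty X] (h2 : ∀ x, α (α x) = x) (h0 : ∀ x, α x ≠ x)
    (hP : PropP φ α) :
    Fintype.card X + 4 ≤ 2 * cyc (φ * α) + 2 * cyc φ := by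
  classical
  -- the quadrilateral map
  let L : (X → ZMod 2) →ₗ[ZMod 2] (Quotient (SameCycle.setoid α) → ZMod 2) :=
    { toFun := fun a => edgeFun h2 (fun x => a x + a (φ x))
      map_add' := by
        intro a a'
        funext e
        induction e using Quotient.inductionOn with
        | _ x =>
        simp only [edgeFun, Quotient.lift_mk, Pi.add_apply]
        ring
      map_smul' := by
        intro c a
        funext e
        induction e using Quotient.inductionOn with
        | _ x =>
        simp only [edgeFun, Quotient.lift_mk, Pi.smul_apply, smul_eq_mul, RingHom.id_apply]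
        ring }
  have hsum : ∀ a, ∑ e, L a e = 0 := by
    intro a
    change ∑ e, edgeFun h2 (fun x => a x + a (φ x)) e = 0
    rw [sum_edgeFun h2 h0, Finset.sum_add_distrib, Equiv.sum_comp φ a]
    exact CharTwo.add_self_eq_zero _
  have hne : LinearMap.range L < ⊤ := by
    rw [lt_top_iff_ne_top]
    intro htop
    obtain ⟨x0⟩ := ‹Nonempty X›
    obtain ⟨a, ha⟩ : ∃ a, L a = Pi.single (Quotient.mk _ x0) 1 := by
      have : (Pi.single (Quotient.mk _ x0) 1 : Quotient (SameCycle.setoid α) → ZMod 2)
        ∈ LinearMap.range L := by rw [htop]; trivial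
      exact this
    have h := hsum a
    rw [ha, Finset.sum_pi_single'] at h
    simp at h
  have hr := Submodule.finrank_lt hne.ne
  rw [Module.finrank_fintype_fun_eq_card] at hr
  have hrn := LinearMap.finrank_range_add_finrank_ker L
  rw [Module.finrank_fintype_fun_eq_card] at hrn
  -- the kernel is contained in the coboundaries
  have hker : LinearMap.ker L ≤ invSub (φ * α) ⊔ invSub φ := by
    intro a ha
    rw [LinearMap.mem_ker] at ha
    obtain ⟨b, h, hb, hh, hab⟩ := hP a (by
      intro x
      have := congrFun ha (Quotient.mk _ x)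
      simp only [L, LinearMap.coe_mk, AddHom.coe_mk, edgeFun, Quotient.lift_mk, Pi.zero_apply]
        at this
      rw [← this]; ring)
    rw [Submodule.mem_sup]
    exact ⟨b, fun x => hb x, h, fun x => hh x, by funext x; simp [hab x]⟩
  have h1 := Submodule.finrank_mono hker
  have h3 := Submodule.finrank_sup_add_finrank_inf_eq (invSub (φ * α)) (invSub φ)
  have h4 : 1 ≤ Module.finrank (ZMod 2) ↥(invSub (φ * α) ⊓ invSub φ) := by
    rw [Nat.one_le_iff_ne_zero]
    intro h
    rw [Submodule.finrank_eq_zero] at h
    have hm : (fun _ => 1 : X → ZMod 2) ∈ invSub (φ * α) ⊓ invSub φ :=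
      ⟨fun _ => rfl, fun _ => rfl⟩
    rw [h, Submodule.mem_bot] at hm
    obtain ⟨x0⟩ := ‹Nonempty X›
    have := congrFun hm x0
    simp at this
  have h5 := finrank_invSub_le (φ * α)
  have h6 := finrank_invSub_le φ
  have h7 := card_eq_two_edges h2 h0
  omega

open scoped Classical in
/-- Number of corners at vertices of degree `≥ 3`. -/
theorem euler_corners_fintype {φ : Equiv.Perm X} [Nonempty X] (h2 : ∀ x, α (α x) = x)
    (h0 : ∀ x, α x ≠ x) (hP : PropP φ α) :
    (Finset.univ.filter (fun x => φ (α (φ (α x))) ≠ x)).card + 12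
      ≤ 6 * cyc φ + 3 * (Finset.univ.filter (fun x => φ (α x) = x)).card := by
  classical
  have hE := euler h2 h0 hP
  have h6 := six_cyc_le (φ * α)
  have hw : ∀ x, wt (φ * α) x + (if φ (α (φ (α x))) ≠ x then 1 else 0)
      ≤ 3 + 3 * (if φ (α x) = x then 1 else 0) := by
    intro x
    simp only [wt, Equiv.Perm.mul_apply]
    by_cases h1 : φ (α x) = x
    · simp [h1]
    · by_cases h3 : φ (α (φ (α x))) = x
      · simp [h1, h3]
      · simp [h1, h3]
  have hs := Finset.sum_le_sum (s := (Finset.univ : Finset X)) (fun x _ => hw x)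
  rw [Finset.sum_add_distrib, Finset.sum_add_distrib, ← Finset.mul_sum,
    ← Finset.card_filter, ← Finset.card_filter] at hs
  simp only [Finset.sum_const, Finset.card_univ, smul_eq_mul] at hs
  omega

end

end Crest.Agent.R177
end

-- ▼ part R177/Euler

/-!
# Row 177: EULER (interface theorems)
-/

set_option autoImplicit false

open scoped Classical

namespace Crest.Agent.R177


/-- `V + F ≥ E + 2` -/
theorem euler_char {X : Type} [Finite X] [Nonempty X] (M : PMap X) :
    Nat.card X + 4 ≤ 2 * Nat.card (Quotient (Equiv.Perm.SameCycle.setoid (M.φ * M.α)))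
      + 2 * Nat.card M.Face := by
  have : Fintype X := Fintype.ofFinite X
  have h := euler (φ := M.φ) (α := M.α) M.inv M.ne M.planar
  rw [Nat.card_eq_fintype_card (α := X)]
  exact h

/-- number of corners at vertices of degree at least three, with the `+ 12`; degree one allowed -/
theorem euler_corners' {X : Type} [Finite X] [Nonempty X] (M : PMap X) :
    Nat.card {x // ¬ M.Smooth x} + 12 ≤ 6 * Nat.card M.Face + 3 * Nat.card {x // M.σ x = x} := by
  have : Fintype X := Fintype.ofFinite X
  have h := euler_corners_fintype (φ := M.φ) (α := M.α) M.inv M.ne M.planar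
  have e1 : Nat.card {x // ¬ M.Smooth x}
      = (Finset.univ.filter (fun x => M.φ (M.α (M.φ (M.α x))) ≠ x)).card := by
    rw [Nat.card_eq_fintype_card, Fintype.card_subtype]
    rfl
  have e2 : Nat.card {x // M.σ x = x}
      = (Finset.univ.filter (fun x => M.φ (M.α x) = x)).card := by
    rw [Nat.card_eq_fintype_card, Fintype.card_subtype]
    rfl
  rw [e1, e2]
  exact h

/-- EULER 1 (file Euler.lean) -/
theorem euler_corners {X : Type} [Finite X] (M : PMap X) (h : ∀ x, M.σ x ≠ x) :
    Nat.card {x // ¬ M.Smooth x} ≤ 6 * Nat.card M.Face := by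
  rcases isEmpty_or_nonempty X with hX | hX
  · have : Nat.card {x // ¬ M.Smooth x} = 0 := by
      simp
    rw [this]; exact Nat.zero_le _
  · have h1 := euler_corners' M
    have : IsEmpty {x // M.σ x = x} := ⟨fun x => h x.1 x.2⟩
    have h2 : Nat.card {x // M.σ x = x} = 0 := Nat.card_of_isEmpty
    omega

/-- EULER 2 (file Euler.lean) -/
theorem euler_faces {X : Type} [Finite X] [Nonempty X] (M : PMap X) (h : ∀ x, M.σ x ≠ x) :
    2 ≤ Nat.card M.Face := by
  have h1 := euler_corners' M
  have : IsEmpty {x // M.σ x = x} := ⟨fun x => h x.1 x.2⟩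
  have h2 : Nat.card {x // M.σ x = x} = 0 := Nat.card_of_isEmpty
  omega

end Crest.Agent.R177
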