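import Crest.Agent.R177.NC
import Crest.Agent.R177.Defs2
import Crest.Agent.R177.Defs
import Crest.Agent.R199.Exact
import Crest.Agent.R199.Words
import Crest.Agent.R177.Euler

-- ▼ part R177/DiagInit
section

/-!
# I1: a free identity gives a planar diagram

`w · ∏ uᵢ rᵢ uᵢ⁻¹ = 1` in the free group, `rᵢ` closed at the node `vᵢ`. The map of `NC.lean` on the
positions of the word has the faces `w` (outer), `rᵢ` and bigons for the letters of `uᵢ` ("sticks");
the sticks are removed one after the other by `rem`.
-/

set_option autoImplicit false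

open scoped Classical

namespace Crest.Agent.R177

namespace PM681

open Crest.Agent.R199 (PAct)
open Equiv

variable {S V : Type}

/-- kinds of darts: `none` = stick, `some (inl i)` = outer dart with index `i`, `some (inr v)` =
inner dart starting at the node `v` -/
abbrev Kind (V : Type) : Type := Option (ℕ ⊕ V)

/-- successor relation of labelled darts -/
def RR (A : PAct S V) (n : ℕ) (e e' : (S × Bool) × Kind V) : Prop :=
  match e.2, e'.2 with
  | none, none => e'.1 = hinv e.1
  | some (Sum.inl i), some (Sum.inl j) => j = (i + 1) % n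
  | some (Sum.inr v), some (Sum.inr v') => A.st e.1 v = some v'
  | _, _ => False

/-- contribution of a labelled dart to the chain -/
noncomputable def FF (A : PAct S V) (p : Grp A) (e : (S × Bool) × Kind V) :
    (Grp A × V × S) →₀ ℤ :=
  match e.2 with
  | some (Sum.inr v) =>
    match A.st e.1 v with
    | some v' => if e.1.2 then Finsupp.single (p, v, e.1.1) 1
        else - Finsupp.single (p * gw A [e.1], v', e.1.1) 1
    | none => 0
  | _ => 0

lemma hinv_hinv (a : S × Bool) : hinv (hinv a) = a := by simp [hinv]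

lemma hinv_ne (a : S × Bool) : hinv a ≠ a := by
  intro h
  have := congrArg Prod.snd h
  simp [hinv] at this

lemma gw_append (A : PAct S V) (u v : List (S × Bool)) : gw A (u ++ v) = gw A u * gw A v := by
  unfold gw
  rw [← FreeGroup.mul_mk, map_mul]

lemma gw_nil (A : PAct S V) : gw A [] = 1 := by
  unfold gw
  rw [← FreeGroup.one_eq_mk, map_one]

lemma gw_hinv (A : PAct S V) (a : S × Bool) : gw A [hinv a] = (gw A [a])⁻¹ := by
  rw [eq_inv_iff_mul_eq_one, ← gw_append, ← gw_nil]
  unfold gw
  congr 1
  rw [FreeGroup.Red.exact]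
  refine ⟨[], Relation.ReflTransGen.single ?_, Relation.ReflTransGen.refl⟩
  have := FreeGroup.Red.Step.not_rev (L₁ := []) (L₂ := []) (x := a.1) (b := a.2)
  simpa [hinv] using this

/-- a diagram with sticks -/
structure Pre (A : PAct S V) (w : List (S × Bool)) (X : Type) extends PMap X where
  lab : X → S × Bool
  pos : X → Grp A
  kind : X → Kind V
  lab_α : ∀ x, lab (α x) = hinv (lab x)
  pos_φ : ∀ x, pos (φ x) = pos x * gw A [lab x]
  pos_α : ∀ x, pos (α x) = pos x * gw A [lab x]
  step : ∀ x, RR A w.length (lab x, kind x) (lab (φ x), kind (φ x))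
  out_lab : ∀ x i, kind x = some (Sum.inl i) → ∃ h : i < w.length, lab x = w[i]
  out_uniq : ∀ x y i, kind x = some (Sum.inl i) → kind y = some (Sum.inl i) → x = y
  out_ex : ∀ i, i < w.length → ∃ x, kind x = some (Sum.inl i)

namespace Pre

variable {A : PAct S V} {w : List (S × Bool)} {X : Type} (P : Pre A w X)

noncomputable def cls [Fintype X] : (Grp A × V × S) →₀ ℤ := ∑ x, FF A (P.pos x) (P.lab x, P.kind x)

lemma step_stick {x : X} (h : P.kind x = none) :
    P.kind (P.φ x) = none ∧ P.lab (P.φ x) = hinv (P.lab x) := by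
  have := P.step x
  rw [h] at this
  unfold RR at this
  rcases hk : P.kind (P.φ x) with _ | (i | v)
  · rw [hk] at this; exact ⟨rfl, this⟩
  · rw [hk] at this; exact this.elim
  · rw [hk] at this; exact this.elim

lemma step_ne_stick {x : X} (h : P.kind x ≠ none) : P.kind (P.φ x) ≠ none := by
  intro hk
  have := P.step x
  rw [hk] at this
  unfold RR at this
  rcases hk' : P.kind x with _ | (i | v)
  · exact h hk'
  · rw [hk'] at this; exact this.elim
  · rw [hk'] at this; exact this.elim

lemma step_out {x : X} {i : ℕ} (h : P.kind x = some (Sum.inl i)) :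
    P.kind (P.φ x) = some (Sum.inl ((i + 1) % w.length)) := by
  have := P.step x
  rw [h] at this
  unfold RR at this
  rcases hk : P.kind (P.φ x) with _ | (j | v)
  · rw [hk] at this; exact this.elim
  · rw [hk] at this
    have : j = (i + 1) % w.length := this
    rw [this]
  · rw [hk] at this; exact this.elim

lemma step_in {x : X} {v : V} (h : P.kind x = some (Sum.inr v)) :
    ∃ v', P.kind (P.φ x) = some (Sum.inr v') ∧ A.st (P.lab x) v = some v' := by
  have := P.step x
  rw [h] at this
  unfold RR at this
  rcases hk : P.kind (P.φ x) with _ | (j | v')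
  · rw [hk] at this; exact this.elim
  · rw [hk] at this; exact this.elim
  · rw [hk] at this
    exact ⟨v', rfl, this⟩

lemma op_of_ne {Y : Type} [DecidableEq Y] {x x' y : Y} {ψ : Perm Y} (hy : y ≠ x) (hy' : y ≠ x')
    (h : ψ y ≠ x) (h' : ψ y ≠ x') : op x x' ψ y = ψ y := by
  have e3 : (ψ * swap x x') y = ψ y := by simp [swap_apply_of_ne_of_ne hy hy']
  have e4 : skip x (ψ * swap x x') y = ψ y := by
    rw [skip_ne hy (by rw [e3]; exact h), e3]
  unfold op
  rw [skip_ne hy' (by rw [e4]; exact h'), e4]

/-- remove two consecutive darts of a stick -/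
theorem remove {x : X} (hx : P.kind x = none) :
    ∃ P' : Pre A w (Rem x (P.φ x)), (∀ y, P'.pos y = P.pos y) ∧ (∀ y, P'.lab y = P.lab y) ∧
      ∀ y, P'.kind y = P.kind y := by
  obtain ⟨hk', hl'⟩ := P.step_stick hx
  set x' := P.φ x with hx'
  have hne : x ≠ x' := by
    intro h
    rw [← h] at hl'
    exact hinv_ne _ hl'.symm
  obtain ⟨ri1, ri2⟩ := rem_invol P.inv P.ne hne
  have hPφ : ∀ y : Rem x x', P.pos (rem hne P.φ y) = P.pos y * gw A [P.lab y] := by
    intro y
    refine rem_transfer hne P.pos (fun y => P.pos y * gw A [P.lab y]) P.pos_φ (P.pos_φ x) ?_ y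
    show P.pos x' * gw A [P.lab x'] = P.pos x
    rw [hl', gw_hinv, hx', P.pos_φ x]
    group
  have hPα : ∀ y : Rem x x', P.pos (rem hne P.α y) = P.pos y * gw A [P.lab y] := by
    intro y
    refine rem_transfer hne P.pos (fun y => P.pos y * gw A [P.lab y]) P.pos_α (P.pos_φ x) ?_ y
    show P.pos x' * gw A [P.lab x'] = P.pos x
    rw [hl', gw_hinv, hx', P.pos_φ x]
    group
  have hLα : ∀ y : Rem x x', P.lab (rem hne P.α y) = hinv (P.lab y) := by
    intro y
    refine rem_transfer hne P.lab (fun y => hinv (P.lab y)) P.lab_α hl' ?_ y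
    show hinv (P.lab x') = P.lab x
    rw [hl', hinv_hinv]
  refine ⟨{ φ := rem hne P.φ, α := rem hne P.α, inv := ri1, ne := ri2,
            planar := propP_rem P.inv P.ne P.planar hne (Or.inr rfl)
            lab := fun y => P.lab y, pos := fun y => P.pos y, kind := fun y => P.kind y
            lab_α := hLα, pos_φ := hPφ, pos_α := hPα
            step := ?_, out_lab := fun y i hy => P.out_lab y i hy
            out_uniq := fun y z i hy hz => Subtype.ext (P.out_uniq y z i hy hz)
            out_ex := ?_ }, fun _ => rfl, fun _ => rfl, fun _ => rfl⟩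
  · intro y
    by_cases hy : P.kind y = none
    · have key := rem_transfer hne
        (fun z => if P.kind z = none then some (P.lab z) else none)
        (fun z => if P.kind z = none then some (hinv (P.lab z)) else none) (ψ := P.φ) (by
          intro z
          by_cases hz : P.kind z = none
          · obtain ⟨h1, h2⟩ := P.step_stick hz
            simp only [h1, h2, hz, if_true]
          · have := P.step_ne_stick hz
            simp only [if_neg this, if_neg hz]) (by
          simp only [hx, hk', if_true, hl']) (by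
          simp only [hx, hk', if_true, hl', hinv_hinv]) y
      simp only [hy, if_true] at key
      by_cases hz : P.kind (rem hne P.φ y) = none
      · rw [if_pos hz, Option.some.injEq] at key
        show RR A w.length (P.lab y, P.kind y) (P.lab (rem hne P.φ y), P.kind (rem hne P.φ y))
        rw [hz, hy, key]
        rfl
      · rw [if_neg hz] at key
        exact absurd key (by simp)
    · have h1 := P.step_ne_stick hy
      have e : ((rem hne P.φ y : Rem x x') : X) = P.φ y := by
        rw [rem_coe]
        apply op_of_ne y.2.1 y.2.2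
        · intro h; rw [h] at h1; exact h1 hx
        · intro h; rw [h] at h1; exact h1 hk'
      show RR A w.length (P.lab y, P.kind y) (P.lab (rem hne P.φ y), P.kind (rem hne P.φ y))
      rw [e]
      exact P.step y
  · intro i hi
    obtain ⟨z, hz⟩ := P.out_ex i hi
    refine ⟨⟨z, ?_, ?_⟩, hz⟩
    · intro h; rw [h, hx] at hz; exact absurd hz (by simp)
    · intro h; rw [h, hk'] at hz; exact absurd hz (by simp)

lemma FF_stick (p : Grp A) (a : S × Bool) : FF A p (a, none) = 0 := rfl

/-- remove all sticks -/
theorem clean : ∀ (n : ℕ) (X : Type) [Fintype X] (P : Pre A w X), Fintype.card X = n →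
    ∃ (X' : Type) (_ : Fintype X') (P' : Pre A w X'), (∀ x, P'.kind x ≠ none) ∧
      P'.cls = P.cls := by
  intro n
  induction n using Nat.strong_induction_on with
  | _ n ih =>
    intro X _ P hn
    by_cases h : ∀ x, P.kind x ≠ none
    · exact ⟨X, inferInstance, P, h, rfl⟩
    · push Not at h
      obtain ⟨x, hx⟩ := h
      obtain ⟨P', h1, h2, h3⟩ := P.remove hx
      have hne : x ≠ P.φ x := by
        intro h
        have := (P.step_stick hx).2
        rw [← h] at this
        exact hinv_ne _ this.symm
      have hcard : Fintype.card (Rem x (P.φ x)) < n := by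
        rw [← hn]
        apply Fintype.card_subtype_lt (x := x)
        simp
      obtain ⟨X', hX', P'', h4, h5⟩ := ih _ hcard (Rem x (P.φ x)) P' rfl
      refine ⟨X', hX', P'', h4, ?_⟩
      rw [h5]
      unfold Pre.cls
      rw [← Finset.sum_subset (Finset.subset_univ
        (Finset.univ.filter fun y : X => y ≠ x ∧ y ≠ P.φ x))]
      · rw [Finset.sum_subtype (p := fun y => y ≠ x ∧ y ≠ P.φ x)]
        · apply Finset.sum_congr rfl
          intro y _
          rw [h1, h2, h3]
        · intro y; simp
      · intro y _ hy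
        have : y = x ∨ y = P.φ x := by
          by_contra hc
          rw [not_or] at hc
          exact hy (by simp [hc])
        rcases this with rfl | rfl
        · rw [hx, FF_stick]
        · rw [(P.step_stick hx).1, FF_stick]

/-- the diagram -/
theorem toDiag [Nonempty V] [Fintype X] (P : Pre A w X) (h : ∀ x, P.kind x ≠ none) :
    ∃ D : Diag A X, D.cls = P.cls ∧ OutW D w := by
  have hk : ∀ x, (¬ ∃ i, P.kind x = some (Sum.inl i)) → ∃ v, P.kind x = some (Sum.inr v) := by
    intro x hx
    rcases hk : P.kind x with _ | (i | v)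
    · exact absurd hk (h x)
    · exact absurd ⟨i, hk⟩ hx
    · exact ⟨v, rfl⟩
  set node : X → V := fun x => match P.kind x with
    | some (Sum.inr v) => v
    | _ => Classical.arbitrary V with hnode
  have hn : ∀ x v, P.kind x = some (Sum.inr v) → node x = v := by
    intro x v hx
    simp only [hnode, hx]
  refine ⟨{ toPMap := P.toPMap, lab := P.lab, pos := P.pos
            out := fun x => ∃ i, P.kind x = some (Sum.inl i)
            node := node, lab_α := P.lab_α, pos_φ := P.pos_φ
            pos_α := fun x => (P.pos_α x).trans (P.pos_φ x).symm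
            out_φ := ?_, node_step := ?_ }, ?_, ?_⟩
  · intro x
    constructor
    · rintro ⟨i, hi⟩
      by_contra hx
      obtain ⟨v, hv⟩ := hk x hx
      obtain ⟨v', h1, -⟩ := P.step_in hv
      rw [h1] at hi
      simp at hi
    · rintro ⟨i, hi⟩
      exact ⟨_, P.step_out hi⟩
  · intro x hx
    obtain ⟨v, hv⟩ := hk x hx
    obtain ⟨v', h1, h2⟩ := P.step_in hv
    rw [hn x v hv, hn _ v' h1]
    exact h2
  · unfold Diag.cls Pre.cls
    apply Finset.sum_congr rfl
    intro x _
    unfold Diag.cel
    by_cases hx : ∃ i, P.kind x = some (Sum.inl i)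
    · rw [if_pos hx]
      obtain ⟨i, hi⟩ := hx
      rw [hi]
      rfl
    · rw [if_neg hx]
      obtain ⟨v, hv⟩ := hk x hx
      obtain ⟨v', h1, h2⟩ := P.step_in hv
      simp only [FF, hv, h2, hn x v hv, hn _ v' h1, P.pos_φ]
  · choose e he using P.out_ex
    refine ⟨fun i => e i i.2, ?_, ?_, ?_, ?_⟩
    · intro i j hij
      have h1 := he i i.2
      have h2 := he j j.2
      simp only at hij
      rw [hij, h2] at h1
      simp only [Option.some.injEq, Sum.inl.injEq] at h1
      exact Fin.ext h1.symm
    · intro x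
      constructor
      · rintro ⟨i, hi⟩
        obtain ⟨hiw, -⟩ := P.out_lab x i hi
        exact ⟨⟨i, hiw⟩, P.out_uniq _ _ i (he i hiw) hi⟩
      · rintro ⟨i, rfl⟩
        exact ⟨i, he i i.2⟩
    · intro i
      obtain ⟨h1, h2⟩ := P.out_lab _ _ (he i i.2)
      exact h2
    · intro i j hij
      apply P.out_uniq _ _ j _ (he j j.2)
      rw [P.step_out (he i i.2)]
      have hi := i.2
      have hj := j.2
      rcases hij with h | ⟨h, h'⟩
      · rw [Nat.mod_eq_of_lt (by omega), h]
      · rw [h', Nat.mod_self, h]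

end Pre

/-! ## The word -/

/-- the labels of the path `r` from the node `v` -/
noncomputable def pathLab (A : PAct S V) : V → List (S × Bool) → List ((S × Bool) × Kind V)
  | _, [] => []
  | v, a :: r => (a, some (Sum.inr v)) ::
      (match A.st a v with
      | some v' => pathLab A v' r
      | none => [])

/-- the block `u r u⁻¹` -/
noncomputable def block (A : PAct S V) (v : V) (r : List (S × Bool)) :
    List (S × Bool) → List ((S × Bool) × Kind V)
  | [] => pathLab A v r
  | a :: u => (a, none) :: (block A v r u ++ [(hinv a, none)])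

/-- the outer word with indices -/
noncomputable def outL (V : Type) (w : List (S × Bool)) : List ((S × Bool) × Kind V) :=
  w.zipIdx.map fun p => (p.1, some (Sum.inl p.2))

/-- chain of a labelled word, developed from `p` -/
noncomputable def chW (A : PAct S V) : Grp A → List ((S × Bool) × Kind V) → ((Grp A × V × S) →₀ ℤ)
  | _, [] => 0
  | p, e :: l => FF A p e + chW A (p * gw A [e.1]) l

lemma read_cons {A : PAct S V} {a : S × Bool} {r : List (S × Bool)} {v z : V}
    (h : A.read (a :: r) v = some z) : ∃ v', A.st a v = some v' ∧ A.read r v' = some z := by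
  simp only [PAct.read] at h
  rcases hv : A.st a v with _ | v'
  · rw [hv] at h; simp at h
  · rw [hv] at h; exact ⟨v', rfl, h⟩

lemma pathLab_cons {A : PAct S V} {a : S × Bool} {r : List (S × Bool)} {v v' : V}
    (h : A.st a v = some v') : pathLab A v (a :: r) = (a, some (Sum.inr v)) :: pathLab A v' r := by
  simp only [pathLab, h]

lemma pathLab_letters {A : PAct S V} (r : List (S × Bool)) (v z : V) (h : A.read r v = some z) :
    (pathLab A v r).map Prod.fst = r := by
  induction r generalizing v with
  | nil => simp [pathLab]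
  | cons a r ih =>
    obtain ⟨v', h1, h2⟩ := read_cons h
    rw [pathLab_cons h1, List.map_cons, ih v' h2]

lemma pathLab_chain {A : PAct S V} (n : ℕ) (r : List (S × Bool)) (v z : V)
    (h : A.read r v = some z) (c : S × Bool) :
    List.IsChain (RR A n) (pathLab A v r ++ [(c, some (Sum.inr z))]) := by
  induction r generalizing v with
  | nil => simp [pathLab]
  | cons a r ih =>
    obtain ⟨v', h1, h2⟩ := read_cons h
    rw [pathLab_cons h1]
    have h3 := ih v' h2
    have key : ∃ c' l, pathLab A v' r ++ [(c, some (Sum.inr z))] = (c', some (Sum.inr v')) :: l := by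
      cases r with
      | nil =>
        simp only [PAct.read, Option.some.injEq] at h2
        subst h2
        exact ⟨c, [], by simp [pathLab]⟩
      | cons b r =>
        obtain ⟨v'', h4, h5⟩ := read_cons h2
        rw [pathLab_cons h4]
        exact ⟨b, _, rfl⟩
    obtain ⟨c', l, hl⟩ := key
    rw [List.cons_append, hl, List.isChain_cons_cons]
    rw [hl] at h3
    exact ⟨h1, h3⟩

lemma closedChain_cons_iff {Λ : Type*} (R : Λ → Λ → Prop) (e : Λ) (l : List Λ) :
    ClosedChain R (e :: l) ↔ List.IsChain R (e :: (l ++ [e])) := by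
  rw [List.isChain_iff_getElem]
  constructor
  · intro h i hi
    simp only [List.length_cons, List.length_append, List.length_nil] at hi
    have h1 : i < (e :: l).length := by simp; omega
    have := h i h1
    have e1 : (e :: (l ++ [e]))[i] = (e :: l)[i] := by
      rw [← List.getElem_append_left (bs := [e]) h1]
      rfl
    rw [e1]
    convert this using 1
    by_cases h2 : i + 1 < (e :: l).length
    · simp only [Nat.mod_eq_of_lt h2]
      rw [← List.getElem_append_left (bs := [e]) h2]
      rfl
    · have h' : i + 1 = (e :: l).length := by omega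
      simp only [h', Nat.mod_self, List.getElem_cons_zero]
      simp
  · intro h i hi
    have hi' : i + 1 < (e :: (l ++ [e])).length := by simpa using hi
    have := h i hi'
    have e1 : (e :: (l ++ [e]))[i] = (e :: l)[i] := by
      rw [← List.getElem_append_left (bs := [e]) hi]
      rfl
    rw [e1] at this
    convert this using 1
    by_cases h2 : i + 1 < (e :: l).length
    · simp only [Nat.mod_eq_of_lt h2]
      rw [← List.getElem_append_left (bs := [e]) h2]
      rfl
    · have h' : i + 1 = (e :: l).length := by omega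
      simp only [h', Nat.mod_self, List.getElem_cons_zero]
      simp

lemma pathLab_closed {A : PAct S V} (n : ℕ) (r : List (S × Bool)) (v : V)
    (h : A.read r v = some v) : ClosedChain (RR A n) (pathLab A v r) := by
  cases r with
  | nil =>
    intro i hi
    simp [pathLab] at hi
  | cons a r =>
    obtain ⟨v', h1, h2⟩ := read_cons h
    have := pathLab_chain n (a :: r) v v h a
    rw [pathLab_cons h1] at this ⊢
    rw [closedChain_cons_iff]
    exact this

lemma outL_length (w : List (S × Bool)) : (outL V w).length = w.length := by simp [outL]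

lemma outL_getElem (w : List (S × Bool)) (i : ℕ) (h : i < (outL V w).length) :
    (outL V w)[i] = (w[i]'(by simpa [outL] using h), some (Sum.inl i)) := by
  simp [outL]

lemma outL_letters (w : List (S × Bool)) : (outL V w).map Prod.fst = w := by
  apply List.ext_getElem
  · simp [outL]
  · intro i h1 h2
    simp [outL]

lemma outL_closed (A : PAct S V) (w : List (S × Bool)) :
    ClosedChain (RR A w.length) (outL V w) := by
  intro i hi
  rw [outL_getElem, outL_getElem]
  simp [RR, outL_length]

lemma block_letters {A : PAct S V} {v : V} {r : List (S × Bool)} (h : A.read r v = some v)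
    (u : List (S × Bool)) : (FreeGroup.mk ((block A v r u).map Prod.fst) : FreeGroup S) =
      FreeGroup.mk u * FreeGroup.mk r * (FreeGroup.mk u)⁻¹ := by
  induction u with
  | nil =>
    simp only [block]
    rw [pathLab_letters r v v h, ← FreeGroup.one_eq_mk]
    simp
  | cons a u ih =>
    have e1 : (FreeGroup.mk (a :: u) : FreeGroup S) = FreeGroup.mk [a] * FreeGroup.mk u := by
      rw [FreeGroup.mul_mk]; rfl
    have e2 : (FreeGroup.mk [hinv a] : FreeGroup S) = (FreeGroup.mk [a])⁻¹ := by
      rw [FreeGroup.inv_mk]; rfl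
    have e3 : (block A v r (a :: u)).map Prod.fst =
        [a] ++ (block A v r u).map Prod.fst ++ [hinv a] := by
      simp [block]
    rw [e3, ← FreeGroup.mul_mk, ← FreeGroup.mul_mk, ih, e1, e2]
    group


lemma gw_rel {A : PAct S V} {v : V} {r : List (S × Bool)} (h : A.read r v = some v) :
    gw A r = 1 := PresentedGroup.one_of_mem ⟨v, r, h, rfl⟩

lemma gw_block {A : PAct S V} {v : V} {r : List (S × Bool)} (h : A.read r v = some v)
    (u : List (S × Bool)) : gw A ((block A v r u).map Prod.fst) = 1 := by
  have h1 := gw_rel h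
  unfold gw at h1 ⊢
  rw [block_letters h, map_mul, map_mul, h1, map_inv]
  group

lemma gw_cons (A : PAct S V) (a : S × Bool) (l : List (S × Bool)) :
    gw A (a :: l) = gw A [a] * gw A l := by
  rw [← gw_append]; rfl

lemma chW_append (A : PAct S V) (p : Grp A) (l m : List ((S × Bool) × Kind V)) :
    chW A p (l ++ m) = chW A p l + chW A (p * gw A (l.map Prod.fst)) m := by
  induction l generalizing p with
  | nil => simp [chW, gw_nil]
  | cons e l ih =>
    rw [List.cons_append, chW, chW, ih, List.map_cons, gw_cons A e.1 (l.map Prod.fst), add_assoc,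
      mul_assoc]

lemma chW_pathLab {A : PAct S V} (p : Grp A) (r : List (S × Bool)) (v z : V)
    (h : A.read r v = some z) : chW A p (pathLab A v r) = pathCh A p v r := by
  induction r generalizing p v with
  | nil => simp [pathLab, chW, pathCh]
  | cons a r ih =>
    obtain ⟨v', h1, h2⟩ := read_cons h
    rw [pathLab_cons h1, chW, ih _ _ h2]
    simp only [pathCh, h1, FF]

lemma chW_block {A : PAct S V} {v : V} {r : List (S × Bool)} (h : A.read r v = some v)
    (p : Grp A) (u : List (S × Bool)) :
    chW A p (block A v r u) = pathCh A (p * gw A u) v r := by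
  induction u generalizing p with
  | nil => simp only [block]; rw [chW_pathLab p r v v h, gw_nil, mul_one]
  | cons a u ih =>
    simp only [block]
    rw [chW, chW_append, ih, gw_cons A a u, mul_assoc]
    simp [chW, FF]

lemma chW_outL (A : PAct S V) (p : Grp A) (w : List (S × Bool)) : chW A p (outL V w) = 0 := by
  have : ∀ (l : List ((S × Bool) × Kind V)) (p : Grp A), (∀ e ∈ l, ∃ i, e.2 = some (Sum.inl i)) →
      chW A p l = 0 := by
    intro l
    induction l with
    | nil => intro p _; rfl
    | cons e l ih =>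
      intro p h
      obtain ⟨i, hi⟩ := h e (by simp)
      rw [chW, ih _ (fun e he => h e (by simp [he])), add_zero]
      unfold FF
      rw [hi]
  apply this
  intro e he
  simp only [outL, List.mem_map] at he
  obtain ⟨q, -, rfl⟩ := he
  exact ⟨q.2, rfl⟩

lemma sum_FF_eq_chW (A : PAct S V) (W : List ((S × Bool) × Kind V)) (p : Grp A) :
    (∑ x : Fin W.length, FF A (p * ((W.take x).map (fun e => gw A [e.1])).prod) (W.get x)) =
      chW A p W := by
  induction W generalizing p with
  | nil => simp [chW]
  | cons e W ih =>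
    rw [chW, ← ih]
    simp only [List.length_cons]
    rw [Fin.sum_univ_succ]
    congr 1
    · simp
    · apply Finset.sum_congr rfl
      intro x _
      simp [mul_assoc]

lemma gw_eq_prod (A : PAct S V) (l : List (S × Bool)) : gw A l = (l.map fun a => gw A [a]).prod := by
  induction l with
  | nil => simp [gw_nil]
  | cons a l ih => rw [List.map_cons, List.prod_cons, ← ih, ← gw_append]; rfl

lemma ncw_block {A : PAct S V} {v : V} {r : List (S × Bool)}
    {C : List ((S × Bool) × Kind V) → Prop} (h : C (pathLab A v r)) (u : List (S × Bool)) :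
    NCw (fun e : (S × Bool) × Kind V => (hinv e.1, e.2)) (fun e => e.2 = none) C
      (block A v r u) := by
  induction u with
  | nil => exact NCw.cell h
  | cons a u ih => exact NCw.conj (a, none) rfl ih

lemma block_kind {A : PAct S V} {v : V} {r : List (S × Bool)} (u : List (S × Bool)) :
    ∀ e ∈ block A v r u, ∀ i, e.2 ≠ some (Sum.inl i) := by
  induction u with
  | nil =>
    simp only [block]
    induction r generalizing v with
    | nil => simp [pathLab]
    | cons a r ih =>
      intro e he i
      simp only [pathLab, List.mem_cons] at he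
      rcases he with rfl | he
      · simp
      · rcases hv : A.st a v with _ | v'
        · rw [hv] at he; simp at he
        · rw [hv] at he
          exact ih e he i
  | cons a u ih =>
    intro e he i
    simp only [block, List.mem_cons, List.mem_append, List.not_mem_nil, or_false] at he
    rcases he with rfl | he | rfl
    · simp
    · exact ih e he i
    · simp

end PM681

open PM681
open Crest.Agent.R199 (PAct)
open Equiv

variable {S V : Type}

/-- I1: a free identity gives a planar diagram. -/
theorem diag_of_identity [Nonempty V] (A : PAct S V) (w : List (S × Bool))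
    (L : List (List (S × Bool) × V × List (S × Bool)))
    (hL : ∀ t ∈ L, A.read t.2.2 t.2.1 = some t.2.1)
    (hid : (FreeGroup.mk w : FreeGroup S) * (L.map fun t =>
      (FreeGroup.mk t.1 : FreeGroup S) * FreeGroup.mk t.2.2 * (FreeGroup.mk t.1)⁻¹).prod = 1) :
    ∃ (X : Type) (_ : Fintype X) (D : Diag A X),
      D.cls = (L.map fun t => pathCh A (gw A t.1) t.2.1 t.2.2).sum ∧ OutW D w := by
  set Bl : List ((S × Bool) × Kind V) := (L.map fun t => block A t.2.1 t.2.2 t.1).flatten with hBl
  set W : List ((S × Bool) × Kind V) := outL V w ++ Bl with hW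
  set C : List ((S × Bool) × Kind V) → Prop := fun ρ => ρ = outL V w ∨
    ∃ v r, A.read r v = some v ∧ ρ = pathLab A v r with hC
  -- the word in the letters
  have hBlmk : (FreeGroup.mk (Bl.map Prod.fst) : FreeGroup S) = (L.map fun t =>
      (FreeGroup.mk t.1 : FreeGroup S) * FreeGroup.mk t.2.2 * (FreeGroup.mk t.1)⁻¹).prod := by
    rw [hBl]
    clear hid hBl Bl hW W
    induction L with
    | nil => simp [FreeGroup.one_eq_mk]
    | cons t L ih =>
      rw [List.map_cons, List.flatten_cons, List.map_append, ← FreeGroup.mul_mk,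
        ih (fun t ht => hL t (by simp [ht])), block_letters (hL t (by simp)), List.map_cons,
        List.prod_cons]
  have hWmk : (FreeGroup.mk (W.map Prod.fst) : FreeGroup S) = 1 := by
    rw [hW, List.map_append, ← FreeGroup.mul_mk, outL_letters, hBlmk]
    exact hid
  have hgwBl : gw A (Bl.map Prod.fst) = 1 := by
    rw [hBl]
    clear hid hBl Bl hW W hBlmk hWmk
    induction L with
    | nil => simp [gw_nil]
    | cons t L ih =>
      rw [List.map_cons, List.flatten_cons, List.map_append, gw_append,
        ih (fun t ht => hL t (by simp [ht])), gw_block (hL t (by simp)), mul_one]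
  have hgww : gw A w = 1 := by
    have : gw A (W.map Prod.fst) = 1 := by
      unfold gw; rw [hWmk, map_one]
    rw [hW, List.map_append, gw_append, outL_letters, hgwBl, mul_one] at this
    exact this
  have hncBl : NCw (fun e : (S × Bool) × Kind V => (hinv e.1, e.2)) (fun e => e.2 = none) C Bl := by
    rw [hBl]
    clear hid hBl Bl hW W hBlmk hWmk hgwBl
    induction L with
    | nil => exact NCw.nil
    | cons t L ih =>
      rw [List.map_cons, List.flatten_cons]
      exact NCw.append (ncw_block (Or.inr ⟨t.2.1, t.2.2, hL t (by simp), rfl⟩) t.1)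
        (ih (fun t ht => hL t (by simp [ht])))
  have hnc : NCw (fun e : (S × Bool) × Kind V => (hinv e.1, e.2)) (fun e => e.2 = none) C W :=
    NCw.append (NCw.cell (Or.inl rfl)) hncBl
  have hBlkind : ∀ e ∈ Bl, ∀ i, e.2 ≠ some (Sum.inl i) := by
    intro e he i
    rw [hBl, List.mem_flatten] at he
    obtain ⟨l, hl, he⟩ := he
    rw [List.mem_map] at hl
    obtain ⟨t, -, rfl⟩ := hl
    exact block_kind t.1 e he i
  obtain ⟨φ, α, h2, h1, hP, hR, hlab, hpos⟩ := exists_map (S := S)
    (fun e : (S × Bool) × Kind V => e.1) (inv := fun e => (hinv e.1, e.2))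
    (B := fun e => e.2 = none) (C := C) (R := RR A w.length) (by
      rintro ρ (rfl | ⟨v, r, hr, rfl⟩)
      · exact outL_closed A w
      · exact pathLab_closed _ r v hr) (by
      rintro ⟨a, k⟩ hk
      simp only at hk
      subst hk
      rfl) (by
      rintro ⟨a, k⟩ hk
      simp only at hk
      subst hk
      exact (hinv_hinv a).symm) (fun _ => rfl) hnc hWmk
  have hpos' := hpos (Grp A) (fun a => gw A [a]) (fun s => gw_hinv A s) (by
      rintro ρ (rfl | ⟨v, r, hr, rfl⟩)
      · have := gw_eq_prod A ((outL V w).map Prod.fst)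
        rw [outL_letters, hgww] at this
        conv at this => rhs; rw [← outL_letters (V := V) w]
        rw [List.map_map] at this
        exact this.symm
      · have := gw_eq_prod A ((pathLab A v r).map Prod.fst)
        rw [List.map_map, pathLab_letters r v v hr, gw_rel hr] at this
        exact this.symm)
  -- outer darts
  have hWlen : w.length ≤ W.length := by rw [hW, List.length_append, outL_length]; omega
  have hWget : ∀ (i : ℕ) (h : i < W.length) (hi : i < w.length),
      W[i] = (w[i], some (Sum.inl i)) := by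
    intro i h hi
    have h' : i < (outL V w).length := by rw [outL_length]; exact hi
    have : W[i] = (outL V w)[i] := List.getElem_append_left h'
    rw [this, outL_getElem]
  have hWget' : ∀ (x : ℕ) (h : x < W.length) (i : ℕ), W[x].2 = some (Sum.inl i) →
      x = i ∧ i < w.length := by
    intro x h i hi
    by_cases hx : x < w.length
    · rw [hWget x h hx] at hi
      simp only [Option.some.injEq, Sum.inl.injEq] at hi
      exact ⟨hi, hi ▸ hx⟩
    · exfalso
      have h' : (outL V w).length ≤ x := by rw [outL_length]; omega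
      have : W[x] = Bl[x - (outL V w).length]'(by
          rw [hW, List.length_append] at h; omega) := List.getElem_append_right h'
      rw [this] at hi
      exact hBlkind _ (List.getElem_mem _) i hi
  let P : Pre A w (Fin W.length) :=
    { φ := φ, α := α, inv := h2, ne := h1, planar := hP
      lab := fun x => (W.get x).1
      pos := fun x => ((W.take x).map (fun e => gw A [e.1])).prod
      kind := fun x => (W.get x).2
      lab_α := hlab
      pos_φ := fun x => (hpos' x).1
      pos_α := fun x => (hpos' x).2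
      step := hR
      out_lab := by
        intro x i hx
        obtain ⟨h3, h4⟩ := hWget' x x.2 i hx
        refine ⟨h4, ?_⟩
        show (W[(x : ℕ)]).1 = w[i]
        rw [hWget x x.2 (h3 ▸ h4)]
        simp only [h3]
      out_uniq := by
        intro x y i hx hy
        have h3 := (hWget' x x.2 i hx).1
        have h4 := (hWget' y y.2 i hy).1
        exact Fin.ext (h3.trans h4.symm)
      out_ex := by
        intro i hi
        refine ⟨⟨i, by omega⟩, ?_⟩
        show (W[i]).2 = _
        rw [hWget i (by omega) hi] }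
  obtain ⟨X', hX', P', hk, hc⟩ := Pre.clean (A := A) (w := w) _ (Fin W.length) P rfl
  obtain ⟨D, hD, hout⟩ := P'.toDiag hk
  refine ⟨X', hX', D, ?_, hout⟩
  rw [hD, hc]
  have : P.cls = chW A 1 W := by
    rw [← sum_FF_eq_chW A W 1]
    unfold Pre.cls
    apply Finset.sum_congr rfl
    intro x _
    rw [one_mul]
  rw [this, hW, chW_append, chW_outL, zero_add, outL_letters, hgww, mul_one, hBl]
  have key : ∀ (L : List (List (S × Bool) × V × List (S × Bool))),
      (∀ t ∈ L, A.read t.2.2 t.2.1 = some t.2.1) →
      chW A 1 (L.map fun t => block A t.2.1 t.2.2 t.1).flatten =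
        (L.map fun t => pathCh A (gw A t.1) t.2.1 t.2.2).sum := by
    intro L
    induction L with
    | nil => intro _; simp [chW]
    | cons t L ih =>
      intro hL
      rw [List.map_cons, List.flatten_cons, chW_append, gw_block (hL t (by simp)), mul_one,
        ih (fun t ht => hL t (by simp [ht])), chW_block (hL t (by simp)), one_mul, List.map_cons,
        List.sum_cons]
  exact key L hL

end Crest.Agent.R177
private theorem rz_502872143b : type_of% @_root_.Crest.Agent.R177.PM681.block.eq_def := @_root_.Crest.Agent.R177.PM681.block.eq_def -- L346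
private theorem rz_060c1af67c : type_of% @_root_.Crest.Agent.R177.PM681.block.eq_1 := @_root_.Crest.Agent.R177.PM681.block.eq_1 -- L346
private theorem rz_5029703fc3 : type_of% @_root_.Crest.Agent.R177.PM681.chW.eq_def := @_root_.Crest.Agent.R177.PM681.chW.eq_def -- L356
private theorem rz_d33d491beb : type_of% @_root_.Crest.Agent.R177.PM681.chW.eq_1 := @_root_.Crest.Agent.R177.PM681.chW.eq_1 -- L356
private theorem rz_bd2c021de7 : type_of% @_root_.Crest.Agent.R177.PM681.pathLab.eq_def := @_root_.Crest.Agent.R177.PM681.pathLab.eq_def -- L338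
private theorem rz_3ac0d27988 : type_of% @_root_.Crest.Agent.R177.PM681.pathLab.eq_1 := @_root_.Crest.Agent.R177.PM681.pathLab.eq_1 -- L338
end

-- ▼ part R177/Remove
section

/-!
# Rows 177 / 184, module REMOVE (helper132)

Planarity (`H¹(·;𝔽₂) = 0`) is preserved by removing an edge and by folding two consecutive darts.

Method: maps with *dead* darts. `PP φ α` is the planarity property for a map in which the fixed
points of `α` are dead darts of length zero. The two moves are compositions of three elementary
steps on a fixed set of darts (`PP.cut`, `PP.fold`, `PP.kill`).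
-/

set_option autoImplicit false

open scoped Classical
open Equiv

namespace Crest.Agent.R177

namespace Remove

variable {X : Type}

/-- remove `z` from the permutation `ψ` (it becomes a fixed point) -/
noncomputable def kill (ψ : Perm X) (z : X) : Perm X := swap z (ψ z) * ψ

theorem kill_self (ψ : Perm X) (z : X) : kill ψ z z = z := by
  unfold kill
  rw [Perm.mul_apply, swap_apply_right]

theorem kill_of_ne (ψ : Perm X) {z y : X} (h : y ≠ z) :
    kill ψ z y = if ψ y = z then ψ z else ψ y := by
  unfold kill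
  rw [Perm.mul_apply, swap_apply_def]
  have h1 : ψ y ≠ ψ z := fun e => h (ψ.injective e)
  by_cases h2 : ψ y = z
  · rw [if_pos h2, if_pos h2]
  · rw [if_neg h2, if_neg h1, if_neg h2]

theorem rem2_eq (ψ : Perm X) (x x' : X) :
    rem2 ψ x x' = kill (kill (ψ * swap x x') x) x' := rfl

/-- planarity for maps with dead darts (`α z = z`) -/
def PP (φ α : Perm X) : Prop :=
  ∀ a : X → ZMod 2, (∀ x, α x ≠ x → a x + a (φ x) + a (α x) + a (φ (α x)) = 0) →
    (∀ x, α x = x → a (φ x) = a x) →
    ∃ b h : X → ZMod 2, (∀ x, b (φ (α x)) = b x) ∧ (∀ x, h (φ x) = h x) ∧ ∀ x, a x = b x + h x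

theorem two_cancel (u : ZMod 2) : u + u = 0 := by
  have : ∀ u : ZMod 2, u + u = 0 := by decide
  exact this u

theorem eq_of_add_eq_zero (u v : ZMod 2) (h : u + v = 0) : u = v := by
  have : ∀ u v : ZMod 2, u + v = 0 → u = v := by decide
  exact this u v h

/-- removing the edge `x, x'` (the darts become dead) -/
theorem PP.cut {φ α : Perm X} (h : PP φ α) {x x' : X} (hx : x ≠ x') (h1 : α x = x')
    (h2 : α x' = x) : PP (φ * swap x x') (α * swap x x') := by
  have s1 : swap x x' x = x' := swap_apply_left x x'
  have s2 : swap x x' x' = x := swap_apply_right x x'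
  have s3 : ∀ y, y ≠ x → y ≠ x' → swap x x' y = y := fun y => swap_apply_of_ne_of_ne
  intro a ha hd
  have e1 : a (φ x') = a x := by
    have := hd x (by rw [Perm.mul_apply, s1, h2])
    rwa [Perm.mul_apply, s1] at this
  have e2 : a (φ x) = a x' := by
    have := hd x' (by rw [Perm.mul_apply, s2, h1])
    rwa [Perm.mul_apply, s2] at this
  have hαne : ∀ y, y ≠ x → y ≠ x' → α y ≠ x ∧ α y ≠ x' := by
    intro y hy hy'
    constructor
    · intro e
      exact hy' (α.injective (e.trans h2.symm))
    · intro e
      exact hy (α.injective (e.trans h1.symm))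
  have hA1 : ∀ y, α y ≠ y → a y + a (φ y) + a (α y) + a (φ (α y)) = 0 := by
    intro y hy
    by_cases hy1 : y = x
    · subst hy1
      rw [h1, e1, e2]
      have : ∀ u v : ZMod 2, u + v + v + u = 0 := by decide
      exact this _ _
    · by_cases hy2 : y = x'
      · subst hy2
        rw [h2, e1, e2]
        have : ∀ u v : ZMod 2, u + v + v + u = 0 := by decide
        exact this _ _
      · obtain ⟨n1, n2⟩ := hαne y hy1 hy2
        have := ha y (by rw [Perm.mul_apply, s3 y hy1 hy2]; exact hy)
        rwa [Perm.mul_apply, Perm.mul_apply, s3 y hy1 hy2, Perm.mul_apply, s3 _ n1 n2] at this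
  have hA2 : ∀ y, α y = y → a (φ y) = a y := by
    intro y hy
    have hy1 : y ≠ x := by
      rintro rfl
      exact hx (hy.symm.trans h1)
    have hy2 : y ≠ x' := by
      rintro rfl
      exact hx (h2.symm.trans hy)
    have := hd y (by rw [Perm.mul_apply, s3 y hy1 hy2, hy])
    rwa [Perm.mul_apply, s3 y hy1 hy2] at this
  obtain ⟨b, k, hb, hk, hab⟩ := h a hA1 hA2
  have f1 : b (φ x') = b x := by
    have := hb x
    rwa [h1] at this
  have f2 : b (φ x) = b x' := by
    have := hb x'
    rwa [h2] at this
  have g1 : k x = k x' := by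
    have u1 := hab x
    have u2 := hab (φ x')
    rw [e1, f1, hk] at u2
    exact add_left_cancel (u1.symm.trans u2)
  refine ⟨b, k, ?_, ?_, hab⟩
  · intro y
    rw [Perm.mul_apply, Perm.mul_apply]
    by_cases hy1 : y = x
    · subst hy1
      rw [s1, h2, s1, f1]
    · by_cases hy2 : y = x'
      · subst hy2
        rw [s2, h1, s2, f2]
      · obtain ⟨n1, n2⟩ := hαne y hy1 hy2
        rw [s3 y hy1 hy2, s3 _ n1 n2, hb]
  · intro y
    rw [Perm.mul_apply]
    by_cases hy1 : y = x
    · subst hy1
      rw [s1, hk, g1]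
    · by_cases hy2 : y = x'
      · subst hy2
        rw [s2, hk, g1]
      · rw [s3 y hy1 hy2, hk]

/-- a dead dart can be removed from its face -/
theorem PP.kill {φ α : Perm X} (h : PP φ α) {z : X} (hz : α z = z) :
    PP (Remove.kill φ z) α := by
  have k1 : Remove.kill φ z z = z := kill_self φ z
  have k2 : ∀ y, y ≠ z → Remove.kill φ z y = if φ y = z then φ z else φ y :=
    fun y hy => kill_of_ne φ hy
  intro a ha hd
  -- the modified function
  set a' : X → ZMod 2 := fun y => if y = z then a (φ z) else a y with ha'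
  have a1 : a' z = a (φ z) := by simp [ha']
  have a2 : ∀ y, y ≠ z → a' y = a y := fun y hy => by simp [ha', hy]
  have a3 : ∀ y, y ≠ z → a' (φ y) = a (Remove.kill φ z y) := by
    intro y hy
    rw [k2 y hy]
    by_cases h1 : φ y = z
    · rw [if_pos h1, h1, a1]
    · rw [if_neg h1, a2 _ h1]
  have a4 : a' (φ z) = a' z := by
    by_cases h1 : φ z = z
    · rw [h1]
    · rw [a1, a2 _ h1]
  have hαne : ∀ y, y ≠ z → α y ≠ z := by
    intro y hy e
    exact hy (α.injective (e.trans hz.symm))
  obtain ⟨b, k, hb, hk, hab⟩ := h a' (by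
    intro y hy
    have hyz : y ≠ z := by
      rintro rfl
      exact hy hz
    rw [a2 y hyz, a3 y hyz, a2 _ (hαne y hyz), a3 _ (hαne y hyz)]
    exact ha y hy) (by
    intro y hy
    by_cases hyz : y = z
    · subst hyz
      exact a4
    · rw [a3 y hyz, a2 y hyz]
      exact hd y hy)
  have bz : b (φ z) = b z := by
    have := hb z
    rwa [hz] at this
  set b' : X → ZMod 2 := fun y => if y = z then a z + k z else b y with hb'
  have b1 : b' z = a z + k z := by simp [hb']
  have b2 : ∀ y, y ≠ z → b' y = b y := fun y hy => by simp [hb', hy]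
  have kne : ∀ y, y ≠ z → Remove.kill φ z y ≠ z := by
    intro y hy e
    exact hy ((Remove.kill φ z).injective (e.trans k1.symm))
  refine ⟨b', k, ?_, ?_, ?_⟩
  · intro y
    by_cases hyz : y = z
    · subst hyz
      rw [hz, k1]
    · have n := hαne y hyz
      rw [b2 _ (kne _ n), b2 y hyz, k2 _ n]
      by_cases h1 : φ (α y) = z
      · rw [if_pos h1, bz, ← h1, hb]
      · rw [if_neg h1, hb]
  · intro y
    by_cases hyz : y = z
    · subst hyz
      rw [k1]
    · rw [k2 y hyz]
      by_cases h1 : φ y = z
      · rw [if_pos h1, hk, ← h1, hk]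
      · rw [if_neg h1, hk]
  · intro y
    by_cases hyz : y = z
    · subst hyz
      rw [b1, add_assoc, two_cancel, add_zero]
    · rw [b2 y hyz, ← a2 y hyz]
      exact hab y

/-- folding two consecutive darts `x`, `x' = φ x`; the new edge is `y, y'`. -/
theorem PP.fold {φ α β : Perm X} (h : PP φ α) {x x' y y' : X} (hx : x ≠ x') (hφ : φ x = x')
    (h1 : α x = y) (h2 : α x' = y') (h3 : α y = x) (h4 : α y' = x') (hxy : y ≠ x) (hxy' : y ≠ x')
    (hyx : y' ≠ x) (hyx' : y' ≠ x') (hyy : y ≠ y')
    (b1 : β x = x) (b2 : β x' = x') (b3 : β y = y') (b4 : β y' = y)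
    (b5 : ∀ z, z ≠ x → z ≠ x' → z ≠ y → z ≠ y' → β z = α z) : PP φ β := by
  intro a ha hd
  have e1 : a x' = a x := by
    have := hd x b1
    rwa [hφ] at this
  have e2 : a (φ x') = a x' := hd x' b2
  have e3 : a y + a (φ y) + a y' + a (φ y') = 0 := by
    have := ha y (by rw [b3]; exact hyy.symm)
    rwa [b3] at this
  set d : ZMod 2 := a y + a (φ y) with hdd
  have hd' : a y' + a (φ y') = d := by
    apply eq_of_add_eq_zero
    rw [hdd]
    have : ∀ p q r s : ZMod 2, p + q + r + s = 0 → r + s + (p + q) = 0 := by decide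
    exact this _ _ _ _ e3
  set a' : X → ZMod 2 := fun z => if z = x' then a z + d else a z with ha'
  have a1 : a' x' = a x' + d := by simp [ha']
  have a2 : ∀ z, z ≠ x' → a' z = a z := fun z hz => by simp [ha', hz]
  have φne : ∀ z, z ≠ x → φ z ≠ x' := by
    intro z hz e
    exact hz (φ.injective (e.trans hφ.symm))
  have hαne : ∀ z, z ≠ x → z ≠ x' → z ≠ y → z ≠ y' →
      α z ≠ x ∧ α z ≠ x' ∧ α z ≠ y ∧ α z ≠ y' := by
    intro z z1 z2 z3 z4
    refine ⟨fun e => z3 (α.injective (e.trans h3.symm)), fun e => z4 (α.injective (e.trans h4.symm)),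
      fun e => z1 (α.injective (e.trans h1.symm)), fun e => z2 (α.injective (e.trans h2.symm))⟩
  obtain ⟨b, k, hb, hk, hab⟩ := h a' (by
    intro z hz
    by_cases z1 : z = x
    · subst z1
      rw [h1, hφ, a1, a2 z hx, a2 y hxy', a2 _ (φne y hxy), e1]
      have : ∀ p q r : ZMod 2, p + (p + (q + r)) + q + r = 0 := by decide
      exact this _ _ _
    · by_cases z2 : z = x'
      · subst z2
        rw [h2, a1, a2 _ (φne z z1), a2 y' hyx', a2 _ (φne y' hyx), e2, ← hd']
        have : ∀ p q r : ZMod 2, p + (q + r) + p + q + r = 0 := by decide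
        exact this _ _ _
      · by_cases z3 : z = y
        · subst z3
          rw [h3, hφ, a1, a2 z hxy', a2 _ (φne z hxy), a2 x hx, e1]
          have : ∀ p q r : ZMod 2, q + r + p + (p + (q + r)) = 0 := by decide
          exact this _ _ _
        · by_cases z4 : z = y'
          · subst z4
            rw [h4, a2 z hyx', a2 _ (φne z hyx), a1, a2 _ (φne x' (Ne.symm hx)), e2, ← hd']
            have : ∀ p q r : ZMod 2, q + r + (p + (q + r)) + p = 0 := by decide
            exact this _ _ _
          · obtain ⟨n1, n2, n3, n4⟩ := hαne z z1 z2 z3 z4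
            rw [a2 z z2, a2 _ (φne z z1), a2 _ n2, a2 _ (φne _ n1)]
            have := ha z (by rw [b5 z z1 z2 z3 z4]; exact hz)
            rwa [b5 z z1 z2 z3 z4] at this) (by
    intro z hz
    have z1 : z ≠ x := by
      rintro rfl
      exact hxy (h1.symm.trans hz)
    have z2 : z ≠ x' := by
      rintro rfl
      exact hyx' (h2.symm.trans hz)
    have z3 : z ≠ y := by
      rintro rfl
      exact hxy (hz.symm.trans h3)
    have z4 : z ≠ y' := by
      rintro rfl
      exact hyx' (hz.symm.trans h4)
    rw [a2 _ (φne z z1), a2 z z2]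
    exact hd z (by rw [b5 z z1 z2 z3 z4, hz]))
  -- the new vertex function is `a + k`
  have f1 : b x' = b y := by
    have := hb y
    rwa [h3, hφ] at this
  have f2 : b (φ y) = b x := by
    have := hb x
    rwa [h1] at this
  have f3 : b (φ y') = b x' := by
    have := hb x'
    rwa [h2] at this
  have f4 : b (φ x') = b y' := by
    have := hb y'
    rwa [h4] at this
  have kx : k x' = k x := by
    rw [← hφ, hk]
  have hb' : ∀ z, z ≠ x' → a z + k z = b z := by
    intro z hz
    rw [← a2 z hz, hab z, add_assoc, two_cancel, add_zero]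
  have hbx : a x' + k x' = b x := by
    rw [e1, kx, hb' x hx]
  refine ⟨fun z => a z + k z, k, ?_, hk, ?_⟩
  · intro z
    show a (φ (β z)) + k (φ (β z)) = a z + k z
    by_cases z1 : z = x
    · subst z1
      rw [b1, hφ, hbx, hb' z hx]
    · by_cases z2 : z = x'
      · subst z2
        rw [b2, hk, e2]
      · by_cases z3 : z = y
        · subst z3
          rw [b3, hb' _ (φne _ hyx), hb' z hxy', f3, f1]
        · by_cases z4 : z = y'
          · subst z4
            rw [b4, hb' _ (φne _ hxy), hb' z hyx', f2, ← f4, ← hbx, ← hb' _ (φne x' (Ne.symm hx)),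
              e2, hk]
          · obtain ⟨n1, n2, n3, n4⟩ := hαne z z1 z2 z3 z4
            rw [b5 z z1 z2 z3 z4, hb' _ (φne _ n1), hb' z z2, hb]
  · intro z
    show a z = a z + k z + k z
    rw [add_assoc, two_cancel, add_zero]

/-- `PP` for a map with an actual edge involution -/
theorem PP.of_pmap (M : PMap X) : PP M.φ M.α := by
  intro a ha _
  exact M.planar a fun x => ha x (M.ne x)

end Remove

open Remove

theorem rem2_left {X : Type} (ψ : Equiv.Perm X) (x x' : X) (hx : x ≠ x') :
    rem2 ψ x x' x = x := by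
  rw [rem2_eq, kill_of_ne _ hx, kill_self, if_neg hx]

set_option linter.unusedVariables false in
theorem rem2_right {X : Type} (ψ : Equiv.Perm X) (x x' : X) (hx : x ≠ x') :
    rem2 ψ x x' x' = x' := by
  rw [rem2_eq, kill_self]

theorem rem2_apply {X : Type} (ψ : Equiv.Perm X) (x x' y : X) (hx : x ≠ x') (hy : y ≠ x)
    (hy' : y ≠ x') :
    rem2 ψ x x' y = if ψ y = x then (if ψ x' = x' then ψ x else ψ x')
      else if ψ y = x' then (if ψ x = x then ψ x' else ψ x) else ψ y := by
  have e1 : (ψ * swap x x') y = ψ y := by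
    rw [Perm.mul_apply, swap_apply_of_ne_of_ne hy hy']
  have e2 : (ψ * swap x x') x = ψ x' := by rw [Perm.mul_apply, swap_apply_left]
  have e3 : (ψ * swap x x') x' = ψ x := by rw [Perm.mul_apply, swap_apply_right]
  rw [rem2_eq, kill_of_ne _ hy', kill_of_ne _ hy, kill_of_ne _ hx.symm, e1, e2, e3]
  by_cases h1 : ψ y = x
  · rw [if_pos h1, if_pos h1]
    have h2 : ψ x ≠ x := fun e => hy (ψ.injective (h1.trans e.symm))
    rw [if_neg h2]
  · rw [if_neg h1, if_neg h1]

theorem exists_remove {X : Type} [Finite X] (M : PMap X) (x x' : X) (hx : x ≠ x')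
    (h : M.α x = x' ∨ M.φ x = x') :
    ∃ M' : PMap {y // y ≠ x ∧ y ≠ x'},
      (∀ y, ((M'.φ y : _) : X) = rem2 M.φ x x' y) ∧ ∀ y, ((M'.α y : _) : X) = rem2 M.α x x' y := by
  have hinv := M.inv
  have hne := M.ne
  -- values of the new edge permutation
  have hα : ∀ z, z ≠ x → z ≠ x' → rem2 M.α x x' z =
      if M.α z = x then M.α x' else if M.α z = x' then M.α x else M.α z := by
    intro z z1 z2
    rw [rem2_apply _ x x' z hx z1 z2, if_neg (hne x'), if_neg (hne x)]
  have hPP : PP (rem2 M.φ x x') (rem2 M.α x x') := by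
    have hfixx : rem2 M.α x x' x = x := rem2_left _ x x' hx
    have hfixx' : rem2 M.α x x' x' = x' := rem2_right _ x x' hx
    by_cases hα1 : M.α x = x'
    · have hα2 : M.α x' = x := by rw [← hα1, hinv]
      have h1 : rem2 M.α x x' = M.α * swap x x' := by
        ext z
        by_cases z1 : z = x
        · subst z1
          rw [hfixx, Perm.mul_apply, swap_apply_left, hα2]
        · by_cases z2 : z = x'
          · subst z2
            rw [hfixx', Perm.mul_apply, swap_apply_right, hα1]
          · have n1 : M.α z ≠ x := fun e => z2 (by rw [← hα1, ← e, hinv])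
            have n2 : M.α z ≠ x' := fun e => z1 (by rw [← hα2, ← e, hinv])
            rw [hα z z1 z2, if_neg n1, if_neg n2, Perm.mul_apply, swap_apply_of_ne_of_ne z1 z2]
      have h2 := (PP.of_pmap M).cut hx hα1 hα2
      rw [← h1] at h2
      exact (h2.kill hfixx).kill hfixx'
    · have hφ : M.φ x = x' := by
        rcases h with h | h
        · exact absurd h hα1
        · exact h
      have hx'1 : M.α x' ≠ x := fun e => hα1 (by rw [← e, hinv])
      have h2 : PP M.φ (rem2 M.α x x') := by
        refine (PP.of_pmap M).fold (y := M.α x) (y' := M.α x') hx hφ rfl rfl (hinv x) (hinv x')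
          (hne x) hα1 hx'1 (hne x') (fun e => hx (M.α.injective e)) hfixx hfixx' ?_ ?_ ?_
        · rw [hα _ (hne x) hα1, if_pos (hinv x)]
        · rw [hα _ hx'1 (hne x'), if_neg (by rw [hinv]; exact hx.symm), if_pos (hinv x')]
        · intro z z1 z2 z3 z4
          have n1 : M.α z ≠ x := fun e => z3 (by rw [← e, hinv])
          have n2 : M.α z ≠ x' := fun e => z4 (by rw [← e, hinv])
          rw [hα z z1 z2, if_neg n1, if_neg n2]
      have h3 : M.φ * swap x x' = kill M.φ x' := by
        ext z
        by_cases z2 : z = x'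
        · subst z2
          rw [kill_self, Perm.mul_apply, swap_apply_right, hφ]
        · rw [kill_of_ne _ z2, Perm.mul_apply]
          by_cases z1 : z = x
          · subst z1
            rw [swap_apply_left, if_pos hφ]
          · rw [swap_apply_of_ne_of_ne z1 z2,
              if_neg (fun e => z1 (M.φ.injective (e.trans hφ.symm)))]
      rw [rem2_eq M.φ, h3]
      exact ((h2.kill hfixx').kill hfixx).kill hfixx'
  have hp : ∀ ψ : Perm X, ψ x = x → ψ x' = x' → ∀ y, (ψ y ≠ x ∧ ψ y ≠ x') ↔ (y ≠ x ∧ y ≠ x') := by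
    intro ψ h1 h2 y
    have e1 : ψ y = x ↔ y = x := ⟨fun e => ψ.injective (e.trans h1.symm), fun e => by rw [e, h1]⟩
    have e2 : ψ y = x' ↔ y = x' := ⟨fun e => ψ.injective (e.trans h2.symm), fun e => by rw [e, h2]⟩
    simp only [ne_eq, e1, e2]
  set φ' : Perm {y // y ≠ x ∧ y ≠ x'} := (rem2 M.φ x x').subtypePerm
    (hp _ (rem2_left _ x x' hx) (rem2_right _ x x' hx)) with hφ'
  set α' : Perm {y // y ≠ x ∧ y ≠ x'} := (rem2 M.α x x').subtypePerm
    (hp _ (rem2_left _ x x' hx) (rem2_right _ x x' hx)) with hα'
  have vφ : ∀ y, ((φ' y : _) : X) = rem2 M.φ x x' y := fun y => rfl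
  have vα : ∀ y, ((α' y : _) : X) = rem2 M.α x x' y := fun y => rfl
  -- values on the subtype
  have nx : M.α x ≠ M.α x' := fun e => hx (M.α.injective e)
  have hinv' : ∀ z, z ≠ x → z ≠ x' → rem2 M.α x x' (rem2 M.α x x' z) = z := by
    intro z z1 z2
    by_cases z3 : M.α z = x
    · have z3' : z = M.α x := by rw [← z3, hinv]
      have n1 : M.α x' ≠ x := fun e => z2 (by rw [z3', ← e, hinv])
      rw [hα z z1 z2, if_pos z3, hα _ n1 (hne x'), hinv, if_neg hx.symm, if_pos rfl, ← z3']
    · by_cases z4 : M.α z = x'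
      · have z4' : z = M.α x' := by rw [← z4, hinv]
        have n1 : M.α x ≠ x' := fun e => z1 (by rw [z4', ← e, hinv])
        rw [hα z z1 z2, if_neg z3, if_pos z4, hα _ (hne x) n1, hinv, if_pos rfl, ← z4']
      · rw [hα z z1 z2, if_neg z3, if_neg z4, hα _ z3 z4, hinv, if_neg z1, if_neg z2]
  have hne' : ∀ z, z ≠ x → z ≠ x' → rem2 M.α x x' z ≠ z := by
    intro z z1 z2
    rw [hα z z1 z2]
    by_cases z3 : M.α z = x
    · have z3' : z = M.α x := by rw [← z3, hinv]
      rw [if_pos z3, z3']
      exact nx.symm
    · by_cases z4 : M.α z = x'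
      · have z4' : z = M.α x' := by rw [← z4, hinv]
        rw [if_neg z3, if_pos z4, z4']
        exact nx
      · rw [if_neg z3, if_neg z4]
        exact hne z
  refine ⟨⟨φ', α', ?_, ?_, ?_⟩, vφ, vα⟩
  · intro z
    apply Subtype.ext
    rw [vα, vα]
    exact hinv' _ z.2.1 z.2.2
  · intro z e
    have := congrArg Subtype.val e
    rw [vα] at this
    exact hne' _ z.2.1 z.2.2 this
  · intro a ha
    set a' : X → ZMod 2 := fun y => if h : y ≠ x ∧ y ≠ x' then a ⟨y, h⟩ else 0 with ha'
    have a1 : ∀ y : {y // y ≠ x ∧ y ≠ x'}, a' y = a y := by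
      intro y
      simp only [ha']
      rw [dif_pos y.2]
    have a2 : a' x = 0 := by simp [ha']
    have a3 : a' x' = 0 := by simp [ha']
    obtain ⟨b, k, hb, hk, hab⟩ := hPP a' (by
      intro y hy
      have y1 : y ≠ x := by
        rintro rfl
        exact hy (rem2_left _ _ x' hx)
      have y2 : y ≠ x' := by
        rintro rfl
        exact hy (rem2_right _ x _ hx)
      have := ha ⟨y, y1, y2⟩
      rw [← a1, ← a1, ← a1, ← a1, vφ, vφ, vα] at this
      exact this) (by
      intro y hy
      by_cases y1 : y = x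
      · subst y1
        rw [rem2_left _ _ x' hx]
      · by_cases y2 : y = x'
        · subst y2
          rw [rem2_right _ x _ hx]
        · exact absurd hy (hne' y y1 y2))
    refine ⟨fun y => b y, fun y => k y, ?_, ?_, ?_⟩
    · intro y
      show b (φ' (α' y)) = b y
      rw [vφ, vα]
      exact hb y
    · intro y
      show k (φ' y) = k y
      rw [vφ]
      exact hk y
    · intro y
      show a y = b y + k y
      rw [← a1]
      exact hab y

end Crest.Agent.R177
end

-- ▼ part R177/DiagRed
section

/-!
# Rows 177 / 184, module REDUCTION (helper132)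

`reduce_step`: a diagram which is not reduced can be made smaller, with the same chain and the same
outer word.
-/

set_option autoImplicit false

open scoped Classical

namespace Crest.Agent.R177

open Crest.Agent.R199 (PAct)

variable {S V : Type}

namespace DiagRed

theorem hinv_hinv (a : S × Bool) : hinv (hinv a) = a := by
  simp [hinv]

theorem hinv_ne (a : S × Bool) : hinv a ≠ a := by
  intro h
  have := congrArg Prod.snd h
  simp [hinv] at this

theorem gw_append (A : PAct S V) (u v : List (S × Bool)) : gw A (u ++ v) = gw A u * gw A v := by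
  unfold gw
  rw [← map_mul, FreeGroup.mul_mk]

theorem gw_hinv (A : PAct S V) (a : S × Bool) : gw A [a] * gw A [hinv a] = 1 := by
  rw [← gw_append]
  unfold gw
  have : (FreeGroup.mk ([a] ++ [hinv a]) : FreeGroup S) = 1 := by
    rw [FreeGroup.one_eq_mk]
    apply Quot.sound
    exact FreeGroup.Red.Step.cons_not
  rw [this, map_one]

variable {A : PAct S V} {X : Type}

/-- `x, x'` is a pair of inner darts mapped to the same edge in opposite directions -/
structure Opp (D : Diag A X) (x x' : X) : Prop where
  outx : ¬ D.out x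
  outx' : ¬ D.out x'
  lab : D.lab x' = hinv (D.lab x)
  pos : D.pos x' = D.pos (D.φ x)
  pos' : D.pos (D.φ x') = D.pos x
  node : D.node x' = D.node (D.φ x)
  node' : D.node (D.φ x') = D.node x

theorem Opp.ne {D : Diag A X} {x x' : X} (h : Opp D x x') : x ≠ x' := by
  intro e
  have := h.lab
  rw [← e] at this
  exact hinv_ne _ this.symm

/-- the values of `pos`, `node`, `out` at the next dart do not change -/
theorem next_val {D : Diag A X} {x x' : X} (h : Opp D x x') {y : X} (h1 : y ≠ x) (h2 : y ≠ x') :
    D.pos (rem2 D.φ x x' y) = D.pos (D.φ y) ∧ (D.out (rem2 D.φ x x' y) ↔ D.out y) ∧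
      D.node (rem2 D.φ x x' y) = D.node (D.φ y) ∧ (D.out y → rem2 D.φ x x' y = D.φ y) := by
  have hxx := h.ne
  have o1 : ¬ D.out (D.φ x) := fun e => h.outx ((D.out_φ x).1 e)
  have o2 : ¬ D.out (D.φ x') := fun e => h.outx' ((D.out_φ x').1 e)
  rw [rem2_apply _ _ _ _ hxx h1 h2]
  by_cases c1 : D.φ y = x
  · rw [if_pos c1]
    have oy : ¬ D.out y := by
      intro e
      exact h.outx (c1 ▸ (D.out_φ y).2 e)
    by_cases c2 : D.φ x' = x'
    · rw [if_pos c2, c1]
      have e1 : D.pos (D.φ x) = D.pos x := by rw [← h.pos, ← c2, h.pos']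
      have e2 : D.node (D.φ x) = D.node x := by rw [← h.node, ← c2, h.node']
      exact ⟨e1, iff_of_false o1 oy, e2, fun e => absurd e oy⟩
    · rw [if_neg c2, c1]
      exact ⟨h.pos', iff_of_false o2 oy, h.node', fun e => absurd e oy⟩
  · rw [if_neg c1]
    by_cases c2 : D.φ y = x'
    · rw [if_pos c2]
      have oy : ¬ D.out y := by
        intro e
        exact h.outx' (c2 ▸ (D.out_φ y).2 e)
      by_cases c3 : D.φ x = x
      · rw [if_pos c3, c2]
        have e1 : D.pos (D.φ x') = D.pos x' := by rw [h.pos', h.pos, c3]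
        have e2 : D.node (D.φ x') = D.node x' := by rw [h.node', h.node, c3]
        exact ⟨e1, iff_of_false o2 oy, e2, fun e => absurd e oy⟩
      · rw [if_neg c3, c2]
        exact ⟨h.pos.symm, iff_of_false o1 oy, h.node.symm, fun e => absurd e oy⟩
    · rw [if_neg c2]
      exact ⟨rfl, D.out_φ y, rfl, fun _ => rfl⟩

theorem node_back {D : Diag A X} {x x' : X} (o : ¬ D.out x) (o' : ¬ D.out x')
    (hl : D.lab x' = hinv (D.lab x)) (hn : D.node x' = D.node (D.φ x)) :
    D.node (D.φ x') = D.node x := by
  have h1 := D.node_step x o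
  have h2 := D.node_step x' o'
  have h3 := A.symm _ _ _ h1
  rw [hl, hn] at h2
  have h4 : A.st (hinv (D.lab x)) (D.node (D.φ x)) = some (D.node x) := h3
  rw [h4] at h2
  exact (Option.some.inj h2).symm

theorem pos_back {D : Diag A X} {x x' : X} (hl : D.lab x' = hinv (D.lab x))
    (hp : D.pos x' = D.pos (D.φ x)) : D.pos (D.φ x') = D.pos x := by
  rw [D.pos_φ, hp, D.pos_φ, hl, mul_assoc, gw_hinv, mul_one]

/-- `i` embeds the smaller diagram `D'` into `D` -/
structure Emb {X' : Type} (D : Diag A X) (D' : Diag A X') (i : X' → X) : Prop where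
  inj : Function.Injective i
  lab : ∀ y, D'.lab y = D.lab (i y)
  pos : ∀ y, D'.pos y = D.pos (i y)
  node : ∀ y, D'.node y = D.node (i y)
  out : ∀ y, D'.out y ↔ D.out (i y)
  /-- outer darts are not touched -/
  out_mem : ∀ x, D.out x → x ∈ Set.range i
  φ_out : ∀ y, D'.out y → i (D'.φ y) = D.φ (i y)
  /-- positions and nodes of the next darts agree -/
  pos_next : ∀ y, D.pos (i (D'.φ y)) = D.pos (D.φ (i y))
  node_next : ∀ y, D.node (i (D'.φ y)) = D.node (D.φ (i y))

/-- both kinds of reduction moves; the removed darts are `x` and `x'` -/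
theorem reduce_pair [Fintype X] (D : Diag A X) (w : List (S × Bool)) (hw : OutW D w)
    {x x' : X} (h : Opp D x x') (hm : D.α x = x' ∨ D.φ x = x') :
    ∃ (X' : Type) (_ : Fintype X') (D' : Diag A X') (i : X' → X),
      Fintype.card X' < Fintype.card X ∧ D'.cls = D.cls ∧ OutW D' w ∧ Emb D D' i ∧
        ∀ y, y ∈ Set.range i ↔ y ≠ x ∧ y ≠ x' := by
  have hxx := h.ne
  obtain ⟨M', hφ, hα⟩ := exists_remove D.toPMap x x' hxx hm
  have nv : ∀ y : {y // y ≠ x ∧ y ≠ x'}, D.pos (M'.φ y) = D.pos (D.φ y) ∧
      (D.out (M'.φ y) ↔ D.out y) ∧ D.node (M'.φ y) = D.node (D.φ y) ∧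
      (D.out y → (M'.φ y : X) = D.φ y) := by
    intro y
    rw [hφ]
    exact next_val h y.2.1 y.2.2
  have hlα : ∀ y : {y // y ≠ x ∧ y ≠ x'}, D.lab (M'.α y) = hinv (D.lab y) := by
    intro y
    rw [hα, rem2_apply _ _ _ _ hxx y.2.1 y.2.2, if_neg (D.ne x'), if_neg (D.ne x)]
    by_cases c1 : D.α y = x
    · rw [if_pos c1, D.lab_α, h.lab, hinv_hinv]
      have : (y : X) = D.α x := by
        have e := D.inv y
        rw [c1] at e
        exact e.symm
      rw [this, D.lab_α, hinv_hinv]
    · rw [if_neg c1]
      by_cases c2 : D.α y = x'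
      · rw [if_pos c2, D.lab_α]
        have : (y : X) = D.α x' := by
          have e := D.inv y
          rw [c2] at e
          exact e.symm
        rw [this, D.lab_α, h.lab, hinv_hinv]
      · rw [if_neg c2, D.lab_α]
  have hpα : ∀ y : {y // y ≠ x ∧ y ≠ x'}, D.pos (M'.α y) = D.pos (M'.φ y) := by
    intro y
    rw [(nv y).1, hα, rem2_apply _ _ _ _ hxx y.2.1 y.2.2, if_neg (D.ne x'), if_neg (D.ne x)]
    by_cases c1 : D.α y = x
    · rw [if_pos c1, D.pos_α, h.pos', ← D.pos_α, c1]
    · rw [if_neg c1]
      by_cases c2 : D.α y = x'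
      · rw [if_pos c2, D.pos_α, ← h.pos, ← D.pos_α, c2]
      · rw [if_neg c2, D.pos_α]
  let D' : Diag A {y // y ≠ x ∧ y ≠ x'} :=
    { M' with
      lab := fun y => D.lab y
      pos := fun y => D.pos y
      out := fun y => D.out y
      node := fun y => D.node y
      lab_α := hlα
      pos_φ := fun y => by rw [(nv y).1, D.pos_φ]
      pos_α := hpα
      out_φ := fun y => (nv y).2.1
      node_step := fun y hy => by rw [(nv y).2.2.1]; exact D.node_step y hy }
  refine ⟨{y // y ≠ x ∧ y ≠ x'}, inferInstance, D', fun y => y, ?_, ?_, ?_, ?_, ?_⟩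
  · exact Fintype.card_subtype_lt (x := x) (by simp)
  · -- the chain
    have hcel : ∀ y : {y // y ≠ x ∧ y ≠ x'}, D'.cel y = D.cel y := by
      intro y
      have e1 : D.pos (M'.φ y) = D.pos (D.φ y) := (nv y).1
      have e2 : D.node (M'.φ y) = D.node (D.φ y) := (nv y).2.2.1
      unfold Diag.cel
      show (if D.out y then 0 else if (D.lab y).2 then Finsupp.single (D.pos y, D.node y,
        (D.lab y).1) 1 else - Finsupp.single (D.pos (M'.φ y), D.node (M'.φ y), (D.lab y).1) 1) = _
      rw [e1, e2]
    have hsum : ∀ f : X → ((Grp A × V × S) →₀ ℤ), f x + f x' = 0 →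
        ∑ y : {y // y ≠ x ∧ y ≠ x'}, f y = ∑ y, f y := by
      intro f hf
      rw [← Finset.sum_subtype (s := Finset.univ.filter fun y => y ≠ x ∧ y ≠ x')
        (p := fun y => y ≠ x ∧ y ≠ x') (by simp) f]
      have e1 : (Finset.univ : Finset X) = insert x (insert x'
          (Finset.univ.filter fun y => y ≠ x ∧ y ≠ x')) := by
        ext y
        simp only [Finset.mem_univ, Finset.mem_insert, Finset.mem_filter, true_and, true_iff]
        tauto
      conv_rhs => rw [e1]
      rw [Finset.sum_insert (by simp [hxx]), Finset.sum_insert (by simp), ← add_assoc, hf, zero_add]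
    unfold Diag.cls
    rw [Finset.sum_congr rfl fun y _ => hcel y, hsum D.cel ?_]
    unfold Diag.cel
    rw [if_neg h.outx, if_neg h.outx', h.lab, h.pos, h.pos', h.node, h.node']
    cases hb : (D.lab x).2
    · simp [hinv, hb]
    · simp [hinv, hb]
  · obtain ⟨e, he1, he2, he3, he4⟩ := hw
    have hne : ∀ i, e i ≠ x ∧ e i ≠ x' := by
      intro i
      have : D.out (e i) := (he2 _).2 ⟨i, rfl⟩
      refine ⟨?_, ?_⟩
      · intro e'
        exact h.outx (e' ▸ this)
      · intro e'
        exact h.outx' (e' ▸ this)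
    refine ⟨fun i => ⟨e i, hne i⟩, ?_, ?_, he3, ?_⟩
    · intro i j hij
      exact he1 (congrArg Subtype.val hij)
    · intro y
      show D.out y ↔ _
      rw [he2]
      constructor
      · rintro ⟨i, hi⟩
        exact ⟨i, Subtype.ext hi⟩
      · rintro ⟨i, hi⟩
        exact ⟨i, congrArg Subtype.val hi⟩
    · intro i j hij
      apply Subtype.ext
      show (M'.φ ⟨e i, hne i⟩ : X) = e j
      rw [(nv ⟨e i, hne i⟩).2.2.2 ((he2 _).2 ⟨i, rfl⟩)]
      exact he4 i j hij
  · refine ⟨Subtype.val_injective, fun _ => rfl, fun _ => rfl, fun _ => rfl, fun _ => Iff.rfl, ?_,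
      fun y hy => (nv y).2.2.2 hy, fun y => (nv y).1, fun y => (nv y).2.2.1⟩
    intro y hy
    refine ⟨⟨y, ?_, ?_⟩, rfl⟩
    · rintro rfl
      exact h.outx hy
    · rintro rfl
      exact h.outx' hy
  · intro y
    constructor
    · rintro ⟨z, rfl⟩
      exact z.2
    · intro hy
      exact ⟨⟨y, hy⟩, rfl⟩

open DiagRed

/-- cyclically consecutive letters of a cyclically reduced word are not inverse -/
theorem cyc_not_inv (w : List (S × Bool)) (hred : FreeGroup.IsReduced (w ++ w))
    (i j : Fin w.length) (hij : j.val = i.val + 1 ∨ (j.val = 0 ∧ i.val + 1 = w.length)) :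
    w.get j ≠ hinv (w.get i) := by
  have key : ∀ (l : List (S × Bool)), FreeGroup.IsReduced l → ∀ (n : ℕ) (h : n + 1 < l.length),
      l[n + 1] ≠ hinv l[n] := by
    intro l hl n h e
    have h1 := List.isChain_iff_getElem.1 hl n h
    have h2 : l[n].1 = l[n + 1].1 := by rw [e]; rfl
    have h3 := h1 h2
    rw [e] at h3
    simp [hinv] at h3
  have hi := i.2
  have hj := j.2
  have h1 : i.val + 1 < (w ++ w).length := by
    rw [List.length_append]
    omega
  have h2 := key _ hred i.val h1
  rw [List.getElem_append_left hi] at h2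
  rcases hij with hij | ⟨hij, hij'⟩
  · have h3 : i.val + 1 < w.length := by omega
    rw [List.getElem_append_left h3] at h2
    have : j = ⟨i.val + 1, h3⟩ := Fin.ext hij
    rw [this]
    exact h2
  · rw [List.getElem_append_right (by omega)] at h2
    have h4 : j = ⟨i.val + 1 - w.length, by omega⟩ := by
      apply Fin.ext
      show j.val = i.val + 1 - w.length
      omega
    rw [h4]
    exact h2

/-- I2, strong form: a non-reduced diagram can be made smaller, by removing one pair of inner
darts. -/
theorem reduce_step_emb {A : PAct S V} {X : Type} [Fintype X] (D : Diag A X)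
    (w : List (S × Bool)) (hred : FreeGroup.IsReduced (w ++ w)) (hw : OutW D w)
    (hD : ¬ D.Reduced) :
    ∃ (X' : Type) (_ : Fintype X') (D' : Diag A X') (i : X' → X),
      Fintype.card X' < Fintype.card X ∧ D'.cls = D.cls ∧ OutW D' w ∧ Emb D D' i := by
  unfold Diag.Reduced at hD
  rw [not_and_or] at hD
  rcases hD with hD | hD
  · push Not at hD
    obtain ⟨x, o1, o2, hn⟩ := hD
    have hopp : Opp D x (D.α x) :=
      { outx := o1
        outx' := o2
        lab := D.lab_α x
        pos := D.pos_α x
        pos' := pos_back (D.lab_α x) (D.pos_α x)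
        node := hn
        node' := node_back o1 o2 (D.lab_α x) hn }
    obtain ⟨X', inst, D', i, h1, h2, h3, h4, _⟩ := reduce_pair D w hw hopp (Or.inl rfl)
    exact ⟨X', inst, D', i, h1, h2, h3, h4⟩
  · push Not at hD
    obtain ⟨x, hl⟩ := hD
    have o1 : ¬ D.out x := by
      intro ho
      obtain ⟨e, he1, he2, he3, he4⟩ := hw
      obtain ⟨i, rfl⟩ := (he2 x).1 ho
      have hi := i.2
      -- the successor index
      obtain ⟨j, hj⟩ : ∃ j : Fin w.length,
          j.val = i.val + 1 ∨ (j.val = 0 ∧ i.val + 1 = w.length) := by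
        by_cases h : i.val + 1 < w.length
        · exact ⟨⟨i.val + 1, h⟩, Or.inl rfl⟩
        · exact ⟨⟨0, by omega⟩, Or.inr ⟨rfl, by omega⟩⟩
      rw [he4 i j hj, he3, he3] at hl
      exact cyc_not_inv w hred i j hj hl
    have o2 : ¬ D.out (D.φ x) := fun h => o1 ((D.out_φ x).1 h)
    have hopp : Opp D x (D.φ x) :=
      { outx := o1
        outx' := o2
        lab := hl
        pos := rfl
        pos' := pos_back hl rfl
        node := rfl
        node' := node_back o1 o2 hl rfl }
    obtain ⟨X', inst, D', i, h1, h2, h3, h4, _⟩ := reduce_pair D w hw hopp (Or.inr rfl)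
    exact ⟨X', inst, D', i, h1, h2, h3, h4⟩

end DiagRed

open DiagRed

/-- I2: a non-reduced diagram can be made smaller. -/
theorem reduce_step {A : PAct S V} {X : Type} [Fintype X] (D : Diag A X) (w : List (S × Bool))
    (hred : FreeGroup.IsReduced (w ++ w)) (hw : OutW D w) (hD : ¬ D.Reduced) :
    ∃ (X' : Type) (_ : Fintype X') (D' : Diag A X'),
      Fintype.card X' < Fintype.card X ∧ D'.cls = D.cls ∧ OutW D' w := by
  obtain ⟨X', inst, D', _, h1, h2, h3, _⟩ := reduce_step_emb D w hred hw hD
  exact ⟨X', inst, D', h1, h2, h3⟩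

end Crest.Agent.R177
end

-- ▼ part R177/DiagReduce
section

/-!
# Row 177: reduced diagrams exist (helper595)
-/

set_option autoImplicit false

open scoped Classical

namespace Crest.Agent.R177

open Crest.Agent.R199 (PAct)

variable {S V : Type}

/-- every diagram can be reduced, keeping the chain and the outer word -/
theorem exists_reduced_diag {A : PAct S V} (w : List (S × Bool))
    (hred : FreeGroup.IsReduced (w ++ w)) : ∀ (n : ℕ) (X : Type) [Fintype X] (D : Diag A X),
    Fintype.card X = n → OutW D w →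
    ∃ (X' : Type) (_ : Fintype X') (D' : Diag A X'), D'.Reduced ∧ D'.cls = D.cls ∧ OutW D' w := by
  intro n
  induction n using Nat.strong_induction_on with
  | _ n ih =>
    intro X _ D hn hw
    by_cases hD : D.Reduced
    · exact ⟨X, inferInstance, D, hD, rfl, hw⟩
    · obtain ⟨X', _, D', h1, h2, h3⟩ := reduce_step D w hred hw hD
      obtain ⟨X'', i, D'', h4, h5, h6⟩ := ih _ (hn ▸ h1) X' D' rfl h3
      exact ⟨X'', i, D'', h4, h5.trans h2, h6⟩

end Crest.Agent.R177
end

-- ▼ part R177/GrpFree
section

/-!
# Row 177, module 6a: free identities from relations and from 2-cycles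

* `Fr Γ`: a conjugate `u * (word of a closed walk) * u⁻¹`.
* `exists_list_of_mem`: members of `normalClosure Γ.rels` are products of such conjugates.
* `exists_identity_of_d2_eq_zero`: a 2-cycle is the class of a free identity.
-/

set_option autoImplicit false
set_option linter.unusedSectionVars false

namespace Crest.Agent.R177.GS

open Crest.Agent.R199.Chase Crest.Agent.R199.Exact

variable {S : Type*} {Γ : LG S}

/-! ### walks -/

/-- reversed oriented edge -/
def drev (d : Γ.Ed × Bool) : Γ.Ed × Bool := (d.1, !d.2)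

theorem ds_drev (d : Γ.Ed × Bool) : Γ.ds (drev d) = Γ.dt d := by
  rcases d with ⟨e, b⟩
  cases b <;> simp [drev, LG.ds, LG.dt]

theorem dt_drev (d : Γ.Ed × Bool) : Γ.dt (drev d) = Γ.ds d := by
  rcases d with ⟨e, b⟩
  cases b <;> simp [drev, LG.ds, LG.dt]

theorem isWalk_append {p r : Γ.P} {l m : List (Γ.Ed × Bool)} :
    Γ.IsWalk p (l ++ m) r ↔ ∃ q, Γ.IsWalk p l q ∧ Γ.IsWalk q m r := by
  induction l generalizing p with
  | nil =>
    constructor
    · intro h
      exact ⟨p, rfl, h⟩
    · rintro ⟨q, h1, h2⟩
      have : p = q := h1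
      subst this
      exact h2
  | cons d l ih =>
    constructor
    · rintro ⟨h1, h2⟩
      obtain ⟨q, h3, h4⟩ := ih.1 h2
      exact ⟨q, ⟨h1, h3⟩, h4⟩
    · rintro ⟨q, ⟨h1, h3⟩, h4⟩
      exact ⟨h1, ih.2 ⟨q, h3, h4⟩⟩

/-- reversed walk -/
def wrev (l : List (Γ.Ed × Bool)) : List (Γ.Ed × Bool) := (l.map drev).reverse

theorem isWalk_wrev {p q : Γ.P} {l : List (Γ.Ed × Bool)} (h : Γ.IsWalk p l q) :
    Γ.IsWalk q (wrev l) p := by
  induction l generalizing p with
  | nil => exact (show p = q from h).symm
  | cons d l ih =>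
    obtain ⟨h1, h2⟩ := h
    have h3 : wrev (d :: l) = wrev l ++ [drev d] := by simp [wrev]
    rw [h3, isWalk_append]
    refine ⟨_, ih h2, ?_, ?_⟩
    · exact ds_drev d
    · show Γ.dt (drev d) = p
      rw [dt_drev, h1]


theorem mk_word_wrev (l : List (Γ.Ed × Bool)) :
    FreeGroup.mk (Γ.word (wrev l)) = (FreeGroup.mk (Γ.word l))⁻¹ := by
  rw [FreeGroup.inv_mk]
  congr 1
  simp [LG.word, wrev, FreeGroup.invRev, drev, List.map_reverse, Function.comp_def]

theorem chain_nil : Γ.chain [] = 0 := by simp [LG.chain]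

theorem chain_append (l m : List (Γ.Ed × Bool)) :
    Γ.chain (l ++ m) = Γ.chain l + Γ.chain m := by
  simp [LG.chain]

theorem chain_cons (d : Γ.Ed × Bool) (m : List (Γ.Ed × Bool)) :
    Γ.chain (d :: m) = Finsupp.single d.1 (LG.sgn d.2) + Γ.chain m := by
  simp [LG.chain]

theorem sgn_not (b : Bool) : LG.sgn (!b) = - LG.sgn b := by cases b <;> simp [LG.sgn]

theorem chain_wrev (l : List (Γ.Ed × Bool)) : Γ.chain (wrev l) = - Γ.chain l := by
  induction l with
  | nil => simp [wrev, chain_nil]
  | cons d l ih =>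
    have h3 : wrev (d :: l) = wrev l ++ [drev d] := by simp [wrev]
    rw [h3, chain_append, ih, chain_cons, chain_cons, chain_nil]
    simp only [drev, sgn_not, Finsupp.single_neg]
    abel

/-! ### cycles are generated by closed walks -/

/-- `p` and `q` are joined by a walk -/
def Conn (Γ : LG S) (p q : Γ.P) : Prop := ∃ l, Γ.IsWalk p l q

theorem conn_equiv : Equivalence (Conn Γ) where
  refl _ := ⟨[], rfl⟩
  symm := fun ⟨l, h⟩ => ⟨wrev l, isWalk_wrev h⟩
  trans := fun ⟨l, h⟩ ⟨m, h'⟩ => ⟨l ++ m, isWalk_append.2 ⟨_, h, h'⟩⟩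

/-- base point of the component -/
noncomputable def root (p : Γ.P) : Γ.P :=
  (Quotient.mk (⟨Conn Γ, conn_equiv⟩ : Setoid Γ.P) p).out

theorem root_conn (p : Γ.P) : Conn Γ (root p) p :=
  Quotient.exact (s := ⟨Conn Γ, conn_equiv⟩)
    (Quotient.out_eq (Quotient.mk (⟨Conn Γ, conn_equiv⟩ : Setoid Γ.P) p))

theorem root_eq {p q : Γ.P} (h : Conn Γ p q) : root p = root q := by
  unfold root
  congr 1
  exact Quotient.sound h

/-- a walk from the root -/
noncomputable def rwalk (p : Γ.P) : List (Γ.Ed × Bool) := (root_conn p).choose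

theorem rwalk_spec (p : Γ.P) : Γ.IsWalk (root p) (rwalk p) p := (root_conn p).choose_spec

/-- the chains which are sums of chains of closed walks -/
def Wsub (Γ : LG S) : AddSubgroup (Γ.Ed →₀ ℤ) where
  carrier := {z | ∃ L : List (List (Γ.Ed × Bool)), (∀ l ∈ L, ∃ p, Γ.IsWalk p l p) ∧
    (L.map Γ.chain).sum = z}
  zero_mem' := ⟨[], by simp, by simp⟩
  add_mem' := by
    rintro a b ⟨L, h1, h2⟩ ⟨M, h3, h4⟩
    refine ⟨L ++ M, ?_, by simp [h2, h4]⟩
    intro l hl
    rcases List.mem_append.1 hl with h | h
    · exact h1 l h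
    · exact h3 l h
  neg_mem' := by
    rintro a ⟨L, h1, h2⟩
    refine ⟨L.map wrev, ?_, ?_⟩
    · intro l hl
      obtain ⟨m, hm, rfl⟩ := List.mem_map.1 hl
      obtain ⟨p, hp⟩ := h1 m hm
      exact ⟨p, isWalk_wrev hp⟩
    · rw [← h2, List.map_map]
      clear h1 h2
      induction L with
      | nil => simp
      | cons l L ih =>
        simp only [List.map_cons, List.sum_cons, Function.comp_apply]
        rw [ih, chain_wrev, neg_add]

theorem chain_mem_Wsub {l : List (Γ.Ed × Bool)} {p : Γ.P} (h : Γ.IsWalk p l p) :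
    Γ.chain l ∈ Wsub Γ :=
  ⟨[l], by simpa using ⟨p, h⟩, by simp⟩

theorem mem_Wsub_of_mem_Z1 (z : Γ.Ed →₀ ℤ) (hz : z ∈ Γ.Z1) : z ∈ Wsub Γ := by
  let inst : AddCommGroup ((Γ.Ed →₀ ℤ) ⧸ Wsub Γ) := QuotientAddGroup.Quotient.addCommGroup _
  let mk : (Γ.Ed →₀ ℤ) →+ (Γ.Ed →₀ ℤ) ⧸ Wsub Γ := QuotientAddGroup.mk' _
  let h : (Γ.P →₀ ℤ) →+ (Γ.Ed →₀ ℤ) ⧸ Wsub Γ :=
    Finsupp.liftAddHom fun p => zmultiplesHom _ (mk (Γ.chain (rwalk p)))
  have hs : ∀ p n, h (Finsupp.single p n) = n • mk (Γ.chain (rwalk p)) := by
    intro g n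
    simp [h]
  have key : ∀ z, h (Γ.bdry z) = mk z := by
    intro z
    induction z using Finsupp.induction_linear with
    | zero => simp
    | add a b ha hb => rw [map_add, map_add, ha, hb, map_add]
    | single e n =>
      rw [LG.bdry_single, map_sub, hs, hs]
      have hc : Conn Γ (Γ.src e) (Γ.tgt e) := ⟨[(e, true)], by simp [LG.IsWalk, LG.ds, LG.dt]⟩
      have h1 : Γ.IsWalk (root (Γ.src e)) (rwalk (Γ.src e) ++ (e, true) :: wrev (rwalk (Γ.tgt e)))
          (root (Γ.src e)) := by
        rw [isWalk_append]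
        refine ⟨_, rwalk_spec _, by simp [LG.ds], ?_⟩
        have := isWalk_wrev (rwalk_spec (Γ.tgt e))
        rw [root_eq hc]
        simpa [LG.dt] using this
      have h2 := (QuotientAddGroup.eq_zero_iff _).2 (chain_mem_Wsub h1)
      have h3 : mk (Finsupp.single e 1) =
          mk (Γ.chain (rwalk (Γ.tgt e))) - mk (Γ.chain (rwalk (Γ.src e))) := by
        have h4 : mk (Γ.chain (rwalk (Γ.src e) ++ (e, true) :: wrev (rwalk (Γ.tgt e)))) = 0 := h2
        rw [chain_append, chain_cons, chain_wrev, map_add, map_add, map_neg] at h4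
        simp only [LG.sgn, if_true] at h4
        rw [eq_sub_iff_add_eq, ← sub_eq_zero, ← h4]
        abel
      have h5 : Finsupp.single e n = n • Finsupp.single e (1 : ℤ) := by simp
      rw [h5, map_zsmul, h3, smul_sub]
  have h0 : mk z = 0 := by
    rw [← key, show Γ.bdry z = 0 from hz, map_zero]
  exact (QuotientAddGroup.eq_zero_iff z).1 h0

/-! ### lists of conjugates -/

/-- a conjugate of the word of a closed walk -/
structure Fr (Γ : LG S) where
  /-- the conjugator -/
  u : FreeGroup S
  /-- base point of the closed walk -/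
  p : Γ.P
  /-- the closed walk -/
  l : List (Γ.Ed × Bool)
  /-- it is closed -/
  hl : Γ.IsWalk p l p

namespace Fr

/-- its value in the free group -/
def val (t : Fr Γ) : FreeGroup S := t.u * FreeGroup.mk (Γ.word t.l) * t.u⁻¹

/-- the inverse conjugate -/
def inv (t : Fr Γ) : Fr Γ := ⟨t.u, t.p, wrev t.l, isWalk_wrev t.hl⟩

theorem val_inv (t : Fr Γ) : t.inv.val = t.val⁻¹ := by
  simp only [val, inv, mk_word_wrev]
  group

/-- conjugation -/
def conj (g : FreeGroup S) (t : Fr Γ) : Fr Γ := ⟨g * t.u, t.p, t.l, t.hl⟩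

theorem val_conj (g : FreeGroup S) (t : Fr Γ) : (t.conj g).val = g * t.val * g⁻¹ := by
  simp only [val, conj]
  group

end Fr

/-- the product of a list of conjugates -/
def frProd (L : List (Fr Γ)) : FreeGroup S := (L.map Fr.val).prod

theorem frProd_nil : frProd ([] : List (Fr Γ)) = 1 := rfl

theorem frProd_cons (t : Fr Γ) (L : List (Fr Γ)) : frProd (t :: L) = t.val * frProd L := by
  simp [frProd]

theorem frProd_append (L M : List (Fr Γ)) : frProd (L ++ M) = frProd L * frProd M := by
  simp [frProd]

/-- the inverse list -/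
def frInv (L : List (Fr Γ)) : List (Fr Γ) := (L.map Fr.inv).reverse

theorem frInv_cons (t : Fr Γ) (L : List (Fr Γ)) : frInv (t :: L) = frInv L ++ [t.inv] := by
  simp [frInv]

theorem frProd_frInv (L : List (Fr Γ)) : frProd (frInv L) = (frProd L)⁻¹ := by
  induction L with
  | nil => simp [frInv, frProd]
  | cons t L ih => rw [frInv_cons, frProd_append, ih, frProd_cons, frProd_cons, frProd_nil,
      Fr.val_inv, mul_inv_rev, mul_one]

theorem frProd_conj (g : FreeGroup S) (L : List (Fr Γ)) :
    frProd (L.map (Fr.conj g)) = g * frProd L * g⁻¹ := by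
  induction L with
  | nil => simp [frProd]
  | cons t L ih =>
    rw [List.map_cons, frProd_cons, ih, frProd_cons, Fr.val_conj]
    group

/-- **(I)** members of the normal closure are products of conjugates -/
theorem exists_list_of_mem (w : FreeGroup S) (hw : w ∈ Subgroup.normalClosure Γ.rels) :
    ∃ L : List (Fr Γ), frProd L = w := by
  let N : Subgroup (FreeGroup S) :=
    { carrier := {w | ∃ L : List (Fr Γ), frProd L = w}
      one_mem' := ⟨[], frProd_nil⟩
      mul_mem' := by
        rintro a b ⟨L, rfl⟩ ⟨M, rfl⟩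
        exact ⟨L ++ M, frProd_append L M⟩
      inv_mem' := by
        rintro a ⟨L, rfl⟩
        exact ⟨frInv L, frProd_frInv L⟩ }
  have hN : N.Normal := by
    refine ⟨fun n hn g => ?_⟩
    obtain ⟨L, rfl⟩ := hn
    exact ⟨L.map (Fr.conj g), frProd_conj g L⟩
  have hR : Γ.rels ⊆ N := by
    rintro r ⟨p, l, hl, rfl⟩
    refine ⟨[⟨1, p, l, hl⟩], ?_⟩
    simp [frProd, Fr.val]
  exact (Subgroup.normalClosure_le_normal hR) hw

variable {G : Type*} [Group G] (π : FreeGroup S →* G) (γ : Γ.P → G)

/-- the class of a conjugate -/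
noncomputable def Fr.cls (t : Fr Γ) : G →₀ (Γ.Ed →₀ ℤ) :=
  Finsupp.single (π t.u * (γ t.p)⁻¹) (Γ.chain t.l)

/-- the class of a list of conjugates -/
noncomputable def frCls (L : List (Fr Γ)) : G →₀ (Γ.Ed →₀ ℤ) := (L.map (Fr.cls π γ)).sum

theorem frCls_nil : frCls π γ [] = 0 := rfl

theorem frCls_cons (t : Fr Γ) (L : List (Fr Γ)) :
    frCls π γ (t :: L) = t.cls π γ + frCls π γ L := by
  simp [frCls]

theorem frCls_append (L M : List (Fr Γ)) :
    frCls π γ (L ++ M) = frCls π γ L + frCls π γ M := by
  simp [frCls]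

theorem Fr.cls_inv (t : Fr Γ) : t.inv.cls π γ = - t.cls π γ := by
  simp only [Fr.cls, Fr.inv, chain_wrev, Finsupp.single_neg]

theorem frCls_frInv (L : List (Fr Γ)) : frCls π γ (frInv L) = - frCls π γ L := by
  induction L with
  | nil => simp [frInv, frCls]
  | cons t L ih =>
    rw [frInv_cons, frCls_append, ih, frCls_cons, frCls_cons, frCls_nil, Fr.cls_inv]
    abel

/-- forget that the coefficients are cycles -/
noncomputable def incl (f : G →₀ Γ.Z1) : G →₀ (Γ.Ed →₀ ℤ) :=
  Finsupp.mapRange.addMonoidHom (Γ.Z1.subtype) f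

theorem incl_single (g : G) (z : Γ.Z1) :
    incl (Finsupp.single g z) = Finsupp.single g (z : Γ.Ed →₀ ℤ) := by
  simp [incl]

theorem incl_add (f g : G →₀ Γ.Z1) : incl (f + g) = incl f + incl g := by
  simp only [incl, map_add]

theorem incl_zero : incl (0 : G →₀ Γ.Z1) = 0 := by
  simp only [incl, map_zero]


/-- the second boundary on all chains -/
noncomputable def d2x : (G →₀ (Γ.Ed →₀ ℤ)) →+ (G →₀ (S →₀ ℤ)) :=
  Finsupp.liftAddHom fun g => d2' γ g

theorem d2x_single (g : G) (z : Γ.Ed →₀ ℤ) : d2x γ (Finsupp.single g z) = d2' γ g z := by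
  simp [d2x]

theorem d2x_incl (f : G →₀ Γ.Z1) : d2x γ (incl f) = d2 γ f := by
  induction f using Finsupp.induction_linear with
  | zero => rw [incl_zero, map_zero, map_zero]
  | add a b ha hb => rw [incl_add, map_add, map_add, ha, hb]
  | single g z => rw [incl_single, d2x_single, d2_single]

variable (hγ : ∀ e, γ (Γ.tgt e) = γ (Γ.src e) * π (FreeGroup.of (Γ.lab e)))

include hγ in
theorem pi_closed {p : Γ.P} {l : List (Γ.Ed × Bool)} (h : Γ.IsWalk p l p) :
    π (FreeGroup.mk (Γ.word l)) = 1 :=
  mul_eq_left.1 (D_walk π γ hγ l p p h).2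

include hγ in
theorem pi_val (t : Fr Γ) : π t.val = 1 := by
  simp only [Fr.val, map_mul, map_inv, pi_closed π γ hγ t.hl, mul_one, mul_inv_cancel]

include hγ in
theorem D_val (t : Fr Γ) : D π t.val = d2x γ (t.cls π γ) := by
  have h1 := (D_walk π γ hγ t.l t.p t.p t.hl).1
  have h2 : D π (FreeGroup.mk (Γ.word t.l)) =
      gact (S →₀ ℤ) (γ t.p)⁻¹ (d2' γ 1 (Γ.chain t.l)) := by
    rw [← h1, gact_inv_gact]
  have h3 := pi_closed π γ hγ t.hl
  rw [Fr.cls, d2x_single]
  have h4 : d2' γ (π t.u * (γ t.p)⁻¹) (Γ.chain t.l) =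
      gact (S →₀ ℤ) (π t.u * (γ t.p)⁻¹) (d2' γ 1 (Γ.chain t.l)) := by
    rw [← d2'_gact, mul_one]
  rw [h4, gact_mul, ← h2, Fr.val, D_mul, D_mul, D_inv, map_mul, h3, mul_one, map_neg,
    gact_gact_inv]
  abel

include hγ in
theorem D_frProd (L : List (Fr Γ)) : D π (frProd L) = d2x γ (frCls π γ L) ∧ π (frProd L) = 1 := by
  induction L with
  | nil => exact ⟨by rw [frProd_nil, D_one, frCls_nil, map_zero], by rw [frProd_nil, map_one]⟩
  | cons t L ih =>
    refine ⟨?_, by rw [frProd_cons, map_mul, pi_val π γ hγ, ih.2, one_mul]⟩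
    rw [frProd_cons, frCls_cons, D_mul, ih.1, D_val π γ hγ, pi_val π γ hγ, gact_one, map_add]

/-- every 2-chain is the class of a list -/
theorem exists_list_cls (hπ : Function.Surjective π) (f : G →₀ Γ.Z1) :
    ∃ L : List (Fr Γ), frCls π γ L = incl f := by
  induction f using Finsupp.induction_linear with
  | zero => exact ⟨[], by rw [frCls_nil, incl_zero]⟩
  | add a b ha hb =>
    obtain ⟨L, hL⟩ := ha
    obtain ⟨M, hM⟩ := hb
    exact ⟨L ++ M, by rw [frCls_append, hL, hM, incl_add]⟩
  | single g z =>
    obtain ⟨L, h1, h2⟩ := mem_Wsub_of_mem_Z1 (z : Γ.Ed →₀ ℤ) z.2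
    rw [incl_single, ← h2]
    clear h2
    induction L with
    | nil => exact ⟨[], by simp [frCls_nil]⟩
    | cons l L ih =>
      obtain ⟨M, hM⟩ := ih (fun m hm => h1 m (List.mem_cons_of_mem _ hm))
      obtain ⟨p, hp⟩ := h1 l (List.mem_cons_self ..)
      obtain ⟨u, hu⟩ := hπ (g * γ p)
      refine ⟨⟨u, p, l, hp⟩ :: M, ?_⟩
      rw [frCls_cons, hM, Fr.cls, hu, mul_inv_cancel_right, List.map_cons, List.sum_cons,
        Finsupp.single_add]

/-- classes of free identities -/
def Iden : AddSubgroup (G →₀ (Γ.Ed →₀ ℤ)) where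
  carrier := {c | ∃ L : List (Fr Γ), frProd L = 1 ∧ frCls π γ L = c}
  zero_mem' := ⟨[], frProd_nil, frCls_nil π γ⟩
  add_mem' := by
    rintro a b ⟨L, h1, rfl⟩ ⟨M, h3, rfl⟩
    exact ⟨L ++ M, by rw [frProd_append, h1, h3, mul_one], frCls_append π γ L M⟩
  neg_mem' := by
    rintro a ⟨L, h1, rfl⟩
    exact ⟨frInv L, by rw [frProd_frInv, h1, inv_one], frCls_frInv π γ L⟩

open Classical in
/-- the class of an element of the normal closure, modulo identities -/
noncomputable def Phi (w : FreeGroup S) : (G →₀ (Γ.Ed →₀ ℤ)) ⧸ Iden π γ :=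
  if h : ∃ L : List (Fr Γ), frProd L = w then QuotientAddGroup.mk (frCls π γ h.choose) else 0

theorem Phi_eq (L : List (Fr Γ)) :
    Phi π γ (frProd L) = (QuotientAddGroup.mk (frCls π γ L) : (G →₀ (Γ.Ed →₀ ℤ)) ⧸ Iden π γ) := by
  have h : ∃ M : List (Fr Γ), frProd M = frProd L := ⟨L, rfl⟩
  unfold Phi
  rw [dif_pos h]
  rw [QuotientAddGroup.eq]
  refine ⟨frInv h.choose ++ L, ?_, ?_⟩
  · rw [frProd_append, frProd_frInv, h.choose_spec, inv_mul_cancel]
  · rw [frCls_append, frCls_frInv]

theorem Phi_mul {a b : FreeGroup S} (ha : a ∈ Subgroup.normalClosure Γ.rels)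
    (hb : b ∈ Subgroup.normalClosure Γ.rels) :
    Phi π γ (a * b) = Phi π γ a + Phi π γ b := by
  obtain ⟨L, rfl⟩ := exists_list_of_mem a ha
  obtain ⟨M, rfl⟩ := exists_list_of_mem b hb
  rw [← frProd_append, Phi_eq, Phi_eq, Phi_eq, frCls_append]
  rfl

theorem Phi_one : Phi π γ 1 = 0 := by
  have := Phi_eq π γ []
  rw [frProd_nil, frCls_nil] at this
  exact this

theorem Phi_inv {a : FreeGroup S} (ha : a ∈ Subgroup.normalClosure Γ.rels) :
    Phi π γ a⁻¹ = - Phi π γ a := by
  have := Phi_mul π γ (Subgroup.inv_mem _ ha) ha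
  rw [inv_mul_cancel, Phi_one] at this
  exact eq_neg_of_add_eq_zero_left this.symm

include hγ in
/-- **(II)** every 2-cycle is the class of a free identity -/
theorem exists_identity_of_d2_eq_zero (hπ : Function.Surjective π)
    (hker : π.ker ≤ Subgroup.normalClosure Γ.rels) (f : G →₀ Γ.Z1) (hf : d2 γ f = 0) :
    ∃ L : List (Fr Γ), frProd L = 1 ∧ frCls π γ L = incl f := by
  classical
  obtain ⟨σ, hσ, hσ1⟩ : ∃ σ : G → FreeGroup S, (∀ g, π (σ g) = g) ∧ σ 1 = 1 := by
    choose σ hσ using hπ
    refine ⟨fun g => if g = 1 then 1 else σ g, ?_, by simp⟩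
    intro g
    by_cases h : g = 1
    · simp [h]
    · simp [h, hσ]
  let inst : AddCommGroup ((G →₀ (Γ.Ed →₀ ℤ)) ⧸ Iden π γ) :=
    QuotientAddGroup.Quotient.addCommGroup _
  let θ : (G →₀ (S →₀ ℤ)) →+ (G →₀ (Γ.Ed →₀ ℤ)) ⧸ Iden π γ :=
    Finsupp.liftAddHom fun g => Finsupp.liftAddHom fun s =>
      zmultiplesHom _ (Phi π γ (σ g * FreeGroup.of s * (σ (g * π (FreeGroup.of s)))⁻¹))
  have hθ : ∀ g s, θ (E g s 1) =
      Phi π γ (σ g * FreeGroup.of s * (σ (g * π (FreeGroup.of s)))⁻¹) := by
    intro g s
    show Finsupp.liftAddHom (fun g => Finsupp.liftAddHom fun s =>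
      zmultiplesHom _ (Phi π γ (σ g * FreeGroup.of s * (σ (g * π (FreeGroup.of s)))⁻¹)))
      (Finsupp.single g (Finsupp.single s (1 : ℤ))) = _
    rw [Finsupp.liftAddHom_apply_single, Finsupp.liftAddHom_apply_single, zmultiplesHom_apply,
      one_zsmul]
  have hmem : ∀ g w, σ g * w * (σ (g * π w))⁻¹ ∈ Subgroup.normalClosure Γ.rels := by
    intro g w
    apply hker
    rw [MonoidHom.mem_ker, map_mul, map_mul, map_inv, hσ, hσ, mul_inv_cancel]
  have key : ∀ w g, θ (gact (S →₀ ℤ) g (D π w)) = Phi π γ (σ g * w * (σ (g * π w))⁻¹) := by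
    intro w
    refine FreeGroup.induction_on w ?_ ?_ ?_ ?_
    · intro g
      rw [D_one, map_zero, map_zero, map_one, mul_one, mul_one, mul_inv_cancel, Phi_one]
    · intro s g
      rw [D_of, gact_E, mul_one, hθ]
    · intro s _ g
      rw [D_inv, D_of, map_neg, ← gact_mul, gact_E, mul_one, map_neg, hθ, inv_mul_cancel_right,
        ← Phi_inv]
      · rw [map_inv]
        congr 1
        group
      · have := hmem (g * (π (FreeGroup.of s))⁻¹) (FreeGroup.of s)
        rwa [inv_mul_cancel_right] at this
    · intro a b ha hb g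
      rw [D_mul, map_add, map_add, ha, ← gact_mul, hb, ← Phi_mul]
      · rw [map_mul, ← mul_assoc g]
        congr 1
        group
      · exact hmem _ _
      · exact hmem _ _
  obtain ⟨L, hL⟩ := exists_list_cls π γ hπ f
  obtain ⟨h1, h2⟩ := D_frProd π γ hγ L
  rw [hL, d2x_incl, hf] at h1
  have h3 := key (frProd L) 1
  rw [h1, map_zero, map_zero, h2, mul_one, hσ1, inv_one, one_mul, mul_one, Phi_eq] at h3
  obtain ⟨M, hM1, hM2⟩ := (QuotientAddGroup.eq_zero_iff _).1 h3.symm
  exact ⟨M, hM1, by rw [hM2, hL]⟩


end Crest.Agent.R177.GS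
end

-- ▼ part R177/GrpLam
section

/-!
# Row 177, group side: the labelled graphs of a folded graph

`gA A`: the folded graph as an `LG`; `lamA A`: its covering with nodes `Grp A × V`.
-/

set_option autoImplicit false
set_option linter.unusedSectionVars false

open scoped Classical

namespace Crest.Agent.R177.GS

open Crest.Agent.R199 (PAct)
open Crest.Agent.R199.Chase Crest.Agent.R199.Exact

variable {S V : Type}

/-- the homomorphism onto the group -/
abbrev piA (A : PAct S V) : FreeGroup S →* Grp A := PresentedGroup.mk (rels A)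

theorem gw_eq (A : PAct S V) (w : List (S × Bool)) : gw A w = piA A (FreeGroup.mk w) := rfl

theorem piA_surjective (A : PAct S V) : Function.Surjective (piA A) :=
  PresentedGroup.mk_surjective _

theorem gw_append (A : PAct S V) (u w : List (S × Bool)) :
    gw A (u ++ w) = gw A u * gw A w := by
  rw [gw_eq, gw_eq, gw_eq, ← map_mul, FreeGroup.mul_mk]

theorem gw_nil (A : PAct S V) : gw A [] = 1 := rfl

theorem gw_cons (A : PAct S V) (a : S × Bool) (w : List (S × Bool)) :
    gw A (a :: w) = gw A [a] * gw A w := by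
  rw [← gw_append]
  rfl

theorem gw_hinv (A : PAct S V) (a : S × Bool) : gw A [hinv a] = (gw A [a])⁻¹ := by
  rw [gw_eq, gw_eq, ← map_inv, FreeGroup.inv_mk]
  rfl

theorem piA_eq_one_iff (A : PAct S V) (w : FreeGroup S) :
    piA A w = 1 ↔ w ∈ Subgroup.normalClosure (rels A) := QuotientGroup.eq_one_iff w

theorem piA_ker (A : PAct S V) : (piA A).ker = Subgroup.normalClosure (rels A) := by
  ext w
  rw [MonoidHom.mem_ker, piA_eq_one_iff]

theorem gw_closed (A : PAct S V) {v : V} {w : List (S × Bool)} (h : A.read w v = some v) :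
    gw A w = 1 := by
  rw [gw_eq, piA_eq_one_iff]
  exact Subgroup.subset_normalClosure ⟨v, w, h, rfl⟩

theorem st_symm (A : PAct S V) {s : S} {b : Bool} {x y : V} (h : A.st (s, b) x = some y) :
    A.st (s, !b) y = some x := A.symm _ _ _ h

/-! ### the graph itself -/

/-- the labelled graph of a folded graph -/
abbrev gA (A : PAct S V) : LG S where
  P := V
  Ed := {e : V × S // (A.st (e.2, true) e.1).isSome}
  src e := e.1.1
  tgt e := (A.st (e.1.2, true) e.1.1).get e.2
  lab e := e.1.2

theorem gA_st (A : PAct S V) (d : (gA A).Ed × Bool) :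
    A.st ((gA A).lab d.1, d.2) ((gA A).ds d) = some ((gA A).dt d) := by
  obtain ⟨⟨⟨v, s⟩, h⟩, b⟩ := d
  have h0 : A.st (s, true) v = some ((A.st (s, true) v).get h) := (Option.some_get h).symm
  cases b with
  | true => exact h0
  | false => exact st_symm A h0

theorem gA_read (A : PAct S V) {l : List ((gA A).Ed × Bool)} : ∀ {p q : V},
    (gA A).IsWalk p l q → A.read ((gA A).word l) p = some q := by
  induction l with
  | nil =>
    intro p q h
    have : p = q := h
    subst this
    rfl
  | cons d l ih =>
    intro p q h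
    obtain ⟨h1, h2⟩ := h
    have h3 := gA_st A d
    subst h1
    show (A.st ((gA A).lab d.1, d.2) ((gA A).ds d)).bind (A.read ((gA A).word l)) = some q
    rw [h3]
    exact ih h2

theorem gA_exists (A : PAct S V) (a : S × Bool) {x y : V} (h : A.st a x = some y) :
    ∃ d : (gA A).Ed × Bool, ((gA A).lab d.1, d.2) = a ∧ (gA A).ds d = x ∧ (gA A).dt d = y := by
  obtain ⟨s, b⟩ := a
  cases b with
  | true =>
    refine ⟨(⟨(x, s), by rw [h]; rfl⟩, true), rfl, rfl, ?_⟩
    show (A.st (s, true) x).get _ = y
    simp only [h, Option.get_some]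
  | false =>
    have h1 : A.st (s, true) y = some x := st_symm A h
    refine ⟨(⟨(y, s), by rw [h1]; rfl⟩, false), rfl, ?_, rfl⟩
    show (A.st (s, true) y).get _ = x
    simp only [h1, Option.get_some]

theorem gA_lift (A : PAct S V) {w : List (S × Bool)} : ∀ {p q : V}, A.read w p = some q →
    ∃ l, (gA A).IsWalk p l q ∧ (gA A).word l = w := by
  induction w with
  | nil =>
    intro p q h
    exact ⟨[], Option.some.inj h, rfl⟩
  | cons a w ih =>
    intro p q h
    rw [PAct.read_cons] at h
    cases h1 : A.st a p with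
    | none => rw [h1] at h; simp at h
    | some z =>
      rw [h1] at h
      obtain ⟨l, h2, h3⟩ := ih (by simpa using h)
      obtain ⟨d, h4, h5, h6⟩ := gA_exists A a h1
      refine ⟨d :: l, ⟨h5, ?_⟩, ?_⟩
      · rw [h6]; exact h2
      · show ((gA A).lab d.1, d.2) :: (gA A).word l = _
        rw [h4, h3]

theorem gA_rels (A : PAct S V) : (gA A).rels = rels A := by
  ext r
  constructor
  · rintro ⟨p, l, hl, rfl⟩
    exact ⟨p, _, gA_read A hl, rfl⟩
  · rintro ⟨p, w, hw, rfl⟩
    obtain ⟨l, h1, h2⟩ := gA_lift A hw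
    exact ⟨p, l, h1, by rw [h2]⟩



/-! ### the developed graph -/

/-- the covering of the graph with nodes `Grp A × V` -/
abbrev lamA (A : PAct S V) : LG S where
  P := Grp A × V
  Ed := {e : Grp A × V × S // (A.st (e.2.2, true) e.2.1).isSome}
  src e := (e.1.1, e.1.2.1)
  tgt e := (e.1.1 * gw A [(e.1.2.2, true)], (A.st (e.1.2.2, true) e.1.2.1).get e.2)
  lab e := e.1.2.2

theorem lamA_st (A : PAct S V) (d : (lamA A).Ed × Bool) :
    A.st ((lamA A).lab d.1, d.2) ((lamA A).ds d).2 = some ((lamA A).dt d).2 ∧
      ((lamA A).dt d).1 = ((lamA A).ds d).1 * gw A [((lamA A).lab d.1, d.2)] := by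
  obtain ⟨⟨⟨p, v, s⟩, h⟩, b⟩ := d
  have h0 : A.st (s, true) v = some ((A.st (s, true) v).get h) := (Option.some_get h).symm
  cases b with
  | true => exact ⟨h0, rfl⟩
  | false =>
    refine ⟨st_symm A h0, ?_⟩
    show p = p * gw A [(s, true)] * gw A [(s, false)]
    have : gw A [(s, false)] = (gw A [(s, true)])⁻¹ := gw_hinv A (s, true)
    rw [this, mul_inv_cancel_right]

theorem lamA_read (A : PAct S V) {l : List ((lamA A).Ed × Bool)} : ∀ {p q : Grp A × V},
    (lamA A).IsWalk p l q → A.read ((lamA A).word l) p.2 = some q.2 ∧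
      q.1 = p.1 * gw A ((lamA A).word l) := by
  induction l with
  | nil =>
    intro p q h
    have : p = q := h
    subst this
    exact ⟨rfl, (mul_one _).symm⟩
  | cons d l ih =>
    intro p q h
    obtain ⟨h1, h2⟩ := h
    obtain ⟨h3, h4⟩ := lamA_st A d
    subst h1
    obtain ⟨h5, h6⟩ := ih h2
    constructor
    · show (A.st ((lamA A).lab d.1, d.2) ((lamA A).ds d).2).bind
        (A.read ((lamA A).word l)) = some q.2
      rw [h3]
      exact h5
    · rw [h6, h4, mul_assoc, ← gw_cons]
      rfl

theorem lamA_exists (A : PAct S V) (a : S × Bool) (g : Grp A) {x y : V}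
    (h : A.st a x = some y) :
    ∃ d : (lamA A).Ed × Bool, ((lamA A).lab d.1, d.2) = a ∧ (lamA A).ds d = (g, x) ∧
      (lamA A).dt d = (g * gw A [a], y) := by
  obtain ⟨s, b⟩ := a
  cases b with
  | true =>
    refine ⟨(⟨(g, x, s), by simp only [h, Option.isSome_some]⟩, true), rfl, rfl, ?_⟩
    show (g * gw A [(s, true)], (A.st (s, true) x).get _) = _
    simp only [h, Option.get_some]
  | false =>
    have h1 : A.st (s, true) y = some x := st_symm A h
    have h2 : gw A [(s, false)] = (gw A [(s, true)])⁻¹ := gw_hinv A (s, true)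
    refine ⟨(⟨(g * gw A [(s, false)], y, s), by simp only [h1, Option.isSome_some]⟩, false),
      rfl, ?_, rfl⟩
    show (g * gw A [(s, false)] * gw A [(s, true)], (A.st (s, true) y).get _) = (g, x)
    simp only [h1, Option.get_some, h2, inv_mul_cancel_right]

theorem lamA_lift (A : PAct S V) {w : List (S × Bool)} : ∀ (g : Grp A) {p q : V},
    A.read w p = some q →
    ∃ l, (lamA A).IsWalk (g, p) l (g * gw A w, q) ∧ (lamA A).word l = w := by
  induction w with
  | nil =>
    intro g p q h
    refine ⟨[], ?_, rfl⟩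
    show (g, p) = (g * gw A [], q)
    rw [gw_nil, mul_one, Option.some.inj h]
  | cons a w ih =>
    intro g p q h
    rw [PAct.read_cons] at h
    cases h1 : A.st a p with
    | none => rw [h1] at h; simp at h
    | some z =>
      rw [h1] at h
      obtain ⟨l, h2, h3⟩ := ih (g * gw A [a]) (p := z) (q := q) (by simpa using h)
      obtain ⟨d, h4, h5, h6⟩ := lamA_exists A a g h1
      refine ⟨d :: l, ⟨h5, ?_⟩, ?_⟩
      · rw [h6, gw_cons A a w, ← mul_assoc]; exact h2
      · show ((lamA A).lab d.1, d.2) :: (lamA A).word l = _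
        rw [h4, h3]

theorem lamA_rels (A : PAct S V) : (lamA A).rels = rels A := by
  ext r
  constructor
  · rintro ⟨p, l, hl, rfl⟩
    exact ⟨p.2, _, (lamA_read A hl).1, rfl⟩
  · rintro ⟨p, w, hw, rfl⟩
    obtain ⟨l, h1, h2⟩ := lamA_lift A 1 hw
    rw [gw_closed A hw, mul_one] at h1
    exact ⟨(1, p), l, h1, by rw [h2]⟩

end Crest.Agent.R177.GS
end

-- ▼ part R177/GrpChain
section

/-!
# Row 177, group side: chains
-/

set_option autoImplicit false
set_option linter.unusedSectionVars false

open scoped Classical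

namespace Crest.Agent.R177.GS

open Crest.Agent.R199 (PAct)
open Crest.Agent.R199.Chase Crest.Agent.R199.Exact

variable {S V : Type}

/-! ### `cbd` and `push` on singletons -/

theorem cbd_single (A : PAct S V) (p : Grp A) (v v' : V) (s : S) (n : ℤ)
    (h : A.st (s, true) v = some v') :
    cbd A (Finsupp.single (p, v, s) n) =
      Finsupp.single (p * gw A [(s, true)], v') n - Finsupp.single (p, v) n := by
  unfold cbd
  rw [Finsupp.liftAddHom_apply_single]
  simp only [h, AddMonoidHom.sub_apply, Finsupp.singleAddHom_apply]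

theorem push_single (A : PAct S V) (p : Grp A) (v : V) (s : S) (n : ℤ) :
    push A (Finsupp.single (p, v, s) n) = Finsupp.single (p, s) n := by
  unfold push
  rw [Finsupp.liftAddHom_apply_single, Finsupp.singleAddHom_apply]

/-! ### Part 1: `Aspherical` gives injectivity of `d2` -/










end Crest.Agent.R177.GS
end

-- ▼ part R177/GrpDiag
section

/-!
# Row 177, group side: chains of the developed graph, identities
-/

set_option autoImplicit false
set_option linter.unusedSectionVars false

open scoped Classical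

namespace Crest.Agent.R177.GS

open Crest.Agent.R199 (PAct)
open Crest.Agent.R199.Chase Crest.Agent.R199.Exact

variable {S V : Type}

/-- chains of the developed graph -/
noncomputable def kap (A : PAct S V) :
    (Grp A →₀ ((lamA A).Ed →₀ ℤ)) →+ ((Grp A × V × S) →₀ ℤ) :=
  Finsupp.liftAddHom fun g => Finsupp.liftAddHom fun e =>
    Finsupp.singleAddHom (g * e.1.1, e.1.2.1, e.1.2.2)

theorem kap_single (A : PAct S V) (g : Grp A) (e : (lamA A).Ed) (n : ℤ) :
    kap A (Finsupp.single g (Finsupp.single e n)) =
      Finsupp.single (g * e.1.1, e.1.2.1, e.1.2.2) n := by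
  unfold kap
  rw [Finsupp.liftAddHom_apply_single, Finsupp.liftAddHom_apply_single]
  rfl

theorem kap_chain (A : PAct S V) (g : Grp A) (l : List ((lamA A).Ed × Bool)) :
    ∀ (p : Grp A × V) (q : Grp A × V), (lamA A).IsWalk p l q →
      kap A (Finsupp.single g ((lamA A).chain l)) = pathCh A (g * p.1) p.2 ((lamA A).word l) := by
  induction l with
  | nil =>
    intro p q h
    rw [chain_nil, Finsupp.single_zero, map_zero]
    rfl
  | cons d l ih =>
    intro p q h
    obtain ⟨h1, h2⟩ := h
    have h3 := ih _ _ h2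
    obtain ⟨h4, h5⟩ := lamA_st A d
    subst h1
    rw [chain_cons, Finsupp.single_add, map_add, h3, kap_single]
    have hw : (lamA A).word (d :: l) = ((lamA A).lab d.1, d.2) :: (lamA A).word l := rfl
    rw [hw, pathCh]
    simp only [h4]
    rw [h5, ← mul_assoc]
    congr 1
    obtain ⟨e, b⟩ := d
    cases b with
    | true => rfl
    | false =>
      have h6 : ((lamA A).dt (e, false)) = (e.1.1, e.1.2.1) := rfl
      rw [h6] at h5
      simp only at h5
      show Finsupp.single (g * e.1.1, e.1.2.1, e.1.2.2) (-1) =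
        - Finsupp.single (g * ((lamA A).ds (e, false)).1 * gw A [((lamA A).lab e, false)],
          e.1.2.1, e.1.2.2) 1
      rw [mul_assoc, ← h5, Finsupp.single_neg]

/-- the triple of a conjugate over the graph -/
noncomputable def trG (A : PAct S V) (t : Fr (gA A)) : List (S × Bool) × V × List (S × Bool) :=
  (t.u.toWord, t.p, (gA A).word t.l)

/-- the triple of a conjugate over the developed graph -/
noncomputable def trL (A : PAct S V) (t : Fr (lamA A)) : List (S × Bool) × V × List (S × Bool) :=
  (t.u.toWord, t.p.2, (lamA A).word t.l)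

theorem prod_trG (A : PAct S V) (L : List (Fr (gA A))) :
    ((L.map (trG A)).map fun t => (FreeGroup.mk t.1 : FreeGroup S) * FreeGroup.mk t.2.2 *
      (FreeGroup.mk t.1)⁻¹).prod = frProd L := by
  rw [List.map_map, frProd]
  congr 2
  funext t
  simp only [Function.comp_apply, trG, FreeGroup.mk_toWord, Fr.val]

theorem prod_trL (A : PAct S V) (L : List (Fr (lamA A))) :
    ((L.map (trL A)).map fun t => (FreeGroup.mk t.1 : FreeGroup S) * FreeGroup.mk t.2.2 *
      (FreeGroup.mk t.1)⁻¹).prod = frProd L := by
  rw [List.map_map, frProd]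
  congr 2
  funext t
  simp only [Function.comp_apply, trL, FreeGroup.mk_toWord, Fr.val]

theorem sum_trL (A : PAct S V) (L : List (Fr (lamA A))) :
    ((L.map (trL A)).map fun t => pathCh A (gw A t.1) t.2.1 t.2.2).sum =
      kap A (frCls (piA A) (fun p : (lamA A).P => (p.1 : Grp A)) L) := by
  induction L with
  | nil => rw [frCls_nil, map_zero]; rfl
  | cons t L ih =>
    rw [frCls_cons, map_add, ← ih, List.map_cons, List.map_cons, List.sum_cons]
    congr 1
    rw [Fr.cls, kap_chain A _ t.l t.p t.p t.hl]
    show pathCh A (gw A t.u.toWord) t.p.2 _ = _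
    rw [gw_eq, FreeGroup.mk_toWord, inv_mul_cancel_right]
    rfl

/-- forget that the edges exist -/
noncomputable def embL (A : PAct S V) : ((lamA A).Ed →₀ ℤ) →+ ((Grp A × V × S) →₀ ℤ) :=
  Finsupp.liftAddHom fun e => Finsupp.singleAddHom e.1

theorem embL_single (A : PAct S V) (e : (lamA A).Ed) (n : ℤ) :
    embL A (Finsupp.single e n) = Finsupp.single e.1 n := by
  unfold embL
  rw [Finsupp.liftAddHom_apply_single]
  rfl

theorem exists_embL (A : PAct S V) (z : (Grp A × V × S) →₀ ℤ)
    (hz : ∀ e ∈ z.support, (A.st (e.2.2, true) e.2.1).isSome) :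
    ∃ z' : (lamA A).Ed →₀ ℤ, embL A z' = z := by
  have key : ∀ s : Finset (Grp A × V × S), (∀ e ∈ s, (A.st (e.2.2, true) e.2.1).isSome) →
      ∃ z' : (lamA A).Ed →₀ ℤ, embL A z' = ∑ e ∈ s, Finsupp.single e (z e) := by
    intro s
    induction s using Finset.induction_on with
    | empty => intro _; exact ⟨0, by rw [map_zero, Finset.sum_empty]⟩
    | insert a s ha ih =>
      intro h
      obtain ⟨y, hy⟩ := ih fun e he => h e (Finset.mem_insert_of_mem he)
      refine ⟨Finsupp.single (⟨a, h a (Finset.mem_insert_self ..)⟩ : (lamA A).Ed) (z a) + y, ?_⟩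
      rw [map_add, hy, embL_single, Finset.sum_insert ha]
  obtain ⟨z', hz'⟩ := key z.support hz
  refine ⟨z', ?_⟩
  rw [hz']
  exact Finsupp.sum_single z

theorem cbd_embL (A : PAct S V) (z : (lamA A).Ed →₀ ℤ) :
    cbd A (embL A z) = (lamA A).bdry z := by
  induction z using Finsupp.induction_linear with
  | zero => rw [map_zero, map_zero, map_zero]
  | add a b ha hb => rw [map_add, map_add, map_add, ha, hb]
  | single e n =>
    have h0 : A.st (e.1.2.2, true) e.1.2.1 = some ((A.st (e.1.2.2, true) e.1.2.1).get e.2) :=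
      (Option.some_get _).symm
    rw [embL_single, LG.bdry_single]
    exact cbd_single A e.1.1 e.1.2.1 _ e.1.2.2 n h0

theorem push_embL (A : PAct S V) (z : (lamA A).Ed →₀ ℤ) (g : Grp A) (s : S) :
    push A (embL A z) (g, s) =
      d2' (fun p : (lamA A).P => (p.1 : Grp A)) 1 z g s := by
  induction z using Finsupp.induction_linear with
  | zero => simp
  | add a b ha hb => rw [map_add, map_add, map_add, Finsupp.add_apply, ha, hb]; rfl
  | single e n =>
    obtain ⟨⟨p, v, s'⟩, he⟩ := e
    rw [embL_single, push_single, d2'_single, E, one_mul]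
    show (Finsupp.single (p, s') n) (g, s) = (Finsupp.single p (Finsupp.single s' n)) g s
    by_cases hg : p = g
    · rw [hg, Finsupp.single_eq_same]
      by_cases hs : s' = s
      · rw [hs, Finsupp.single_eq_same, Finsupp.single_eq_same]
      · rw [Finsupp.single_eq_of_ne (fun h => hs h.symm), Finsupp.single_eq_of_ne]
        intro h
        exact hs (congrArg Prod.snd h).symm
    · rw [Finsupp.single_eq_of_ne (fun h => hg h.symm), Finsupp.single_eq_of_ne]
      · rfl
      · intro h
        exact hg (congrArg Prod.fst h).symm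

theorem kap_single_one (A : PAct S V) (z : (lamA A).Ed →₀ ℤ) :
    kap A (Finsupp.single 1 z) = embL A z := by
  induction z using Finsupp.induction_linear with
  | zero => rw [Finsupp.single_zero, map_zero, map_zero]
  | add a b ha hb => rw [Finsupp.single_add, map_add, map_add, ha, hb]
  | single e n => rw [kap_single, embL_single, one_mul]

/-- **identities from cycles** -/
theorem exists_identity (A : PAct S V) (z : (Grp A × V × S) →₀ ℤ)
    (hz : ∀ e ∈ z.support, (A.st (e.2.2, true) e.2.1).isSome)
    (h1 : cbd A z = 0) (h2 : push A z = 0) :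
    ∃ L : List (List (S × Bool) × V × List (S × Bool)),
      (∀ t ∈ L, A.read t.2.2 t.2.1 = some t.2.1) ∧
      (L.map fun t => (FreeGroup.mk t.1 : FreeGroup S) * FreeGroup.mk t.2.2 *
        (FreeGroup.mk t.1)⁻¹).prod = 1 ∧
      (L.map fun t => pathCh A (gw A t.1) t.2.1 t.2.2).sum = z := by
  obtain ⟨z', rfl⟩ := exists_embL A z hz
  rw [cbd_embL] at h1
  let γ : (lamA A).P → Grp A := fun p => p.1
  have hγ : ∀ e, γ ((lamA A).tgt e) =
      γ ((lamA A).src e) * piA A (FreeGroup.of ((lamA A).lab e)) := fun e => rfl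
  obtain ⟨L, h3, h4⟩ := exists_identity_of_d2_eq_zero (piA A) γ hγ (piA_surjective A)
    (by rw [piA_ker, lamA_rels]) (Finsupp.single 1 ⟨z', h1⟩) (by
      rw [d2_single]
      ext g s
      rw [← push_embL, h2]
      rfl)
  refine ⟨L.map (trL A), ?_, ?_, ?_⟩
  · intro t ht
    obtain ⟨r, _, rfl⟩ := List.mem_map.1 ht
    exact (lamA_read A r.hl).1
  · rw [prod_trL, h3]
  · rw [sum_trL, h4, incl_single, kap_single_one]

/-- identities from relations -/
theorem exists_identity_word (A : PAct S V) (w : List (S × Bool))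
    (hw : FreeGroup.mk w ∈ Subgroup.normalClosure (rels A)) :
    ∃ L : List (List (S × Bool) × V × List (S × Bool)),
      (∀ t ∈ L, A.read t.2.2 t.2.1 = some t.2.1) ∧
      (FreeGroup.mk w : FreeGroup S) * (L.map fun t =>
        (FreeGroup.mk t.1 : FreeGroup S) * FreeGroup.mk t.2.2 * (FreeGroup.mk t.1)⁻¹).prod = 1 := by
  obtain ⟨L, hL⟩ := exists_list_of_mem (Γ := gA A) (FreeGroup.mk w)⁻¹
    (by rw [gA_rels]; exact Subgroup.inv_mem _ hw)
  refine ⟨L.map (trG A), ?_, ?_⟩
  · intro t ht
    obtain ⟨r, _, rfl⟩ := List.mem_map.1 ht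
    exact gA_read A r.hl
  · rw [prod_trG, hL, mul_inv_cancel]

end Crest.Agent.R177.GS
end

-- ▼ part R177/DiagChain
section

/-!
# Row 177: a cellular cycle with trivial image is carried by a reduced spherical diagram (helper595)
-/

set_option autoImplicit false

open scoped Classical

namespace Crest.Agent.R177

open Crest.Agent.R199 (PAct)
open GS

variable {S V : Type}

/-- DIAG2 (file DiagChain.lean): a cellular cycle with trivial image is carried by a reduced
spherical diagram. -/
theorem diag_of_chain (A : PAct S V) (z : (Grp A × V × S) →₀ ℤ)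
    (hz : ∀ e ∈ z.support, (A.st (e.2.2, true) e.2.1).isSome)
    (h1 : cbd A z = 0) (h2 : push A z = 0) :
    ∃ (X : Type) (_ : Fintype X) (D : Diag A X), D.Reduced ∧ (∀ x, ¬ D.out x) ∧ D.cls = z := by
  rcases isEmpty_or_nonempty V with hV | hV
  · have hX : IsEmpty Empty := inferInstance
    refine ⟨Empty, inferInstance,
      { φ := 1, α := 1, inv := fun x => x.elim, ne := fun x => x.elim,
        planar := fun a _ => ⟨fun _ => 0, fun _ => 0, fun x => x.elim, fun x => x.elim,
          fun x => x.elim⟩,
        lab := fun x => x.elim, pos := fun x => x.elim, out := fun x => x.elim,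
        node := fun x => x.elim, lab_α := fun x => x.elim, pos_φ := fun x => x.elim,
        pos_α := fun x => x.elim, out_φ := fun x => x.elim,
        node_step := fun x => x.elim }, ⟨fun x => x.elim, fun x => x.elim⟩, fun x => x.elim, ?_⟩
    ext e
    exact (hV.false e.2.1).elim
  obtain ⟨L, h3, h4, h5⟩ := exists_identity A z hz h1 h2
  obtain ⟨X, _, D, h6, h7⟩ := diag_of_identity A [] L h3 (by
    have : (FreeGroup.mk [] : FreeGroup S) = 1 := rfl
    rw [this, one_mul, h4])
  obtain ⟨X', i, D', h8, h9, h10⟩ := exists_reduced_diag [] (by simp) _ X D rfl h7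
  refine ⟨X', i, D', h8, ?_, by rw [h9, h6, h5]⟩
  intro x hx
  obtain ⟨e, _, he, _⟩ := h10
  obtain ⟨k, _⟩ := (he x).1 hx
  exact k.elim0

end Crest.Agent.R177
end

-- ▼ part R177/DiagWord
section

/-!
# Row 177: a cyclically reduced relation bounds a reduced diagram (helper595)
-/

set_option autoImplicit false

open scoped Classical

namespace Crest.Agent.R177

open Crest.Agent.R199 (PAct)
open GS

variable {S V : Type}

/-- DIAG1 (file DiagWord.lean): a cyclically reduced relation bounds a reduced diagram with one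
outer face. -/
theorem diag_of_word (A : PAct S V) (w : List (S × Bool)) (hne : w ≠ [])
    (hred : FreeGroup.IsReduced (w ++ w))
    (hw : FreeGroup.mk w ∈ Subgroup.normalClosure (rels A)) :
    ∃ (X : Type) (_ : Finite X) (_ : Nonempty X) (D : Diag A X), D.Reduced ∧
      Nat.card {x // D.out x} = w.length ∧
      ∀ x y, D.out x → D.out y → D.φ.SameCycle x y := by
  rcases isEmpty_or_nonempty V with hV | hV
  · exfalso
    have h1 : rels A = ∅ := by
      ext r
      simp only [Set.mem_empty_iff_false, iff_false]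
      rintro ⟨v, _⟩
      exact hV.false v
    rw [h1, Subgroup.normalClosure_empty, Subgroup.mem_bot] at hw
    have h2 : FreeGroup.reduce w = FreeGroup.reduce [] := FreeGroup.reduce.sound hw
    have h3 : FreeGroup.IsReduced w := hred.infix ⟨[], w, by simp⟩
    rw [h3.reduce_eq, FreeGroup.reduce_nil] at h2
    exact hne h2
  obtain ⟨L, h3, h4⟩ := exists_identity_word A w hw
  obtain ⟨X, _, D, h6, h7⟩ := diag_of_identity A w L h3 h4
  obtain ⟨X', i, D', h8, h9, h10⟩ := exists_reduced_diag w hred _ X D rfl h7
  obtain ⟨e, he, hout, hlab, hφ⟩ := h10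
  have hpos : 0 < w.length := List.length_pos_iff.2 hne
  refine ⟨X', inferInstance, ⟨e ⟨0, hpos⟩⟩, D', h8, ?_, ?_⟩
  · have e1 : {x // D'.out x} ≃ Fin w.length :=
      (Equiv.subtypeEquivRight hout).trans (Equiv.ofInjective e he).symm
    rw [Nat.card_congr e1, Nat.card_fin]
  · have key : ∀ (k : ℕ) (hk : k < w.length), D'.φ.SameCycle (e ⟨0, hpos⟩) (e ⟨k, hk⟩) := by
      intro k
      induction k with
      | zero => intro _; exact Equiv.Perm.SameCycle.refl _ _
      | succ k ih =>
        intro hk
        have h1 := ih (by omega)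
        have h2 := hφ ⟨k, by omega⟩ ⟨k + 1, hk⟩ (Or.inl rfl)
        rw [← h2]
        exact Equiv.Perm.sameCycle_apply_right.2 h1
    intro x y hx hy
    obtain ⟨a, rfl⟩ := (hout x).1 hx
    obtain ⟨b, rfl⟩ := (hout y).1 hy
    exact (key a.1 a.2).symm.trans (key b.1 b.2)

end Crest.Agent.R177
end

-- ▼ part R177/Asph

/-!
# Row 177: consequences of the isoperimetric inequality (helper595)
-/

set_option autoImplicit false

open scoped Classical

namespace Crest.Agent.R177

open Crest.Agent.R199 (PAct)
open GS

variable {S V : Type}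

/-- ASPH (file Asph.lean) -/
theorem aspherical_of_iso (A : PAct S V) (C : ℕ) (h : Iso A C) : Aspherical A := by
  intro z hz h1 h2
  obtain ⟨X, _, D, hD, ho, rfl⟩ := diag_of_chain A z hz h1 h2
  have h3 := h X D hD (fun x _ hx => absurd hx (ho x))
  have h4 : Nat.card {x // D.out x} = 0 := by
    have : IsEmpty {x // D.out x} := ⟨fun x => ho x.1 x.2⟩
    exact Nat.card_of_isEmpty
  rw [h4, mul_zero, Nat.le_zero, Nat.card_eq_zero] at h3
  have h5 : IsEmpty X := by
    rcases h3 with h3 | h3
    · exact ⟨fun x => h3.false ⟨x, ho x⟩⟩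
    · exact absurd (inferInstance : Finite {x // ¬ D.out x}) (not_finite_iff_infinite.2 h3)
  rw [Diag.cls, Finset.univ_eq_empty, Finset.sum_empty]

namespace GS

/-- the word read along `n` darts of a face -/
def fword {A : PAct S V} {X : Type} (D : Diag A X) (x : X) : ℕ → List (S × Bool)
  | 0 => []
  | n + 1 => fword D x n ++ [D.lab ((D.φ ^ n) x)]

theorem fword_length {A : PAct S V} {X : Type} (D : Diag A X) (x : X) (n : ℕ) :
    (fword D x n).length = n := by
  induction n with
  | zero => rfl
  | succ n ih => simp [fword, ih]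

theorem out_pow {A : PAct S V} {X : Type} (D : Diag A X) (x : X) (n : ℕ) :
    D.out ((D.φ ^ n) x) ↔ D.out x := by
  induction n with
  | zero => simp
  | succ n ih => rw [pow_succ', Equiv.Perm.mul_apply, D.out_φ, ih]

theorem fword_read {A : PAct S V} {X : Type} (D : Diag A X) (x : X) (hx : ¬ D.out x) (n : ℕ) :
    A.read (fword D x n) (D.node x) = some (D.node ((D.φ ^ n) x)) := by
  induction n with
  | zero => rfl
  | succ n ih =>
    rw [fword, PAct.read_append, ih]
    simp only [Option.bind_some, PAct.read_singleton]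
    rw [D.node_step _ (by rwa [out_pow]), pow_succ', Equiv.Perm.mul_apply]

theorem fword_reduced {A : PAct S V} {X : Type} (D : Diag A X) (hD : D.Reduced) (x : X) (n : ℕ) :
    FreeGroup.IsReduced (fword D x n) := by
  induction n with
  | zero => simp [fword]
  | succ n ih =>
    rw [fword]
    unfold FreeGroup.IsReduced at *
    rw [List.isChain_append]
    refine ⟨ih, by simp, ?_⟩
    intro c hc b hb hcb
    simp only [List.head?_cons, Option.mem_def, Option.some.injEq] at hb
    subst hb
    cases n with
    | zero => simp [fword] at hc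
    | succ n =>
      have hc' : c = D.lab ((D.φ ^ n) x) := by
        have h1 : (fword D x (n + 1)).getLast? = some (D.lab ((D.φ ^ n) x)) := by
          rw [fword, List.getLast?_concat]
        rw [Option.mem_def, h1] at hc
        exact (Option.some.inj hc).symm
      have h1 := hD.2 ((D.φ ^ n) x)
      rw [← Equiv.Perm.mul_apply, ← pow_succ', ← hc'] at h1
      by_contra hne
      apply h1
      refine Prod.ext hcb.symm ?_
      show _ = !c.2
      cases h2 : c.2 <;> cases h3 : (D.lab ((D.φ ^ (n + 1)) x)).2 <;> simp_all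

end GS

/-- SHORT (file Asph.lean) -/
theorem short_of_iso (A : PAct S V) (C n : ℕ) (h : Iso A C) (hg : Girth A (C * n + 1))
    (w : List (S × Bool)) (hw : w ≠ []) (hred : FreeGroup.IsReduced w) (hl : w.length ≤ n) :
    gw A w ≠ 1 := by
  intro h1
  -- cyclic reduction
  obtain ⟨w', hw', hred', hl', hmem⟩ : ∃ w' : List (S × Bool), w' ≠ [] ∧
      FreeGroup.IsReduced (w' ++ w') ∧ w'.length ≤ n ∧
      FreeGroup.mk w' ∈ Subgroup.normalClosure (rels A) := by
    have hc := FreeGroup.reduceCyclically.isCyclicallyReduced hred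
    have hj := FreeGroup.reduceCyclically.conj_conjugator_reduceCyclically w
    have hmk : (FreeGroup.mk w : FreeGroup S) = FreeGroup.mk (FreeGroup.reduceCyclically.conjugator w) *
        FreeGroup.mk (FreeGroup.reduceCyclically w) *
        (FreeGroup.mk (FreeGroup.reduceCyclically.conjugator w))⁻¹ := by
      conv_lhs => rw [← hj]
      rw [FreeGroup.inv_mk, FreeGroup.mul_mk, FreeGroup.mul_mk]
    refine ⟨FreeGroup.reduceCyclically w, ?_, ?_, ?_, ?_⟩
    · intro h0
      rw [h0] at hmk
      have h2 : (FreeGroup.mk w : FreeGroup S) = 1 := by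
        rw [hmk]
        have : (FreeGroup.mk [] : FreeGroup S) = 1 := rfl
        rw [this, mul_one, mul_inv_cancel]
      have h3 : FreeGroup.reduce w = FreeGroup.reduce [] := FreeGroup.reduce.sound h2
      rw [hred.reduce_eq, FreeGroup.reduce_nil] at h3
      exact hw h3
    · have := (hc.flatten_replicate 2).isReduced
      simpa [List.replicate_succ] using this
    · have := congrArg List.length hj
      simp only [List.length_append] at this
      omega
    · have h2 : FreeGroup.mk w ∈ Subgroup.normalClosure (rels A) := (piA_eq_one_iff A _).1 h1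
      have h3 := (Subgroup.normalClosure_normal (s := rels A)).conj_mem _ h2
        (FreeGroup.mk (FreeGroup.reduceCyclically.conjugator w))⁻¹
      rw [hmk] at h3
      convert h3 using 1
      group
  obtain ⟨X, _, _, D, hD, hcard, hcyc⟩ := diag_of_word A w' hw' hred' hmem
  have h3 := h X D hD hcyc
  rw [hcard] at h3
  -- no inner darts
  have hout : ∀ x, D.out x := by
    intro x
    by_contra hx
    obtain ⟨m, hm, hm1⟩ : ∃ m, 0 < m ∧ (D.φ ^ m) x = x ∧
        ∀ i j, i < m → j < m → (D.φ ^ i) x = (D.φ ^ j) x → i = j := by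
      refine ⟨Function.minimalPeriod D.φ x, ?_, ?_, ?_⟩
      · apply Function.minimalPeriod_pos_of_mem_periodicPts
        exact Function.Injective.mem_periodicPts D.φ.injective x
      · rw [Equiv.Perm.coe_pow]
        exact Function.iterate_minimalPeriod
      · intro i j hi hj hij
        rw [Equiv.Perm.coe_pow, Equiv.Perm.coe_pow] at hij
        exact Function.iterate_injOn_Iio_minimalPeriod hi hj hij
    obtain ⟨hm2, hm3⟩ := hm1
    have h4 : C * n + 1 ≤ m := by
      have := hg (D.node x) (fword D x m) (fword_reduced D hD x m) (by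
        intro h0
        have := fword_length D x m
        rw [h0] at this
        simp at this
        omega) (by rw [fword_read D x hx, hm2])
      rwa [fword_length] at this
    have h5 : m ≤ Nat.card {x // ¬ D.out x} := by
      let f : Fin m → {x // ¬ D.out x} := fun i => ⟨(D.φ ^ i.1) x, by rwa [out_pow]⟩
      have hf : Function.Injective f := by
        intro i j hij
        exact Fin.ext (hm3 i j i.2 j.2 (congrArg Subtype.val hij))
      have := Nat.card_le_card_of_injective f hf
      rwa [Nat.card_fin] at this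
    have h6 : C * w'.length ≤ C * n := Nat.mul_le_mul_left _ hl'
    omega
  have h7 := euler_faces D.toPMap (by
    intro x hx
    apply hD.2 (D.α x)
    have h8 : D.φ (D.α x) = x := hx
    rw [h8, ← D.lab_α, D.inv])
  have h9 : Nat.card D.toPMap.Face ≤ 1 := by
    rw [Finite.card_le_one_iff_subsingleton]
    refine ⟨fun a b => ?_⟩
    induction a using Quotient.inductionOn with
    | h a =>
      induction b using Quotient.inductionOn with
      | h b => exact Quotient.sound (hcyc a b (hout a) (hout b))
  omega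

end Crest.Agent.R177
private theorem rz_6c41e97eea : type_of% @_root_.Crest.Agent.R177.GS.fword.eq_def := @_root_.Crest.Agent.R177.GS.fword.eq_def -- L38
private theorem rz_385e42cff1 : type_of% @_root_.Crest.Agent.R177.GS.fword.eq_1 := @_root_.Crest.Agent.R177.GS.fword.eq_1 -- L38
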