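import Crest.Agent.R177.Defs

/-!
# Row 177 / 184: development of the nodes of a folded graph in the group (helper891)
-/

set_option autoImplicit false

open scoped Classical

namespace Crest.Agent.R177

open Crest.Agent.R199 (PAct)

namespace Dev

variable {S V : Type} (A : PAct S V)

theorem gw_append (u v : List (S × Bool)) : gw A (u ++ v) = gw A u * gw A v := by
  unfold gw
  rw [← FreeGroup.mul_mk, map_mul]

theorem gw_nil : gw A [] = 1 := by
  unfold gw
  rw [← FreeGroup.one_eq_mk, map_one]

theorem gw_cons (a : S × Bool) (v : List (S × Bool)) : gw A (a :: v) = gw A [a] * gw A v := by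
  rw [← gw_append]; rfl

theorem gw_invRev (u : List (S × Bool)) : gw A (FreeGroup.invRev u) = (gw A u)⁻¹ := by
  unfold gw
  rw [← FreeGroup.inv_mk, map_inv]

theorem gw_hinv (a : S × Bool) : gw A [hinv a] = (gw A [a])⁻¹ := by
  rw [← gw_invRev]; rfl

theorem read_append (u v : List (S × Bool)) (x y : V) (h : A.read u x = some y) :
    A.read (u ++ v) x = A.read v y := by
  induction u generalizing x with
  | nil => simp only [PAct.read] at h; rw [← Option.some_inj.1 h]; rfl
  | cons a u ih =>
    simp only [PAct.read, List.cons_append] at h ⊢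
    cases hx : A.st a x with
    | none => rw [hx] at h; simp at h
    | some z => rw [hx] at h; simp only [Option.bind_some] at h ⊢; exact ih z h

theorem read_single (a : S × Bool) (x : V) : A.read [a] x = A.st a x := by
  simp only [PAct.read]
  cases A.st a x <;> rfl


theorem read_invRev (u : List (S × Bool)) (x y : V) (h : A.read u x = some y) :
    A.read (FreeGroup.invRev u) y = some x := by
  induction u generalizing x with
  | nil =>
    simp only [PAct.read] at h
    rw [← Option.some_inj.1 h]; rfl
  | cons a u ih =>
    simp only [PAct.read] at h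
    cases hx : A.st a x with
    | none => rw [hx] at h; simp at h
    | some z =>
      rw [hx] at h; simp only [Option.bind_some] at h
      have h1 := ih z h
      have : FreeGroup.invRev (a :: u) = FreeGroup.invRev u ++ [hinv a] := by
        simp [FreeGroup.invRev, hinv]
      rw [this, read_append A _ _ _ _ h1, read_single]
      exact A.symm a x z hx

/-- closed words are trivial -/
theorem gw_closed (w : List (S × Bool)) (x : V) (h : A.read w x = some x) : gw A w = 1 := by
  exact PresentedGroup.one_of_mem ⟨x, w, h, rfl⟩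

/-- connectivity -/
def conn : Setoid V where
  r x y := ∃ w, A.read w x = some y
  iseqv :=
    ⟨fun x => ⟨[], rfl⟩, fun {x y} ⟨w, hw⟩ => ⟨_, read_invRev A w x y hw⟩,
      fun {x y z} ⟨u, hu⟩ ⟨v, hv⟩ => ⟨u ++ v, by rw [read_append A u v x y hu, hv]⟩⟩

/-- development with one prescribed base node -/
theorem exists_dev (o : V → Prop) (ho : ∀ x y, o x → o y → x = y) : ∃ γ : V → Grp A,
    (∀ a v v', A.st a v = some v' → γ v' = γ v * gw A [a]) ∧
    (∀ v w v', A.read w v = some v' → γ v' = γ v * gw A w) ∧
    (∀ x, o x → γ x = 1) := by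
  -- base points
  have hb : ∀ q : Quotient (conn A), ∃ b : V, Quotient.mk (conn A) b = q ∧
      ∀ x, o x → Quotient.mk (conn A) x = q → x = b := by
    intro q
    by_cases h : ∃ x, o x ∧ Quotient.mk (conn A) x = q
    · obtain ⟨x, hx, hq⟩ := h
      exact ⟨x, hq, fun y hy _ => ho _ _ hy hx⟩
    · obtain ⟨b, hb⟩ := Quotient.exists_rep q
      exact ⟨b, hb, fun x hx hq => absurd ⟨x, hx, hq⟩ h⟩
  choose b hb1 hb2 using hb
  have hw : ∀ v : V, ∃ w, A.read w (b (Quotient.mk (conn A) v)) = some v := fun v =>
    Quotient.exact (hb1 (Quotient.mk (conn A) v))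
  choose w hw using hw
  have key : ∀ v u v', A.read u v = some v' → gw A (w v') = gw A (w v) * gw A u := by
    intro v u v' h
    have hq : Quotient.mk (conn A) v = Quotient.mk (conn A) v' := Quotient.sound ⟨u, h⟩
    have h1 := hw v
    have h2 := hw v'
    rw [← hq] at h2
    have h3 : A.read (w v ++ (u ++ FreeGroup.invRev (w v'))) (b (Quotient.mk (conn A) v)) =
        some (b (Quotient.mk (conn A) v)) := by
      rw [read_append A _ _ _ _ h1, read_append A _ _ _ _ h, read_invRev A _ _ _ h2]
    have h4 := gw_closed A _ _ h3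
    rw [gw_append, gw_append, gw_invRev, ← mul_assoc] at h4
    exact (mul_inv_eq_one.1 h4).symm
  refine ⟨fun v => gw A (w v), fun a v v' h => key v [a] v' (by rw [read_single]; exact h), key,
    fun x hx => ?_⟩
  have h1 := hw x
  rw [← hb2 _ x hx rfl] at h1
  exact gw_closed A _ _ h1

/-- the edges labelled `s`, counted at their starts and at their ends -/
theorem sum_edges {V : Type} [Fintype V] (A : PAct S V) {M : Type*} [AddCommMonoid M]
    (γ : V → Grp A) (hγ : ∀ a v v', A.st a v = some v' → γ v' = γ v * gw A [a]) (s : S)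
    (F : Grp A → M) :
    (∑ v, if (A.st (s, true) v).isSome then F (γ v * gw A [(s, true)]) else 0) =
      ∑ v, if (A.st (s, false) v).isSome then F (γ v) else 0 := by
  rw [← Finset.sum_filter, ← Finset.sum_filter]
  refine Finset.sum_bij' (fun v _ => (A.st (s, true) v).getD v)
    (fun v _ => (A.st (s, false) v).getD v) ?_ ?_ ?_ ?_ ?_
  · intro v hv
    rw [Finset.mem_filter] at hv ⊢
    obtain ⟨x, hx⟩ := Option.isSome_iff_exists.1 hv.2
    have := A.symm _ _ _ hx
    simp only [hx, Option.getD_some]
    refine ⟨Finset.mem_univ _, ?_⟩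
    simp only [Bool.not_true] at this
    rw [this]; rfl
  · intro v hv
    rw [Finset.mem_filter] at hv ⊢
    obtain ⟨x, hx⟩ := Option.isSome_iff_exists.1 hv.2
    have := A.symm _ _ _ hx
    simp only [hx, Option.getD_some]
    refine ⟨Finset.mem_univ _, ?_⟩
    simp only [Bool.not_false] at this
    rw [this]; rfl
  · intro v hv
    rw [Finset.mem_filter] at hv
    obtain ⟨x, hx⟩ := Option.isSome_iff_exists.1 hv.2
    have := A.symm _ _ _ hx
    simp only [Bool.not_true] at this
    simp only [hx, Option.getD_some, this]
  · intro v hv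
    rw [Finset.mem_filter] at hv
    obtain ⟨x, hx⟩ := Option.isSome_iff_exists.1 hv.2
    have := A.symm _ _ _ hx
    simp only [Bool.not_false] at this
    simp only [hx, Option.getD_some, this]
  · intro v hv
    rw [Finset.mem_filter] at hv
    obtain ⟨x, hx⟩ := Option.isSome_iff_exists.1 hv.2
    simp only [hx, Option.getD_some]
    rw [hγ _ _ _ hx]

end Dev

end Crest.Agent.R177
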