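import Mathlib

-- ▼ part R177/HyperCut
section

/-!
# Greedy cut of a graph with a tree decomposition

`Y` is the edge set of a forest on the nodes `E` (edge `y` joins `s y` and `t y`), forest meaning
that no nonempty set of edges is even.  `S w` is a connected set of nodes for every `w`.
-/

set_option linter.unusedSectionVars false

namespace Crest.Agent.R177.Hyper

open Finset

variable {E X W : Type*} [DecidableEq E] [DecidableEq X] [DecidableEq W]

/-- No nonempty subset of `Y` is even. -/
def Acyc (s t : X → E) (Y : Finset X) : Prop :=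
  ∀ S ⊆ Y, S.Nonempty → ∃ e, Odd ((S.filter (fun y => s y = e)).card + (S.filter (fun y => t y = e)).card)

/-- `A` is connected through edges of `Y`. -/
def Conn (s t : X → E) (Y : Finset X) (A : Finset E) : Prop :=
  ∀ B ⊆ A, B.Nonempty → B ≠ A → ∃ y ∈ Y, (s y ∈ B ∧ t y ∈ A \ B) ∨ (t y ∈ B ∧ s y ∈ A \ B)

theorem Acyc.no_loop {s t : X → E} {Y : Finset X} (h : Acyc s t Y) {y : X} (hy : y ∈ Y) : s y ≠ t y := by
  intro hst
  obtain ⟨e, he⟩ := h {y} (by simpa using hy) (by simp)
  rw [Finset.filter_singleton, Finset.filter_singleton, hst] at he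
  by_cases h' : t y = e
  · simp [h'] at he
    exact absurd he (by decide)
  · simp [h'] at he

/-- A forest has a leaf in each nonempty node set. -/
theorem exists_leaf {s t : X → E} {Y : Finset X} (h : Acyc s t Y) (I : Finset E) (hI : I.Nonempty) :
    ∃ i ∈ I, (Y.filter (fun y => s y ∈ I ∧ t y ∈ I ∧ (s y = i ∨ t y = i))).card ≤ 1 := by
  by_contra hcon
  push Not at hcon
  set Z := Y.filter (fun y => s y ∈ I ∧ t y ∈ I) with hZ
  obtain ⟨i0, hi0⟩ := hI
  -- count
  have hsum : ∑ i ∈ I, (Y.filter (fun y => s y ∈ I ∧ t y ∈ I ∧ (s y = i ∨ t y = i))).card ≤ 2 * Z.card := by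
    have h1 : ∀ i ∈ I, (Y.filter (fun y => s y ∈ I ∧ t y ∈ I ∧ (s y = i ∨ t y = i))).card ≤
        (Z.filter (fun y => s y = i)).card + (Z.filter (fun y => t y = i)).card := by
      intro i _
      refine le_trans (Finset.card_le_card ?_) (Finset.card_union_le _ _)
      intro y hy
      simp only [Finset.mem_filter, hZ, Finset.mem_union] at hy ⊢
      rcases hy with ⟨a, b, c, d | d⟩
      · exact Or.inl ⟨⟨a, b, c⟩, d⟩
      · exact Or.inr ⟨⟨a, b, c⟩, d⟩
    refine (Finset.sum_le_sum h1).trans ?_
    rw [Finset.sum_add_distrib, two_mul]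
    refine add_le_add ?_ ?_
    · rw [Finset.card_eq_sum_card_fiberwise (f := s) (t := I)]
      intro y hy
      simp only [hZ, Finset.coe_filter, Set.mem_ofPred_eq] at hy
      exact hy.2.1
    · rw [Finset.card_eq_sum_card_fiberwise (f := t) (t := I)]
      intro y hy
      simp only [hZ, Finset.coe_filter, Set.mem_ofPred_eq] at hy
      exact hy.2.2
  have hlow : 2 * I.card ≤ ∑ i ∈ I, (Y.filter (fun y => s y ∈ I ∧ t y ∈ I ∧ (s y = i ∨ t y = i))).card := by
    rw [mul_comm, ← smul_eq_mul, ← Finset.sum_const]
    exact Finset.sum_le_sum (fun i hi => hcon i hi)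
  have hcard : I.card ≤ Z.card := by omega
  -- linear algebra
  let L : (Z → ZMod 2) →ₗ[ZMod 2] (↥(I.erase i0) → ZMod 2) :=
    { toFun := fun c i => ∑ y : Z, (if s y = i then c y else 0) + ∑ y : Z, (if t y = i then c y else 0)
      map_add' := by
        intro a b
        ext i
        simp only [Pi.add_apply, ← Finset.sum_add_distrib]
        refine Finset.sum_congr rfl (fun y _ => ?_)
        split_ifs <;> ring
      map_smul' := by
        intro r a
        ext i
        simp only [Pi.smul_apply, smul_eq_mul, RingHom.id_apply, mul_add, Finset.mul_sum, mul_ite, mul_zero] }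
  have hker : ∃ c : Z → ZMod 2, c ≠ 0 ∧ L c = 0 := by
    by_contra hno
    push Not at hno
    have hinj : Function.Injective L := by
      rw [← LinearMap.ker_eq_bot, LinearMap.ker_eq_bot']
      intro c hc
      by_contra hne
      exact hno c hne hc
    have := LinearMap.finrank_le_finrank_of_injective hinj
    rw [Module.finrank_fintype_fun_eq_card, Module.finrank_fintype_fun_eq_card, Fintype.card_coe,
      Fintype.card_coe, Finset.card_erase_of_mem hi0] at this
    have := Finset.card_pos.mpr ⟨i0, hi0⟩
    omega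
  obtain ⟨c, hc0, hLc⟩ := hker
  set S : Finset X := Y.filter (fun y => ∃ hy : y ∈ Z, c ⟨y, hy⟩ ≠ 0) with hS
  have hSY : S ⊆ Y := Finset.filter_subset _ _
  have hSne : S.Nonempty := by
    obtain ⟨y, hy⟩ := Function.ne_iff.mp hc0
    refine ⟨y.1, ?_⟩
    rw [hS, Finset.mem_filter]
    exact ⟨(Finset.mem_filter.mp y.2).1, y.2, hy⟩
  obtain ⟨e, he⟩ := h S hSY hSne
  -- every count is even
  have hcount : ∀ (r : X → E) (e : E), (((S.filter (fun y => r y = e)).card : ℕ) : ZMod 2) =
      ∑ y : Z, (if r y = e then c y else 0) := by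
    intro r e
    have hc1 : ∀ y : Z, c y = if c y ≠ 0 then 1 else 0 := by
      intro y
      have : ∀ z : ZMod 2, z = if z ≠ 0 then 1 else 0 := by decide
      exact this (c y)
    have h2 : (S.filter (fun y => r y = e)) =
        (Finset.univ.filter (fun y : Z => r y = e ∧ c y ≠ 0)).map (Function.Embedding.subtype _) := by
      ext y
      simp only [hS, Finset.mem_filter, Finset.mem_map, Finset.mem_univ, true_and,
        Function.Embedding.coe_subtype, Subtype.exists, exists_and_right, exists_eq_right]
      constructor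
      · rintro ⟨⟨_, hy, hcy⟩, hr⟩
        exact ⟨hy, hr, hcy⟩
      · rintro ⟨hy, hr, hcy⟩
        exact ⟨⟨(Finset.mem_filter.mp hy).1, hy, hcy⟩, hr⟩
    rw [h2, Finset.card_map, Finset.card_filter, Nat.cast_sum]
    refine Finset.sum_congr rfl (fun y _ => ?_)
    by_cases hr : r y = e
    · by_cases hcy : c y = 0
      · simp [hcy]
      · have := hc1 y
        simp only [ne_eq, hcy, not_false_eq_true, if_true] at this
        simp [hr, this]
    · simp [hr]
  have hval : ∀ e ∈ I, e ≠ i0 → (((S.filter (fun y => s y = e)).card : ℕ) : ZMod 2) +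
      (((S.filter (fun y => t y = e)).card : ℕ) : ZMod 2) = 0 := by
    intro e he hei
    have := congrFun hLc ⟨e, Finset.mem_erase.mpr ⟨hei, he⟩⟩
    rw [hcount, hcount]
    simpa [L] using this
  have hout : ∀ e, e ∉ I → (((S.filter (fun y => s y = e)).card : ℕ) : ZMod 2) +
      (((S.filter (fun y => t y = e)).card : ℕ) : ZMod 2) = 0 := by
    intro e he
    have h1 : S.filter (fun y => s y = e) = ∅ := by
      rw [Finset.filter_eq_empty_iff]
      intro y hy hye
      rw [hS, Finset.mem_filter] at hy
      obtain ⟨_, hz, _⟩ := hy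
      rw [hZ, Finset.mem_filter] at hz
      exact he (hye ▸ hz.2.1)
    have h2 : S.filter (fun y => t y = e) = ∅ := by
      rw [Finset.filter_eq_empty_iff]
      intro y hy hye
      rw [hS, Finset.mem_filter] at hy
      obtain ⟨_, hz, _⟩ := hy
      rw [hZ, Finset.mem_filter] at hz
      exact he (hye ▸ hz.2.2)
    rw [h1, h2]; simp
  have htot : ∑ e ∈ I, ((((S.filter (fun y => s y = e)).card : ℕ) : ZMod 2) +
      (((S.filter (fun y => t y = e)).card : ℕ) : ZMod 2)) = 0 := by
    rw [Finset.sum_add_distrib, ← Nat.cast_sum, ← Nat.cast_sum]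
    have hs : ∑ e ∈ I, (S.filter (fun y => s y = e)).card = S.card := by
      rw [Finset.card_eq_sum_card_fiberwise (f := s) (t := I)]
      intro y hy
      obtain ⟨_, hz, _⟩ := (Finset.mem_filter.mp hy)
      exact (Finset.mem_filter.mp hz).2.1
    have ht : ∑ e ∈ I, (S.filter (fun y => t y = e)).card = S.card := by
      rw [Finset.card_eq_sum_card_fiberwise (f := t) (t := I)]
      intro y hy
      obtain ⟨_, hz, _⟩ := (Finset.mem_filter.mp hy)
      exact (Finset.mem_filter.mp hz).2.2
    rw [hs, ht]
    have : ∀ z : ZMod 2, z + z = 0 := by decide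
    exact this _
  have hall : (((S.filter (fun y => s y = e)).card : ℕ) : ZMod 2) +
      (((S.filter (fun y => t y = e)).card : ℕ) : ZMod 2) = 0 := by
    by_cases heI : e ∈ I
    · by_cases hei : e = i0
      · subst hei
        rw [← Finset.add_sum_erase _ _ heI, Finset.sum_eq_zero, add_zero] at htot
        · exact htot
        · intro x hx
          exact hval x (Finset.mem_of_mem_erase hx) (Finset.ne_of_mem_erase hx)
      · exact hval e heI hei
    · exact hout e heI
  rw [← Nat.cast_add, ZMod.natCast_eq_zero_iff_even] at hall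
  exact (Nat.not_even_iff_odd.mpr he) hall

/-- A leaf of `I` with its unique neighbour, if any. -/
theorem exists_leaf' {s t : X → E} {Y : Finset X} (h : Acyc s t Y) (I : Finset E) (hI : I.Nonempty) :
    ∃ i ∈ I, (∀ y ∈ Y, s y ∈ I → t y ∈ I → s y ≠ i ∧ t y ≠ i) ∨
      ∃ j ∈ I, j ≠ i ∧ ∀ y ∈ Y, s y ∈ I → t y ∈ I → (s y = i → t y = j) ∧ (t y = i → s y = j) := by
  obtain ⟨i, hi, hcard⟩ := exists_leaf h I hI
  refine ⟨i, hi, ?_⟩
  by_cases hex : ∃ y ∈ Y, s y ∈ I ∧ t y ∈ I ∧ (s y = i ∨ t y = i)
  · right
    obtain ⟨y0, hy0, hs0, ht0, hi0⟩ := hex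
    have hne := h.no_loop hy0
    rw [Finset.card_le_one] at hcard
    have huniq : ∀ y ∈ Y, s y ∈ I → t y ∈ I → (s y = i ∨ t y = i) → y = y0 := by
      intro y hy hs ht hi'
      exact hcard y (Finset.mem_filter.mpr ⟨hy, hs, ht, hi'⟩) y0 (Finset.mem_filter.mpr ⟨hy0, hs0, ht0, hi0⟩)
    rcases hi0 with hsi | hti
    · refine ⟨t y0, ht0, ?_, ?_⟩
      · rw [← hsi]; exact hne.symm
      · intro y hy hs ht
        constructor
        · intro h1
          rw [huniq y hy hs ht (Or.inl h1)]
        · intro h1
          have := huniq y hy hs ht (Or.inr h1)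
          subst this
          exact absurd (hsi.trans h1.symm) hne
    · refine ⟨s y0, hs0, ?_, ?_⟩
      · rw [← hti]; exact hne
      · intro y hy hs ht
        constructor
        · intro h1
          have := huniq y hy hs ht (Or.inl h1)
          subst this
          exact absurd (h1.trans hti.symm) hne
        · intro h1
          rw [huniq y hy hs ht (Or.inr h1)]
  · left
    push Not at hex
    exact fun y hy hs ht => hex y hy hs ht

/-- Removing a leaf keeps connectedness. -/
theorem Conn.erase_leaf {s t : X → E} {Y : Finset X} {A I : Finset E} (hA : Conn s t Y A) (hAI : A ⊆ I)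
    {i j : E} (hji : j ≠ i)
    (hj : ∀ y ∈ Y, s y ∈ I → t y ∈ I → (s y = i → t y = j) ∧ (t y = i → s y = j)) :
    Conn s t Y (A.erase i) := by
  intro B hB hBne hBA
  by_cases hiA : i ∈ A
  swap
  · rw [Finset.erase_eq_of_notMem hiA] at hB hBA ⊢
    exact hA B hB hBne hBA
  have hiB : i ∉ B := fun hc => (Finset.mem_erase.mp (hB hc)).1 rfl
  by_cases hjB : j ∈ B
  · have hsub : insert i B ⊆ A := by
      intro z hz
      rcases Finset.mem_insert.mp hz with rfl | hz
      · exact hiA
      · exact Finset.mem_of_mem_erase (hB hz)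
    have hne : insert i B ≠ A := by
      intro hc
      apply hBA
      rw [← hc, Finset.erase_insert hiB]
    obtain ⟨y, hy, h1 | h1⟩ := hA (insert i B) hsub (Finset.insert_nonempty _ _) hne
    · refine ⟨y, hy, Or.inl ?_⟩
      obtain ⟨h1, h2⟩ := h1
      rw [Finset.mem_sdiff, Finset.mem_insert, not_or] at h2
      have hs : s y ≠ i := by
        intro hc
        have := (hj y hy (hAI (hsub h1)) (hAI h2.1)).1 hc
        exact h2.2.2 (this ▸ hjB)
      refine ⟨(Finset.mem_insert.mp h1).resolve_left hs, ?_⟩
      rw [Finset.mem_sdiff, Finset.mem_erase]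
      exact ⟨⟨h2.2.1, h2.1⟩, h2.2.2⟩
    · refine ⟨y, hy, Or.inr ?_⟩
      obtain ⟨h1, h2⟩ := h1
      rw [Finset.mem_sdiff, Finset.mem_insert, not_or] at h2
      have hs : t y ≠ i := by
        intro hc
        have := (hj y hy (hAI h2.1) (hAI (hsub h1))).2 hc
        exact h2.2.2 (this ▸ hjB)
      refine ⟨(Finset.mem_insert.mp h1).resolve_left hs, ?_⟩
      rw [Finset.mem_sdiff, Finset.mem_erase]
      exact ⟨⟨h2.2.1, h2.1⟩, h2.2.2⟩
  · have hsub : B ⊆ A := hB.trans (Finset.erase_subset _ _)
    have hne : B ≠ A := fun hc => hiB (hc ▸ hiA)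
    obtain ⟨y, hy, h1 | h1⟩ := hA B hsub hBne hne
    · refine ⟨y, hy, Or.inl ⟨h1.1, ?_⟩⟩
      obtain ⟨h1, h2⟩ := h1
      rw [Finset.mem_sdiff] at h2 ⊢
      refine ⟨Finset.mem_erase.mpr ⟨?_, h2.1⟩, h2.2⟩
      intro hc
      exact hjB (((hj y hy (hAI (hsub h1)) (hAI h2.1)).2 hc) ▸ h1)
    · refine ⟨y, hy, Or.inr ⟨h1.1, ?_⟩⟩
      obtain ⟨h1, h2⟩ := h1
      rw [Finset.mem_sdiff] at h2 ⊢
      refine ⟨Finset.mem_erase.mpr ⟨?_, h2.1⟩, h2.2⟩
      intro hc
      exact hjB (((hj y hy (hAI h2.1) (hAI (hsub h1))).1 hc) ▸ h1)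

/-- If a connected set contains the leaf `i` and is not `{i}` it contains the neighbour. -/
theorem Conn.mem_neighbour {s t : X → E} {Y : Finset X} {A I : Finset E} (hA : Conn s t Y A) (hAI : A ⊆ I)
    {i j : E} (hiA : i ∈ A) (hAi : A ≠ {i})
    (hj : ∀ y ∈ Y, s y ∈ I → t y ∈ I → (s y = i → t y = j) ∧ (t y = i → s y = j)) :
    j ∈ A := by
  obtain ⟨y, hy, h1 | h1⟩ := hA {i} (by simpa using hiA) (by simp) (fun hc => hAi hc.symm)
  · obtain ⟨h1, h2⟩ := h1
    rw [Finset.mem_singleton] at h1
    rw [Finset.mem_sdiff] at h2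
    rw [← (hj y hy (hAI (h1 ▸ hiA)) (hAI h2.1)).1 h1]
    exact h2.1
  · obtain ⟨h1, h2⟩ := h1
    rw [Finset.mem_singleton] at h1
    rw [Finset.mem_sdiff] at h2
    rw [← (hj y hy (hAI h2.1) (hAI (h1 ▸ hiA))).2 h1]
    exact h2.1

theorem Conn.eq_singleton {s t : X → E} {Y : Finset X} {A I : Finset E} (hA : Conn s t Y A) (hAI : A ⊆ I)
    {i : E} (hiA : i ∈ A) (hno : ∀ y ∈ Y, s y ∈ I → t y ∈ I → s y ≠ i ∧ t y ≠ i) : A = {i} := by
  by_contra hAi
  obtain ⟨y, hy, h1 | h1⟩ := hA {i} (by simpa using hiA) (by simp) (fun hc => hAi hc.symm)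
  · obtain ⟨h1, h2⟩ := h1
    rw [Finset.mem_singleton] at h1
    rw [Finset.mem_sdiff] at h2
    exact (hno y hy (hAI (h1 ▸ hiA)) (hAI h2.1)).1 h1
  · obtain ⟨h1, h2⟩ := h1
    rw [Finset.mem_singleton] at h1
    rw [Finset.mem_sdiff] at h2
    exact (hno y hy (hAI h2.1) (hAI (h1 ▸ hiA))).2 h1

/-- The conclusion of the cutting lemma for the vertex set `V`. -/
def Cut (S : W → Finset E) (b K : ℕ) (V : Finset W) : Prop :=
  ∃ (R : Finset W) (g : W → ℕ), R ⊆ V ∧ K * R.card ≤ b * V.card ∧
     (∀ w ∈ V \ R, ∀ w' ∈ V \ R, (∃ i, i ∈ S w ∧ i ∈ S w') → g w = g w') ∧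
     ∀ n, ((V \ R).filter (fun w => g w = n)).card ≤ 2 * K + b

theorem Cut.finalize {S : W → Finset E} {b K : ℕ} {V C R0 : Finset W} (hCV : C ⊆ V) (hRV : R0 ⊆ V)
    (hC : C.card ≤ 2 * K + b) (hcost : K * R0.card ≤ b * C.card)
    (hadj : ∀ w ∈ C \ R0, ∀ w' ∈ V \ (C ∪ R0), ¬ ∃ i, i ∈ S w ∧ i ∈ S w')
    (h : Cut S b K (V \ (C ∪ R0))) : Cut S b K V := by
  obtain ⟨R, g, hR, hcost', hg, hsz⟩ := h
  obtain ⟨n0, hn0⟩ := Infinite.exists_notMem_finset ((V \ (C ∪ R0)).image g)
  have hn0' : ∀ w ∈ V \ (C ∪ R0), g w ≠ n0 := by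
    intro w hw hc
    exact hn0 (Finset.mem_image.mpr ⟨w, hw, hc⟩)
  refine ⟨R0 ∪ R, fun w => if w ∈ C then n0 else g w, ?_, ?_, ?_, ?_⟩
  · exact Finset.union_subset hRV (hR.trans Finset.sdiff_subset)
  · have h1 : (R0 ∪ R).card ≤ R0.card + R.card := Finset.card_union_le _ _
    have h2 : (V \ (C ∪ R0)).card + C.card ≤ V.card := by
      rw [← Finset.card_union_of_disjoint]
      · apply Finset.card_le_card
        exact Finset.union_subset Finset.sdiff_subset hCV
      · rw [Finset.disjoint_left]
        intro a ha hc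
        exact (Finset.mem_sdiff.mp ha).2 (Finset.mem_union_left _ hc)
    calc K * (R0 ∪ R).card ≤ K * (R0.card + R.card) := Nat.mul_le_mul_left _ h1
      _ = K * R0.card + K * R.card := by ring
      _ ≤ b * C.card + b * (V \ (C ∪ R0)).card := add_le_add hcost hcost'
      _ = b * ((V \ (C ∪ R0)).card + C.card) := by ring
      _ ≤ b * V.card := Nat.mul_le_mul_left _ h2
  · intro w hw w' hw' hi
    have key : ∀ w ∈ V \ (R0 ∪ R), w ∉ C → w ∈ (V \ (C ∪ R0)) \ R := by
      intro w hw hwC
      simp only [Finset.mem_sdiff, Finset.mem_union, not_or] at hw ⊢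
      tauto
    have key2 : ∀ w ∈ V \ (R0 ∪ R), w ∈ C → w ∈ C \ R0 := by
      intro w hw hwC
      simp only [Finset.mem_sdiff, Finset.mem_union, not_or] at hw ⊢
      tauto
    by_cases hwC : w ∈ C
    · by_cases hwC' : w' ∈ C
      · simp [hwC, hwC']
      · exact absurd hi (hadj w (key2 w hw hwC) w' (Finset.mem_sdiff.mp (key w' hw' hwC')).1)
    · by_cases hwC' : w' ∈ C
      · refine absurd ?_ (hadj w' (key2 w' hw' hwC') w (Finset.mem_sdiff.mp (key w hw hwC)).1)
        obtain ⟨i, h1, h2⟩ := hi
        exact ⟨i, h2, h1⟩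
      · simp only [hwC, hwC', if_false]
        exact hg w (key w hw hwC) w' (key w' hw' hwC') hi
  · intro n
    by_cases hn : n = n0
    · refine le_trans (Finset.card_le_card ?_) hC
      intro w hw
      rw [Finset.mem_filter] at hw
      by_contra hwC
      simp only [hwC, if_false] at hw
      apply hn0' w _ (hw.2.trans hn)
      have := hw.1
      simp only [Finset.mem_sdiff, Finset.mem_union, not_or] at this ⊢
      tauto
    · refine le_trans (Finset.card_le_card ?_) (hsz n)
      intro w hw
      rw [Finset.mem_filter] at hw ⊢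
      by_cases hwC : w ∈ C
      · simp only [hwC, if_true] at hw
        exact absurd hw.2.symm hn
      · simp only [hwC, if_false] at hw
        refine ⟨?_, hw.2⟩
        have := hw.1
        simp only [Finset.mem_sdiff, Finset.mem_union, not_or] at this ⊢
        tauto

theorem treedec_cut_aux {s t : X → E} {Y : Finset X} (h : Acyc s t Y) (b K : ℕ) :
    ∀ (n : ℕ) (I : Finset E) (Big Small : Finset W) (S : W → Finset E), I.card = n →
    (∀ w ∈ Big, (S w).Nonempty ∧ S w ⊆ I ∧ Conn s t Y (S w)) →
    (∀ w ∈ Small, ∃ i ∈ I, S w = {i}) →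
    (∀ i ∈ I, (Big.filter (fun w => i ∈ S w)).card ≤ b) →
    (∀ i ∈ I, (Small.filter (fun w => i ∈ S w)).card ≤ K) →
    Cut S b K (Big ∪ Small) := by
  intro n
  induction n with
  | zero =>
    intro I Big Small S hI hBig hSmall _ _
    rw [Finset.card_eq_zero] at hI
    subst hI
    have h1 : Big = ∅ := by
      rw [Finset.eq_empty_iff_forall_notMem]
      intro w hw
      obtain ⟨a, ha⟩ := (hBig w hw).1
      exact absurd ((hBig w hw).2.1 ha) (Finset.notMem_empty _)
    have h2 : Small = ∅ := by
      rw [Finset.eq_empty_iff_forall_notMem]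
      intro w hw
      obtain ⟨i, hi, _⟩ := hSmall w hw
      exact absurd hi (Finset.notMem_empty _)
    subst h1 h2
    refine ⟨∅, fun _ => 0, by simp, by simp, by simp, by simp⟩
  | succ n ih =>
    intro I Big Small S hI hBig hSmall hb hK
    have hIne : I.Nonempty := by
      rw [← Finset.card_pos]; omega
    obtain ⟨i, hi, hcase⟩ := exists_leaf' h I hIne
    have hIcard : (I.erase i).card = n := by
      rw [Finset.card_erase_of_mem hi]; omega
    -- the vertices living at `i` only
    set A := (Big ∪ Small).filter (fun w => S w = {i}) with hA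
    have hAcard : A.card ≤ K + b := by
      have : A ⊆ (Small.filter (fun w => i ∈ S w)) ∪ (Big.filter (fun w => i ∈ S w)) := by
        intro w hw
        simp only [hA, Finset.mem_filter, Finset.mem_union] at hw ⊢
        rcases hw with ⟨h1 | h1, h2⟩
        · right; exact ⟨h1, by rw [h2]; simp⟩
        · left; exact ⟨h1, by rw [h2]; simp⟩
      refine (Finset.card_le_card this).trans ((Finset.card_union_le _ _).trans ?_)
      exact add_le_add (hK i hi) (hb i hi)
    have hSmall_i : ∀ w ∈ Small, i ∈ S w → w ∈ A := by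
      intro w hw hiw
      obtain ⟨i', _, hi'⟩ := hSmall w hw
      rw [hi', Finset.mem_singleton] at hiw
      subst hiw
      exact Finset.mem_filter.mpr ⟨Finset.mem_union_right _ hw, hi'⟩
    rcases hcase with hno | ⟨j, hjI, hji, hj⟩
    · -- isolated node: finalize `A`
      have hBig_i : ∀ w ∈ Big, i ∈ S w → w ∈ A := by
        intro w hw hiw
        have := (hBig w hw).2.2.eq_singleton (hBig w hw).2.1 hiw hno
        exact Finset.mem_filter.mpr ⟨Finset.mem_union_left _ hw, this⟩
      refine Cut.finalize (C := A) (R0 := ∅) (Finset.filter_subset _ _) (by simp) (by omega) (by simp) ?_ ?_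
      · rintro w hw w' hw' ⟨i', h1, h2⟩
        rw [Finset.sdiff_empty, hA, Finset.mem_filter] at hw
        rw [hw.2, Finset.mem_singleton] at h1
        subst h1
        rw [Finset.union_empty, Finset.mem_sdiff, Finset.mem_union] at hw'
        rcases hw'.1 with h3 | h3
        · exact hw'.2 (hBig_i w' h3 h2)
        · exact hw'.2 (hSmall_i w' h3 h2)
      · have : (Big ∪ Small) \ (A ∪ ∅) = (Big \ A) ∪ (Small \ A) := by
          rw [Finset.union_empty, Finset.union_sdiff_distrib]
        rw [this]
        refine ih (I.erase i) (Big \ A) (Small \ A) S hIcard ?_ ?_ ?_ ?_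
        · intro w hw
          rw [Finset.mem_sdiff] at hw
          refine ⟨(hBig w hw.1).1, ?_, (hBig w hw.1).2.2⟩
          intro z hz
          refine Finset.mem_erase.mpr ⟨?_, (hBig w hw.1).2.1 hz⟩
          rintro rfl
          exact hw.2 (hBig_i w hw.1 hz)
        · intro w hw
          rw [Finset.mem_sdiff] at hw
          obtain ⟨i', h1, h2⟩ := hSmall w hw.1
          refine ⟨i', Finset.mem_erase.mpr ⟨?_, h1⟩, h2⟩
          rintro rfl
          exact hw.2 (hSmall_i w hw.1 (by rw [h2]; simp))
        · intro i' hi'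
          refine (Finset.card_le_card ?_).trans (hb i' (Finset.mem_of_mem_erase hi'))
          exact Finset.filter_subset_filter _ Finset.sdiff_subset
        · intro i' hi'
          refine (Finset.card_le_card ?_).trans (hK i' (Finset.mem_of_mem_erase hi'))
          exact Finset.filter_subset_filter _ Finset.sdiff_subset
    · have hBig_j : ∀ w ∈ Big, i ∈ S w → w ∉ A → j ∈ S w := by
        intro w hw hiw hwA
        refine (hBig w hw).2.2.mem_neighbour (hBig w hw).2.1 hiw ?_ hj
        intro hc
        exact hwA (Finset.mem_filter.mpr ⟨Finset.mem_union_left _ hw, hc⟩)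
      by_cases hAK : K < A.card
      · -- cut at `i`
        set B := Big.filter (fun w => i ∈ S w) with hB
        refine Cut.finalize (C := A) (R0 := B) (Finset.filter_subset _ _)
          ((Finset.filter_subset _ _).trans Finset.subset_union_left) (by omega) ?_ ?_ ?_
        · calc K * B.card ≤ K * b := Nat.mul_le_mul_left _ (hb i hi)
            _ = b * K := mul_comm _ _
            _ ≤ b * A.card := Nat.mul_le_mul_left _ hAK.le
        · rintro w hw w' hw' ⟨i', h1, h2⟩
          rw [Finset.mem_sdiff, hA, Finset.mem_filter] at hw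
          rw [hw.1.2, Finset.mem_singleton] at h1
          subst h1
          rw [Finset.mem_sdiff, Finset.mem_union, Finset.mem_union, not_or] at hw'
          rcases hw'.1 with h3 | h3
          · exact hw'.2.2 (Finset.mem_filter.mpr ⟨h3, h2⟩)
          · exact hw'.2.1 (hSmall_i w' h3 h2)
        · have : (Big ∪ Small) \ (A ∪ B) = (Big \ (A ∪ B)) ∪ (Small \ (A ∪ B)) := by
            rw [Finset.union_sdiff_distrib]
          rw [this]
          refine ih (I.erase i) _ _ S hIcard ?_ ?_ ?_ ?_
          · intro w hw
            rw [Finset.mem_sdiff, Finset.mem_union, not_or] at hw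
            refine ⟨(hBig w hw.1).1, ?_, (hBig w hw.1).2.2⟩
            intro z hz
            refine Finset.mem_erase.mpr ⟨?_, (hBig w hw.1).2.1 hz⟩
            rintro rfl
            exact hw.2.2 (Finset.mem_filter.mpr ⟨hw.1, hz⟩)
          · intro w hw
            rw [Finset.mem_sdiff, Finset.mem_union, not_or] at hw
            obtain ⟨i', h1, h2⟩ := hSmall w hw.1
            refine ⟨i', Finset.mem_erase.mpr ⟨?_, h1⟩, h2⟩
            rintro rfl
            exact hw.2.1 (hSmall_i w hw.1 (by rw [h2]; simp))
          · intro i' hi'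
            refine (Finset.card_le_card ?_).trans (hb i' (Finset.mem_of_mem_erase hi'))
            exact Finset.filter_subset_filter _ Finset.sdiff_subset
          · intro i' hi'
            refine (Finset.card_le_card ?_).trans (hK i' (Finset.mem_of_mem_erase hi'))
            exact Finset.filter_subset_filter _ Finset.sdiff_subset
      · push Not at hAK
        set C := A ∪ Small.filter (fun w => j ∈ S w) with hC
        have hCcard : C.card ≤ 2 * K := by
          refine (Finset.card_union_le _ _).trans ?_
          have := hK j hjI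
          omega
        have hSmall_j : ∀ w ∈ Small, j ∈ S w → S w = {j} := by
          intro w hw hiw
          obtain ⟨i', _, hi'⟩ := hSmall w hw
          rw [hi', Finset.mem_singleton] at hiw
          subst hiw
          exact hi'
        by_cases hCK : K < C.card
        · -- cut at `j`
          set B := Big.filter (fun w => j ∈ S w) with hB
          refine Cut.finalize (C := C) (R0 := B) ?_
            ((Finset.filter_subset _ _).trans Finset.subset_union_left) (by omega) ?_ ?_ ?_
          · refine Finset.union_subset (Finset.filter_subset _ _) ?_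
            exact (Finset.filter_subset _ _).trans Finset.subset_union_right
          · calc K * B.card ≤ K * b := Nat.mul_le_mul_left _ (hb j hjI)
              _ = b * K := mul_comm _ _
              _ ≤ b * C.card := Nat.mul_le_mul_left _ hCK.le
          · rintro w hw w' hw' ⟨i', h1, h2⟩
            rw [Finset.mem_sdiff, hC, Finset.mem_union] at hw
            rw [Finset.mem_sdiff, Finset.mem_union, Finset.mem_union, not_or] at hw'
            have hw'A : w' ∉ A := fun hc => hw'.2.1 (Finset.mem_union_left _ hc)
            have hw's : w' ∉ Small.filter (fun w => j ∈ S w) := fun hc => hw'.2.1 (Finset.mem_union_right _ hc)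
            rcases hw.1 with h3 | h3
            · rw [hA, Finset.mem_filter] at h3
              rw [h3.2, Finset.mem_singleton] at h1
              subst h1
              rcases hw'.1 with h4 | h4
              · exact hw'.2.2 (Finset.mem_filter.mpr ⟨h4, hBig_j w' h4 h2 hw'A⟩)
              · exact hw'A (hSmall_i w' h4 h2)
            · rw [Finset.mem_filter] at h3
              rw [hSmall_j w h3.1 h3.2, Finset.mem_singleton] at h1
              subst h1
              rcases hw'.1 with h4 | h4
              · exact hw'.2.2 (Finset.mem_filter.mpr ⟨h4, h2⟩)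
              · exact hw's (Finset.mem_filter.mpr ⟨h4, h2⟩)
          · have : (Big ∪ Small) \ (C ∪ B) = (Big \ (C ∪ B)) ∪ (Small \ (C ∪ B)) := by
              rw [Finset.union_sdiff_distrib]
            rw [this]
            refine ih (I.erase i) _ _ S hIcard ?_ ?_ ?_ ?_
            · intro w hw
              rw [Finset.mem_sdiff, Finset.mem_union, not_or] at hw
              refine ⟨(hBig w hw.1).1, ?_, (hBig w hw.1).2.2⟩
              intro z hz
              refine Finset.mem_erase.mpr ⟨?_, (hBig w hw.1).2.1 hz⟩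
              rintro rfl
              by_cases hwA : w ∈ A
              · exact hw.2.1 (Finset.mem_union_left _ hwA)
              · exact hw.2.2 (Finset.mem_filter.mpr ⟨hw.1, hBig_j w hw.1 hz hwA⟩)
            · intro w hw
              rw [Finset.mem_sdiff, Finset.mem_union, not_or] at hw
              obtain ⟨i', h1, h2⟩ := hSmall w hw.1
              refine ⟨i', Finset.mem_erase.mpr ⟨?_, h1⟩, h2⟩
              rintro rfl
              exact hw.2.1 (Finset.mem_union_left _ (hSmall_i w hw.1 (by rw [h2]; simp)))
            · intro i' hi'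
              refine (Finset.card_le_card ?_).trans (hb i' (Finset.mem_of_mem_erase hi'))
              exact Finset.filter_subset_filter _ Finset.sdiff_subset
            · intro i' hi'
              refine (Finset.card_le_card ?_).trans (hK i' (Finset.mem_of_mem_erase hi'))
              exact Finset.filter_subset_filter _ Finset.sdiff_subset
        · -- merge `i` into `j`
          push Not at hCK
          set S' : W → Finset E := fun w => if S w = {i} then {j} else (S w).erase i with hS'
          have hWeq : Big ∪ Small = (Big \ A) ∪ (Small ∪ A) := by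
            ext w
            simp only [Finset.mem_union, Finset.mem_sdiff, hA, Finset.mem_filter]
            tauto
          have hnotA : ∀ w ∈ Big, w ∉ A → S w ≠ {i} := by
            intro w hw hwA hc
            exact hwA (Finset.mem_filter.mpr ⟨Finset.mem_union_left _ hw, hc⟩)
          have hrec : Cut S' b K ((Big \ A) ∪ (Small ∪ A)) := by
            refine ih (I.erase i) _ _ S' hIcard ?_ ?_ ?_ ?_
            · intro w hw
              rw [Finset.mem_sdiff] at hw
              have hSi := hnotA w hw.1 hw.2
              have hS'w : S' w = (S w).erase i := by simp only [hS', hSi, if_false]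
              rw [hS'w]
              refine ⟨?_, Finset.erase_subset_erase _ (hBig w hw.1).2.1,
                (hBig w hw.1).2.2.erase_leaf (hBig w hw.1).2.1 hji hj⟩
              rw [Finset.nonempty_iff_ne_empty]
              intro hc
              rw [Finset.erase_eq_empty_iff] at hc
              rcases hc with hc | hc
              · exact (Finset.nonempty_iff_ne_empty.mp (hBig w hw.1).1) hc
              · exact hSi hc
            · intro w hw
              rw [Finset.mem_union] at hw
              by_cases hSi : S w = {i}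
              · exact ⟨j, Finset.mem_erase.mpr ⟨hji, hjI⟩, by simp only [hS', hSi, if_true]⟩
              · rcases hw with hw | hw
                · obtain ⟨i', h1, h2⟩ := hSmall w hw
                  have hii : i' ≠ i := by
                    rintro rfl
                    exact hSi h2
                  refine ⟨i', Finset.mem_erase.mpr ⟨hii, h1⟩, ?_⟩
                  have hS'w : S' w = (S w).erase i := by simp only [hS', hSi, if_false]
                  rw [hS'w, h2, Finset.erase_eq_of_notMem]
                  rw [Finset.mem_singleton]; exact fun hc => hii hc.symm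
                · exact absurd (Finset.mem_filter.mp hw).2 hSi
            · intro i' hi'
              refine (Finset.card_le_card ?_).trans (hb i' (Finset.mem_of_mem_erase hi'))
              intro w hw
              rw [Finset.mem_filter, Finset.mem_sdiff] at hw
              obtain ⟨⟨h1, h2⟩, h3⟩ := hw
              have hSi := hnotA w h1 h2
              simp only [hS', hSi, if_false] at h3
              exact Finset.mem_filter.mpr ⟨h1, Finset.mem_of_mem_erase h3⟩
            · intro i' hi'
              by_cases hij : i' = j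
              · subst hij
                refine (Finset.card_le_card ?_).trans hCK
                intro w hw
                rw [Finset.mem_filter, Finset.mem_union] at hw
                obtain ⟨h1 | h1, h3⟩ := hw
                · by_cases hSi : S w = {i}
                  · exact Finset.mem_union_left _ (Finset.mem_filter.mpr ⟨Finset.mem_union_right _ h1, hSi⟩)
                  · simp only [hS', hSi, if_false] at h3
                    exact Finset.mem_union_right _ (Finset.mem_filter.mpr ⟨h1, Finset.mem_of_mem_erase h3⟩)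
                · exact Finset.mem_union_left _ h1
              · refine (Finset.card_le_card ?_).trans (hK i' (Finset.mem_of_mem_erase hi'))
                intro w hw
                rw [Finset.mem_filter, Finset.mem_union] at hw
                obtain ⟨h1, h3⟩ := hw
                by_cases hSi : S w = {i}
                · simp only [hS', hSi, if_true, Finset.mem_singleton] at h3
                  exact absurd h3 hij
                · simp only [hS', hSi, if_false] at h3
                  rcases h1 with h1 | h1
                  · exact Finset.mem_filter.mpr ⟨h1, Finset.mem_of_mem_erase h3⟩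
                  · exact absurd (Finset.mem_filter.mp h1).2 hSi
          rw [hWeq]
          obtain ⟨R, g, hR, hcost, hg, hsz⟩ := hrec
          refine ⟨R, g, hR, hcost, ?_, hsz⟩
          intro w hw w' hw' hii
          have hS'mem : ∀ w i', i' ∈ S w → i' ≠ i → i' ∈ S' w := by
            intro w i' h1 h2
            by_cases hSi : S w = {i}
            · rw [hSi, Finset.mem_singleton] at h1
              exact absurd h1 h2
            · simp only [hS', hSi, if_false]
              exact Finset.mem_erase.mpr ⟨h2, h1⟩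
          have hjmem : ∀ w ∈ (Big \ A) ∪ (Small ∪ A), i ∈ S w → j ∈ S' w := by
            intro w hw hiw
            rw [← hWeq, Finset.mem_union] at hw
            by_cases hSi : S w = {i}
            · simp only [hS', hSi, if_true, Finset.mem_singleton]
            · have hwA : w ∉ A := fun hc => hSi (Finset.mem_filter.mp hc).2
              rcases hw with hw | hw
              · exact hS'mem w j (hBig_j w hw hiw hwA) hji
              · exact absurd (hSmall_i w hw hiw) hwA
          obtain ⟨i', h1, h2⟩ := hii
          refine hg w hw w' hw' ?_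
          by_cases hi'i : i' = i
          · subst hi'i
            exact ⟨j, hjmem w (Finset.mem_sdiff.mp hw).1 h1, hjmem w' (Finset.mem_sdiff.mp hw').1 h2⟩
          · exact ⟨i', hS'mem w i' h1 hi'i, hS'mem w' i' h2 hi'i⟩

/-- **Greedy cut.** -/
theorem treedec_cut {s t : X → E} {Y : Finset X} (h : Acyc s t Y) (b K : ℕ) (V : Finset W)
    (S : W → Finset E) (hS : ∀ w ∈ V, (S w).Nonempty ∧ Conn s t Y (S w))
    (hb : ∀ i, (V.filter (fun w => i ∈ S w)).card ≤ b) : Cut S b K V := by
  have := treedec_cut_aux h b K _ (V.biUnion S) V ∅ S rfl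
    (fun w hw => ⟨(hS w hw).1, Finset.subset_biUnion_of_mem S hw, (hS w hw).2⟩)
    (by simp) (fun i _ => hb i) (by simp)
  rwa [Finset.union_empty] at this

end Crest.Agent.R177.Hyper
end

-- ▼ part R177/HyperMap

/-!
# Hyperfiniteness of maps with `H^1(.;F_2) = 0`
-/

set_option linter.unusedSectionVars false

namespace Crest.Agent.R177.Hyper

open Finset

theorem ai {X : Type*} (σ : Equiv.Perm X) (x : X) : σ (σ⁻¹ x) = x := σ.apply_symm_apply x

theorem ia {X : Type*} (σ : Equiv.Perm X) (x : X) : σ⁻¹ (σ x) = x := σ.symm_apply_apply x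

/-- The mod 2 `H^1 = 0` property of the map with face permutation `φ` and gluing involution `α`;
`a x` is the value on the corner at the start of the dart `x`. -/
def PropP {X : Type*} (φ α : Equiv.Perm X) : Prop :=
  ∀ a : X → ZMod 2, (∀ x, a x + a (φ x) + a (α x) + a (φ (α x)) = 0) →
    ∃ b h : X → ZMod 2, (∀ x, a x = b x + h x) ∧ (∀ x, b (φ (α x)) = b x) ∧ (∀ x, h (φ x) = h x)

/-- Breadth first search forest of a multigraph. -/
structure BFS {N X : Type*} (e1 e2 : X → N) where
  lev : N → ℕ
  rt : N → N
  p : N → N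
  pc : N → X → Prop
  rt_edge : ∀ x, rt (e1 x) = rt (e2 x)
  lev_le1 : ∀ x, lev (e1 x) ≤ lev (e2 x) + 1
  lev_le2 : ∀ x, lev (e2 x) ≤ lev (e1 x) + 1
  root : ∀ a, rt a = a → p a = a ∧ lev a = 0 ∧ ∀ x, ¬ pc a x
  step : ∀ a, rt a ≠ a → lev a = lev (p a) + 1 ∧ ∃ x, pc a x ∧ (∀ y, pc a y → y = x) ∧
    ((e1 x = a ∧ e2 x = p a) ∨ (e1 x = p a ∧ e2 x = a))

theorem exists_BFS {N X : Type*} (e1 e2 : X → N) : Nonempty (BFS e1 e2) := by
  classical
  let G : SimpleGraph N :=
    { Adj := fun a b => a ≠ b ∧ ∃ x, (e1 x = a ∧ e2 x = b) ∨ (e1 x = b ∧ e2 x = a)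
      symm := ⟨fun a b h => ⟨h.1.symm, by obtain ⟨x, h1 | h1⟩ := h.2; exacts [⟨x, Or.inr h1⟩, ⟨x, Or.inl h1⟩]⟩⟩
      loopless := ⟨fun a h => h.1 rfl⟩ }
  let rt : N → N := fun a => (G.connectedComponentMk a).out
  have hrt : ∀ a, G.Reachable (rt a) a := by
    intro a
    have : G.connectedComponentMk (rt a) = G.connectedComponentMk a := Quot.out_eq _
    exact SimpleGraph.ConnectedComponent.exact this
  have hrt_reach : ∀ a b, G.Reachable a b → rt a = rt b := by
    intro a b h
    have : G.connectedComponentMk a = G.connectedComponentMk b := SimpleGraph.ConnectedComponent.sound h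
    simp only [rt, this]
  let lev : N → ℕ := fun a => G.dist (rt a) a
  have hstep : ∀ a, rt a ≠ a → ∃ b, G.Adj b a ∧ lev a = lev b + 1 := by
    intro a ha
    obtain ⟨w, hw⟩ := (hrt a).symm.exists_walk_length_eq_dist
    have hw' : ∀ (c d : N) (w : G.Walk c d), c ≠ d → ∃ e, G.Adj c e ∧ ∃ q : G.Walk e d, w.length = q.length + 1 := by
      intro c d w hcd
      cases w with
      | nil => exact absurd rfl hcd
      | cons hadj q => exact ⟨_, hadj, q, by simp⟩
    obtain ⟨c, hadj, q, hq⟩ := hw' _ _ w (fun h => ha h.symm)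
    refine ⟨c, hadj.symm, ?_⟩
    have hrc : rt a = rt c := hrt_reach a c hadj.reachable
    have h1 : G.dist (rt a) c ≤ q.length := by
      rw [SimpleGraph.dist_comm]; exact SimpleGraph.dist_le q
    have h2 : G.dist (rt a) a ≤ G.dist (rt a) c + 1 := by
      have := hadj.symm.reachable.dist_triangle_right (rt a)
      rwa [SimpleGraph.dist_eq_one_iff_adj.mpr hadj.symm] at this
    rw [hq, SimpleGraph.dist_comm] at hw
    simp only [lev]
    rw [← hrc]
    omega
  have hadjl : ∀ a b, G.Adj a b → lev a ≤ lev b + 1 := by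
    intro a b h
    have := h.symm.reachable.dist_triangle_right (rt a)
    rw [SimpleGraph.dist_eq_one_iff_adj.mpr h.symm] at this
    simpa only [lev, hrt_reach a b h.reachable] using this
  have hedge : ∀ x, e1 x = e2 x ∨ G.Adj (e1 x) (e2 x) := by
    intro x
    by_cases h : e1 x = e2 x
    · exact Or.inl h
    · exact Or.inr ⟨h, x, Or.inl ⟨rfl, rfl⟩⟩
  choose! p hp1 hp2 using hstep
  have hc : ∀ a, rt a ≠ a → ∃ x, ((e1 x = a ∧ e2 x = p a) ∨ (e1 x = p a ∧ e2 x = a)) := by
    intro a ha
    obtain ⟨x, h1 | h1⟩ := (hp1 a ha).2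
    · exact ⟨x, Or.inr h1⟩
    · exact ⟨x, Or.inl h1⟩
  refine ⟨{ lev := lev, rt := rt, p := fun a => if rt a = a then a else p a,
            pc := fun a x => ∃ h : rt a ≠ a, (hc a h).choose = x,
            rt_edge := ?_, lev_le1 := ?_, lev_le2 := ?_, root := ?_, step := ?_ }⟩
  · intro x
    rcases hedge x with h | h
    · rw [h]
    · exact hrt_reach _ _ h.reachable
  · intro x
    rcases hedge x with h | h
    · rw [h]; omega
    · exact hadjl _ _ h
  · intro x
    rcases hedge x with h | h
    · rw [h]; omega
    · exact hadjl _ _ h.symm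
  · intro a ha
    refine ⟨by simp [ha], ?_, ?_⟩
    · simp only [lev, ha, SimpleGraph.dist_self]
    · rintro x ⟨h, _⟩
      exact h ha
  · intro a ha
    have hpa : (if rt a = a then a else p a) = p a := by simp [ha]
    refine ⟨by rw [hpa]; exact hp2 a ha, (hc a ha).choose, ⟨ha, rfl⟩, ?_, ?_⟩
    · rintro y ⟨_, rfl⟩; rfl
    · rw [hpa]; exact (hc a ha).choose_spec

namespace BFS

variable {N X : Type*} {e1 e2 : X → N} (B : BFS e1 e2)

/-- `a` is a descendant of `w`. -/
def Desc (a w : N) : Prop := ∃ m, B.p^[m] a = w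

/-- Tree corner. -/
def Tree (x : X) : Prop := ∃ a, B.pc a x

theorem desc_refl (a : N) : B.Desc a a := ⟨0, rfl⟩

theorem desc_of_p {a w : N} (h : B.Desc (B.p a) w) : B.Desc a w := by
  obtain ⟨m, hm⟩ := h
  exact ⟨m + 1, by rw [Function.iterate_succ_apply]; exact hm⟩

theorem desc_cases {a w : N} (h : B.Desc a w) : a = w ∨ B.Desc (B.p a) w := by
  obtain ⟨m, hm⟩ := h
  cases m with
  | zero => exact Or.inl hm
  | succ m => exact Or.inr ⟨m, by rw [Function.iterate_succ_apply] at hm; exact hm⟩

theorem lev_p (a : N) : B.lev (B.p a) = B.lev a - 1 := by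
  by_cases h : B.rt a = a
  · obtain ⟨h1, h2, _⟩ := B.root a h
    rw [h1, h2]
  · have := (B.step a h).1
    omega

theorem lev_iter (a : N) (m : ℕ) : B.lev (B.p^[m] a) = B.lev a - m := by
  induction m generalizing a with
  | zero => rfl
  | succ m ih => rw [Function.iterate_succ_apply, ih, lev_p]; omega

theorem p_of_lev_zero {a : N} (h : B.lev a = 0) : B.p a = a := by
  by_cases hr : B.rt a = a
  · exact (B.root a hr).1
  · have := (B.step a hr).1
    omega

theorem iter_ge {a : N} {m : ℕ} (h : B.lev a ≤ m) : B.p^[m] a = B.p^[B.lev a] a := by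
  obtain ⟨k, rfl⟩ := Nat.exists_eq_add_of_le h
  rw [Nat.add_comm, Function.iterate_add_apply]
  have h0 : B.lev (B.p^[B.lev a] a) = 0 := by rw [lev_iter]; omega
  exact Function.iterate_fixed (B.p_of_lev_zero h0) k

theorem desc_lev_inj {a w w' : N} (h : B.Desc a w) (h' : B.Desc a w') (hl : B.lev w = B.lev w') : w = w' := by
  obtain ⟨m, rfl⟩ := h
  obtain ⟨m', rfl⟩ := h'
  rw [lev_iter, lev_iter] at hl
  by_cases h1 : B.lev a ≤ m
  · have h2 : B.lev a ≤ m' := by omega
    rw [B.iter_ge h1, B.iter_ge h2]
  · have : m = m' := by omega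
    rw [this]

theorem rt_p (a : N) : B.rt (B.p a) = B.rt a := by
  by_cases hr : B.rt a = a
  · rw [(B.root a hr).1]
  · obtain ⟨_, x, _, _, h1 | h1⟩ := B.step a hr
    · have := B.rt_edge x
      rw [h1.1, h1.2] at this
      exact this.symm
    · have := B.rt_edge x
      rw [h1.1, h1.2] at this
      exact this

/-- A function constant along tree edges is determined by the value at the root. -/
theorem const_of_tree {β : Type*} (val : N → β) (h : ∀ x, B.Tree x → val (e1 x) = val (e2 x)) :
    ∀ a, val a = val (B.rt a) := by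
  have key : ∀ n, ∀ a, B.lev a = n → val a = val (B.rt a) := by
    intro n
    induction n with
    | zero =>
      intro a ha
      by_cases hr : B.rt a = a
      · rw [hr]
      · have := (B.step a hr).1
        omega
    | succ n ih =>
      intro a ha
      have hr : B.rt a ≠ a := by
        intro hr
        have := (B.root a hr).2.1
        omega
      obtain ⟨h1, x, h2, _, h3⟩ := B.step a hr
      have h4 := h x ⟨a, h2⟩
      have h5 : val a = val (B.p a) := by
        rcases h3 with h3 | h3
        · rw [h3.1, h3.2] at h4; exact h4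
        · rw [h3.1, h3.2] at h4; exact h4.symm
      rw [h5, ih (B.p a) (by omega), B.rt_p]
  exact fun a => key _ a rfl

/-- A tree corner touching the subtree of `w` is the parent corner of a node in the subtree. -/
theorem tree_touch {w : N} {x : X} (hx : B.Tree x) (ht : B.Desc (e1 x) w ∨ B.Desc (e2 x) w) :
    ∃ a, B.pc a x ∧ B.Desc a w := by
  obtain ⟨a, ha⟩ := hx
  refine ⟨a, ha, ?_⟩
  have hr : B.rt a ≠ a := fun hr => (B.root a hr).2.2 x ha
  obtain ⟨_, y, _, h3, h4⟩ := B.step a hr
  have := h3 x ha
  subst this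
  rcases h4 with h4 | h4
  · rw [h4.1, h4.2] at ht
    rcases ht with h | h
    · exact h
    · exact B.desc_of_p h
  · rw [h4.1, h4.2] at ht
    rcases ht with h | h
    · exact B.desc_of_p h
    · exact h

theorem pc_ends {a : N} {x : X} (h : B.pc a x) : B.rt a ≠ a ∧ B.lev a = B.lev (B.p a) + 1 ∧
    ((e1 x = a ∧ e2 x = B.p a) ∨ (e1 x = B.p a ∧ e2 x = a)) := by
  have hr : B.rt a ≠ a := fun hr => (B.root a hr).2.2 x h
  obtain ⟨h1, y, _, h3, h4⟩ := B.step a hr
  have := h3 x h
  subst this
  exact ⟨hr, h1, h4⟩

end BFS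

section Map

variable {X F V : Type} [Fintype X] [DecidableEq X] [DecidableEq F] [DecidableEq V]
variable (φ α : Equiv.Perm X) (f : X → F) (v : X → V)

/-- The gluing classes (`D`-edges). -/
abbrev DE (α : Equiv.Perm X) : Type := Quotient (Equiv.Perm.SameCycle.setoid α)

/-- The class of a dart. -/
def de (α : Equiv.Perm X) (x : X) : DE α := Quotient.mk _ x

theorem de_eq (hα : ∀ x, α (α x) = x) (x y : X) : de α x = de α y ↔ y = x ∨ y = α x := by
  unfold de
  rw [Quotient.eq]
  change α.SameCycle x y ↔ _
  have h2 : α ^ 2 = 1 := by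
    ext z; simp [pow_two, hα]
  constructor
  · rintro ⟨i, hi⟩
    rcases Int.even_or_odd' i with ⟨k, rfl | rfl⟩
    · left
      rw [zpow_mul] at hi
      have : (α ^ (2 : ℤ)) = 1 := by exact_mod_cast h2
      rw [this] at hi
      simpa using hi.symm
    · right
      rw [zpow_add, zpow_mul] at hi
      have : (α ^ (2 : ℤ)) = 1 := by exact_mod_cast h2
      rw [this] at hi
      simpa using hi.symm
  · rintro (rfl | rfl)
    · exact Equiv.Perm.SameCycle.refl _ _
    · exact ⟨1, by simp⟩

theorem de_alpha (hα : ∀ x, α (α x) = x) (x : X) : de α (α x) = de α x := by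
  rw [de_eq α hα]; right; rw [hα]

variable {φ α f v}

/-- sum over a fibre of a map invariant under a permutation. -/
theorem fibre_sum_zero {M : Type*} [DecidableEq M] (r : X → M) (σ : Equiv.Perm X) (hσ : ∀ x, r (σ x) = r x)
    (c d : X → ZMod 2) (hcd : ∀ x, d x = c (σ x)) (m : M) :
    ∑ x ∈ univ.filter (fun x => r x = m), (c x + d x) = 0 := by
  rw [Finset.sum_add_distrib]
  have : ∑ x ∈ univ.filter (fun x => r x = m), d x = ∑ x ∈ univ.filter (fun x => r x = m), c x := by
    refine Finset.sum_equiv σ ?_ ?_
    · intro x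
      simp [hσ]
    · intro x _
      exact hcd x
  rw [this]
  have h2 : ∀ z : ZMod 2, z + z = 0 := by decide
  exact h2 _

end Map

section Main

open Classical in
theorem const_sameCycle {X β : Type*} (σ : Equiv.Perm X) (h : X → β) (hh : ∀ x, h (σ x) = h x) {x y : X}
    (hxy : σ.SameCycle x y) : h x = h y := by
  obtain ⟨i, rfl⟩ := hxy
  have hinv : ∀ x, h (σ⁻¹ x) = h x := by
    intro x
    have := hh (σ⁻¹ x)
    rw [ai] at this
    exact this.symm
  have hnat : ∀ (n : ℕ) x, h ((σ ^ n) x) = h x := by
    intro n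
    induction n with
    | zero => intro x; rfl
    | succ n ih =>
      intro x
      rw [pow_succ', Equiv.Perm.mul_apply, hh, ih]
  have hnat' : ∀ (n : ℕ) x, h (((σ⁻¹) ^ n) x) = h x := by
    intro n
    induction n with
    | zero => intro x; rfl
    | succ n ih =>
      intro x
      rw [pow_succ', Equiv.Perm.mul_apply, hinv, ih]
  cases i with
  | ofNat n => rw [Int.ofNat_eq_natCast, zpow_natCast, hnat]
  | negSucc n => rw [zpow_negSucc, ← inv_pow, hnat']

/-- A closed map with `H^1 = 0`, face and vertex labels. -/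
structure IsMap {X F V : Type*} (φ α : Equiv.Perm X) (f : X → F) (v : X → V) : Prop where
  inv : ∀ x, α (α x) = x
  fpf : ∀ x, α x ≠ x
  hP : PropP φ α
  hf : ∀ x y, f x = f y ↔ φ.SameCycle x y
  hv : ∀ x y, v x = v y ↔ (φ * α).SameCycle x y

variable {X F V : Type} [Fintype X] [DecidableEq X] [DecidableEq F] [DecidableEq V]
variable {φ α : Equiv.Perm X} {f : X → F} {v : X → V} (hM : IsMap φ α f v)

include hM in
theorem IsMap.f_phi (x : X) : f (φ x) = f x := by
  rw [hM.hf]; exact ⟨-1, by simp⟩

include hM in
theorem IsMap.v_phi (x : X) : v (φ (α x)) = v x := by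
  rw [hM.hv]; exact ⟨-1, by simp⟩

include hM in
theorem IsMap.f_inv (x : X) : f (φ⁻¹ x) = f x := by
  have := hM.f_phi (φ⁻¹ x)
  rw [ai] at this
  exact this.symm

include hM in
theorem IsMap.v_inv (x : X) : v (α (φ⁻¹ x)) = v x := by
  have := hM.v_phi (α (φ⁻¹ x))
  rw [hM.inv, ai] at this
  exact this.symm

variable (B : BFS (fun x => (Sum.inl (f x) : F ⊕ V)) (fun x => (Sum.inr (v x) : F ⊕ V)))

/-- non-tree corners -/
noncomputable def coTree : Finset X := by
  classical exact univ.filter (fun x => ¬ B.Tree x)

theorem mem_coTree (x : X) : x ∈ coTree B ↔ ¬ B.Tree x := by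
  classical
  simp [coTree]

include hM in
theorem acyc [DecidableEq (DE α)] : Acyc (de α) (fun x => de α (φ⁻¹ x)) (coTree B) := by
  classical
  intro S hS hSne
  by_contra hcon
  push Not at hcon
  simp only [Nat.not_odd_iff_even] at hcon
  set a : X → ZMod 2 := fun x => if x ∈ S then 1 else 0 with ha
  have hpair : ∀ x y : X, x ≠ y → ((((({x, y} : Finset X).filter (· ∈ S)).card : ℕ)) : ZMod 2) = a x + a y := by
    intro x y hxy
    rw [Finset.card_filter, Finset.sum_insert (by simpa using hxy), Finset.sum_singleton]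
    push_cast
    rfl
  have hrel : ∀ x, a x + a (φ x) + a (α x) + a (φ (α x)) = 0 := by
    intro x
    have h1 := hcon (de α x)
    have h2 : S.filter (fun y => de α y = de α x) = ({x, α x} : Finset X).filter (· ∈ S) := by
      ext y
      simp only [Finset.mem_filter, Finset.mem_insert, Finset.mem_singleton]
      rw [eq_comm, de_eq α hM.inv x y]
      tauto
    have h3 : S.filter (fun y => de α (φ⁻¹ y) = de α x) = ({φ x, φ (α x)} : Finset X).filter (· ∈ S) := by
      ext y
      simp only [Finset.mem_filter, Finset.mem_insert, Finset.mem_singleton]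
      rw [eq_comm (a := de α (φ⁻¹ y)), de_eq α hM.inv x (φ⁻¹ y), Equiv.Perm.inv_eq_iff_eq, Equiv.Perm.inv_eq_iff_eq]
      tauto
    rw [h2, h3, ← ZMod.natCast_eq_zero_iff_even, Nat.cast_add, hpair _ _ (hM.fpf x).symm,
      hpair _ _ (fun hc => (hM.fpf x).symm (φ.injective hc))] at h1
    linear_combination h1
  obtain ⟨b, h, hab, hb, hh⟩ := hM.hP a hrel
  have hhf : Function.FactorsThrough h f := fun x y hxy => const_sameCycle φ h hh ((hM.hf x y).mp hxy)
  have hbv : Function.FactorsThrough b v := fun x y hxy =>
    const_sameCycle (φ * α) b (fun x => hb x) ((hM.hv x y).mp hxy)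
  set val : F ⊕ V → ZMod 2 := Sum.elim (Function.extend f h 0) (Function.extend v b 0) with hval
  have hv1 : ∀ x, val (Sum.inl (f x)) = h x := fun x => by
    rw [hval, Sum.elim_inl, hhf.extend_apply]
  have hv2 : ∀ x, val (Sum.inr (v x)) = b x := fun x => by
    rw [hval, Sum.elim_inr, hbv.extend_apply]
  have htree : ∀ x, B.Tree x → val (Sum.inl (f x)) = val (Sum.inr (v x)) := by
    intro x hx
    rw [hv1, hv2]
    have hxS : x ∉ S := fun hc => (mem_coTree B x).mp (hS hc) hx
    have h1 := hab x
    simp only [ha, hxS, if_false] at h1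
    have h2 : ∀ p q : ZMod 2, 0 = p + q → q = p := by decide
    exact h2 _ _ h1
  have hconst := B.const_of_tree val htree
  obtain ⟨x, hx⟩ := hSne
  have h1 : val (Sum.inl (f x)) = val (Sum.inr (v x)) := by
    rw [hconst (Sum.inl (f x)), hconst (Sum.inr (v x))]
    exact congrArg val (B.rt_edge x)
  rw [hv1, hv2] at h1
  have h2 := hab x
  simp only [ha, hx, if_true] at h2
  have h3 : ∀ p q : ZMod 2, q = p → 1 = p + q → False := by decide
  exact h3 _ _ h1 h2

/-- `x` touches the subtree of `w`. -/
def Touch (w : F ⊕ V) (x : X) : Prop := B.Desc (Sum.inl (f x)) w ∨ B.Desc (Sum.inr (v x)) w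

/-- `D`-edges touching the subtree of `w`. -/
noncomputable def SS (α : Equiv.Perm X) [DecidableEq (DE α)] (w : F ⊕ V) : Finset (DE α) := by
  classical exact (univ.filter (fun x => Touch B w x)).image (de α)

theorem mem_SS [DecidableEq (DE α)] (w : F ⊕ V) (e : DE α) : e ∈ SS B α w ↔ ∃ x, Touch B w x ∧ de α x = e := by
  classical
  simp [SS]

include hM in
theorem conn [DecidableEq (DE α)] (w : F ⊕ V) :
    Conn (de α) (fun x => de α (φ⁻¹ x)) (coTree B) (SS B α w) := by
  classical
  intro A hA hAne hAS
  by_contra hno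
  push Not at hno
  -- corners touching the subtree
  have ht1 : ∀ x, Touch B w x → de α x ∈ SS B α w := fun x hx => (mem_SS B w _).mpr ⟨x, hx, rfl⟩
  have ht2 : ∀ x, Touch B w x → de α (φ⁻¹ x) ∈ SS B α w := by
    intro x hx
    rcases hx with hx | hx
    · refine (mem_SS B w _).mpr ⟨φ⁻¹ x, Or.inl ?_, rfl⟩
      rw [hM.f_inv]; exact hx
    · refine (mem_SS B w _).mpr ⟨α (φ⁻¹ x), Or.inr ?_, de_alpha α hM.inv _⟩
      rw [hM.v_inv]; exact hx
  set c : X → ZMod 2 := fun x => (if de α x ∈ A then 1 else 0) + (if de α (φ⁻¹ x) ∈ A then 1 else 0) with hc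
  have hc0 : ∀ x, c x = 0 ↔ (de α x ∈ A ↔ de α (φ⁻¹ x) ∈ A) := by
    intro x
    simp only [hc]
    by_cases h1 : de α x ∈ A <;> by_cases h2 : de α (φ⁻¹ x) ∈ A
    · rw [if_pos h1, if_pos h2]; exact iff_of_true (by decide) (iff_of_true h1 h2)
    · rw [if_pos h1, if_neg h2]; exact iff_of_false (by decide) (fun h => h2 (h.mp h1))
    · rw [if_neg h1, if_pos h2]; exact iff_of_false (by decide) (fun h => h1 (h.mpr h2))
    · rw [if_neg h1, if_neg h2]; exact iff_of_true (by decide) (iff_of_false h1 h2)
  have hcnt : ∀ x, Touch B w x → ¬ B.Tree x → c x = 0 := by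
    intro x hx hxT
    rw [hc0]
    have h := hno x ((mem_coTree B x).mpr hxT)
    have h1 := ht1 x hx
    have h2 := ht2 x hx
    constructor
    · intro h3
      by_contra h4
      exact h.1 h3 (Finset.mem_sdiff.mpr ⟨h2, h4⟩)
    · intro h3
      by_contra h4
      exact h.2 h3 (Finset.mem_sdiff.mpr ⟨h1, h4⟩)
  have hsum1 : ∀ m, ∑ x ∈ univ.filter (fun x => f x = m), c x = 0 := by
    intro m
    have := fibre_sum_zero f φ (hM.f_phi) (fun x => if de α (φ⁻¹ x) ∈ A then (1 : ZMod 2) else 0)
      (fun x => if de α x ∈ A then 1 else 0) (by intro x; beta_reduce; rw [ia]) m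
    rw [← this]
    exact Finset.sum_congr rfl (fun x _ => add_comm _ _)
  have hsum2 : ∀ m, ∑ x ∈ univ.filter (fun x => v x = m), c x = 0 := by
    intro m
    have := fibre_sum_zero v (φ * α) (hM.v_phi) (fun x => if de α (φ⁻¹ x) ∈ A then (1 : ZMod 2) else 0)
      (fun x => if de α x ∈ A then 1 else 0) (by
        intro x
        have h : de α (φ⁻¹ ((φ * α) x)) = de α x := by
          rw [Equiv.Perm.mul_apply, ia, de_alpha α hM.inv]
        beta_reduce
        rw [h]) m
    rw [← this]
    exact Finset.sum_congr rfl (fun x _ => add_comm _ _)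
  -- all corners touching the subtree vanish
  have hzero : ∀ x, Touch B w x → c x = 0 := by
    by_contra hex
    push Not at hex
    obtain ⟨x0, hx0, hcx0⟩ := hex
    have hbad : ∃ x, ∃ a, B.pc a x ∧ B.Desc a w ∧ c x ≠ 0 := by
      have hT : B.Tree x0 := by
        by_contra hT
        exact hcx0 (hcnt x0 hx0 hT)
      obtain ⟨a, ha, hd⟩ := B.tree_touch hT hx0
      exact ⟨x0, a, ha, hd, hcx0⟩
    -- choose one of maximal level
    let bad : Finset X := univ.filter (fun x => ∃ a, B.pc a x ∧ B.Desc a w ∧ c x ≠ 0)
    have hbne : bad.Nonempty := by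
      obtain ⟨x, hx⟩ := hbad
      exact ⟨x, by simp only [bad, Finset.mem_filter, Finset.mem_univ, true_and]; exact hx⟩
    let L : X → ℕ := fun x => B.lev (Sum.inl (f x)) + B.lev (Sum.inr (v x))
    obtain ⟨x, hx, hmax⟩ := Finset.exists_max_image bad L hbne
    simp only [bad, Finset.mem_filter, Finset.mem_univ, true_and] at hx hmax
    obtain ⟨a, hax, haw, hcx⟩ := hx
    obtain ⟨hra, hla, hends⟩ := B.pc_ends hax
    have hLx : L x = 2 * B.lev (B.p a) + 1 := by
      simp only [L]
      rcases hends with h | h
      · rw [h.1, h.2]; omega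
      · rw [h.1, h.2]; omega
    -- other corners at `a` vanish
    have hother : ∀ y, y ≠ x → (Sum.inl (f y) = a ∨ Sum.inr (v y) = a) → c y = 0 := by
      intro y hyx hya
      by_contra hcy
      have hty : Touch B w y := by
        rcases hya with h | h
        · left; rw [h]; exact haw
        · right; rw [h]; exact haw
      have hT : B.Tree y := by
        by_contra hT
        exact hcy (hcnt y hty hT)
      obtain ⟨a', ha'y, ha'w⟩ := B.tree_touch hT hty
      obtain ⟨hra', hla', hends'⟩ := B.pc_ends ha'y
      have hm := hmax y ⟨a', ha'y, ha'w, hcy⟩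
      have hLy : L y = 2 * B.lev (B.p a') + 1 := by
        simp only [L]
        rcases hends' with h | h
        · rw [h.1, h.2]; omega
        · rw [h.1, h.2]; omega
      have hne : a' ≠ a := by
        rintro rfl
        obtain ⟨_, z, _, h3, _⟩ := B.step a' hra
        exact hyx ((h3 y ha'y).trans (h3 x hax).symm)
      have hpa : B.p a' = a := by
        rcases hends' with h | h <;> rcases hya with h' | h'
        · rw [h.1] at h'; exact absurd h' hne
        · rw [h.2] at h'; exact h'
        · rw [h.1] at h'; exact h'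
        · rw [h.2] at h'; exact absurd h' hne
      rw [hpa] at hLy
      omega
    cases a with
    | inl m =>
      have hs := hsum1 m
      have hfx : f x = m := by
        rcases hends with h | h
        · exact Sum.inl_injective h.1
        · exact absurd h.2 (by simp)
      rw [Finset.sum_eq_single x] at hs
      · exact hcx hs
      · intro y hy hyx
        rw [Finset.mem_filter] at hy
        exact hother y hyx (Or.inl (by rw [hy.2]))
      · intro h
        exact absurd (Finset.mem_filter.mpr ⟨Finset.mem_univ x, hfx⟩) h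
    | inr m =>
      have hs := hsum2 m
      have hfx : v x = m := by
        rcases hends with h | h
        · exact absurd h.1 (by simp)
        · exact Sum.inr_injective h.2
      rw [Finset.sum_eq_single x] at hs
      · exact hcx hs
      · intro y hy hyx
        rw [Finset.mem_filter] at hy
        exact hother y hyx (Or.inr (by rw [hy.2]))
      · intro h
        exact absurd (Finset.mem_filter.mpr ⟨Finset.mem_univ x, hfx⟩) h
  -- membership in `A` is constant around nodes of the subtree
  have hflip : ∀ x, Touch B w x → (de α x ∈ A ↔ de α (φ⁻¹ x) ∈ A) := fun x hx => (hc0 x).mp (hzero x hx)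
  have hface : ∀ x y, f x = f y → B.Desc (Sum.inl (f x)) w → (de α x ∈ A ↔ de α y ∈ A) := by
    intro x y hxy hd
    have hcyc := (hM.hf x y).mp hxy
    have := const_sameCycle φ (fun z => (B.Desc (Sum.inl (f z)) w ∧ de α z ∈ A)) (by
      intro z
      beta_reduce
      rw [hM.f_phi]
      apply propext
      constructor
      · rintro ⟨h1, h2⟩
        refine ⟨h1, ?_⟩
        have := (hflip (φ z) (Or.inl (by rw [hM.f_phi]; exact h1))).mp h2
        rwa [ia] at this
      · rintro ⟨h1, h2⟩
        refine ⟨h1, ?_⟩
        refine (hflip (φ z) (Or.inl (by rw [hM.f_phi]; exact h1))).mpr ?_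
        rwa [ia]) hcyc
    beta_reduce at this
    rw [← hxy] at this
    simpa [hd] using this
  have hvert : ∀ x y, v x = v y → B.Desc (Sum.inr (v x)) w → (de α x ∈ A ↔ de α y ∈ A) := by
    intro x y hxy hd
    have hcyc := (hM.hv x y).mp hxy
    have := const_sameCycle (φ * α) (fun z => (B.Desc (Sum.inr (v z)) w ∧ de α z ∈ A)) (by
      intro z
      simp only [Equiv.Perm.mul_apply]
      rw [hM.v_phi]
      apply propext
      constructor
      · rintro ⟨h1, h2⟩
        refine ⟨h1, ?_⟩
        have := (hflip (φ (α z)) (Or.inr (by rw [hM.v_phi]; exact h1))).mp h2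
        rw [ia, de_alpha α hM.inv] at this
        exact this
      · rintro ⟨h1, h2⟩
        refine ⟨h1, ?_⟩
        refine (hflip (φ (α z)) (Or.inr (by rw [hM.v_phi]; exact h1))).mpr ?_
        rw [ia, de_alpha α hM.inv]
        exact h2) hcyc
    beta_reduce at this
    rw [← hxy] at this
    simpa [hd] using this
  -- the value of a node
  have hnode : ∀ (n : ℕ) (a : F ⊕ V), B.lev a = n → B.Desc a w →
      ∃ P : Prop, (∀ x, (Sum.inl (f x) = a ∨ Sum.inr (v x) = a) → (de α x ∈ A ↔ P)) ∧
        (∀ x, (Sum.inl (f x) = w ∨ Sum.inr (v x) = w) → (de α x ∈ A ↔ P)) := by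
    intro n
    induction n with
    | zero =>
      intro a ha hd
      have hpa : B.p a = a := B.p_of_lev_zero ha
      have haw : a = w := by
        obtain ⟨m, hm⟩ := hd
        rw [Function.iterate_fixed hpa] at hm
        exact hm
      subst haw
      by_cases hex : ∃ x, (Sum.inl (f x) = a ∨ Sum.inr (v x) = a)
      · obtain ⟨x, hx⟩ := hex
        have : ∀ y, (Sum.inl (f y) = a ∨ Sum.inr (v y) = a) → (de α y ∈ A ↔ de α x ∈ A) := by
          intro y hy
          cases a with
          | inl m =>
            simp only [Sum.inl.injEq, reduceCtorEq, or_false] at hx hy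
            exact hface y x (hy.trans hx.symm) (by rw [hy]; exact hd)
          | inr m =>
            simp only [Sum.inr.injEq, reduceCtorEq, false_or] at hx hy
            exact hvert y x (hy.trans hx.symm) (by rw [hy]; exact hd)
        exact ⟨de α x ∈ A, this, this⟩
      · push Not at hex
        refine ⟨True, ?_, ?_⟩ <;>
        · intro x hx
          rcases hx with hx | hx
          · exact absurd hx (hex x).1
          · exact absurd hx (hex x).2
    | succ n ih =>
      intro a ha hd
      have hra : B.rt a ≠ a := by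
        intro hr
        have := (B.root a hr).2.1
        omega
      have hconst : ∀ x y, (Sum.inl (f x) = a ∨ Sum.inr (v x) = a) → (Sum.inl (f y) = a ∨ Sum.inr (v y) = a) →
          (de α y ∈ A ↔ de α x ∈ A) := by
        intro x y hx hy
        cases a with
        | inl m =>
          simp only [Sum.inl.injEq, reduceCtorEq, or_false] at hx hy
          exact hface y x (hy.trans hx.symm) (by rw [hy]; exact hd)
        | inr m =>
          simp only [Sum.inr.injEq, reduceCtorEq, false_or] at hx hy
          exact hvert y x (hy.trans hx.symm) (by rw [hy]; exact hd)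
      obtain ⟨hla, x, hax, _, hends⟩ := B.step a hra
      have hxa : (Sum.inl (f x) = a ∨ Sum.inr (v x) = a) := by
        rcases hends with h | h
        · exact Or.inl h.1
        · exact Or.inr h.2
      have hxp : (Sum.inl (f x) = B.p a ∨ Sum.inr (v x) = B.p a) := by
        rcases hends with h | h
        · exact Or.inr h.2
        · exact Or.inl h.1
      rcases B.desc_cases hd with haw | hd'
      · subst haw
        exact ⟨de α x ∈ A, fun y hy => hconst x y hxa hy, fun y hy => hconst x y hxa hy⟩
      · obtain ⟨P, hP1, hP2⟩ := ih (B.p a) (by omega) hd'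
        refine ⟨P, ?_, hP2⟩
        intro y hy
        rw [hconst x y hxa hy]
        exact hP1 x hxp
  -- conclusion
  apply hAS
  apply Finset.Subset.antisymm hA
  intro e he
  obtain ⟨e0, he0⟩ := hAne
  obtain ⟨x0, hx0, rfl⟩ := (mem_SS B w _).mp (hA he0)
  obtain ⟨x1, hx1, rfl⟩ := (mem_SS B w _).mp he
  have hval : ∀ x, Touch B w x → ∃ P : Prop, (de α x ∈ A ↔ P) ∧
      (∀ y, (Sum.inl (f y) = w ∨ Sum.inr (v y) = w) → (de α y ∈ A ↔ P)) := by
    intro x hx
    rcases hx with hx | hx
    · obtain ⟨P, h1, h2⟩ := hnode _ _ rfl hx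
      exact ⟨P, h1 x (Or.inl rfl), h2⟩
    · obtain ⟨P, h1, h2⟩ := hnode _ _ rfl hx
      exact ⟨P, h1 x (Or.inr rfl), h2⟩
  obtain ⟨P0, h01, h02⟩ := hval x0 hx0
  obtain ⟨P1, h11, h12⟩ := hval x1 hx1
  -- there is a corner at `w`
  have hw : ∃ y, (Sum.inl (f y) = w ∨ Sum.inr (v y) = w) := by
    have hgen : ∀ (n : ℕ) (a : F ⊕ V), B.lev a = n → B.Desc a w →
        (∃ y, (Sum.inl (f y) = a ∨ Sum.inr (v y) = a)) → ∃ y, (Sum.inl (f y) = w ∨ Sum.inr (v y) = w) := by
      intro n
      induction n with
      | zero =>
        intro a ha hd hy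
        have hpa : B.p a = a := B.p_of_lev_zero ha
        have haw : a = w := by
          obtain ⟨m, hm⟩ := hd
          rw [Function.iterate_fixed hpa] at hm
          exact hm
        exact haw ▸ hy
      | succ n ih =>
        intro a ha hd hy
        have hra : B.rt a ≠ a := by
          intro hr
          have := (B.root a hr).2.1
          omega
        obtain ⟨hla, x, hax, _, hends⟩ := B.step a hra
        rcases B.desc_cases hd with haw | hd'
        · exact haw ▸ hy
        · refine ih (B.p a) (by omega) hd' ⟨x, ?_⟩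
          rcases hends with h | h
          · exact Or.inr h.2
          · exact Or.inl h.1
    rcases hx0 with hx | hx
    · exact hgen _ _ rfl hx ⟨x0, Or.inl rfl⟩
    · exact hgen _ _ rfl hx ⟨x0, Or.inr rfl⟩
  obtain ⟨y, hy⟩ := hw
  rw [h11, ← h12 y hy, h02 y hy, ← h01]
  exact he0

end Main

end Crest.Agent.R177.Hyper
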