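import Crest.Agent.R177.Defs

/-!
# LOC, pieces lemma

In a folded graph of girth `≥ g` two reduced paths of total length `< g` meet in one interval.
Consequence: the coincidence relation of a configuration is one of polynomially many (in `g`)
relations.
-/

set_option autoImplicit false

namespace Crest.Agent.R177.Loc

open Crest.Agent.R199 (PAct)

variable {S V : Type}

@[simp] theorem hinv_hinv' (a : S × Bool) : hinv (hinv a) = a := by
  rcases a with ⟨s, b⟩; simp [hinv]

theorem st_hinv (A : PAct S V) {a : S × Bool} {x y : V} :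
    A.st (hinv a) y = some x ↔ A.st a x = some y := by
  constructor
  · intro h
    have := A.symm _ _ _ h
    simpa [hinv] using this
  · intro h; exact A.symm _ _ _ h

theorem read_append (A : PAct S V) (w₁ w₂ : List (S × Bool)) (x : V) :
    A.read (w₁ ++ w₂) x = (A.read w₁ x).bind (A.read w₂) := by
  induction w₁ generalizing x with
  | nil => rfl
  | cons a w ih =>
    simp only [List.cons_append, PAct.read]
    cases h : A.st a x with
    | none => rfl
    | some y => simp only [Option.bind_some]; exact ih y

theorem read_append_some (A : PAct S V) {w₁ w₂ : List (S × Bool)} {x z : V} :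
    A.read (w₁ ++ w₂) x = some z ↔ ∃ y, A.read w₁ x = some y ∧ A.read w₂ y = some z := by
  rw [read_append, Option.bind_eq_some_iff]

theorem read_step (A : PAct S V) {w₁ w₂ : List (S × Bool)} (h : FreeGroup.Red.Step w₁ w₂) {x y : V}
    (hr : A.read w₁ x = some y) : A.read w₂ x = some y := by
  cases h with
  | @not L₁ L₂ s b =>
    rw [read_append_some] at hr
    obtain ⟨z, h1, h2⟩ := hr
    simp only [PAct.read, Option.bind_eq_some_iff] at h2
    obtain ⟨t, h3, u, h4, h5⟩ := h2
    have h6 : A.st (s, !b) t = some z := A.symm _ _ _ h3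
    rw [h6] at h4
    obtain rfl := Option.some.inj h4
    rw [read_append_some]
    exact ⟨z, h1, h5⟩

theorem read_red (A : PAct S V) {w₁ w₂ : List (S × Bool)} (h : FreeGroup.Red w₁ w₂) {x y : V}
    (hr : A.read w₁ x = some y) : A.read w₂ x = some y := by
  induction h with
  | refl => exact hr
  | tail _ h2 ih => exact read_step A h2 ih

/-- `invRev` word -/
theorem read_invRev (A : PAct S V) {w : List (S × Bool)} {x y : V}
    (hr : A.read w x = some y) : A.read (FreeGroup.invRev w) y = some x := by
  induction w generalizing x with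
  | nil => simpa [PAct.read, FreeGroup.invRev, eq_comm] using hr
  | cons a w ih =>
    simp only [PAct.read, Option.bind_eq_some_iff] at hr
    obtain ⟨z, h1, h2⟩ := hr
    have : FreeGroup.invRev (a :: w) = FreeGroup.invRev w ++ [hinv a] := by
      simp [FreeGroup.invRev, hinv]
    rw [this, read_append_some]
    refine ⟨z, ih h2, ?_⟩
    simp only [PAct.read, Option.bind_eq_some_iff]
    exact ⟨x, (st_hinv A).2 h1, rfl⟩

/-- (P1) short reduced words between two nodes are unique -/
theorem read_unique {A : PAct S V} {g : ℕ} (hg : Girth A g) {x y : V} {w₁ w₂ : List (S × Bool)}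
    (h₁ : FreeGroup.IsReduced w₁) (h₂ : FreeGroup.IsReduced w₂) (r₁ : A.read w₁ x = some y)
    (r₂ : A.read w₂ x = some y) (hl : w₁.length + w₂.length < g) : w₁ = w₂ := by
  classical
  have hc : A.read (w₁ ++ FreeGroup.invRev w₂) x = some x := by
    rw [read_append_some]; exact ⟨y, r₁, read_invRev A r₂⟩
  have hred : FreeGroup.Red (w₁ ++ FreeGroup.invRev w₂)
      (FreeGroup.reduce (w₁ ++ FreeGroup.invRev w₂)) := FreeGroup.reduce.red
  have hc' := read_red A hred hc
  have hlen : (FreeGroup.reduce (w₁ ++ FreeGroup.invRev w₂)).length < g := by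
    have h3 := hred.length_le
    have h4 : (w₁ ++ FreeGroup.invRev w₂).length = w₁.length + w₂.length := by
      simp [FreeGroup.invRev]
    omega
  have hnil : FreeGroup.reduce (w₁ ++ FreeGroup.invRev w₂) = [] := by
    by_contra hne
    have := hg x _ (FreeGroup.isReduced_iff_reduce_eq.2 FreeGroup.reduce.idem) hne hc'
    omega
  have hmk : FreeGroup.mk w₁ * (FreeGroup.mk w₂)⁻¹ = 1 := by
    rw [FreeGroup.inv_mk, FreeGroup.mul_mk]
    have := FreeGroup.reduce.self (L := w₁ ++ FreeGroup.invRev w₂)
    rw [hnil] at this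
    rw [← this]; rfl
  have hmk' : FreeGroup.mk w₁ = FreeGroup.mk w₂ := by
    exact mul_inv_eq_one.1 hmk
  have h5 := FreeGroup.reduce.sound hmk'
  rwa [h₁.reduce_eq, h₂.reduce_eq] at h5

/-! ### Paths indexed by natural numbers -/

/-- a reduced path with `n` steps -/
def IsPath (A : PAct S V) (n : ℕ) (ν : ℕ → V) (l : ℕ → S × Bool) : Prop :=
  (∀ k < n, A.st (l k) (ν k) = some (ν (k + 1))) ∧ ∀ k, k + 1 < n → l (k + 1) ≠ hinv (l k)

/-- the word of `m` letters starting at `i` -/
def word (l : ℕ → S × Bool) : ℕ → ℕ → List (S × Bool)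
  | _, 0 => []
  | i, m + 1 => l i :: word l (i + 1) m

@[simp] theorem word_length (l : ℕ → S × Bool) (i m : ℕ) : (word l i m).length = m := by
  induction m generalizing i with
  | zero => rfl
  | succ m ih => simp [word, ih]

theorem IsPath.read {A : PAct S V} {n : ℕ} {ν : ℕ → V} {l : ℕ → S × Bool} (h : IsPath A n ν l)
    (i m : ℕ) (him : i + m ≤ n) : A.read (word l i m) (ν i) = some (ν (i + m)) := by
  induction m generalizing i with
  | zero => rfl
  | succ m ih =>
    simp only [word, PAct.read, Option.bind_eq_some_iff]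
    refine ⟨ν (i + 1), h.1 i (by omega), ?_⟩
    have := ih (i + 1) (by omega)
    rwa [show i + 1 + m = i + (m + 1) by omega] at this

theorem ne_hinv_iff {a b : S × Bool} : b ≠ hinv a ↔ (a.1 = b.1 → a.2 = b.2) := by
  rcases a with ⟨s, x⟩; rcases b with ⟨t, y⟩
  simp only [hinv, ne_eq, Prod.mk.injEq, not_and]
  constructor
  · intro h e
    have := h e.symm
    cases x <;> cases y <;> simp_all
  · intro h e
    have := h e.symm
    cases x <;> cases y <;> simp_all

theorem IsPath.red {A : PAct S V} {n : ℕ} {ν : ℕ → V} {l : ℕ → S × Bool} (h : IsPath A n ν l)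
    (i m : ℕ) (him : i + m ≤ n) : FreeGroup.IsReduced (word l i m) := by
  induction m generalizing i with
  | zero => exact FreeGroup.IsReduced.nil
  | succ m ih =>
    cases m with
    | zero => exact FreeGroup.IsReduced.singleton
    | succ m =>
      have h1 := ih (i + 1) (by omega)
      simp only [word] at h1 ⊢
      rw [FreeGroup.isReduced_cons_cons]
      exact ⟨ne_hinv_iff.1 (h.2 i (by omega)), h1⟩

theorem word_inj {l l' : ℕ → S × Bool} {i j m m' : ℕ} (h : word l i m = word l' j m') :
    m = m' ∧ ∀ k < m, l (i + k) = l' (j + k) := by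
  have hm : m = m' := by
    have := congrArg List.length h; simpa using this
  subst hm
  refine ⟨rfl, ?_⟩
  induction m generalizing i j with
  | zero => intro k hk; omega
  | succ m ih =>
    simp only [word, List.cons.injEq] at h
    intro k hk
    cases k with
    | zero => simpa using h.1
    | succ k =>
      have := ih h.2 k (by omega)
      rwa [show i + 1 + k = i + (k + 1) by omega, show j + 1 + k = j + (k + 1) by omega] at this

/-- two paths of total length `< g` meeting twice in the same direction -/
theorem IsPath.meet {A : PAct S V} {g : ℕ} (hg : Girth A g) {n n' : ℕ} {ν ν' : ℕ → V}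
    {l l' : ℕ → S × Bool} (h : IsPath A n ν l) (h' : IsPath A n' ν' l') (hn : n + n' < g)
    {i j m m' : ℕ} (hi : i + m ≤ n) (hj : j + m' ≤ n') (h1 : ν i = ν' j)
    (h2 : ν (i + m) = ν' (j + m')) : m = m' ∧ ∀ k ≤ m, ν (i + k) = ν' (j + k) := by
  have hw : word l i m = word l' j m' := by
    refine read_unique hg (h.red i m hi) (h'.red j m' hj) (h.read i m hi) ?_ (by simp; omega)
    rw [h1, h2]; exact h'.read j m' hj
  obtain ⟨rfl, hl⟩ := word_inj hw
  refine ⟨rfl, ?_⟩
  intro k
  induction k with
  | zero => intro _; simpa using h1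
  | succ k ih =>
    intro hk
    have e1 := h.1 (i + k) (by omega)
    have e2 := h'.1 (j + k) (by omega)
    rw [ih (by omega), hl k (by omega), e2] at e1
    exact (Option.some.inj e1).symm

/-- the reversed path -/
theorem IsPath.rev {A : PAct S V} {n : ℕ} {ν : ℕ → V} {l : ℕ → S × Bool} (h : IsPath A n ν l) :
    IsPath A n (fun k => ν (n - k)) (fun k => hinv (l (n - 1 - k))) := by
  constructor
  · intro k hk
    rw [st_hinv]
    have := h.1 (n - 1 - k) (by omega)
    show A.st (l (n - 1 - k)) (ν (n - (k + 1))) = some (ν (n - k))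
    rw [show n - (k + 1) = n - 1 - k by omega, show n - k = n - 1 - k + 1 by omega]
    exact this
  · intro k hk
    have := h.2 (n - 1 - (k + 1)) (by omega)
    rw [show n - 1 - (k + 1) + 1 = n - 1 - k by omega] at this
    intro h3
    apply this
    have h4 := congrArg hinv h3
    simp only [hinv_hinv'] at h4
    rw [h4, hinv_hinv']

theorem IsPath.inj {A : PAct S V} {g : ℕ} (hg : Girth A g) {n n' : ℕ} {ν ν' : ℕ → V}
    {l l' : ℕ → S × Bool} (h : IsPath A n ν l) (h' : IsPath A n' ν' l') (hn : n + n' < g)
    {i j j' : ℕ} (hi : i ≤ n) (hj : j ≤ n') (hj' : j' ≤ n') (h1 : ν i = ν' j)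
    (h2 : ν i = ν' j') : j = j' := by
  rcases le_total j j' with hle | hle
  · have := (h.meet hg h' hn (i := i) (j := j) (m := 0) (m' := j' - j) (by omega) (by omega) h1
      (by rw [show j + (j' - j) = j' by omega]; exact h2)).1
    omega
  · have := (h.meet hg h' hn (i := i) (j := j') (m := 0) (m' := j - j') (by omega) (by omega) h2
      (by rw [show j' + (j - j') = j by omega]; exact h1)).1
    omega


end Crest.Agent.R177.Loc
private theorem rz_5b52bbcf60 : type_of% @_root_.Crest.Agent.R177.Loc.word.eq_def := @_root_.Crest.Agent.R177.Loc.word.eq_def -- L115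
private theorem rz_2ecb151937 : type_of% @_root_.Crest.Agent.R177.Loc.word.eq_1 := @_root_.Crest.Agent.R177.Loc.word.eq_1 -- L115
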