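import Mathlib
import Crest.Agent.R177.Defs
import Crest.Agent.R177.LocDefs
import Crest.Agent.R177.Pieces

-- ▼ part R177/OmegaCore
section

set_option autoImplicit false
set_option linter.unusedSectionVars false

namespace Crest.Agent.R177.Omega

open Finset

variable {S V : Type} [Fintype S] [DecidableEq S] [Fintype V] [DecidableEq V]

/-- inverse half-edge label -/
def hinv (h : S × Bool) : S × Bool := (h.1, !h.2)

@[simp] lemma hinv_hinv (h : S × Bool) : hinv (hinv h) = h := by
  simp [hinv]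


/-- folded labelled graphs with prescribed sources and targets of each letter -/
abbrev Gam (src tgt : S → Finset V) := (s : S) → (src s ≃ tgt s)

variable {src tgt : S → Finset V}

/-- `E b h x y`: there is a dart labelled `h` from `x` to `y`. -/
def E (b : Gam src tgt) (h : S × Bool) (x y : V) : Prop :=
  if h.2 then ∃ hx : x ∈ src h.1, (b h.1 ⟨x, hx⟩ : V) = y
  else ∃ hy : y ∈ src h.1, (b h.1 ⟨y, hy⟩ : V) = x

lemma E_true (b : Gam src tgt) (s : S) (x y : V) :
    E b (s, true) x y ↔ ∃ hx : x ∈ src s, (b s ⟨x, hx⟩ : V) = y := by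
  simp [E]

lemma E_false (b : Gam src tgt) (s : S) (x y : V) :
    E b (s, false) x y ↔ E b (s, true) y x := by
  simp [E]

lemma E_hinv (b : Gam src tgt) (h : S × Bool) (x y : V) :
    E b (hinv h) x y ↔ E b h y x := by
  rcases h with ⟨s, c⟩
  cases c
  · simp only [hinv, Bool.not_false]
    rw [E_false]
  · simp only [hinv, Bool.not_true]
    rw [E_false]

lemma E_det {b : Gam src tgt} {h : S × Bool} {x y z : V} (h1 : E b h x y) (h2 : E b h x z) :
    y = z := by
  rcases h with ⟨s, c⟩
  cases c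
  · rw [E_false, E_true] at h1 h2
    obtain ⟨hy, h1⟩ := h1
    obtain ⟨hz, h2⟩ := h2
    have : b s ⟨y, hy⟩ = b s ⟨z, hz⟩ := Subtype.ext (h1.trans h2.symm)
    have := (b s).injective this
    exact congrArg Subtype.val this
  · rw [E_true] at h1 h2
    obtain ⟨hy, h1⟩ := h1
    obtain ⟨hz, h2⟩ := h2
    exact h1.symm.trans h2

/-- walks -/
def W (b : Gam src tgt) : V → List (S × Bool) → V → Prop
  | x, [], y => x = y
  | x, h :: u, y => ∃ z, E b h x z ∧ W b z u y

@[simp] lemma W_nil (b : Gam src tgt) (x y : V) : W b x [] y ↔ x = y := Iff.rfl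

@[simp] lemma W_cons (b : Gam src tgt) (x y : V) (h : S × Bool) (u : List (S × Bool)) :
    W b x (h :: u) y ↔ ∃ z, E b h x z ∧ W b z u y := Iff.rfl

lemma W_append (b : Gam src tgt) (x y : V) (u v : List (S × Bool)) :
    W b x (u ++ v) y ↔ ∃ z, W b x u z ∧ W b z v y := by
  induction u generalizing x with
  | nil => simp
  | cons h u ih =>
    simp only [List.cons_append, W_cons]
    constructor
    · rintro ⟨z, hz, hw⟩
      obtain ⟨t, ht, hv⟩ := (ih z).1 hw
      exact ⟨t, ⟨z, hz, ht⟩, hv⟩
    · rintro ⟨t, ⟨z, hz, ht⟩, hv⟩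
      exact ⟨z, hz, (ih z).2 ⟨t, ht, hv⟩⟩

/-- inverse word -/
def winv (u : List (S × Bool)) : List (S × Bool) := (u.map hinv).reverse

@[simp] lemma length_winv (u : List (S × Bool)) : (winv u).length = u.length := by simp [winv]

lemma W_winv (b : Gam src tgt) (x y : V) (u : List (S × Bool)) :
    W b x (winv u) y ↔ W b y u x := by
  induction u generalizing x y with
  | nil => simp [winv, eq_comm]
  | cons h u ih =>
    have : winv (h :: u) = winv u ++ [hinv h] := by simp [winv]
    rw [this, W_append]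
    simp only [W_cons, W_nil]
    constructor
    · rintro ⟨z, hz, t, ht, rfl⟩
      exact ⟨z, (E_hinv b h z t).1 ht, (ih x z).1 hz⟩
    · rintro ⟨z, hz, hw⟩
      exact ⟨z, (ih x z).2 hw, y, (E_hinv b h z y).2 hz, rfl⟩

/-- reduced words -/
def Red (u : List (S × Bool)) : Prop := List.IsChain (fun a c => c ≠ hinv a) u

/-- no reduced closed walk of length `< t` -/
def NS (b : Gam src tgt) (t : ℕ) : Prop :=
  ∀ x u, u ≠ [] → Red u → u.length < t → ¬ W b x u x

lemma NS.mono {b : Gam src tgt} {t t' : ℕ} (h : NS b t) (htt : t' ≤ t) : NS b t' :=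
  fun x u h1 h2 h3 => h x u h1 h2 (lt_of_lt_of_le h3 htt)

/-- switching at letter `s` -/
def sw (b : Gam src tgt) (s : S) (v v' : src s) : Gam src tgt :=
  Function.update b s ((Equiv.swap v v').trans (b s))

section Switch

variable (b : Gam src tgt) (s : S) (v v' : src s)

/-- special darts -/
def Sp (h : S × Bool) (x : V) : Prop :=
  h.1 = s ∧ ((h.2 = true ∧ (x = v ∨ x = v')) ∨ (h.2 = false ∧ (x = b s v ∨ x = b s v')))

lemma E_sw_of_not_Sp {h : S × Bool} {x y : V} (hn : ¬ Sp b s v v' h x) :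
    E (sw b s v v') h x y ↔ E b h x y := by
  rcases h with ⟨r, c⟩
  by_cases hr : r = s
  · subst hr
    cases c
    · have h1 : x ≠ b r v := fun hx => hn ⟨rfl, Or.inr ⟨rfl, Or.inl hx⟩⟩
      have h2 : x ≠ b r v' := fun hx => hn ⟨rfl, Or.inr ⟨rfl, Or.inr hx⟩⟩
      simp only [E, sw, Bool.false_eq_true, if_false, Function.update_self, Equiv.trans_apply]
      constructor
      · rintro ⟨hy, he⟩
        refine ⟨hy, ?_⟩
        by_cases e1 : (⟨y, hy⟩ : src r) = v
        · rw [e1, Equiv.swap_apply_left] at he; exact absurd he.symm h2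
        by_cases e2 : (⟨y, hy⟩ : src r) = v'
        · rw [e2, Equiv.swap_apply_right] at he; exact absurd he.symm h1
        rwa [Equiv.swap_apply_of_ne_of_ne e1 e2] at he
      · rintro ⟨hy, he⟩
        refine ⟨hy, ?_⟩
        have e1 : (⟨y, hy⟩ : src r) ≠ v := fun e => h1 (by rw [← e, he])
        have e2 : (⟨y, hy⟩ : src r) ≠ v' := fun e => h2 (by rw [← e, he])
        rwa [Equiv.swap_apply_of_ne_of_ne e1 e2]
    · have h1 : x ≠ v := fun hx => hn ⟨rfl, Or.inl ⟨rfl, Or.inl hx⟩⟩
      have h2 : x ≠ v' := fun hx => hn ⟨rfl, Or.inl ⟨rfl, Or.inr hx⟩⟩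
      simp only [E, sw, if_true, Function.update_self, Equiv.trans_apply]
      constructor
      · rintro ⟨hy, he⟩
        refine ⟨hy, ?_⟩
        have e1 : (⟨x, hy⟩ : src r) ≠ v := fun e => h1 (congrArg Subtype.val e)
        have e2 : (⟨x, hy⟩ : src r) ≠ v' := fun e => h2 (congrArg Subtype.val e)
        rwa [Equiv.swap_apply_of_ne_of_ne e1 e2] at he
      · rintro ⟨hy, he⟩
        refine ⟨hy, ?_⟩
        have e1 : (⟨x, hy⟩ : src r) ≠ v := fun e => h1 (congrArg Subtype.val e)
        have e2 : (⟨x, hy⟩ : src r) ≠ v' := fun e => h2 (congrArg Subtype.val e)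
        rwa [Equiv.swap_apply_of_ne_of_ne e1 e2]
  · have : sw b s v v' r = b r := by simp [sw, Function.update_of_ne hr]
    simp only [E, this]

lemma sw_apply_left : sw b s v v' s v = b s v' := by simp [sw]
lemma sw_apply_right : sw b s v v' s v' = b s v := by simp [sw]

/-- the crossing darts -/
lemma E_sw_of_Sp (hvv : v ≠ v') {h : S × Bool} {x y : V} (hs : Sp b s v v' h x)
    (he : E (sw b s v v') h x y) :
    (h = (s, true) ∧ x = v ∧ y = b s v') ∨ (h = (s, true) ∧ x = v' ∧ y = b s v) ∨
    (h = (s, false) ∧ x = b s v ∧ y = v') ∨ (h = (s, false) ∧ x = b s v' ∧ y = v) := by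
  rcases h with ⟨r, c⟩
  obtain ⟨hr, hs⟩ := hs
  simp only at hr hs
  subst hr
  rcases hs with ⟨rfl, hx | hx⟩ | ⟨rfl, hx | hx⟩
  · left
    rw [E_true] at he
    obtain ⟨hx', he⟩ := he
    have : (⟨x, hx'⟩ : src r) = v := Subtype.ext hx
    rw [this, sw_apply_left] at he
    exact ⟨rfl, hx, he.symm⟩
  · right; left
    rw [E_true] at he
    obtain ⟨hx', he⟩ := he
    have : (⟨x, hx'⟩ : src r) = v' := Subtype.ext hx
    rw [this, sw_apply_right] at he
    exact ⟨rfl, hx, he.symm⟩
  · right; right; left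
    refine ⟨rfl, hx, ?_⟩
    rw [E_false] at he
    have h2 : E (sw b r v v') (r, true) v' x := by
      rw [E_true]; exact ⟨v'.2, by rw [hx]; exact congrArg Subtype.val (sw_apply_right b r v v')⟩
    have h3 : E (sw b r v v') (r, false) x y := by rw [E_false]; exact he
    have h4 : E (sw b r v v') (r, false) x v' := by rw [E_false]; exact h2
    exact E_det h3 h4
  · right; right; right
    refine ⟨rfl, hx, ?_⟩
    rw [E_false] at he
    have h2 : E (sw b r v v') (r, true) v x := by
      rw [E_true]; exact ⟨v.2, by rw [hx]; exact congrArg Subtype.val (sw_apply_left b r v v')⟩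
    have h3 : E (sw b r v v') (r, false) x y := by rw [E_false]; exact he
    have h4 : E (sw b r v v') (r, false) x v := by rw [E_false]; exact h2
    exact E_det h3 h4

/-- clean walks: avoid the special darts -/
def CW : V → List (S × Bool) → V → Prop
  | x, [], y => x = y
  | x, h :: u, y => ¬ Sp b s v v' h x ∧ ∃ z, E b h x z ∧ CW z u y

@[simp] lemma CW_nil (x y : V) : CW b s v v' x [] y ↔ x = y := Iff.rfl
@[simp] lemma CW_cons (x y : V) (h : S × Bool) (u : List (S × Bool)) :
    CW b s v v' x (h :: u) y ↔ ¬ Sp b s v v' h x ∧ ∃ z, E b h x z ∧ CW b s v v' z u y := Iff.rfl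

lemma CW.toW {x y : V} {u : List (S × Bool)} (h : CW b s v v' x u y) : W b x u y := by
  induction u generalizing x with
  | nil => exact h
  | cons a u ih =>
    obtain ⟨_, z, hz, hw⟩ := h
    exact ⟨z, hz, ih hw⟩

lemma W_sw_decomp {x y : V} {u : List (S × Bool)} (h : W (sw b s v v') x u y) :
    CW b s v v' x u y ∨ ∃ u1 a u2 q p, u = u1 ++ a :: u2 ∧ CW b s v v' x u1 q ∧
      Sp b s v v' a q ∧ E (sw b s v v') a q p ∧ W (sw b s v v') p u2 y := by
  induction u generalizing x with
  | nil => exact Or.inl h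
  | cons a u ih =>
    obtain ⟨z, hz, hw⟩ := h
    by_cases hs : Sp b s v v' a x
    · right
      exact ⟨[], a, u, x, z, rfl, rfl, hs, hz, hw⟩
    · have hz' : E b a x z := (E_sw_of_not_Sp b s v v' hs).1 hz
      rcases ih hw with hc | ⟨u1, a', u2, q, p, rfl, h1, h2, h3, h4⟩
      · left; exact ⟨hs, z, hz', hc⟩
      · right
        exact ⟨a :: u1, a', u2, q, p, rfl, ⟨hs, z, hz', h1⟩, h2, h3, h4⟩

/-- `far t`: no walk of length `< t` between the two edges -/
def Far (t : ℕ) : Prop :=
  ∀ x y : V, (x = v ∨ x = b s v) → (y = v' ∨ y = b s v') →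
    ∀ u : List (S × Bool), u.length < t → ¬ W b x u y

lemma Far.symm' {b : Gam src tgt} {s : S} {v v' : src s} {t : ℕ} (hf : Far b s v v' t) {x y : V}
    (hx : x = v ∨ x = b s v) (hy : y = v' ∨ y = b s v') {u : List (S × Bool)}
    (hu : u.length < t) : ¬ W b y u x := by
  intro hw
  exact hf x y hx hy (winv u) (by simpa using hu) ((W_winv b x y u).2 hw)

lemma red_of_infix {u1 u2 u3 : List (S × Bool)} (h : Red (u1 ++ u2 ++ u3)) : Red u2 := by
  unfold Red at *
  exact (List.isChain_append.1 (List.isChain_append.1 h).1).2.1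

theorem switch_clean {t : ℕ} (hns : NS b t) (hf : Far b s v v' t) {x : V}
    {u : List (S × Bool)} (hu : Red u) (hlen : u.length ≤ t)
    (hw : W (sw b s v v') x u x) : CW b s v v' x u x := by
  rcases Nat.eq_zero_or_pos t with ht | ht
  · subst ht
    have : u = [] := List.length_eq_zero_iff.1 (Nat.le_zero.1 hlen)
    subst this; simp
  have hvv : v ≠ v' := by
    intro h
    exact hf v v' (Or.inl rfl) (Or.inl rfl) [] (by simpa using ht) (by simp [h])
  have hA : ∀ x y : V, (x = v ∨ x = b s v) → (y = v' ∨ y = b s v') → x ≠ y := by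
    intro x y hx hy hxy
    exact hf x y hx hy [] (by simpa using ht) (by simpa using hxy)
  rcases W_sw_decomp b s v v' hw with hc | ⟨u1, a, u2, q, p, rfl, h1, h2, h3, h4⟩
  · exact hc
  exfalso
  have hcross := E_sw_of_Sp b s v v' hvv h2 h3
  -- sides
  have hside : ((q = v ∨ q = b s v) ∧ (p = v' ∨ p = b s v')) ∨
      ((q = v' ∨ q = b s v') ∧ (p = v ∨ p = b s v)) := by
    rcases hcross with ⟨_, rfl, rfl⟩ | ⟨_, rfl, rfl⟩ | ⟨_, rfl, rfl⟩ | ⟨_, rfl, rfl⟩ <;> simp
  simp only [List.length_append, List.length_cons] at hlen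
  rcases W_sw_decomp b s v v' h4 with hc | ⟨u3, a', u4, q', p', rfl, g1, g2, g3, g4⟩
  · -- single crossing
    have hw' : W b p (u2 ++ u1) q :=
      (W_append b p q u2 u1).2 ⟨x, CW.toW b s v v' hc, CW.toW b s v v' h1⟩
    have hl : (u2 ++ u1).length < t := by simp only [List.length_append]; omega
    rcases hside with ⟨hq, hp⟩ | ⟨hq, hp⟩
    · exact hf.symm' hq hp hl hw'
    · exact hf p q hp hq _ hl hw'
  · have hw3 : W b p u3 q' := CW.toW b s v v' g1
    simp only [List.length_append, List.length_cons] at hlen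
    have hl3 : u3.length < t := by omega
    have hl3' : u3.length + 1 < t := by omega
    have hcross' := E_sw_of_Sp b s v v' hvv g2 g3
    have hred3 : Red u3 := by
      have : u1 ++ a :: (u3 ++ a' :: u4) = (u1 ++ [a]) ++ u3 ++ (a' :: u4) := by simp
      rw [this] at hu
      exact red_of_infix hu
    have hred4 : Red (a :: u3) := by
      have : u1 ++ a :: (u3 ++ a' :: u4) = u1 ++ (a :: u3) ++ (a' :: u4) := by simp
      rw [this] at hu
      exact red_of_infix hu
    have hred5 : Red (a :: (u3 ++ [a'])) := by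
      have : u1 ++ a :: (u3 ++ a' :: u4) = u1 ++ (a :: (u3 ++ [a'])) ++ u4 := by simp
      rw [this] at hu
      exact red_of_infix hu
    -- key: same side
    have key : (a' = hinv a ∧ q' = p) ∨ (a' = a ∧ E b a q' p) := by
      have hside' : ∀ y, (q' = y) → ((p = v ∨ p = b s v) → ¬ (y = v' ∨ y = b s v')) ∧
          ((p = v' ∨ p = b s v') → ¬ (y = v ∨ y = b s v)) := by
        rintro y rfl
        exact ⟨fun hp hy => hf p q' hp hy u3 hl3 hw3, fun hp hy => hf.symm' hy hp hl3 hw3⟩
      have hE1 : E b (s, true) v (b s v) := by rw [E_true]; exact ⟨v.2, rfl⟩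
      have hE2 : E b (s, true) v' (b s v') := by rw [E_true]; exact ⟨v'.2, rfl⟩
      have hE3 : E b (s, false) (b s v) v := by rw [E_false]; exact hE1
      have hE4 : E b (s, false) (b s v') v' := by rw [E_false]; exact hE2
      rcases hcross with ⟨rfl, _, hp⟩ | ⟨rfl, _, hp⟩ | ⟨rfl, _, hp⟩ | ⟨rfl, _, hp⟩ <;>
      rcases hcross' with ⟨rfl, hq, _⟩ | ⟨rfl, hq, _⟩ | ⟨rfl, hq, _⟩ | ⟨rfl, hq, _⟩ <;>
      first
        | exact Or.inl ⟨rfl, hq.trans hp.symm⟩
        | exact Or.inr ⟨rfl, by rw [hq, hp]; assumption⟩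
        | exact absurd (by simp : (q' = q')) (by
            have := hside' q' rfl
            rw [hp, hq] at this
            simp at this)
    rcases key with ⟨ha, hq⟩ | ⟨ha, hE⟩
    · subst hq
      rcases List.eq_nil_or_concat u3 with h0 | _
      · subst h0
        simp only [List.nil_append] at hred5
        unfold Red at hred5
        simp at hred5
        exact hred5 ha
      · by_cases h0 : u3 = []
        · subst h0
          simp only [List.nil_append] at hred5
          unfold Red at hred5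
          simp at hred5
          exact hred5 ha
        · exact hns q' u3 h0 hred3 hl3 hw3
    · exact hns q' (a :: u3) (by simp) hred4 (by simpa using hl3') ⟨p, hE, hw3⟩

end Switch


section Ball

/-- nodes reachable by words of length `< t` -/
noncomputable def Ball (b : Gam src tgt) (x : V) (t : ℕ) : Finset V := by
  classical exact univ.filter (fun y => ∃ u : List (S × Bool), u.length < t ∧ W b x u y)

lemma mem_Ball {b : Gam src tgt} {x y : V} {t : ℕ} :
    y ∈ Ball b x t ↔ ∃ u : List (S × Bool), u.length < t ∧ W b x u y := by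
  classical
  simp [Ball]

lemma card_Ball (b : Gam src tgt) (x : V) (t : ℕ) :
    (Ball b x t).card ≤ (2 * Fintype.card S + 1) ^ t := by
  classical
  induction t generalizing x with
  | zero =>
    have : Ball b x 0 = ∅ := by
      ext y; simp [mem_Ball]
    simp [this]
  | succ t ih =>
    set f : S × Bool → Finset V := fun h =>
      if hz : ∃ z, E b h x z then Ball b hz.choose t else ∅ with hf
    have hsub : Ball b x (t + 1) ⊆ {x} ∪ univ.biUnion f := by
      intro y hy
      obtain ⟨u, hu, hw⟩ := mem_Ball.1 hy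
      cases u with
      | nil => simp at hw; simp [hw]
      | cons h u =>
        obtain ⟨z, hz, hw⟩ := hw
        have hex : ∃ z, E b h x z := ⟨z, hz⟩
        have hzz : hex.choose = z := E_det hex.choose_spec hz
        rw [mem_union, mem_biUnion]
        right
        refine ⟨h, mem_univ _, ?_⟩
        simp only [hf, dif_pos hex, hzz]
        exact mem_Ball.2 ⟨u, by simpa using hu, hw⟩
    have hfc : ∀ h, (f h).card ≤ (2 * Fintype.card S + 1) ^ t := by
      intro h
      simp only [hf]
      split_ifs with hz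
      · exact ih _
      · simp
    calc (Ball b x (t + 1)).card ≤ ({x} ∪ univ.biUnion f).card := card_le_card hsub
      _ ≤ ({x} : Finset V).card + (univ.biUnion f).card := card_union_le _ _
      _ ≤ 1 + ∑ h, (f h).card := by
          gcongr
          · simp
          · exact card_biUnion_le
      _ ≤ 1 + ∑ _h : S × Bool, (2 * Fintype.card S + 1) ^ t := by
          gcongr; exact hfc _
      _ = 1 + 2 * Fintype.card S * (2 * Fintype.card S + 1) ^ t := by
          simp [Fintype.card_prod]; ring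
      _ ≤ (2 * Fintype.card S + 1) ^ t + 2 * Fintype.card S * (2 * Fintype.card S + 1) ^ t := by
          gcongr; exact Nat.one_le_pow _ _ (by omega)
      _ = (2 * Fintype.card S + 1) ^ (t + 1) := by ring

lemma card_not_Far (b : Gam src tgt) (s : S) (v : src s) (t : ℕ)
    [DecidablePred fun v' => ¬ Far b s v v' t] :
    (univ.filter (fun v' : src s => ¬ Far b s v v' t)).card ≤
      4 * (2 * Fintype.card S + 1) ^ t := by
  classical
  set B : Finset V := Ball b v t ∪ Ball b (b s v) t with hB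
  have hBc : B.card ≤ 2 * (2 * Fintype.card S + 1) ^ t := by
    calc B.card ≤ (Ball b v t).card + (Ball b (b s v) t).card := card_union_le _ _
      _ ≤ (2 * Fintype.card S + 1) ^ t + (2 * Fintype.card S + 1) ^ t :=
          add_le_add (card_Ball _ _ _) (card_Ball _ _ _)
      _ = _ := by ring
  have hsub : univ.filter (fun v' : src s => ¬ Far b s v v' t) ⊆
      univ.filter (fun v' : src s => (v' : V) ∈ B) ∪
      univ.filter (fun v' : src s => ((b s v' : tgt s) : V) ∈ B) := by
    intro v' hv'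
    simp only [mem_filter, mem_univ, true_and, Far, not_forall, not_not] at hv'
    obtain ⟨x, y, hx, hy, u, hu, hw⟩ := hv'
    have hyB : y ∈ B := by
      rw [hB, mem_union]
      rcases hx with rfl | rfl
      · left; exact mem_Ball.2 ⟨u, hu, hw⟩
      · right; exact mem_Ball.2 ⟨u, hu, hw⟩
    rw [mem_union]
    rcases hy with rfl | rfl
    · left; simpa using hyB
    · right; simpa using hyB
  have h1 : (univ.filter (fun v' : src s => (v' : V) ∈ B)).card ≤ B.card := by
    refine card_le_card_of_injOn (fun v' => (v' : V)) ?_ ?_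
    · intro v' hv'; simpa using hv'
    · intro a _ c _ h; exact Subtype.ext h
  have h2 : (univ.filter (fun v' : src s => ((b s v' : tgt s) : V) ∈ B)).card ≤ B.card := by
    refine card_le_card_of_injOn (fun v' => ((b s v' : tgt s) : V)) ?_ ?_
    · intro v' hv'; simpa using hv'
    · intro a _ c _ h
      exact (b s).injective (Subtype.ext h)
  calc _ ≤ _ := card_le_card hsub
    _ ≤ _ := card_union_le _ _
    _ ≤ B.card + B.card := add_le_add h1 h2
    _ ≤ 4 * (2 * Fintype.card S + 1) ^ t := by omega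

end Ball

section Exist

lemma NS_one (b : Gam src tgt) : NS b 1 := by
  intro x u hu _ hl
  exact absurd (List.length_eq_zero_iff.1 (Nat.lt_one_iff.1 hl)) hu

/-- reduced closed words of length `t` -/
noncomputable def closedSet (b : Gam src tgt) (t : ℕ) : Finset (V × (Fin t → S × Bool)) := by
  classical exact univ.filter (fun p => Red (List.ofFn p.2) ∧ W b p.1 (List.ofFn p.2) p.1)

lemma mem_closedSet {b : Gam src tgt} {t : ℕ} {p : V × (Fin t → S × Bool)} :
    p ∈ closedSet b t ↔ Red (List.ofFn p.2) ∧ W b p.1 (List.ofFn p.2) p.1 := by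
  classical
  simp [closedSet]

lemma NS_switch {b : Gam src tgt} {s : S} {v v' : src s} {t : ℕ} (hns : NS b t)
    (hf : Far b s v v' t) : NS (sw b s v v') t := by
  intro x u hu0 hu hl hw
  exact hns x u hu0 hu hl (CW.toW b s v v' (switch_clean b s v v' hns hf hu hl.le hw))

theorem exists_NS (hcard : ∀ s, (src s).card = (tgt s).card) (t : ℕ)
    (hN : ∀ s, (src s).Nonempty → 4 * (2 * Fintype.card S + 1) ^ t < (src s).card) :
    ∃ b : Gam src tgt, NS b t := by
  classical
  have hne : Nonempty (Gam src tgt) :=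
    ⟨fun s => Fintype.equivOfCardEq (by simpa using hcard s)⟩
  suffices H : ∀ t', t' ≤ t → ∃ b : Gam src tgt, NS b t' from H t le_rfl
  intro t'
  induction t' with
  | zero => intro _; exact ⟨hne.some, (NS_one _).mono (Nat.zero_le _)⟩
  | succ r ih =>
    intro hr
    rcases Nat.eq_zero_or_pos r with h0 | hpos
    · subst h0; exact ⟨hne.some, NS_one _⟩
    obtain ⟨b0, hb0⟩ := ih (by omega)
    obtain ⟨b, hb, hmin⟩ := Finset.exists_min_image (univ.filter fun b : Gam src tgt => NS b r)
      (fun b => (closedSet b r).card) ⟨b0, by simpa using hb0⟩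
    simp only [mem_filter, mem_univ, true_and] at hb hmin
    refine ⟨b, ?_⟩
    by_contra hcon
    simp only [NS, not_forall, not_not] at hcon
    obtain ⟨x, u, hu0, hu, hl, hw⟩ := hcon
    have hlen : u.length = r := by
      by_contra hne'
      exact hb x u hu0 hu (by omega) hw
    subst hlen
    obtain ⟨h, u', rfl⟩ := List.exists_cons_of_ne_nil hu0
    obtain ⟨z, hz, hw'⟩ := id hw
    obtain ⟨s, c⟩ := h
    -- the edge
    obtain ⟨v, hv⟩ : ∃ v : src s, (c = true ∧ x = v) ∨ (c = false ∧ x = b s v) := by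
      cases c
      · rw [E_false, E_true] at hz
        obtain ⟨hz1, hz2⟩ := hz
        exact ⟨⟨z, hz1⟩, Or.inr ⟨rfl, hz2.symm⟩⟩
      · rw [E_true] at hz
        obtain ⟨hz1, hz2⟩ := hz
        exact ⟨⟨x, hz1⟩, Or.inl ⟨rfl, rfl⟩⟩
    set r := ((s, c) :: u').length with hrdef
    obtain ⟨v', hv'⟩ : ∃ v' : src s, Far b s v v' r := by
      by_contra hno
      push Not at hno
      have h1 := card_not_Far b s v r
      rw [Finset.filter_true_of_mem (fun v' _ => hno v')] at h1
      simp only [Finset.card_univ, Fintype.card_coe] at h1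
      have h2 := hN s ⟨v, v.2⟩
      have h3 : (2 * Fintype.card S + 1) ^ r ≤ (2 * Fintype.card S + 1) ^ t :=
        Nat.pow_le_pow_right (by omega) (by omega)
      omega
    have hns' : NS (sw b s v v') r := NS_switch hb hv'
    have hlt : (closedSet (sw b s v v') r).card < (closedSet b r).card := by
      apply card_lt_card
      have hclean : ∀ p ∈ closedSet (sw b s v v') r, CW b s v v' p.1 (List.ofFn p.2) p.1 := by
        intro p hp
        obtain ⟨h1, h2⟩ := mem_closedSet.1 hp
        exact switch_clean b s v v' hb hv' h1 (le_of_eq List.length_ofFn) h2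
      refine ⟨fun p hp => ?_, fun hsub => ?_⟩
      · exact mem_closedSet.2 ⟨(mem_closedSet.1 hp).1, CW.toW b s v v' (hclean p hp)⟩
      · have hp : (x, fun i => ((s, c) :: u').get i) ∈ closedSet b r := by
          rw [mem_closedSet]
          simp only [List.ofFn_get]
          exact ⟨hu, hw⟩
        have := hclean _ (hsub hp)
        simp only [List.ofFn_get] at this
        refine this.1 ?_
        refine ⟨rfl, ?_⟩
        rcases hv with ⟨rfl, rfl⟩ | ⟨rfl, rfl⟩
        · left; exact ⟨rfl, Or.inl rfl⟩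
        · right; exact ⟨rfl, Or.inl rfl⟩
    exact absurd (hmin _ hns') (by omega)

end Exist

section Count

/-- the set of graphs in Omega containing the edges `E0` -/
noncomputable def Om (src tgt : S → Finset V) (g : ℕ) (E0 : Finset (S × V × V)) :
    Finset (Gam src tgt) := by
  classical exact univ.filter (fun b => NS b g ∧ ∀ e ∈ E0, E b (e.1, true) e.2.1 e.2.2)

lemma mem_Om {g : ℕ} {E0 : Finset (S × V × V)} {b : Gam src tgt} :
    b ∈ Om src tgt g E0 ↔ NS b g ∧ ∀ e ∈ E0, E b (e.1, true) e.2.1 e.2.2 := by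
  classical
  simp [Om]

lemma sw_sw (b : Gam src tgt) (s : S) (v v' : src s) : sw (sw b s v v') s v v' = b := by
  funext r
  by_cases hr : r = s
  · subst hr
    ext x
    simp [sw]
  · simp [sw, Function.update_of_ne hr]

lemma Om_step (g : ℕ) (E1 : Finset (S × V × V)) (e : S × V × V) (he : e ∉ E1) (B : ℕ)
    (hB : 4 * (2 * Fintype.card S + 1) ^ g + E1.card ≤ B) :
    (Om src tgt g (insert e E1)).card * ((src e.1).card - B) ≤ (Om src tgt g E1).card := by
  classical
  obtain ⟨s, x, w⟩ := e
  simp only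
  by_cases hx : x ∈ src s
  swap
  · have : Om src tgt g (insert (s, x, w) E1) = ∅ := by
      ext b
      simp only [mem_Om, mem_insert, forall_eq_or_imp, notMem_empty, iff_false]
      rintro ⟨_, h, _⟩
      rw [E_true] at h
      exact hx h.1
    rw [this]; simp
  set v : src s := ⟨x, hx⟩ with hv
  let Good : Gam src tgt → Finset (src s) := fun b =>
    univ.filter (fun v' => Far b s v v' g ∧ ∀ y, (s, (v' : V), y) ∉ E1)
  have hGood : ∀ b, (src s).card - B ≤ (Good b).card := by
    intro b
    have hc : (univ.filter (fun v' : src s => ¬ (Far b s v v' g ∧ ∀ y, (s, (v' : V), y) ∉ E1))).card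
        ≤ B := by
      have hsub : univ.filter (fun v' : src s => ¬ (Far b s v v' g ∧ ∀ y, (s, (v' : V), y) ∉ E1)) ⊆
          univ.filter (fun v' : src s => ¬ Far b s v v' g) ∪
          univ.filter (fun v' : src s => ∃ y, (s, (v' : V), y) ∈ E1) := by
        intro v' hv'
        simp only [mem_filter, mem_univ, true_and, mem_union] at hv' ⊢
        by_contra hcon
        push Not at hcon
        exact hv' ⟨hcon.1, hcon.2⟩
      have h2 : (univ.filter (fun v' : src s => ∃ y, (s, (v' : V), y) ∈ E1)).card ≤ E1.card := by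
        have : (univ.filter (fun v' : src s => ∃ y, (s, (v' : V), y) ∈ E1)).card ≤
            (E1.image (fun e => e.2.1)).card := by
          refine card_le_card_of_injOn (fun v' => (v' : V)) ?_ ?_
          · intro v' hv'
            simp only [coe_filter, mem_univ, true_and, Set.mem_ofPred_eq] at hv'
            obtain ⟨y, hy⟩ := hv'
            simp only [coe_image, Set.mem_image, mem_coe]
            exact ⟨_, hy, rfl⟩
          · intro a _ c _ h; exact Subtype.ext h
        exact this.trans card_image_le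
      calc _ ≤ _ := card_le_card hsub
        _ ≤ _ := card_union_le _ _
        _ ≤ _ := add_le_add (card_not_Far b s v g) h2
        _ ≤ B := hB
    have htot := Finset.card_filter_add_card_filter_not (s := (univ : Finset (src s)))
      (fun v' : src s => (Far b s v v' g ∧ ∀ y, (s, (v' : V), y) ∉ E1))
    simp only [Finset.card_univ, Fintype.card_coe] at htot
    show (src s).card - B ≤ (univ.filter _).card
    omega
  -- injection
  let D : Finset ((_ : Gam src tgt) × src s) := (Om src tgt g (insert (s, x, w) E1)).sigma Good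
  have hD : (Om src tgt g (insert (s, x, w) E1)).card * ((src s).card - B) ≤ D.card := by
    rw [card_sigma]
    calc _ = ∑ _b ∈ Om src tgt g (insert (s, x, w) E1), ((src s).card - B) := by simp
      _ ≤ _ := sum_le_sum (fun b _ => hGood b)
  refine hD.trans ?_
  refine card_le_card_of_injOn (fun p => sw p.1 s v p.2) ?_ ?_
  · rintro ⟨b, v'⟩ hp
    simp only [D, Good, coe_sigma, Set.mem_sigma_iff, mem_coe, mem_Om, mem_insert,
      forall_eq_or_imp, mem_filter, mem_univ, true_and] at hp
    obtain ⟨⟨hns, hbe, hE⟩, hfar, hno⟩ := hp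
    simp only [mem_coe, mem_Om]
    refine ⟨NS_switch hns hfar, ?_⟩
    rintro ⟨s1, x1, y1⟩ h1
    have hE1 := hE _ h1
    simp only at hE1 ⊢
    rw [E_sw_of_not_Sp]
    · exact hE1
    · rintro ⟨hs1, ⟨_, hx1 | hx1⟩ | ⟨hff, _⟩⟩
      · simp only at hs1
        subst hs1
        have hxx : x1 = x := hx1
        subst hxx
        have := E_det hE1 hbe
        subst this
        exact he h1
      · simp only at hs1
        subst hs1
        rw [hx1] at h1
        exact hno _ h1
      · simp at hff
  · rintro ⟨b, v'⟩ hp ⟨c, w'⟩ hq heq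
    simp only [D, coe_sigma, Set.mem_sigma_iff, mem_coe, mem_Om, mem_insert,
      forall_eq_or_imp] at hp hq
    simp only at heq
    have hb : E b (s, true) x w := hp.1.2.1
    have hc : E c (s, true) x w := hq.1.2.1
    rw [E_true] at hb hc
    obtain ⟨_, hb⟩ := hb
    obtain ⟨_, hc⟩ := hc
    have h1 : ((sw b s v v' s v' : tgt s) : V) = w := by rw [sw_apply_right]; exact hb
    have h2 : ((sw c s v w' s w' : tgt s) : V) = w := by rw [sw_apply_right]; exact hc
    have h3 : v' = w' := by
      apply (sw b s v v' s).injective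
      apply Subtype.ext
      rw [h1, heq, h2]
    subst h3
    have h4 : b = c := by
      have := congrArg (fun d => sw d s v v') heq
      simpa [sw_sw] using this
    subst h4
    rfl

theorem Om_bound (g : ℕ) (E0 : Finset (S × V × V)) (B : ℕ)
    (hB : 4 * (2 * Fintype.card S + 1) ^ g + E0.card ≤ B) :
    (Om src tgt g E0).card * ∏ e ∈ E0, ((src e.1).card - B) ≤ (Om src tgt g ∅).card := by
  classical
  induction E0 using Finset.induction_on with
  | empty => simp
  | insert e E1 he ih =>
    rw [prod_insert he]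
    rw [card_insert_of_notMem he] at hB
    calc (Om src tgt g (insert e E1)).card * (((src e.1).card - B) * ∏ e ∈ E1, ((src e.1).card - B))
        = ((Om src tgt g (insert e E1)).card * ((src e.1).card - B)) *
            ∏ e ∈ E1, ((src e.1).card - B) := by ring
      _ ≤ (Om src tgt g E1).card * ∏ e ∈ E1, ((src e.1).card - B) := by
          gcongr
          exact Om_step g E1 e he B (by omega)
      _ ≤ _ := ih (by omega)



end Count

end Crest.Agent.R177.Omega
end

-- ▼ part R177/Omega
section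

/-!
# OMEGA: random admissible graphs of large girth, and the switching bound (helper928)
-/

set_option autoImplicit false
set_option linter.unusedSectionVars false

open scoped Classical

namespace Crest.Agent.R177

open Crest.Agent.R199 (PAct)

namespace Omega

section Bridge

variable {S V : Type} [Fintype S] [Fintype V] {src tgt : S → Finset V}

/-- the folded graph of a family of bijections -/
noncomputable def toPAct (b : Gam src tgt) : PAct S V where
  st h x := if hx : ∃ y, E b h x y then some hx.choose else none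
  symm := by
    intro a x y h
    split_ifs at h with hx
    have h1 : E b a x y := by
      have := hx.choose_spec
      rwa [Option.some.inj h] at this
    have h2 : E b (hinv a) y x := (E_hinv b a y x).2 h1
    have h3 : ∃ z, E b (a.1, !a.2) y z := ⟨x, h2⟩
    rw [dif_pos h3]
    exact congrArg some (E_det h3.choose_spec h2)

lemma st_eq_some {b : Gam src tgt} {h : S × Bool} {x y : V} :
    (toPAct b).st h x = some y ↔ E b h x y := by
  show (if hx : ∃ y, E b h x y then some hx.choose else none) = some y ↔ _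
  constructor
  · intro h1
    split_ifs at h1 with hx
    have := hx.choose_spec
    rwa [Option.some.inj h1] at this
  · intro h1
    have h3 : ∃ z, E b h x z := ⟨y, h1⟩
    rw [dif_pos h3]
    exact congrArg some (E_det h3.choose_spec h1)

lemma read_eq_some {b : Gam src tgt} {w : List (S × Bool)} {x y : V} :
    (toPAct b).read w x = some y ↔ W b x w y := by
  induction w generalizing x with
  | nil => simp [PAct.read]
  | cons a w ih =>
    rw [PAct.read, W_cons]
    constructor
    · intro h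
      rw [Option.bind_eq_some_iff] at h
      obtain ⟨z, hz, hw⟩ := h
      exact ⟨z, st_eq_some.1 hz, ih.1 hw⟩
    · rintro ⟨z, hz, hw⟩
      rw [Option.bind_eq_some_iff]
      exact ⟨z, st_eq_some.2 hz, ih.2 hw⟩

lemma red_iff {w : List (S × Bool)} : Red w ↔ FreeGroup.IsReduced w := by
  unfold Red FreeGroup.IsReduced
  have : (fun a c : S × Bool => c ≠ hinv a) = fun a b => a.1 = b.1 → a.2 = b.2 := by
    funext a c
    rcases a with ⟨s, i⟩
    rcases c with ⟨t, j⟩
    simp only [hinv, ne_eq, Prod.mk.injEq, not_and, eq_iff_iff]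
    constructor
    · rintro h rfl
      have := h rfl
      revert this
      cases i <;> cases j <;> simp
    · rintro h rfl
      have := h rfl
      revert this
      cases i <;> cases j <;> simp
  rw [this]

lemma girth_of_NS {b : Gam src tgt} {g : ℕ} (h : NS b g) : Girth (toPAct b) g := by
  intro x w hw hne hr
  by_contra hlt
  exact h x w hne (red_iff.2 hw) (not_le.1 hlt) (read_eq_some.1 hr)

end Bridge

lemma prod_sub_key {ι : Type} (A : Finset ι) (N : ι → ℕ) (μ : ℝ) (B : ℕ) (hμ : 0 < μ)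
    (hm : ∀ i ∈ A, μ ≤ N i) (hB : (A.card : ℝ) * B ≤ μ) :
    (∏ i ∈ A, (N i : ℝ)) * (1 - A.card * B / μ) ≤ ∏ i ∈ A, ((N i - B : ℕ) : ℝ) := by
  have key : ∀ A' ⊆ A, (∏ i ∈ A', (N i : ℝ)) * (1 - A'.card * B / μ) ≤
      ∏ i ∈ A', ((N i - B : ℕ) : ℝ) := by
    intro A'
    induction A' using Finset.induction_on with
    | empty => intro _; simp
    | insert a A1 ha ih =>
      intro hsub
      rw [Finset.prod_insert ha, Finset.prod_insert ha, Finset.card_insert_of_notMem ha]
      have ih' := ih (fun i hi => hsub (Finset.mem_insert_of_mem hi))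
      have haA : a ∈ A := hsub (Finset.mem_insert_self _ _)
      have hNa : μ ≤ N a := hm a haA
      have hcardle : A1.card + 1 ≤ A.card := by
        have := Finset.card_le_card hsub
        rwa [Finset.card_insert_of_notMem ha] at this
      have hBn : (0 : ℝ) ≤ B := by positivity
      have hcR : ((A1.card : ℝ) + 1) ≤ A.card := by exact_mod_cast hcardle
      have hAB : ((A1.card : ℝ) + 1) * B ≤ μ :=
        (mul_le_mul_of_nonneg_right hcR hBn).trans hB
      have hA10 : (0 : ℝ) ≤ A1.card := by positivity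
      have hBm : (B : ℝ) ≤ μ := by nlinarith
      have hBN : B ≤ N a := by exact_mod_cast hBm.trans hNa
      have hsubR : ((N a - B : ℕ) : ℝ) = N a - B := by push_cast [Nat.cast_sub hBN]; ring
      rw [hsubR]
      have h1 : (N a : ℝ) * (1 - B / μ) ≤ N a - B := by
        have : (B : ℝ) ≤ N a * (B / μ) := by
          rw [mul_div_assoc', le_div_iff₀ hμ]
          nlinarith
        nlinarith
      have hx0 : (0 : ℝ) ≤ 1 - (B : ℝ) / μ := by
        rw [sub_nonneg, div_le_one hμ]; exact hBm
      have hy0 : (0 : ℝ) ≤ 1 - (A1.card : ℝ) * B / μ := by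
        rw [sub_nonneg, div_le_one hμ]
        nlinarith
      have hprod0 : (0 : ℝ) ≤ ∏ i ∈ A1, (N i : ℝ) := Finset.prod_nonneg (fun i _ => by positivity)
      have hNa0 : (0 : ℝ) ≤ N a := by positivity
      have hNB0 : (0 : ℝ) ≤ (N a : ℝ) - B := by
        rw [sub_nonneg]; exact hBm.trans hNa
      calc (N a : ℝ) * (∏ i ∈ A1, (N i : ℝ)) * (1 - ((A1.card + 1 : ℕ) : ℝ) * B / μ)
          ≤ (N a : ℝ) * (∏ i ∈ A1, (N i : ℝ)) * ((1 - (B : ℝ) / μ) * (1 - (A1.card : ℝ) * B / μ)) := by
            apply mul_le_mul_of_nonneg_left _ (by positivity)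
            push_cast
            have : (0 : ℝ) ≤ ((B : ℝ) / μ) * ((A1.card : ℝ) * B / μ) := by positivity
            have e : ((A1.card : ℝ) + 1) * B / μ = (A1.card : ℝ) * B / μ + B / μ := by ring
            rw [e]
            nlinarith
        _ = ((N a : ℝ) * (1 - (B : ℝ) / μ)) *
              ((∏ i ∈ A1, (N i : ℝ)) * (1 - (A1.card : ℝ) * B / μ)) := by ring
        _ ≤ ((N a : ℝ) - B) * ∏ i ∈ A1, ((N i - B : ℕ) : ℝ) := by
            apply mul_le_mul h1 ih' _ hNB0
            positivity
  exact key A (Finset.Subset.refl _)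

lemma prod_sub_bound_eps {ι : Type} (A : Finset ι) (N : ι → ℕ) (μ ε : ℝ) (B : ℕ) (hμ : 0 < μ)
    (hε : 0 < ε) (hm : ∀ i ∈ A, μ ≤ N i) (hB : (A.card : ℝ) * B * (1 + ε) ≤ ε * μ) :
    ∏ i ∈ A, (N i : ℝ) ≤ (1 + ε) * ∏ i ∈ A, ((N i - B : ℕ) : ℝ) := by
  have hAB0 : (0 : ℝ) ≤ (A.card : ℝ) * B := by positivity
  have hB1 : (A.card : ℝ) * B ≤ μ := by nlinarith
  have h1 := prod_sub_key A N μ B hμ hm hB1
  have h2 : 1 ≤ (1 + ε) * (1 - A.card * B / μ) := by
    have : (A.card : ℝ) * B / μ * (1 + ε) ≤ ε := by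
      rw [div_mul_eq_mul_div, div_le_iff₀ hμ]; exact hB
    nlinarith
  have h0 : (0 : ℝ) ≤ ∏ i ∈ A, (N i : ℝ) := Finset.prod_nonneg (fun i _ => by positivity)
  calc ∏ i ∈ A, (N i : ℝ) = (∏ i ∈ A, (N i : ℝ)) * 1 := by ring
    _ ≤ (∏ i ∈ A, (N i : ℝ)) * ((1 + ε) * (1 - A.card * B / μ)) := by gcongr
    _ = (1 + ε) * ((∏ i ∈ A, (N i : ℝ)) * (1 - A.card * B / μ)) := by ring
    _ ≤ _ := by gcongr

theorem Om_bound_eps {S V : Type} [Fintype S] [Fintype V] {src tgt : S → Finset V}
    (g : ℕ) (E0 : Finset (S × V × V)) (μ ε : ℝ) (hμ : 0 < μ) (hε : 0 < ε)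
    (hm : ∀ e ∈ E0, μ ≤ ((src e.1).card : ℝ))
    (hE : (E0.card : ℝ) * ((4 * (2 * Fintype.card S + 1) ^ g + E0.card : ℕ) : ℝ) * (1 + ε) ≤
      ε * μ) :
    ((Om src tgt g E0).card : ℝ) * ∏ e ∈ E0, ((src e.1).card : ℝ) ≤
      (1 + ε) * ((Om src tgt g ∅).card : ℝ) := by
  have h1 := Om_bound (src := src) (tgt := tgt) g E0 (4 * (2 * Fintype.card S + 1) ^ g + E0.card)
    le_rfl
  have h2 := prod_sub_bound_eps E0 (fun e => (src e.1).card) μ ε
    (4 * (2 * Fintype.card S + 1) ^ g + E0.card) hμ hε hm hE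
  have h1' : ((Om src tgt g E0).card : ℝ) * ∏ e ∈ E0, (((src e.1).card -
      (4 * (2 * Fintype.card S + 1) ^ g + E0.card) : ℕ) : ℝ) ≤ ((Om src tgt g ∅).card : ℝ) := by
    exact_mod_cast h1
  calc ((Om src tgt g E0).card : ℝ) * ∏ e ∈ E0, ((src e.1).card : ℝ)
      ≤ ((Om src tgt g E0).card : ℝ) * ((1 + ε) * ∏ e ∈ E0, (((src e.1).card -
          (4 * (2 * Fintype.card S + 1) ^ g + E0.card) : ℕ) : ℝ)) := by gcongr
    _ = (1 + ε) * (((Om src tgt g E0).card : ℝ) * ∏ e ∈ E0, (((src e.1).card -
          (4 * (2 * Fintype.card S + 1) ^ g + E0.card) : ℕ) : ℝ)) := by ring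
    _ ≤ _ := by gcongr

section Mod

variable {S : Type} [Fintype S] (M : Model S) (m : ℕ)

/-- (local instance) -/
@[reducible] noncomputable def instFintypeV : Fintype (M.V m) := by
  haveI := M.fin m
  exact Fintype.ofFinite _

attribute [local instance] instFintypeV

/-- sources -/
noncomputable def osrc (s : S) : Finset (M.V m) := Finset.univ.filter fun v => M.has m v (s, true)
/-- targets -/
noncomputable def otgt (s : S) : Finset (M.V m) := Finset.univ.filter fun v => M.has m v (s, false)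

lemma mem_osrc (s : S) (v : M.V m) : v ∈ osrc M m s ↔ M.has m v (s, true) := by simp [osrc]
lemma mem_otgt (s : S) (v : M.V m) : v ∈ otgt M m s ↔ M.has m v (s, false) := by simp [otgt]

lemma card_osrc (s : S) : (osrc M m s).card = Nat.card {v // M.has m v (s, true)} := by
  rw [Nat.card_eq_fintype_card, Fintype.card_subtype]; rfl
lemma card_otgt (s : S) : (otgt M m s).card = Nat.card {v // M.has m v (s, false)} := by
  rw [Nat.card_eq_fintype_card, Fintype.card_subtype]; rfl

lemma card_eq (s : S) : (osrc M m s).card = (otgt M m s).card := by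
  rw [card_osrc, card_otgt, M.bal]

lemma adm (b : Gam (osrc M m) (otgt M m)) : M.Adm m (toPAct b) := by
  rintro v ⟨s, c⟩
  have h1 : ((toPAct b).st (s, c) v).isSome ↔ ∃ y, E b (s, c) v y := by
    rw [Option.isSome_iff_exists]
    exact exists_congr fun y => st_eq_some
  rw [h1]
  cases c
  · constructor
    · rintro ⟨y, hy⟩
      rw [E_false, E_true] at hy
      obtain ⟨hy1, hy2⟩ := hy
      rw [← hy2]
      exact (mem_otgt M m s _).1 (b s ⟨y, hy1⟩).2
    · intro h
      have hv : v ∈ otgt M m s := (mem_otgt M m s v).2 h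
      refine ⟨((b s).symm ⟨v, hv⟩ : osrc M m s), ?_⟩
      rw [E_false, E_true]
      exact ⟨((b s).symm ⟨v, hv⟩).2, by simp⟩
  · constructor
    · rintro ⟨y, hy⟩
      rw [E_true] at hy
      exact (mem_osrc M m s v).1 hy.1
    · intro h
      have hv : v ∈ osrc M m s := (mem_osrc M m s v).2 h
      exact ⟨b s ⟨v, hv⟩, by rw [E_true]; exact ⟨hv, rfl⟩⟩

/-- the family of bijections of an admissible graph -/
noncomputable def ofPAct (A : PAct S (M.V m)) (hA : M.Adm m A) :
    Gam (osrc M m) (otgt M m) := fun s =>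
  { toFun := fun v => ⟨(A.st (s, true) v).get ((hA v (s, true)).2 ((mem_osrc M m s v).1 v.2)), by
      rw [mem_otgt, ← hA]
      have h : A.st (s, true) v = some ((A.st (s, true) v).get
        ((hA v (s, true)).2 ((mem_osrc M m s v).1 v.2))) := by simp
      have := A.symm _ _ _ h
      simp only [Bool.not_true] at this
      rw [this]; rfl⟩
    invFun := fun v => ⟨(A.st (s, false) v).get ((hA v (s, false)).2 ((mem_otgt M m s v).1 v.2)), by
      rw [mem_osrc, ← hA]
      have h : A.st (s, false) v = some ((A.st (s, false) v).get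
        ((hA v (s, false)).2 ((mem_otgt M m s v).1 v.2))) := by simp
      have := A.symm _ _ _ h
      simp only [Bool.not_false] at this
      rw [this]; rfl⟩
    left_inv := fun v => by
      apply Subtype.ext
      have h : A.st (s, true) v = some ((A.st (s, true) v).get
        ((hA v (s, true)).2 ((mem_osrc M m s v).1 v.2))) := by simp
      have := A.symm _ _ _ h
      simp only [Bool.not_true] at this
      simp [this]
    right_inv := fun v => by
      apply Subtype.ext
      have h : A.st (s, false) v = some ((A.st (s, false) v).get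
        ((hA v (s, false)).2 ((mem_otgt M m s v).1 v.2))) := by simp
      have := A.symm _ _ _ h
      simp only [Bool.not_false] at this
      simp [this] }

lemma PAct_ext {V : Type} {A B : PAct S V} (h : ∀ a x y, A.st a x = some y ↔ B.st a x = some y) :
    A = B := by
  have : A.st = B.st := by
    funext a x
    exact Option.ext (h a x)
  cases A; cases B; simp only at this; subst this; rfl

lemma toPAct_ofPAct (A : PAct S (M.V m)) (hA : M.Adm m A) : toPAct (ofPAct M m A hA) = A := by
  apply PAct_ext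
  have key : ∀ s x y, E (ofPAct M m A hA) (s, true) x y ↔ A.st (s, true) x = some y := by
    intro s x y
    rw [E_true]
    constructor
    · rintro ⟨hx, h⟩
      rw [← h]
      simp [ofPAct]
    · intro h
      have hx : x ∈ osrc M m s := by
        rw [mem_osrc, ← hA, h]; rfl
      refine ⟨hx, ?_⟩
      simp [ofPAct, h]
  rintro ⟨s, c⟩ x y
  rw [st_eq_some]
  cases c
  · rw [E_false, key]
    constructor
    · intro h; exact A.symm _ _ _ h
    · intro h; exact A.symm _ _ _ h
  · exact key s x y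

lemma toPAct_injective {b b' : Gam (osrc M m) (otgt M m)} (h : toPAct b = toPAct b') : b = b' := by
  funext s
  apply Equiv.ext
  intro v
  apply Subtype.ext
  have h1 : E b (s, true) v (b s v) := by rw [E_true]; exact ⟨v.2, rfl⟩
  rw [← st_eq_some, h, st_eq_some, E_true] at h1
  obtain ⟨_, h1⟩ := h1
  exact h1.symm

lemma NS_of_girth {b : Gam (osrc M m) (otgt M m)} {g : ℕ} (h : Girth (toPAct b) g) : NS b g := by
  intro x w hne hr hlt hw
  have := h x w (red_iff.1 hr) hne (read_eq_some.2 hw)
  omega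

/-- admissible graphs of girth `≥ g` and containing `E0` correspond to `Om` -/
noncomputable def omEquiv (g : ℕ) (E0 : Finset (S × M.V m × M.V m)) :
    {b : Gam (osrc M m) (otgt M m) // b ∈ Om (osrc M m) (otgt M m) g E0} ≃
    {A : PAct S (M.V m) // (M.Adm m A ∧ Girth A g) ∧
      ∀ e ∈ E0, A.st (e.1, true) e.2.1 = some e.2.2} :=
  Equiv.ofBijective
    (fun b => ⟨toPAct b.1, ⟨adm M m b.1, girth_of_NS (mem_Om.1 b.2).1⟩,
      fun e he => st_eq_some.2 ((mem_Om.1 b.2).2 e he)⟩)
    ⟨fun b b' h => by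
        apply Subtype.ext
        exact toPAct_injective M m (congrArg Subtype.val h),
      fun A => by
        refine ⟨⟨ofPAct M m A.1 A.2.1.1, mem_Om.2 ⟨?_, ?_⟩⟩, ?_⟩
        · apply NS_of_girth
          rw [toPAct_ofPAct]
          exact A.2.1.2
        · intro e he
          rw [← st_eq_some, toPAct_ofPAct]
          exact A.2.2 e he
        · apply Subtype.ext
          exact toPAct_ofPAct M m A.1 A.2.1.1⟩

end Mod

end Omega

attribute [local instance] Omega.instFintypeV

/-- admissible graphs of girth at least `g` -/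
def OmegaSet {S : Type} [Fintype S] (M : Model S) (m g : ℕ) : Set (PAct S (M.V m)) :=
  {A | M.Adm m A ∧ Girth A g}

open Omega in
/-- The measure: `g = ⌊c log (sz m)⌋`. -/
theorem omega {S : Type} [Fintype S] (M : Model S) :
    ∃ c : ℝ, 0 < c ∧ ∀ B ε : ℝ, 0 < ε → ∃ n0 : ℕ, ∀ m, n0 ≤ M.sz m →
      (OmegaSet M m ⌊c * Real.log (M.sz m)⌋₊).Finite ∧
      (OmegaSet M m ⌊c * Real.log (M.sz m)⌋₊).Nonempty ∧
        ∀ E0 : Finset (S × M.V m × M.V m), (E0.card : ℝ) ≤ B * Real.log (M.sz m) →
          (Nat.card {A : PAct S (M.V m) // A ∈ OmegaSet M m ⌊c * Real.log (M.sz m)⌋₊ ∧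
              ∀ e ∈ E0, A.st (e.1, true) e.2.1 = some e.2.2} : ℝ) *
            ∏ e ∈ E0, (Nat.card {v // M.has m v (e.1, true)} : ℝ) ≤
          (1 + ε) * Nat.card (OmegaSet M m ⌊c * Real.log (M.sz m)⌋₊) := by
  -- a uniform lower bound
  obtain ⟨ν, hν, hνN⟩ : ∃ ν : ℝ, 0 < ν ∧ ∀ s, ν ≤ M.N s := by
    rcases isEmpty_or_nonempty S with h | h
    · exact ⟨1, one_pos, fun s => (h.false s).elim⟩
    · obtain ⟨s0, hs0⟩ := Finite.exists_min M.N
      exact ⟨M.N s0, M.N_pos s0, hs0⟩
  set k : ℝ := 2 * Fintype.card S + 2 with hk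
  have hk1 : 1 < k := by
    have : (0 : ℝ) ≤ Fintype.card S := Nat.cast_nonneg _
    rw [hk]; linarith
  have hlogk : 0 < Real.log k := Real.log_pos hk1
  refine ⟨1 / (4 * Real.log k), by positivity, fun B ε hε => ?_⟩
  set B' : ℝ := max B 1 with hB'
  have hB'1 : 1 ≤ B' := le_max_right _ _
  -- asymptotics
  have hev1 : ∀ᶠ x : ℝ in Filter.atTop, Real.log x ≤ x ^ ((1 : ℝ) / 4) := by
    have h := (isLittleO_log_rpow_atTop (show (0 : ℝ) < 1 / 4 by norm_num)).bound (one_pos)
    filter_upwards [h, Filter.eventually_ge_atTop (1 : ℝ)] with x hx hx1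
    rw [one_mul, Real.norm_of_nonneg (Real.log_nonneg hx1),
      Real.norm_of_nonneg (by positivity)] at hx
    exact hx
  have hev2 : ∀ᶠ x : ℝ in Filter.atTop,
      B' * (4 + B') * (1 + ε) * x ^ ((1 : ℝ) / 2) ≤ ε * (ν * x) ∧
      4 * x ^ ((1 : ℝ) / 4) + 1 ≤ ν * x := by
    have ht : Filter.Tendsto (fun x : ℝ => x ^ ((1 : ℝ) / 2)) Filter.atTop Filter.atTop :=
      tendsto_rpow_atTop (by norm_num)
    filter_upwards [ht.eventually_ge_atTop ((B' * (4 + B') * (1 + ε)) / (ε * ν)),
      ht.eventually_ge_atTop (5 / ν), Filter.eventually_ge_atTop (1 : ℝ)] with x hx hx' hx1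
    have hx0 : 0 ≤ x := by linarith
    have hs1 : (1 : ℝ) ≤ x ^ ((1 : ℝ) / 2) := Real.one_le_rpow hx1 (by norm_num)
    have hsq : x ^ ((1 : ℝ) / 2) * x ^ ((1 : ℝ) / 2) = x := by
      rw [← Real.rpow_add (by linarith)]; norm_num
    have hle : x ^ ((1 : ℝ) / 4) ≤ x ^ ((1 : ℝ) / 2) :=
      Real.rpow_le_rpow_of_exponent_le hx1 (by norm_num)
    rw [div_le_iff₀ (by positivity)] at hx
    rw [div_le_iff₀ hν] at hx'
    set y := x ^ ((1 : ℝ) / 2)
    have hy : ν * x = ν * y * y := by rw [mul_assoc, hsq]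
    constructor
    · rw [hy]
      have := mul_le_mul_of_nonneg_right hx (by linarith : (0 : ℝ) ≤ y)
      nlinarith
    · rw [hy]
      have := mul_le_mul_of_nonneg_right hx' (by linarith : (0 : ℝ) ≤ y)
      nlinarith
  obtain ⟨x0, hx0⟩ := Filter.eventually_atTop.1
    (hev1.and (hev2.and (Filter.eventually_ge_atTop (1 : ℝ))))
  refine ⟨⌈x0⌉₊, fun m hm => ?_⟩
  have hxm : x0 ≤ (M.sz m : ℝ) := (Nat.le_ceil x0).trans (by exact_mod_cast hm)
  obtain ⟨ha, ⟨hb1, hb2⟩, hx1⟩ := hx0 _ hxm
  set x : ℝ := (M.sz m : ℝ) with hx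
  set g : ℕ := ⌊1 / (4 * Real.log k) * Real.log x⌋₊ with hg
  have hxpos : 0 < x := by linarith
  -- size of balls
  have hball : ((2 * Fintype.card S + 1 : ℕ) : ℝ) ^ g ≤ x ^ ((1 : ℝ) / 4) := by
    have hg' : (g : ℝ) ≤ 1 / (4 * Real.log k) * Real.log x :=
      Nat.floor_le (mul_nonneg (by positivity) (Real.log_nonneg hx1))
    calc ((2 * Fintype.card S + 1 : ℕ) : ℝ) ^ g ≤ k ^ g := by
          apply pow_le_pow_left₀ (by positivity)
          rw [hk]; push_cast; linarith
      _ = k ^ (g : ℝ) := (Real.rpow_natCast _ _).symm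
      _ ≤ k ^ (1 / (4 * Real.log k) * Real.log x) :=
          Real.rpow_le_rpow_of_exponent_le hk1.le hg'
      _ = x ^ ((1 : ℝ) / 4) := by
          rw [Real.rpow_def_of_pos (by linarith), Real.rpow_def_of_pos hxpos]
          congr 1
          field_simp
  have hsrc : ∀ s, ν * x ≤ ((osrc M m s).card : ℝ) := by
    intro s
    rw [card_osrc]
    calc ν * x ≤ M.N s * x := by gcongr; exact hνN s
      _ ≤ _ := M.N_le m s
  have hnon : ∃ b : Gam (osrc M m) (otgt M m), NS b g := by
    apply exists_NS (card_eq M m)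
    intro s _
    have : (4 * (2 * Fintype.card S + 1) ^ g : ℝ) < ((osrc M m s).card : ℝ) := by
      have h1 := hsrc s
      push_cast at hball
      linarith
    exact_mod_cast this
  obtain ⟨b0, hb0⟩ := hnon
  have hfin : (OmegaSet M m g).Finite := by
    have h1 : (Set.range fun b : Gam (osrc M m) (otgt M m) => toPAct b).Finite :=
      Set.finite_range _
    refine h1.subset ?_
    intro A hA
    exact ⟨ofPAct M m A hA.1, toPAct_ofPAct M m A hA.1⟩
  have hcardΩ : Nat.card (OmegaSet M m g) = (Om (osrc M m) (otgt M m) g ∅).card := by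
    rw [← Fintype.card_coe, ← Nat.card_eq_fintype_card, Nat.card_congr (omEquiv M m g ∅)]
    apply Nat.card_congr
    exact
      { toFun := fun A => ⟨A.1, A.2, by simp⟩
        invFun := fun A => ⟨A.1, A.2.1⟩
        left_inv := fun A => rfl
        right_inv := fun A => rfl }
  refine ⟨hfin, ⟨toPAct b0, adm M m b0, girth_of_NS hb0⟩, ?_⟩
  intro E0 hE0
  have hcardE : Nat.card {A : PAct S (M.V m) // A ∈ OmegaSet M m g ∧
      ∀ e ∈ E0, A.st (e.1, true) e.2.1 = some e.2.2} =
        (Om (osrc M m) (otgt M m) g E0).card := by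
    rw [← Fintype.card_coe, ← Nat.card_eq_fintype_card, Nat.card_congr (omEquiv M m g E0)]
    rfl
  rw [hcardE, hcardΩ]
  have hlog0 : 0 ≤ Real.log x := Real.log_nonneg hx1
  have hE0' : (E0.card : ℝ) ≤ B' * x ^ ((1 : ℝ) / 4) :=
    calc (E0.card : ℝ) ≤ B * Real.log x := hE0
      _ ≤ B' * Real.log x := by gcongr; exact le_max_left _ _
      _ ≤ B' * x ^ ((1 : ℝ) / 4) := by gcongr
  have hcond : (E0.card : ℝ) * ((4 * (2 * Fintype.card S + 1) ^ g + E0.card : ℕ) : ℝ) * (1 + ε) ≤
      ε * (ν * x) := by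
    push_cast
    push_cast at hball
    have h4 : 0 ≤ x ^ ((1 : ℝ) / 4) := by positivity
    have hsq : x ^ ((1 : ℝ) / 4) * x ^ ((1 : ℝ) / 4) = x ^ ((1 : ℝ) / 2) := by
      rw [← Real.rpow_add (by linarith)]; norm_num
    calc (E0.card : ℝ) * (4 * (2 * (Fintype.card S : ℝ) + 1) ^ g + E0.card) * (1 + ε)
        ≤ (B' * x ^ ((1 : ℝ) / 4)) * (4 * x ^ ((1 : ℝ) / 4) + B' * x ^ ((1 : ℝ) / 4)) * (1 + ε) := by
          gcongr
      _ = B' * (4 + B') * (1 + ε) * x ^ ((1 : ℝ) / 2) := by rw [← hsq]; ring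
      _ ≤ ε * (ν * x) := hb1
  have hmain := Om_bound_eps (src := osrc M m) (tgt := otgt M m) g E0 (ν * x) ε (by positivity) hε
    (fun e _ => hsrc e.1) hcond
  simp only [card_osrc] at hmain
  exact hmain

end Crest.Agent.R177
end

-- ▼ part R177/LocMeas
section

/-!
# Row 177, module LOC: the measure (helper928)

`exists_meas` : the uniform measure on `OmegaSet` satisfies `Meas`, for every set `o` of marked
nodes.  `neighbour_type`: (S0274) the type of the neighbour of a given node has a positive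
probability.
-/

set_option autoImplicit false
set_option linter.unusedSectionVars false

open scoped Classical

namespace Crest.Agent.R177.Loc

open Crest.Agent.R177
open Crest.Agent.R199 (PAct)

attribute [local instance] Omega.instFintypeV

/-- The measure: uniform on `OmegaSet M m g`, `g = ⌊c log (sz m)⌋`. -/
theorem exists_meas_type {S : Type} [Fintype S] (M : Model S) :
    ∃ c : ℝ, 0 < c ∧ ∀ B θ : ℝ, 0 < θ → ∃ n0 : ℕ, ∀ m, n0 ≤ M.sz m →
      (OmegaSet M m ⌊c * Real.log (M.sz m)⌋₊).Finite ∧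
      (OmegaSet M m ⌊c * Real.log (M.sz m)⌋₊).Nonempty ∧
      (∀ (o : Finset (M.V m)) (B' : ℕ), (B' : ℝ) ≤ B * Real.log (M.sz m) →
        ∀ [Fintype (OmegaSet M m ⌊c * Real.log (M.sz m)⌋₊)],
          Meas M m o (OmegaSet M m ⌊c * Real.log (M.sz m)⌋₊) (fun ω => ω.1) B') ∧
      ∀ (y : S) (o : M.V m) (T : Set (M.V m)), M.has m o (y, false) →
        θ * Nat.card {v // M.has m v (y, true)} ≤ Nat.card {v // v ∈ T ∧ M.has m v (y, true)} →
        θ / 2 * Nat.card (OmegaSet M m ⌊c * Real.log (M.sz m)⌋₊) ≤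
          Nat.card {A // A ∈ OmegaSet M m ⌊c * Real.log (M.sz m)⌋₊ ∧
            ∃ p ∈ T, A.st (y, true) p = some o} := by
  obtain ⟨c, hc, h⟩ := omega M
  refine ⟨c, hc, fun B θ hθ => ?_⟩
  obtain ⟨n1, h1⟩ := h B 1 one_pos
  obtain ⟨n2, h2⟩ := h 1 (θ / 2) (by positivity)
  refine ⟨max (max n1 n2) 3, fun m hm => ?_⟩
  have hm1 : n1 ≤ M.sz m := le_trans (le_trans (le_max_left _ _) (le_max_left _ _)) hm
  have hm2 : n2 ≤ M.sz m := le_trans (le_trans (le_max_right _ _) (le_max_left _ _)) hm
  have hm3 : 3 ≤ M.sz m := le_trans (le_max_right _ _) hm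
  obtain ⟨hfin, hne, hb⟩ := h1 m hm1
  obtain ⟨-, -, hb2⟩ := h2 m hm2
  set g : ℕ := ⌊c * Real.log (M.sz m)⌋₊ with hg
  have hlog : (1 : ℝ) ≤ Real.log (M.sz m) := by
    rw [Real.le_log_iff_exp_le (by positivity)]
    have h3 : (3 : ℝ) ≤ M.sz m := by exact_mod_cast hm3
    linarith [Real.exp_one_lt_d9]
  refine ⟨hfin, hne, ?_, ?_⟩
  · intro o B' hB' _
    refine ⟨fun ω => ω.2.1, ?_⟩
    intro E0 _ hE0
    have hE0' : (E0.card : ℝ) ≤ B * Real.log (M.sz m) := le_trans (by exact_mod_cast hE0) hB'
    have := hb E0 hE0'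
    rw [show (1 + 1 : ℝ) = 2 by norm_num, Nat.card_eq_fintype_card
      (α := (OmegaSet M m g))] at this
    refine le_trans ?_ this
    have hcard : Nat.card {ω : OmegaSet M m g //
        ∀ e ∈ E0, (ω.1 : PAct S (M.V m)).st (e.1, true) e.2.1 = some e.2.2} =
        Nat.card {A : PAct S (M.V m) // A ∈ OmegaSet M m g ∧
          ∀ e ∈ E0, A.st (e.1, true) e.2.1 = some e.2.2} :=
      Nat.card_congr
        { toFun := fun ω => ⟨ω.1.1, ω.1.2, ω.2⟩
          invFun := fun A => ⟨⟨A.1, A.2.1⟩, A.2.2⟩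
          left_inv := fun ω => rfl
          right_inv := fun A => rfl }
    rw [hcard]
    refine mul_le_mul_of_nonneg_left ?_ (Nat.cast_nonneg _)
    exact Finset.prod_le_prod (fun e _ => mul_nonneg (M.N_pos _).le (Nat.cast_nonneg _))
      (fun e _ => M.N_le m e.1)
  · intro y o T ho hT
    have : Fintype (OmegaSet M m g) := hfin.fintype
    -- the neighbour
    have hex : ∀ ω : OmegaSet M m g, ∃ p, ω.1.st (y, false) o = some p := fun ω =>
      Option.isSome_iff_exists.1 ((ω.2.1 o (y, false)).2 ho)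
    choose f hf using hex
    have hf' : ∀ (ω : OmegaSet M m g) p, f ω = p ↔ ω.1.st (y, true) p = some o := by
      intro ω p
      constructor
      · rintro rfl
        exact ω.1.symm _ _ _ (hf ω)
      · intro hp
        have := ω.1.symm _ _ _ hp
        have h2 := hf ω
        simp only [Bool.not_true] at this
        rw [this] at h2
        exact (Option.some.inj h2).symm
    set Ny : ℝ := (Nat.card {v // M.has m v (y, true)} : ℝ) with hNy
    set H : Finset (M.V m) := Finset.univ.filter fun v => M.has m v (y, true) with hH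
    have hHc : Ny = H.card := by
      rw [hNy, Nat.card_eq_fintype_card, Fintype.card_subtype]
    have hTc : (Nat.card {v // v ∈ T ∧ M.has m v (y, true)} : ℝ) =
        (H.filter (fun v => v ∈ T)).card := by
      rw [Nat.card_eq_fintype_card, Fintype.card_subtype, hH, Finset.filter_filter]
      congr 2
      ext v
      simp [and_comm]
    have hfH : ∀ ω, f ω ∈ H := by
      intro ω
      rw [hH, Finset.mem_filter]
      refine ⟨Finset.mem_univ _, (ω.2.1 _ _).1 ?_⟩
      rw [(hf' ω (f ω)).1 rfl]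
      rfl
    have hNpos : 0 < Ny := by
      have := M.N_le m y
      have h0 : 0 < M.N y * (M.sz m : ℝ) := mul_pos (M.N_pos y) (by positivity)
      rw [hNy]; linarith
    -- each fibre is small
    have hfib : ∀ p, ((Finset.univ.filter fun ω : OmegaSet M m g => f ω = p).card : ℝ) * Ny ≤
        (1 + θ / 2) * Nat.card (OmegaSet M m g) := by
      intro p
      have := hb2 {(y, p, o)} (by simpa using hlog)
      simp only [Finset.mem_singleton, forall_eq, Finset.prod_singleton] at this
      refine le_trans (le_of_eq ?_) this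
      rw [hNy]
      congr 2
      rw [← Fintype.card_subtype, ← Nat.card_eq_fintype_card]
      exact Nat.card_congr
        { toFun := fun ω => ⟨ω.1.1, ω.1.2, (hf' _ _).1 ω.2⟩
          invFun := fun A => ⟨⟨A.1, A.2.1⟩, (hf' _ _).2 A.2.2⟩
          left_inv := fun ω => rfl
          right_inv := fun A => rfl }
    have hgood : (Nat.card {A // A ∈ OmegaSet M m g ∧ ∃ p ∈ T, A.st (y, true) p = some o} : ℝ) =
        (Finset.univ.filter fun ω : OmegaSet M m g => f ω ∈ T).card := by
      rw [← Fintype.card_subtype, ← Nat.card_eq_fintype_card]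
      congr 1
      exact Nat.card_congr
        { toFun := fun A => ⟨⟨A.1, A.2.1⟩, by
            obtain ⟨p, hp, hp'⟩ := A.2.2
            have := (hf' ⟨A.1, A.2.1⟩ p).2 hp'
            rw [this]; exact hp⟩
          invFun := fun ω => ⟨ω.1.1, ω.1.2, f ω.1, ω.2, (hf' _ _).1 rfl⟩
          left_inv := fun A => rfl
          right_inv := fun ω => rfl }
    rw [hgood]
    -- the bad part
    have hbad : ((Finset.univ.filter fun ω : OmegaSet M m g => ¬ f ω ∈ T).card : ℝ) * Ny ≤
        (1 - θ) * Ny * ((1 + θ / 2) * Nat.card (OmegaSet M m g)) := by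
      have h3 : (Finset.univ.filter fun ω : OmegaSet M m g => ¬ f ω ∈ T).card =
          ∑ p ∈ H.filter (fun v => ¬ v ∈ T),
            (Finset.univ.filter fun ω : OmegaSet M m g => f ω = p).card := by
        rw [Finset.card_eq_sum_card_fiberwise (f := f) (t := H.filter (fun v => ¬ v ∈ T))]
        · apply Finset.sum_congr rfl
          intro p hp
          congr 1
          ext ω
          simp only [Finset.mem_filter, Finset.mem_univ, true_and]
          constructor
          · rintro ⟨-, h⟩; exact h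
          · rintro rfl
            exact ⟨(Finset.mem_filter.1 hp).2, rfl⟩
        · intro ω hω
          simp only [Finset.coe_filter, Finset.mem_univ, true_and, Set.mem_setOf_eq] at hω ⊢
          exact ⟨hfH ω, hω⟩
      rw [h3]
      push_cast
      rw [Finset.sum_mul]
      calc ∑ p ∈ H.filter (fun v => ¬ v ∈ T),
            ((Finset.univ.filter fun ω : OmegaSet M m g => f ω = p).card : ℝ) * Ny
          ≤ ∑ p ∈ H.filter (fun v => ¬ v ∈ T), (1 + θ / 2) * Nat.card (OmegaSet M m g) :=
            Finset.sum_le_sum fun p _ => hfib p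
        _ = (H.filter (fun v => ¬ v ∈ T)).card * ((1 + θ / 2) * Nat.card (OmegaSet M m g)) := by
            rw [Finset.sum_const, nsmul_eq_mul]
        _ ≤ _ := by
            refine mul_le_mul_of_nonneg_right ?_ (by positivity)
            have h4 := Finset.card_filter_add_card_filter_not (s := H) (fun v => v ∈ T)
            have h5 : ((H.filter (fun v => v ∈ T)).card : ℝ) +
                ((H.filter (fun v => ¬ v ∈ T)).card : ℝ) = H.card := by exact_mod_cast h4
            rw [hTc] at hT
            rw [← hHc] at h5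
            nlinarith
    have htot : ((Finset.univ.filter fun ω : OmegaSet M m g => f ω ∈ T).card : ℝ) +
        ((Finset.univ.filter fun ω : OmegaSet M m g => ¬ f ω ∈ T).card : ℝ) =
        Nat.card (OmegaSet M m g) := by
      rw [Nat.card_eq_fintype_card, ← Finset.card_univ]
      exact_mod_cast Finset.card_filter_add_card_filter_not
        (s := (Finset.univ : Finset (OmegaSet M m g))) (fun ω => f ω ∈ T)
    have hbad' : ((Finset.univ.filter fun ω : OmegaSet M m g => ¬ f ω ∈ T).card : ℝ) ≤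
        (1 - θ) * ((1 + θ / 2) * Nat.card (OmegaSet M m g)) := by
      have : ((Finset.univ.filter fun ω : OmegaSet M m g => ¬ f ω ∈ T).card : ℝ) * Ny ≤
        ((1 - θ) * ((1 + θ / 2) * Nat.card (OmegaSet M m g))) * Ny := by
        refine hbad.trans (le_of_eq ?_); ring
      exact le_of_mul_le_mul_right this hNpos
    have h0 : (0 : ℝ) ≤ Nat.card (OmegaSet M m g) := Nat.cast_nonneg _
    nlinarith [mul_nonneg (mul_nonneg hθ.le hθ.le) h0]

/-- The measure: uniform on `OmegaSet M m g`, `g = ⌊c log (sz m)⌋`. -/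
theorem exists_meas {S : Type} [Fintype S] (M : Model S) :
    ∃ c : ℝ, 0 < c ∧ ∀ B : ℝ, ∃ n0 : ℕ, ∀ m, n0 ≤ M.sz m →
      (OmegaSet M m ⌊c * Real.log (M.sz m)⌋₊).Finite ∧
      (OmegaSet M m ⌊c * Real.log (M.sz m)⌋₊).Nonempty ∧
      ∀ (o : Finset (M.V m)) (B' : ℕ), (B' : ℝ) ≤ B * Real.log (M.sz m) →
        ∀ [Fintype (OmegaSet M m ⌊c * Real.log (M.sz m)⌋₊)],
          Meas M m o (OmegaSet M m ⌊c * Real.log (M.sz m)⌋₊) (fun ω => ω.1) B' := by
  obtain ⟨c, hc, h⟩ := exists_meas_type M
  refine ⟨c, hc, fun B => ?_⟩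
  obtain ⟨n0, h0⟩ := h B 1 one_pos
  exact ⟨n0, fun m hm => ⟨(h0 m hm).1, (h0 m hm).2.1, (h0 m hm).2.2.1⟩⟩

end Crest.Agent.R177.Loc
end

-- ▼ part R177/LocLin
section

/-!
# LOC: linearisation of frames and configurations (helper506)

The positions of a frame are numbered `0, ..., tot - 1`, path after path.
-/

set_option autoImplicit false

open scoped Classical

namespace Crest.Agent.R177

open Crest.Agent.R199 (PAct)

namespace Frame

variable (F : Frame)

/-- number of positions -/
def tot : ℕ := ∑ i, (F.len i + 1)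

/-- numbering of the positions -/
def num (p : F.Pos) : ℕ := (finSigmaFinEquiv (n := fun i => F.len i + 1) p : Fin _)

theorem num_lt (p : F.Pos) : F.num p < F.tot :=
  (finSigmaFinEquiv (n := fun i => F.len i + 1) p).2

theorem num_inj {p q : F.Pos} (h : F.num p = F.num q) : p = q :=
  (finSigmaFinEquiv (n := fun i => F.len i + 1)).injective (Fin.ext h)


theorem exists_num {k : ℕ} (hk : k < F.tot) : ∃ p, F.num p = k :=
  ⟨(finSigmaFinEquiv (n := fun i => F.len i + 1)).symm ⟨k, hk⟩, by simp [num]⟩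

/-- number of the first position of a path -/
def off (i : Fin F.K) : ℕ := F.num ⟨i, 0⟩

theorem num_mk (i : Fin F.K) (j : Fin (F.len i + 1)) : F.num ⟨i, j⟩ = F.off i + j := by
  unfold off num
  rw [finSigmaFinEquiv_apply, finSigmaFinEquiv_apply]
  simp

theorem num_start (x : F.Dart) : F.num (F.start x) = F.off x.1 + x.2 := by
  unfold start; rw [num_mk]; simp

theorem num_stop (x : F.Dart) : F.num (F.stop x) = F.num (F.start x) + 1 := by
  rw [num_start]; unfold stop; rw [num_mk]; simp [Nat.add_assoc]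

theorem start_injective : Function.Injective F.start := by
  rintro ⟨i, a⟩ ⟨j, b⟩ h
  simp only [start, Sigma.mk.injEq] at h
  obtain ⟨rfl, h⟩ := h
  simpa using h

/-- number of a dart: the number of its start position -/
def dn (x : F.Dart) : ℕ := F.num (F.start x)

theorem dn_injective : Function.Injective F.dn := fun _ _ h => F.start_injective (F.num_inj h)

theorem dn_inj {x y : F.Dart} (h : F.dn x = F.dn y) : x = y := F.dn_injective h

theorem dn_eq (x : F.Dart) : F.dn x = F.off x.1 + x.2 := F.num_start x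

theorem dn_lt (x : F.Dart) : F.dn x + 1 < F.tot := by
  have := F.num_lt (F.stop x)
  rw [num_stop] at this
  exact this

/-- `x` is the corner of index `0` of its path -/
def Wrap (x : F.Dart) : Prop := x.2.val = 0

/-- consecutive numbers -/
theorem dn_succ_iff (x y : F.Dart) : F.dn y = F.dn x + 1 ↔ x.1 = y.1 ∧ y.2.val = x.2.val + 1 := by
  constructor
  · intro h
    have h1 : F.start y = F.stop x := F.num_inj (by rw [num_stop]; exact h)
    obtain ⟨i, a⟩ := x
    obtain ⟨j, b⟩ := y
    simp only [start, stop, Sigma.mk.injEq] at h1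
    obtain ⟨rfl, h1⟩ := h1
    refine ⟨rfl, ?_⟩
    have := congrArg Fin.val (eq_of_heq h1)
    simpa using this
  · rintro ⟨h1, h2⟩
    have h3 : F.off x.1 = F.off y.1 := by rw [h1]
    rw [dn_eq, dn_eq, h2, h3]; omega

theorem next_of_succ {x y : F.Dart} (h : F.dn y = F.dn x + 1) : F.Next x y := by
  obtain ⟨h1, h2⟩ := (F.dn_succ_iff x y).1 h
  exact ⟨h1, Or.inl h2⟩

theorem next_iff (x y : F.Dart) (hy : ¬ F.Wrap y) : F.Next x y ↔ F.dn y = F.dn x + 1 := by
  rw [dn_succ_iff]
  constructor
  · rintro ⟨h1, h2 | h2⟩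
    · exact ⟨h1, h2⟩
    · exact absurd h2.1 hy
  · rintro ⟨h1, h2⟩; exact ⟨h1, Or.inl h2⟩

/-- the previous dart of a non-wrap dart -/
theorem exists_prev (y : F.Dart) (hy : ¬ F.Wrap y) : ∃ x, F.dn y = F.dn x + 1 := by
  obtain ⟨i, b⟩ := y
  unfold Wrap at hy
  refine ⟨⟨i, ⟨b.val - 1, by have := b.2; omega⟩⟩, ?_⟩
  rw [dn_succ_iff]
  refine ⟨rfl, ?_⟩
  simp only at hy ⊢
  omega

theorem not_wrap_of_succ {x y : F.Dart} (h : F.dn y = F.dn x + 1) : ¬ F.Wrap y := by
  obtain ⟨h1, h2⟩ := (F.dn_succ_iff x y).1 h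
  unfold Wrap; omega

theorem isCorner_of_not_wrap {y : F.Dart} (hy : ¬ F.Wrap y) : F.IsCorner y := by
  obtain ⟨x, hx⟩ := F.exists_prev y hy
  exact ⟨x, F.next_of_succ hx⟩

/-- the set of numbers of darts -/
def D : Set ℕ := Set.range F.dn


/-- the last position of a path is not a dart -/
theorem off_add_len_notMem (i : Fin F.K) : F.off i + F.len i ∉ F.D := by
  rintro ⟨x, hx⟩
  have h1 : F.start x = ⟨i, Fin.last _⟩ := by
    apply F.num_inj
    rw [F.num_mk i (Fin.last _), Fin.val_last]
    exact hx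
  obtain ⟨j, b⟩ := x
  simp only [start, Sigma.mk.injEq] at h1
  obtain ⟨rfl, h1⟩ := h1
  have := congrArg Fin.val (eq_of_heq h1)
  simp only [Fin.val_castSucc, Fin.val_last] at this
  have := b.2
  omega

/-- a position which is not (the start of) a dart is the last position of a path -/
theorem notMem_D {k : ℕ} (hk : k < F.tot) (h : k ∉ F.D) : ∃ i, k = F.off i + F.len i := by
  obtain ⟨⟨i, j⟩, rfl⟩ := F.exists_num hk
  refine ⟨i, ?_⟩
  rw [num_mk]
  by_contra hne
  apply h
  have hj : j.val < F.len i := by have := j.2; omega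
  refine ⟨⟨i, ⟨j.val, hj⟩⟩, ?_⟩
  rw [dn_eq, num_mk]

theorem card_compl_D_le : ((Finset.range F.tot).filter fun k => k ∉ F.D).card ≤ F.K := by
  have : ((Finset.range F.tot).filter fun k => k ∉ F.D) ⊆
      (Finset.univ : Finset (Fin F.K)).image fun i => F.off i + F.len i := by
    intro k hk
    simp only [Finset.mem_image, Finset.mem_filter, Finset.mem_univ, true_and,
      Finset.mem_range] at hk ⊢
    obtain ⟨i, hi⟩ := F.notMem_D hk.1 hk.2
    exact ⟨i, hi.symm⟩
  exact (Finset.card_le_card this).trans (Finset.card_image_le.trans (by simp))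

theorem tot_le {K B : ℕ} (hK : F.K ≤ K) (hB : ∀ i, F.len i ≤ B) : F.tot ≤ K * (B + 1) := by
  unfold tot
  calc ∑ i, (F.len i + 1) ≤ ∑ _i : Fin F.K, (B + 1) :=
        Finset.sum_le_sum fun i _ => by have := hB i; omega
    _ = F.K * (B + 1) := by simp
    _ ≤ K * (B + 1) := Nat.mul_le_mul_right _ hK

end Frame

end Crest.Agent.R177
end

-- ▼ part R177/LocConf
section

/-!
# LOC, task LA (helper506): linearisation of a configuration
-/

set_option autoImplicit false

open scoped Classical

namespace Crest.Agent.R177.Loc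

open Crest.Agent.R177
open Crest.Agent.R199 (PAct)

section Girth

variable {S V : Type} {A : PAct S V} {g : ℕ}

theorem girth_one (hg : Girth A g) (h2 : 2 < g) {a : S × Bool} {x y : V} (h : A.st a x = some y) :
    x ≠ y := by
  rintro rfl
  have := hg x [a] FreeGroup.IsReduced.singleton (by simp) (by simp [PAct.read, h])
  simp at this
  omega

theorem girth_two (hg : Girth A g) (h2 : 2 < g) {a b : S × Bool} {x y z : V}
    (h : A.st a x = some y) (h' : A.st b y = some z) (hne : b ≠ hinv a) : x ≠ z := by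
  rintro rfl
  have := hg x [a, b] (by
    rw [FreeGroup.isReduced_cons_cons]
    exact ⟨ne_hinv_iff.1 hne, FreeGroup.IsReduced.singleton⟩) (by simp)
      (by simp [PAct.read, h, h'])
  simp at this
  omega

theorem lab_unique (hg : Girth A g) (h2 : 2 < g) {a b : S × Bool} {x y : V}
    (h : A.st a x = some y) (h' : A.st b x = some y) : a = b := by
  by_contra hne
  have h1 : A.st (hinv b) y = some x := (st_hinv A).2 h'
  refine girth_two hg h2 h h1 ?_ rfl
  intro h3
  apply hne
  have := congrArg hinv h3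
  simpa using this.symm

end Girth

section Lin

variable {S V : Type} {A : PAct S V} {F : Frame} (c : Conf A F)

/-- nodes of positions -/
noncomputable def ndc (v0 : V) (k : ℕ) : V :=
  if h : ∃ p, F.num p = k then c.node h.choose else v0

theorem ndc_num (v0 : V) (p : F.Pos) : ndc c v0 (F.num p) = c.node p := by
  have h : ∃ q, F.num q = F.num p := ⟨p, rfl⟩
  unfold ndc
  rw [dif_pos h, F.num_inj h.choose_spec]

/-- labels of darts -/
noncomputable def lbc (l0 : S × Bool) (k : ℕ) : S × Bool :=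
  if h : ∃ x, F.dn x = k then c.lab h.choose else l0

theorem lbc_dn (l0 : S × Bool) (x : F.Dart) : lbc c l0 (F.dn x) = c.lab x := by
  have h : ∃ q, F.dn q = F.dn x := ⟨x, rfl⟩
  unfold lbc
  rw [dif_pos h, F.dn_inj h.choose_spec]

/-- mates of corners (corners at the start of closed paths and their mates are dropped) -/
def MRel (k k' : ℕ) : Prop :=
  ∃ x x', F.dn x = k ∧ F.dn x' = k' ∧ ¬ F.Wrap x ∧ ¬ F.Wrap x' ∧ c.mate x = some x'

theorem MRel.unique {k k' k'' : ℕ} (h : MRel c k k') (h' : MRel c k k'') : k' = k'' := by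
  obtain ⟨x, x', rfl, rfl, _, _, h1⟩ := h
  obtain ⟨y, y', h2, rfl, _, _, h3⟩ := h'
  obtain rfl := F.dn_inj h2
  rw [h1] at h3
  rw [Option.some.inj h3]

noncomputable def mtc (k : ℕ) : Option ℕ :=
  if h : ∃ k', MRel c k k' then some h.choose else none

theorem mtc_eq_some (k k' : ℕ) : mtc c k = some k' ↔ MRel c k k' := by
  unfold mtc
  split_ifs with h
  · simp only [Option.some.injEq]
    constructor
    · rintro rfl; exact h.choose_spec
    · intro h'; exact MRel.unique c h.choose_spec h'
  · constructor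
    · intro h'; cases h'
    · intro h'; exact absurd ⟨k', h'⟩ h

theorem mtc_ne_none (x : F.Dart) : mtc c (F.dn x) ≠ none ↔
    ¬ F.Wrap x ∧ ∃ x', c.mate x = some x' ∧ ¬ F.Wrap x' := by
  rw [Option.ne_none_iff_exists']
  constructor
  · rintro ⟨k', hk⟩
    rw [mtc_eq_some] at hk
    obtain ⟨y, y', h1, h2, h3, h4, h5⟩ := hk
    obtain rfl := F.dn_inj h1
    exact ⟨h3, y', h5, h4⟩
  · rintro ⟨h1, x', h2, h3⟩
    exact ⟨F.dn x', (mtc_eq_some c _ _).2 ⟨x, x', rfl, rfl, h1, h3, h2⟩⟩

/-- first position with the same node -/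
noncomputable def clc (v0 : V) (p : ℕ) : ℕ :=
  if p < F.tot then Nat.find (p := fun q => ndc c v0 q = ndc c v0 p) ⟨p, rfl⟩ else p

theorem clc_out (v0 : V) {p : ℕ} (h : F.tot ≤ p) : clc c v0 p = p := by
  unfold clc; rw [if_neg (by omega)]

theorem clc_le (v0 : V) (p : ℕ) : clc c v0 p ≤ p := by
  unfold clc
  split_ifs with h
  · exact Nat.find_min' _ rfl
  · exact le_rfl

theorem ndc_clc (v0 : V) (p : ℕ) : ndc c v0 (clc c v0 p) = ndc c v0 p := by
  unfold clc
  split_ifs with h
  · exact Nat.find_spec (p := fun q => ndc c v0 q = ndc c v0 p) ⟨p, rfl⟩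
  · rfl

theorem clc_eq_iff (v0 : V) {p q : ℕ} (hp : p < F.tot) (hq : q < F.tot) :
    clc c v0 p = clc c v0 q ↔ ndc c v0 p = ndc c v0 q := by
  constructor
  · intro h
    rw [← ndc_clc c v0 p, h, ndc_clc]
  · intro h
    apply le_antisymm
    · have : clc c v0 p ≤ clc c v0 q := by
        unfold clc
        rw [if_pos hp, if_pos hq]
        apply Nat.find_min'
        rw [h]
        exact Nat.find_spec (p := fun r => ndc c v0 r = ndc c v0 q) ⟨q, rfl⟩
      exact this
    · unfold clc
      rw [if_pos hp, if_pos hq]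
      apply Nat.find_min'
      rw [← h]
      exact Nat.find_spec (p := fun r => ndc c v0 r = ndc c v0 p) ⟨p, rfl⟩

theorem clc_lt (v0 : V) {p : ℕ} (hp : p < F.tot) : clc c v0 p < F.tot :=
  lt_of_le_of_lt (clc_le c v0 p) hp

theorem clc_clc (v0 : V) (p : ℕ) : clc c v0 (clc c v0 p) = clc c v0 p := by
  by_cases hp : p < F.tot
  · rw [clc_eq_iff c v0 (clc_lt c v0 hp) hp, ndc_clc]
  · rw [clc_out c v0 (not_lt.1 hp), clc_out c v0 (not_lt.1 hp)]

theorem off_lt (F : Frame) (i : Fin F.K) : F.off i + F.len i < F.tot := by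
  have := F.num_lt ⟨i, Fin.last _⟩
  rw [F.num_mk] at this
  simpa using this

theorem off_inj (F : Frame) {i j : Fin F.K} (h : F.off i = F.off j) : i = j := by
  have : (⟨i, 0⟩ : F.Pos) = ⟨j, 0⟩ := F.num_inj h
  exact congrArg Sigma.fst this

theorem off_len_inj (F : Frame) {i j : Fin F.K} (h : F.off i + F.len i = F.off j + F.len j) :
    i = j := by
  have h' : F.num (⟨i, Fin.last _⟩ : F.Pos) = F.num ⟨j, Fin.last _⟩ := by
    rw [F.num_mk, F.num_mk]; simpa using h
  exact congrArg Sigma.fst (F.num_inj h')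

/-- end of the closed path -/
noncomputable def cec (F : Frame) (s : ℕ) : ℕ :=
  if h : ∃ i, F.cl i = true ∧ F.off i = s then F.off h.choose + F.len h.choose else 0

theorem cec_off (F : Frame) {i : Fin F.K} (hi : F.cl i = true) :
    cec F (F.off i) = F.off i + F.len i := by
  have h : ∃ j, F.cl j = true ∧ F.off j = F.off i := ⟨i, hi, rfl⟩
  unfold cec
  rw [dif_pos h]
  have := off_inj F h.choose_spec.2
  rw [this]

/-- the linearised shape -/
noncomputable def shapeOf (v0 : V) (o : Finset V) : Shape where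
  T := F.tot
  D := (Finset.range F.tot).filter (fun k => k ∈ F.D)
  cls := clc c v0
  mt := mtc c
  cs := (Finset.univ.filter (fun i => F.cl i = true)).image F.off
  ce := cec F
  mrk := (Finset.range F.tot).filter (fun v => clc c v0 v = v ∧ ndc c v0 v ∈ o)

theorem mem_shape_D (v0 : V) (o : Finset V) (k : ℕ) : k ∈ (shapeOf c v0 o).D ↔ ∃ x, F.dn x = k := by
  unfold shapeOf
  simp only [Finset.mem_filter, Finset.mem_range]
  constructor
  · rintro ⟨_, x, hx⟩; exact ⟨x, hx⟩
  · rintro ⟨x, rfl⟩
    exact ⟨by have := F.dn_lt x; omega, ⟨x, rfl⟩⟩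

theorem shape_cor (v0 : V) (o : Finset V) (x : F.Dart) : (shapeOf c v0 o).Cor (F.dn x) ↔ ¬ F.Wrap x := by
  unfold Shape.Cor
  rw [mem_shape_D, mem_shape_D]
  constructor
  · rintro ⟨h1, ⟨y, hy⟩, _⟩
    exact F.not_wrap_of_succ (x := y) (by omega)
  · intro h
    obtain ⟨y, hy⟩ := F.exists_prev x h
    exact ⟨by omega, ⟨y, by omega⟩, ⟨x, rfl⟩⟩

theorem shape_isStart (v0 : V) (o : Finset V) (k : ℕ) :
    (shapeOf c v0 o).IsStart k ↔ ∃ i, F.off i = k := by
  unfold Shape.IsStart
  rw [mem_shape_D]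
  constructor
  · rintro ⟨⟨x, rfl⟩, h⟩
    rw [shape_cor, not_not] at h
    refine ⟨x.1, ?_⟩
    rw [F.dn_eq]
    unfold Frame.Wrap at h
    omega
  · rintro ⟨i, rfl⟩
    have hx : F.dn (⟨i, ⟨0, F.len_pos i⟩⟩ : F.Dart) = F.off i := by
      rw [F.dn_eq]; rfl
    refine ⟨⟨_, hx⟩, ?_⟩
    rw [← hx, shape_cor, not_not]
    rfl

theorem shape_isStop (v0 : V) (o : Finset V) (k : ℕ) :
    (shapeOf c v0 o).IsStop k ↔ ∃ i, F.off i + F.len i = k := by
  unfold Shape.IsStop
  rw [mem_shape_D, mem_shape_D]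
  constructor
  · rintro ⟨h1, ⟨x, hx⟩, h2⟩
    have hk : k < F.tot := by have := F.dn_lt x; omega
    obtain ⟨i, hi⟩ := F.notMem_D hk (by rintro ⟨y, hy⟩; exact h2 ⟨y, hy⟩)
    exact ⟨i, hi.symm⟩
  · rintro ⟨i, rfl⟩
    have hl := F.len_pos i
    refine ⟨by omega, ⟨⟨i, ⟨F.len i - 1, by omega⟩⟩, ?_⟩, ?_⟩
    · rw [F.dn_eq]; simp only; omega
    · rintro ⟨y, hy⟩
      exact F.off_add_len_notMem i ⟨y, hy⟩

theorem shape_mem_cs (v0 : V) (o : Finset V) (k : ℕ) :
    k ∈ (shapeOf c v0 o).cs ↔ ∃ i, F.cl i = true ∧ F.off i = k := by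
  unfold shapeOf
  simp

/-- one step -/
theorem step_nd (v0 : V) (l0 : S × Bool) (x : F.Dart) :
    A.st (lbc c l0 (F.dn x)) (ndc c v0 (F.dn x)) = some (ndc c v0 (F.dn x + 1)) := by
  have h1 : ndc c v0 (F.dn x) = c.node (F.start x) := ndc_num c v0 _
  have h2 : ndc c v0 (F.dn x + 1) = c.node (F.stop x) := by
    have := ndc_num c v0 (F.stop x)
    rwa [F.num_stop] at this
  rw [h1, h2, lbc_dn]
  exact c.step x

theorem red_nd (l0 : S × Bool) {x y : F.Dart} (h : F.dn y = F.dn x + 1) :
    lbc c l0 (F.dn y) ≠ hinv (lbc c l0 (F.dn x)) := by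
  rw [lbc_dn, lbc_dn]
  exact c.red x y (F.next_of_succ h)

theorem shape_basic {g : ℕ} (hg : Girth A g) (h2 : 2 < g) (v0 : V) (l0 : S × Bool) (o : Finset V) :
    (shapeOf c v0 o).Basic := by
  have hT : (shapeOf c v0 o).T = F.tot := rfl
  have hcls : (shapeOf c v0 o).cls = clc c v0 := rfl
  have hmt : (shapeOf c v0 o).mt = mtc c := rfl
  have hce : (shapeOf c v0 o).ce = cec F := rfl
  constructor
  · intro p hp
    rw [mem_shape_D] at hp
    obtain ⟨x, rfl⟩ := hp
    exact F.dn_lt x
  · intro p hp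
    rw [mem_shape_D, mem_shape_D]
    by_cases h : ∃ x, F.dn x = p
    · exact Or.inl h
    · right
      obtain ⟨i, hi⟩ := F.notMem_D hp (by rintro ⟨y, hy⟩; exact h ⟨y, hy⟩)
      have hl := F.len_pos i
      refine ⟨by omega, ⟨⟨i, ⟨F.len i - 1, by omega⟩⟩, ?_⟩⟩
      rw [F.dn_eq]; simp only; omega
  · intro p; rw [hcls]; exact clc_le c v0 p
  · intro p; rw [hcls]; exact clc_clc c v0 p
  · intro p hp; rw [hcls]; exact clc_out c v0 hp
  · intro p hp
    rw [mem_shape_D] at hp
    obtain ⟨x, rfl⟩ := hp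
    have h1 := F.dn_lt x
    rw [hcls, ne_eq, clc_eq_iff c v0 (by omega) (by omega)]
    exact girth_one hg h2 (step_nd c v0 l0 x)
  · intro p hp hp'
    rw [mem_shape_D] at hp hp'
    obtain ⟨x, rfl⟩ := hp
    obtain ⟨y, hy⟩ := hp'
    have h1 := F.dn_lt y
    rw [hcls, ne_eq, clc_eq_iff c v0 (by omega) (by omega)]
    have h3 := step_nd c v0 l0 y
    rw [hy] at h3
    have h4 := red_nd c l0 hy
    rw [hy] at h4
    exact girth_two hg h2 (step_nd c v0 l0 x) h3 h4
  · intro s hs
    rw [shape_mem_cs] at hs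
    obtain ⟨i, _, rfl⟩ := hs
    rw [shape_isStart]
    exact ⟨i, rfl⟩
  · intro s hs
    rw [shape_mem_cs] at hs
    obtain ⟨i, hi, rfl⟩ := hs
    rw [shape_isStop, hce, cec_off F hi]
    exact ⟨i, rfl⟩
  · intro s hs s' hs' h
    rw [shape_mem_cs] at hs hs'
    obtain ⟨i, hi, rfl⟩ := hs
    obtain ⟨j, hj, rfl⟩ := hs'
    rw [hce, cec_off F hi, cec_off F hj] at h
    rw [off_len_inj F h]
  · intro s hs
    rw [shape_mem_cs] at hs
    obtain ⟨i, hi, rfl⟩ := hs
    have h1 := off_lt F i
    rw [hce, cec_off F hi, hcls, clc_eq_iff c v0 h1 (by omega)]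
    have h3 : ndc c v0 (F.off i) = c.node ⟨i, 0⟩ := ndc_num c v0 _
    have h4 : ndc c v0 (F.off i + F.len i) = c.node ⟨i, Fin.last _⟩ := by
      have := ndc_num c v0 (⟨i, Fin.last _⟩ : F.Pos)
      rw [F.num_mk] at this
      simpa using this
    rw [h3, h4]
    exact c.closed i hi
  · intro s hs
    rw [shape_mem_cs] at hs
    obtain ⟨i, hi, rfl⟩ := hs
    have h1 := off_lt F i
    have hl := F.len_pos i
    rw [hce, cec_off F hi, hcls, ne_eq, clc_eq_iff c v0 (by omega) (by omega)]
    -- the dart `0` and the last dart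
    have hx : F.dn (⟨i, ⟨0, hl⟩⟩ : F.Dart) = F.off i := by rw [F.dn_eq]; rfl
    have hy : F.dn (⟨i, ⟨F.len i - 1, by omega⟩⟩ : F.Dart) = F.off i + F.len i - 1 := by
      rw [F.dn_eq]; simp only; omega
    have s1 := step_nd c v0 l0 (⟨i, ⟨0, hl⟩⟩ : F.Dart)
    have s2 := step_nd c v0 l0 (⟨i, ⟨F.len i - 1, by omega⟩⟩ : F.Dart)
    have hr := c.red (⟨i, ⟨F.len i - 1, by omega⟩⟩ : F.Dart) (⟨i, ⟨0, hl⟩⟩ : F.Dart)
      ⟨rfl, Or.inr ⟨rfl, by simp only; omega, hi⟩⟩
    rw [← lbc_dn c l0, ← lbc_dn c l0] at hr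
    rw [hx] at s1 hr
    rw [hy] at s2 hr
    rw [show F.off i + F.len i - 1 + 1 = F.off i + F.len i by omega] at s2
    have h3 : ndc c v0 (F.off i) = c.node ⟨i, 0⟩ := ndc_num c v0 _
    have h4 : ndc c v0 (F.off i + F.len i) = c.node ⟨i, Fin.last _⟩ := by
      have := ndc_num c v0 (⟨i, Fin.last _⟩ : F.Pos)
      rw [F.num_mk] at this
      simpa using this
    have h5 : ndc c v0 (F.off i + F.len i) = ndc c v0 (F.off i) := by
      rw [h3, h4]; exact c.closed i hi
    rw [h5] at s2
    exact (girth_two hg h2 s2 s1 hr).symm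
  · intro s hs
    rw [shape_mem_cs] at hs
    rw [hce]
    unfold cec
    rw [dif_neg hs]
  · intro p p' h
    rw [hmt, mtc_eq_some] at h
    obtain ⟨x, x', rfl, rfl, h1, h3, h4⟩ := h
    rw [shape_cor]; exact h1
  · intro p p' h
    rw [hmt, mtc_eq_some] at h ⊢
    obtain ⟨x, x', rfl, rfl, h1, h3, h4⟩ := h
    exact ⟨x', x, rfl, rfl, h3, h1, c.mate_symm x x' h4⟩
  · intro p p' h
    rw [hmt, mtc_eq_some] at h
    obtain ⟨x, x', rfl, rfl, h1, h3, h4⟩ := h
    have e1 := F.dn_lt x
    have e2 := F.dn_lt x'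
    rw [hcls, ne_eq, clc_eq_iff c v0 (by omega) (by omega)]
    have := c.mate_node x x' h4
    rwa [← ndc_num c v0, ← ndc_num c v0] at this
  · intro p p' q h h'
    rw [hmt, mtc_eq_some] at h h'
    obtain ⟨x, x', rfl, rfl, h1, h3, h4⟩ := h
    obtain ⟨y, y', h5, rfl, h6, h7, h8⟩ := h'
    have hn : F.Next x y := F.next_of_succ h5
    have := c.mate_coh x x' y y' h4 hn h8
    rw [F.next_iff _ _ h3] at this
    exact this.symm
  · intro v hv
    have : v ∈ (Finset.range F.tot).filter (fun v => clc c v0 v = v ∧ ndc c v0 v ∈ o) := hv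
    rw [Finset.mem_filter, Finset.mem_range] at this
    exact ⟨this.1, this.2.1⟩

/-- equality of classes -/
theorem clc_eq_iff' (v0 : V) (p q : ℕ) : clc c v0 p = clc c v0 q ↔
    p = q ∨ (p < F.tot ∧ q < F.tot ∧ ndc c v0 p = ndc c v0 q) := by
  by_cases hp : p < F.tot
  · by_cases hq : q < F.tot
    · rw [clc_eq_iff c v0 hp hq]
      constructor
      · intro h; exact Or.inr ⟨hp, hq, h⟩
      · rintro (rfl | ⟨_, _, h⟩)
        · rfl
        · exact h
    · rw [clc_out c v0 (not_lt.1 hq)]
      have := clc_lt c v0 hp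
      constructor
      · intro h; omega
      · rintro (rfl | ⟨_, h, _⟩)
        · omega
        · omega
  · rw [clc_out c v0 (not_lt.1 hp)]
    by_cases hq : q < F.tot
    · have := clc_lt c v0 hq
      constructor
      · intro h; omega
      · rintro (rfl | ⟨h, _⟩)
        · omega
        · omega
    · rw [clc_out c v0 (not_lt.1 hq)]
      constructor
      · intro h; exact Or.inl h
      · rintro (h | ⟨h, _⟩)
        · exact h
        · omega

/-- subpaths -/
theorem isPath_nd (v0 : V) (l0 : S × Bool) {p d : ℕ} (h : ∀ i < d, p + i ∈ F.D) :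
    IsPath A d (fun i => ndc c v0 (p + i)) (fun i => lbc c l0 (p + i)) := by
  constructor
  · intro k hk
    obtain ⟨x, hx⟩ := h k hk
    have := step_nd c v0 l0 x
    rw [hx] at this
    exact this
  · intro k hk
    obtain ⟨x, hx⟩ := h k (by omega)
    obtain ⟨y, hy⟩ := h (k + 1) hk
    have := red_nd c l0 (x := x) (y := y) (by omega)
    rw [hx, hy] at this
    exact this

theorem lt_tot_of_darts {p d : ℕ} (h : ∀ i < d, p + i ∈ F.D) (hd : 0 < d) : p + d < F.tot := by
  obtain ⟨x, hx⟩ := h (d - 1) (by omega)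
  have := F.dn_lt x
  omega

theorem shape_ovl {g g' : ℕ} (hg : Girth A g) (hg' : 2 * g' < g) (v0 : V) (l0 : S × Bool)
    (o : Finset V) : (shapeOf c v0 o).Ovl g' := by
  intro p q d e hd he hp hq
  have hcls : (shapeOf c v0 o).cls = clc c v0 := rfl
  have hp' : ∀ i < d, p + i ∈ F.D := by
    intro i hi
    have := hp i hi
    rw [mem_shape_D] at this
    exact this
  have hq' : ∀ i < e, q + i ∈ F.D := by
    intro i hi
    have := hq i hi
    rw [mem_shape_D] at this
    exact this
  have P1 := isPath_nd c v0 l0 hp'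
  have P2 := isPath_nd c v0 l0 hq'
  rw [hcls]
  constructor
  · intro h1 h2
    rw [clc_eq_iff'] at h1 h2
    -- everything in range or everything equal
    have key : ndc c v0 p = ndc c v0 q ∧ ndc c v0 (p + d) = ndc c v0 (q + e) ∧
        (d = e → ∀ i ≤ d, p + i = q + i ∨ (p + i < F.tot ∧ q + i < F.tot)) := by
      refine ⟨?_, ?_, ?_⟩
      · rcases h1 with rfl | ⟨_, _, h⟩
        · rfl
        · exact h
      · rcases h2 with h | ⟨_, _, h⟩
        · rw [h]
        · exact h
      · rintro rfl i hi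
        rcases h1 with rfl | ⟨h3, h4, _⟩
        · exact Or.inl rfl
        · right
          rcases Nat.eq_zero_or_pos d with hd0 | hd0
          · subst hd0
            obtain rfl : i = 0 := by omega
            exact ⟨h3, h4⟩
          · have := lt_tot_of_darts hp' hd0
            have := lt_tot_of_darts hq' hd0
            omega
    obtain ⟨k1, k2, k3⟩ := key
    obtain ⟨m1, m2⟩ := P1.meet hg P2 (by omega) (i := 0) (j := 0) (m := d) (m' := e) (by omega)
      (by omega) (by simpa using k1) (by simpa using k2)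
    subst m1
    refine ⟨rfl, ?_⟩
    intro i hi
    rw [clc_eq_iff']
    rcases k3 rfl i hi with h | ⟨h, h'⟩
    · exact Or.inl h
    · right
      refine ⟨h, h', ?_⟩
      simpa using m2 i hi
  · intro h1 h2
    rw [clc_eq_iff'] at h1 h2
    have key : ndc c v0 p = ndc c v0 (q + e) ∧ ndc c v0 (p + d) = ndc c v0 q ∧
        (d = e → ∀ i ≤ d, p + i = q + (d - i) ∨ (p + i < F.tot ∧ q + (d - i) < F.tot)) := by
      refine ⟨?_, ?_, ?_⟩
      · rcases h1 with h | ⟨_, _, h⟩
        · rw [h]
        · exact h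
      · rcases h2 with h | ⟨_, _, h⟩
        · rw [h]
        · exact h
      · rintro rfl i hi
        rcases Nat.eq_zero_or_pos d with hd0 | hd0
        · subst hd0
          obtain rfl : i = 0 := by omega
          simp only [Nat.add_zero, Nat.sub_zero] at h1 ⊢
          rcases h1 with h | ⟨h3, h4, _⟩
          · exact Or.inl h
          · exact Or.inr ⟨h3, h4⟩
        · right
          have := lt_tot_of_darts hp' hd0
          have := lt_tot_of_darts hq' hd0
          omega
    obtain ⟨k1, k2, k3⟩ := key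
    have P3 := P2.rev
    obtain ⟨m1, m2⟩ := P1.meet hg P3 (by omega) (i := 0) (j := 0) (m := d) (m' := e) (by omega)
      (by omega) (by simpa using k1) (by simpa using k2)
    subst m1
    refine ⟨rfl, ?_⟩
    intro i hi
    rw [clc_eq_iff']
    rcases k3 rfl i hi with h | ⟨h, h'⟩
    · exact Or.inl h
    · right
      refine ⟨h, h', ?_⟩
      simpa using m2 i hi

theorem shape_real (v0 : V) (l0 : S × Bool) (o : Finset V) :
    (shapeOf c v0 o).Real A o (ndc c v0) (lbc c l0) := by
  constructor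
  · intro p hp
    rw [mem_shape_D] at hp
    obtain ⟨x, rfl⟩ := hp
    exact step_nd c v0 l0 x
  · intro p hp q hq
    exact (clc_eq_iff c v0 hp hq).symm
  · intro p hp
    have hm : (shapeOf c v0 o).mrk =
      (Finset.range F.tot).filter (fun v => clc c v0 v = v ∧ ndc c v0 v ∈ o) := rfl
    have hcls : (shapeOf c v0 o).cls = clc c v0 := rfl
    rw [hm, hcls, Finset.mem_filter, Finset.mem_range, ndc_clc]
    constructor
    · intro h; exact ⟨clc_lt c v0 hp, clc_clc c v0 p, h⟩
    · intro h; exact h.2.2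

theorem shape_labOK {g : ℕ} (hg : Girth A g) (h2 : 2 < g) (v0 : V) (l0 : S × Bool)
    (o : Finset V) : (shapeOf c v0 o).LabOK (lbc c l0) := by
  have hcls : (shapeOf c v0 o).cls = clc c v0 := rfl
  have hmt : (shapeOf c v0 o).mt = mtc c := rfl
  constructor
  · intro p hp q hq h1 h3
    rw [mem_shape_D] at hp hq
    obtain ⟨x, rfl⟩ := hp
    obtain ⟨y, rfl⟩ := hq
    have e1 := F.dn_lt x
    have e2 := F.dn_lt y
    rw [hcls, clc_eq_iff c v0 (by omega) (by omega)] at h1 h3
    have s1 := step_nd c v0 l0 x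
    have s2 := step_nd c v0 l0 y
    rw [← h1, ← h3] at s2
    exact lab_unique hg h2 s1 s2
  · intro p hp q hq h1 h3
    rw [mem_shape_D] at hp hq
    obtain ⟨x, rfl⟩ := hp
    obtain ⟨y, rfl⟩ := hq
    have e1 := F.dn_lt x
    have e2 := F.dn_lt y
    rw [hcls, clc_eq_iff c v0 (by omega) (by omega)] at h1 h3
    have s1 := step_nd c v0 l0 x
    have s2 := step_nd c v0 l0 y
    rw [← h1, ← h3] at s2
    exact lab_unique hg h2 s1 ((st_hinv A).2 s2)
  · intro p hp hp'
    rw [mem_shape_D] at hp hp'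
    obtain ⟨x, rfl⟩ := hp
    obtain ⟨y, hy⟩ := hp'
    have := red_nd c l0 hy
    rwa [hy] at this
  · intro p p' h
    rw [hmt, mtc_eq_some] at h
    obtain ⟨x, x', rfl, rfl, h1, h3, h4⟩ := h
    obtain ⟨y, hy⟩ := F.exists_prev x h1
    rw [hy, Nat.add_sub_cancel, lbc_dn, lbc_dn]
    exact c.mate_lab x x' y h4 (F.next_of_succ hy)

/-! ### Counting -/

/-- first darts -/
noncomputable def wrapS (F : Frame) : Finset F.Dart := Finset.univ.filter fun x => F.Wrap x

theorem card_wrapS (F : Frame) : (wrapS F).card ≤ F.K := by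
  have : (wrapS F).card ≤ (Finset.univ : Finset (Fin F.K)).card := by
    apply Finset.card_le_card_of_injOn (fun x => x.1) (fun _ _ => Finset.mem_coe.2 (Finset.mem_univ _))
    rintro ⟨i, a⟩ hx ⟨j, b⟩ hy h
    have hx' : a.val = 0 := (Finset.mem_filter.1 (Finset.mem_coe.1 hx)).2
    have hy' : b.val = 0 := (Finset.mem_filter.1 (Finset.mem_coe.1 hy)).2
    simp only at h
    subst h
    have : a = b := Fin.ext (by omega)
    rw [this]
  simpa using this

/-- mates of first darts -/
noncomputable def wrapM : Finset F.Dart :=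
  Finset.univ.filter fun x => ∃ x', F.Wrap x' ∧ c.mate x = some x'

theorem card_wrapM : (wrapM c).card ≤ F.K := by
  have : wrapM c ⊆ (wrapS F).image (fun x' => (c.mate x').getD x') := by
    intro x hx
    simp only [wrapM, Finset.mem_filter, Finset.mem_univ, true_and] at hx
    obtain ⟨x', h1, h2⟩ := hx
    rw [Finset.mem_image]
    refine ⟨x', ?_, ?_⟩
    · simp only [wrapS, Finset.mem_filter, Finset.mem_univ, true_and]; exact h1
    · rw [c.mate_symm x x' h2]; rfl
  exact (Finset.card_le_card this).trans (Finset.card_image_le.trans (card_wrapS F))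

/-- last darts -/
noncomputable def lastS (F : Frame) : Finset F.Dart :=
  Finset.univ.filter fun x => x.2.val + 1 = F.len x.1

theorem card_lastS (F : Frame) : (lastS F).card ≤ F.K := by
  have : (lastS F).card ≤ (Finset.univ : Finset (Fin F.K)).card := by
    apply Finset.card_le_card_of_injOn (fun x => x.1) (fun _ _ => Finset.mem_coe.2 (Finset.mem_univ _))
    rintro ⟨i, a⟩ hx ⟨j, b⟩ hy h
    have hx' : a.val + 1 = F.len i := (Finset.mem_filter.1 (Finset.mem_coe.1 hx)).2
    have hy' : b.val + 1 = F.len j := (Finset.mem_filter.1 (Finset.mem_coe.1 hy)).2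
    simp only at h
    subst h
    have : a = b := Fin.ext (by omega)
    rw [this]
  simpa using this

theorem glued_eq : c.glued = (Finset.univ.filter fun x : F.Dart => c.mate x ≠ none).card := by
  unfold Conf.glued
  rw [Nat.card_eq_fintype_card, Fintype.card_subtype]

theorem unglued_eq : c.unglued =
    (Finset.univ.filter fun x : F.Dart => F.IsCorner x ∧ c.mate x = none).card := by
  unfold Conf.unglued
  rw [Nat.card_eq_fintype_card, Fintype.card_subtype]

theorem ends_eq : c.ends = (Finset.univ.filter fun x : F.Dart =>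
    c.mate x ≠ none ∧ ∀ y, F.Next x y → c.mate y = none).card := by
  unfold Conf.ends
  rw [Nat.card_eq_fintype_card, Fintype.card_subtype]

theorem glued_le (v0 : V) (o : Finset V) : c.glued ≤ (shapeOf c v0 o).gl + 2 * F.K := by
  rw [glued_eq]
  have h1 : (Finset.univ.filter fun x : F.Dart => c.mate x ≠ none) ⊆
      (Finset.univ.filter fun x : F.Dart => mtc c (F.dn x) ≠ none) ∪ (wrapS F ∪ wrapM c) := by
    intro x hx
    simp only [Finset.mem_filter, Finset.mem_univ, true_and, Finset.mem_union, wrapS, wrapM] at hx ⊢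
    rw [mtc_ne_none]
    obtain ⟨x', hx'⟩ := Option.ne_none_iff_exists'.1 hx
    by_cases h1 : F.Wrap x
    · exact Or.inr (Or.inl h1)
    · by_cases h2 : F.Wrap x'
      · exact Or.inr (Or.inr ⟨x', h2, hx'⟩)
      · exact Or.inl ⟨h1, x', hx', h2⟩
  have h2 : (Finset.univ.filter fun x : F.Dart => mtc c (F.dn x) ≠ none).card ≤
      (shapeOf c v0 o).gl := by
    unfold Shape.gl
    apply Finset.card_le_card_of_injOn F.dn
    · intro x hx
      have hx' := (Finset.mem_filter.1 (Finset.mem_coe.1 hx)).2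
      rw [Finset.mem_coe, Finset.mem_filter, Finset.mem_range]
      refine ⟨?_, hx'⟩
      have := F.dn_lt x
      show F.dn x < F.tot
      omega
    · exact F.dn_injective.injOn
  have h3 := card_wrapS F
  have h4 := card_wrapM c
  have h5 := Finset.card_le_card h1
  have h6 := Finset.card_union_le (Finset.univ.filter fun x : F.Dart => mtc c (F.dn x) ≠ none)
    (wrapS F ∪ wrapM c)
  have h7 := Finset.card_union_le (wrapS F) (wrapM c)
  omega

theorem ug_le (v0 : V) (o : Finset V) : (shapeOf c v0 o).ug ≤ c.unglued + F.K := by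
  rw [unglued_eq]
  have h1 : ((Finset.range (shapeOf c v0 o).T).filter
      (fun p => (shapeOf c v0 o).Cor p ∧ (shapeOf c v0 o).mt p = none)) ⊆
      ((Finset.univ.filter fun x : F.Dart => F.IsCorner x ∧ c.mate x = none) ∪ wrapM c).image
        F.dn := by
    intro p hp
    rw [Finset.mem_filter] at hp
    obtain ⟨_, h1, h2⟩ := hp
    have h3 := h1.2.2
    rw [mem_shape_D] at h3
    obtain ⟨x, rfl⟩ := h3
    rw [shape_cor] at h1
    rw [Finset.mem_image]
    refine ⟨x, ?_, rfl⟩
    simp only [Finset.mem_filter, Finset.mem_univ, true_and, Finset.mem_union, wrapM]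
    have h4 : ¬ (mtc c (F.dn x) ≠ none) := by
      rw [not_not]; exact h2
    rw [mtc_ne_none] at h4
    by_cases h5 : c.mate x = none
    · exact Or.inl ⟨F.isCorner_of_not_wrap h1, h5⟩
    · right
      obtain ⟨x', hx'⟩ := Option.ne_none_iff_exists'.1 h5
      refine ⟨x', ?_, hx'⟩
      by_contra h6
      exact h4 ⟨h1, x', hx', h6⟩
  have h2 := Finset.card_le_card h1
  have h3 := Finset.card_image_le (s := (Finset.univ.filter
    fun x : F.Dart => F.IsCorner x ∧ c.mate x = none) ∪ wrapM c) (f := F.dn)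
  have h4 := card_wrapM c
  have h5 := Finset.card_union_le (Finset.univ.filter
    fun x : F.Dart => F.IsCorner x ∧ c.mate x = none) (wrapM c)
  unfold Shape.ug
  omega

theorem ends_le (v0 : V) (o : Finset V) : ((Finset.range (shapeOf c v0 o).T).filter
    (fun p => (shapeOf c v0 o).mt p ≠ none ∧ (shapeOf c v0 o).mt (p + 1) = none)).card ≤
      c.ends + 2 * F.K := by
  rw [ends_eq]
  have h1 : ((Finset.range (shapeOf c v0 o).T).filter
    (fun p => (shapeOf c v0 o).mt p ≠ none ∧ (shapeOf c v0 o).mt (p + 1) = none)) ⊆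
      ((Finset.univ.filter fun x : F.Dart =>
        c.mate x ≠ none ∧ ∀ y, F.Next x y → c.mate y = none) ∪ lastS F).image F.dn ∪
      (wrapM c).image (fun x => F.dn x - 1) := by
    intro p hp
    rw [Finset.mem_filter] at hp
    obtain ⟨_, h1, h2⟩ := hp
    obtain ⟨p', hp'⟩ := Option.ne_none_iff_exists'.1 h1
    have h3 : mtc c p = some p' := hp'
    rw [mtc_eq_some] at h3
    obtain ⟨x, x', rfl, rfl, hx, hx', hm⟩ := h3
    rw [Finset.mem_union]
    by_cases h4 : ∀ y, F.Next x y → c.mate y = none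
    · left
      rw [Finset.mem_image]
      refine ⟨x, ?_, rfl⟩
      simp only [Finset.mem_filter, Finset.mem_univ, true_and, Finset.mem_union]
      left
      exact ⟨by rw [hm]; simp, h4⟩
    · push Not at h4
      obtain ⟨y, hy, hy'⟩ := h4
      by_cases h5 : F.Wrap y
      · left
        rw [Finset.mem_image]
        refine ⟨x, ?_, rfl⟩
        simp only [Finset.mem_filter, Finset.mem_univ, true_and, Finset.mem_union, lastS]
        right
        rcases hy.2 with h6 | h6
        · unfold Frame.Wrap at h5; omega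
        · exact h6.2.1
      · right
        rw [Finset.mem_image]
        rw [F.next_iff _ _ h5] at hy
        refine ⟨y, ?_, by omega⟩
        simp only [Finset.mem_filter, Finset.mem_univ, true_and, wrapM]
        have h6 : ¬ (mtc c (F.dn y) ≠ none) := by
          rw [not_not, hy]; exact h2
        rw [mtc_ne_none] at h6
        obtain ⟨y', hy2⟩ := Option.ne_none_iff_exists'.1 hy'
        refine ⟨y', ?_, hy2⟩
        by_contra h7
        exact h6 ⟨h5, y', hy2, h7⟩
  have h2 := Finset.card_le_card h1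
  have h3 := Finset.card_union_le (((Finset.univ.filter fun x : F.Dart =>
        c.mate x ≠ none ∧ ∀ y, F.Next x y → c.mate y = none) ∪ lastS F).image F.dn)
      ((wrapM c).image (fun x => F.dn x - 1))
  have h4 := Finset.card_image_le (s := (Finset.univ.filter fun x : F.Dart =>
        c.mate x ≠ none ∧ ∀ y, F.Next x y → c.mate y = none) ∪ lastS F) (f := F.dn)
  have h5 := Finset.card_image_le (s := wrapM c) (f := fun x => F.dn x - 1)
  have h6 := card_wrapM c
  have h7 := card_lastS F
  have h8 := Finset.card_union_le (Finset.univ.filter fun x : F.Dart =>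
        c.mate x ≠ none ∧ ∀ y, F.Next x y → c.mate y = none) (lastS F)
  omega

/-- number of ends of open paths at the nodes of `o` -/
noncomputable def oN (o : Finset V) : ℕ :=
  (Finset.univ.filter fun i => F.cl i = false ∧ c.node ⟨i, 0⟩ ∈ o).card +
    (Finset.univ.filter fun i => F.cl i = false ∧ c.node ⟨i, Fin.last _⟩ ∈ o).card

theorem openN_eq (F : Frame) : F.openN = (Finset.univ.filter fun i => F.cl i = false).card := by
  unfold Frame.openN
  rw [Nat.card_eq_fintype_card, Fintype.card_subtype]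

theorem ndc_off (v0 : V) (i : Fin F.K) : ndc c v0 (F.off i) = c.node ⟨i, 0⟩ := ndc_num c v0 _

theorem ndc_off_len (v0 : V) (i : Fin F.K) :
    ndc c v0 (F.off i + F.len i) = c.node ⟨i, Fin.last _⟩ := by
  have := ndc_num c v0 (⟨i, Fin.last _⟩ : F.Pos)
  rw [F.num_mk] at this
  simpa using this

theorem mem_mrk (v0 : V) (o : Finset V) {p : ℕ} (hp : p < F.tot) :
    (shapeOf c v0 o).cls p ∈ (shapeOf c v0 o).mrk ↔ ndc c v0 p ∈ o := by
  have hm : (shapeOf c v0 o).mrk =
    (Finset.range F.tot).filter (fun v => clc c v0 v = v ∧ ndc c v0 v ∈ o) := rfl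
  have hcls : (shapeOf c v0 o).cls = clc c v0 := rfl
  rw [hm, hcls, Finset.mem_filter, Finset.mem_range, ndc_clc]
  constructor
  · intro h; exact h.2.2
  · intro h; exact ⟨clc_lt c v0 hp, clc_clc c v0 p, h⟩

theorem oe_le (v0 : V) (o : Finset V) : (shapeOf c v0 o).oe + oN c o ≤ 2 * F.openN := by
  have h1 : ((Finset.range (shapeOf c v0 o).T).filter (fun p => (shapeOf c v0 o).OpenEnd p ∧
      (shapeOf c v0 o).cls p ∉ (shapeOf c v0 o).mrk)) ⊆
      (Finset.univ.filter fun i => F.cl i = false ∧ c.node ⟨i, 0⟩ ∉ o).image F.off ∪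
      (Finset.univ.filter fun i => F.cl i = false ∧ c.node ⟨i, Fin.last _⟩ ∉ o).image
        (fun i => F.off i + F.len i) := by
    intro p hp
    rw [Finset.mem_filter, Finset.mem_range] at hp
    obtain ⟨hp0, hp1, hp2⟩ := hp
    rw [mem_mrk c v0 o hp0] at hp2
    rw [Finset.mem_union, Finset.mem_image, Finset.mem_image]
    rcases hp1 with ⟨h1, h2⟩ | ⟨h1, h2⟩
    · left
      rw [shape_isStart] at h1
      obtain ⟨i, rfl⟩ := h1
      rw [shape_mem_cs] at h2
      refine ⟨i, ?_, rfl⟩
      simp only [Finset.mem_filter, Finset.mem_univ, true_and]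
      rw [ndc_off] at hp2
      refine ⟨?_, hp2⟩
      by_contra h3
      exact h2 ⟨i, by simpa using h3, rfl⟩
    · right
      rw [shape_isStop] at h1
      obtain ⟨i, rfl⟩ := h1
      refine ⟨i, ?_, rfl⟩
      simp only [Finset.mem_filter, Finset.mem_univ, true_and]
      rw [ndc_off_len] at hp2
      refine ⟨?_, hp2⟩
      by_contra h3
      have h4 : F.cl i = true := by simpa using h3
      exact h2 (F.off i) ((shape_mem_cs c v0 o _).2 ⟨i, h4, rfl⟩) (cec_off F h4)
  have h2 := Finset.card_le_card h1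
  have h3 := Finset.card_union_le
    ((Finset.univ.filter fun i => F.cl i = false ∧ c.node ⟨i, 0⟩ ∉ o).image F.off)
      ((Finset.univ.filter fun i => F.cl i = false ∧ c.node ⟨i, Fin.last _⟩ ∉ o).image
        (fun i => F.off i + F.len i))
  have h4 := Finset.card_image_le
    (s := Finset.univ.filter fun i => F.cl i = false ∧ c.node ⟨i, 0⟩ ∉ o) (f := F.off)
  have h5 := Finset.card_image_le
    (s := Finset.univ.filter fun i => F.cl i = false ∧ c.node ⟨i, Fin.last _⟩ ∉ o)
    (f := fun i => F.off i + F.len i)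
  have h6 : (Finset.univ.filter fun i => F.cl i = false ∧ c.node ⟨i, 0⟩ ∈ o).card +
      (Finset.univ.filter fun i => F.cl i = false ∧ c.node ⟨i, 0⟩ ∉ o).card =
        (Finset.univ.filter fun i => F.cl i = false).card := by
    rw [← Finset.filter_filter, ← Finset.filter_filter]
    exact Finset.card_filter_add_card_filter_not _
  have h7 : (Finset.univ.filter fun i => F.cl i = false ∧ c.node ⟨i, Fin.last _⟩ ∈ o).card +
      (Finset.univ.filter fun i => F.cl i = false ∧ c.node ⟨i, Fin.last _⟩ ∉ o).card =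
        (Finset.univ.filter fun i => F.cl i = false).card := by
    rw [← Finset.filter_filter, ← Finset.filter_filter]
    exact Finset.card_filter_add_card_filter_not _
  rw [openN_eq]
  unfold Shape.oe oN
  omega

theorem oN_le_om {g : ℕ} (hg : Girth A g) (h2 : 2 < g) (v0 : V) (l0 : S × Bool) (o : Finset V)
    (ho : o.card ≤ 1) : oN c o ≤ (shapeOf c v0 o).om := by
  have hne : ∀ x : F.Dart, ¬ (ndc c v0 (F.dn x) ∈ o ∧ ndc c v0 (F.dn x + 1) ∈ o) := by
    rintro x ⟨h1, h3⟩
    exact girth_one hg h2 (step_nd c v0 l0 x) (Finset.card_le_one.1 ho _ h1 _ h3)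
  set I1 := Finset.univ.filter fun i => F.cl i = false ∧ c.node ⟨i, 0⟩ ∈ o with hI1
  set I2 := Finset.univ.filter fun i => F.cl i = false ∧ c.node ⟨i, Fin.last _⟩ ∈ o with hI2
  have hd : ∀ i : Fin F.K, ∃ x : F.Dart, F.dn x = F.off i := fun i =>
    ⟨⟨i, ⟨0, F.len_pos i⟩⟩, by rw [F.dn_eq]; rfl⟩
  have hl : ∀ i : Fin F.K, ∃ x : F.Dart, F.dn x + 1 = F.off i + F.len i := fun i =>
    ⟨⟨i, ⟨F.len i - 1, by have := F.len_pos i; omega⟩⟩, by
      rw [F.dn_eq]; simp only; have := F.len_pos i; omega⟩
  have hinj1 : (I1.image F.off).card = I1.card :=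
    Finset.card_image_of_injective _ fun i j h => off_inj F h
  have hinj2 : (I2.image (fun i => F.off i + F.len i - 1)).card = I2.card := by
    apply Finset.card_image_of_injective
    intro i j h
    apply off_len_inj F
    have h3 : F.off i + F.len i - 1 = F.off j + F.len j - 1 := h
    have := F.len_pos i
    have := F.len_pos j
    omega
  have hdisj : Disjoint (I1.image F.off) (I2.image (fun i => F.off i + F.len i - 1)) := by
    rw [Finset.disjoint_left]
    intro p h3 h4
    rw [Finset.mem_image] at h3 h4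
    obtain ⟨i, hi, rfl⟩ := h3
    obtain ⟨j, hj, hj'⟩ := h4
    rw [hI1, Finset.mem_filter] at hi
    rw [hI2, Finset.mem_filter] at hj
    obtain ⟨x, hx⟩ := hd i
    apply hne x
    have := F.len_pos j
    rw [hx, show F.off i + 1 = F.off j + F.len j by omega, ndc_off, ndc_off_len]
    exact ⟨hi.2.2, hj.2.2⟩
  have hsub : I1.image F.off ∪ I2.image (fun i => F.off i + F.len i - 1) ⊆
      ((shapeOf c v0 o).D.filter (fun q => ((shapeOf c v0 o).cls q ∈ (shapeOf c v0 o).mrk) ≠
        ((shapeOf c v0 o).cls (q + 1) ∈ (shapeOf c v0 o).mrk))) := by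
    intro p hp
    have key : ∃ x, F.dn x = p ∧ (ndc c v0 p ∈ o ∨ ndc c v0 (p + 1) ∈ o) := by
      rw [Finset.mem_union, Finset.mem_image, Finset.mem_image] at hp
      rcases hp with ⟨i, hi, rfl⟩ | ⟨i, hi, rfl⟩
      · obtain ⟨x, hx⟩ := hd i
        refine ⟨x, hx, Or.inl ?_⟩
        rw [ndc_off]
        rw [hI1, Finset.mem_filter] at hi
        exact hi.2.2
      · obtain ⟨x, hx⟩ := hl i
        have := F.len_pos i
        refine ⟨x, by omega, Or.inr ?_⟩
        rw [show F.off i + F.len i - 1 + 1 = F.off i + F.len i by omega, ndc_off_len]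
        rw [hI2, Finset.mem_filter] at hi
        exact hi.2.2
    obtain ⟨x, rfl, hx⟩ := key
    rw [Finset.mem_filter, mem_shape_D]
    refine ⟨⟨x, rfl⟩, ?_⟩
    have e1 := F.dn_lt x
    rw [mem_mrk c v0 o (by omega), mem_mrk c v0 o (by omega), ne_eq, eq_iff_iff]
    intro h3
    rcases hx with h4 | h4
    · exact hne x ⟨h4, h3.1 h4⟩
    · exact hne x ⟨h3.2 h4, h4⟩
  have h3 := Finset.card_le_card hsub
  rw [Finset.card_union_of_disjoint hdisj, hinj1, hinj2] at h3
  exact h3

theorem card_mrk_le (v0 : V) (o : Finset V) : (shapeOf c v0 o).mrk.card ≤ o.card := by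
  have hm : (shapeOf c v0 o).mrk =
    (Finset.range F.tot).filter (fun v => clc c v0 v = v ∧ ndc c v0 v ∈ o) := rfl
  rw [hm]
  apply Finset.card_le_card_of_injOn (ndc c v0)
  · intro p hp
    rw [Finset.mem_coe, Finset.mem_filter] at hp
    exact hp.2.2
  · intro p hp q hq h
    rw [Finset.mem_coe, Finset.mem_filter, Finset.mem_range] at hp hq
    rw [← hp.2.1, ← hq.2.1]
    exact (clc_eq_iff c v0 hp.1 hq.1).2 h

end Lin

theorem oN_eq {S V : Type} {A : PAct S V} {F : Frame} (c : Conf A F) (o : Finset V) :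
    oN c o = Nat.card {i : Fin F.K // F.cl i = false ∧ c.node ⟨i, 0⟩ ∈ o} +
      Nat.card {i : Fin F.K // F.cl i = false ∧ c.node ⟨i, Fin.last _⟩ ∈ o} := by
  unfold oN
  rw [Nat.card_eq_fintype_card, Nat.card_eq_fintype_card, Fintype.card_subtype,
    Fintype.card_subtype]

/-- LA (statement of LocIface with the additional hypothesis `0 < F.K`) -/
theorem exists_shape {S V : Type} (A : PAct S V) (g g' : ℕ) (hg : Girth A g) (hg' : 2 * g' < g)
    (h2 : 2 ≤ g') (K D0 L : ℕ) (F : Frame) (c : Conf A F) (hK : F.K ≤ K) (hpos : 0 < F.K)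
    (hL : ∀ i, F.len i ≤ L) (hD : c.ends ≤ D0) (o : Finset V) (ho : o.card ≤ 1) :
    ∃ (σ : Shape) (nd : ℕ → V) (ℓ : ℕ → S × Bool), σ.Pre (K + 1) (D0 + 4 * K) g' ∧
      σ.mrk.card ≤ o.card ∧
      σ.T ≤ K * (L + 1) ∧ σ.Real A o nd ℓ ∧ σ.LabOK ℓ ∧ c.glued ≤ σ.gl + 2 * K ∧
      σ.ug ≤ c.unglued + 2 * K ∧
      σ.oe + (Nat.card {i : Fin F.K // F.cl i = false ∧ c.node ⟨i, 0⟩ ∈ o} +
        Nat.card {i : Fin F.K // F.cl i = false ∧ c.node ⟨i, Fin.last _⟩ ∈ o}) ≤ 2 * F.openN ∧
      Nat.card {i : Fin F.K // F.cl i = false ∧ c.node ⟨i, 0⟩ ∈ o} +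
        Nat.card {i : Fin F.K // F.cl i = false ∧ c.node ⟨i, Fin.last _⟩ ∈ o} ≤ σ.om := by
  have x0 : F.Dart := ⟨⟨0, hpos⟩, ⟨0, F.len_pos _⟩⟩
  have v0 : V := c.node (F.start x0)
  have l0 : S × Bool := c.lab x0
  have hg2 : 2 < g := by omega
  have hT : (shapeOf c v0 o).T = F.tot := rfl
  refine ⟨shapeOf c v0 o, ndc c v0, lbc c l0, ?_, card_mrk_le c v0 o, F.tot_le hK hL,
    shape_real c v0 l0 o, shape_labOK c hg hg2 v0 l0 o, ?_, ?_, ?_, ?_⟩
  · refine ⟨shape_basic c hg hg2 v0 l0 o, ?_, ?_, shape_ovl c hg hg' v0 l0 o,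
      (card_mrk_le c v0 o).trans (by omega)⟩
    · have h3 : Finset.range (shapeOf c v0 o).T \ (shapeOf c v0 o).D ⊆
          (Finset.range F.tot).filter fun k => k ∉ F.D := by
        intro k hk
        rw [Finset.mem_sdiff, mem_shape_D] at hk
        rw [Finset.mem_filter]
        exact ⟨hk.1, hk.2⟩
      exact (Finset.card_le_card h3).trans ((Frame.card_compl_D_le F).trans (by omega))
    · have := ends_le c v0 o
      omega
  · have := glued_le c v0 o
    omega
  · have := ug_le c v0 o
    omega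
  · rw [← oN_eq]
    exact oe_le c v0 o
  · rw [← oN_eq]
    exact oN_le_om c hg hg2 v0 l0 o ho

/-- the case `F.K = 0` -/
theorem glued_eq_zero {S V : Type} {A : PAct S V} {F : Frame} (c : Conf A F) (h : F.K = 0) :
    c.glued = 0 ∧ c.unglued = 0 ∧ c.ends = 0 ∧ F.openN = 0 := by
  have h1 : IsEmpty F.Dart := ⟨fun x => by have := x.1.2; omega⟩
  have h2 : IsEmpty (Fin F.K) := ⟨fun x => by have := x.2; omega⟩
  refine ⟨?_, ?_, ?_, ?_⟩
  · unfold Conf.glued; exact Nat.card_of_isEmpty
  · unfold Conf.unglued; exact Nat.card_of_isEmpty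
  · unfold Conf.ends; exact Nat.card_of_isEmpty
  · unfold Frame.openN; exact Nat.card_of_isEmpty

end Crest.Agent.R177.Loc
end

-- ▼ part R177/LocGood

/-!
# Row 177, module LOC: LA2, the bounds `Z`, `I` for the shape of a configuration (helper755)
-/

set_option autoImplicit false

open scoped Classical

namespace Crest.Agent.R177.Loc

open Crest.Agent.R177

namespace LG

variable (σ : Shape) (g' : ℕ)

/-- start of a piece -/
def Stt (s : ℕ) : Prop := s % g' = 0 ∨ (1 ≤ s ∧ s - 1 ∉ σ.D)

/-- start of the piece of the position `p` -/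
noncomputable def st (p : ℕ) : ℕ := Nat.findGreatest (Stt σ g') p

variable {σ g'}

theorem stt_zero : Stt σ g' 0 := Or.inl (Nat.zero_mod _)

theorem st_le (p : ℕ) : st σ g' p ≤ p := Nat.findGreatest_le p

theorem st_stt (p : ℕ) : Stt σ g' (st σ g' p) :=
  Nat.findGreatest_spec (m := 0) (Nat.zero_le p) stt_zero

theorem not_stt {p i : ℕ} (h1 : st σ g' p < i) (h2 : i ≤ p) : ¬ Stt σ g' i :=
  Nat.findGreatest_is_greatest h1 h2

theorem le_st {p s : ℕ} (h : s ≤ p) (hs : Stt σ g' s) : s ≤ st σ g' p :=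
  Nat.le_findGreatest h hs

theorem mem_D {p i : ℕ} (h1 : st σ g' p ≤ i) (h2 : i < p) : i ∈ σ.D := by
  have h3 : ¬ Stt σ g' (i + 1) := not_stt (Nat.lt_succ_of_le h1) h2
  by_contra h4
  exact h3 (Or.inr ⟨by omega, by simpa using h4⟩)

theorem sub_lt (hg : 0 < g') (p : ℕ) : p < st σ g' p + g' := by
  by_contra h
  push Not at h
  have h1 : Stt σ g' (g' * (st σ g' p / g' + 1)) := Or.inl (Nat.mul_mod_right _ _)
  have h2 := Nat.div_add_mod (st σ g' p) g'
  have h3 := Nat.mod_lt (st σ g' p) hg
  have h4 : g' * (st σ g' p / g' + 1) = g' * (st σ g' p / g') + g' := by ring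
  refine not_stt (σ := σ) (g' := g') (p := p) ?_ ?_ h1
  · omega
  · omega

theorem st_eq {z i : ℕ} (h1 : st σ g' z ≤ i) (h2 : i ≤ z) : st σ g' i = st σ g' z := by
  apply le_antisymm
  · exact le_st ((st_le i).trans h2) (st_stt i)
  · exact le_st h1 (st_stt z)

/-- the starts of pieces -/
noncomputable def starts (σ : Shape) (g' : ℕ) : Finset ℕ := (Finset.range σ.T).filter (Stt σ g')

theorem st_mem {p : ℕ} (hp : p < σ.T) : st σ g' p ∈ starts σ g' := by
  simp only [starts, Finset.mem_filter, Finset.mem_range]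
  exact ⟨(st_le p).trans_lt hp, st_stt p⟩

theorem card_starts {K D1 Y : ℕ} (hσ : σ.Pre K D1 g') (hT : σ.T ≤ Y * g') (hg : 0 < g') :
    (starts σ g').card ≤ K + Y := by
  have h : starts σ g' ⊆ (Finset.range σ.T \ σ.D).image (· + 1) ∪
      (Finset.range Y).image (· * g') := by
    intro s hs
    simp only [starts, Finset.mem_filter, Finset.mem_range] at hs
    obtain ⟨h1, h2 | ⟨h2, h3⟩⟩ := hs
    · apply Finset.mem_union_right
      simp only [Finset.mem_image, Finset.mem_range]
      refine ⟨s / g', ?_, Nat.div_mul_cancel (Nat.dvd_of_mod_eq_zero h2)⟩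
      rw [Nat.div_lt_iff_lt_mul hg]
      omega
    · apply Finset.mem_union_left
      simp only [Finset.mem_image, Finset.mem_sdiff, Finset.mem_range]
      exact ⟨s - 1, ⟨by omega, h3⟩, by omega⟩
  calc (starts σ g').card ≤ _ := Finset.card_le_card h
    _ ≤ _ := Finset.card_union_le _ _
    _ ≤ K + Y := by
      refine Nat.add_le_add (Finset.card_image_le.trans hσ.paths_le) ?_
      exact Finset.card_image_le.trans (by simp)

/-- two positions of a piece are at different nodes -/
theorem cls_ne {K D1 : ℕ} (hσ : σ.Pre K D1 g') (hg : 0 < g') {p q : ℕ} (h : p < q)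
    (hst : st σ g' p = st σ g' q) : σ.cls p ≠ σ.cls q := by
  intro he
  have h1 := st_le (σ := σ) (g' := g') p
  have h2 := sub_lt (σ := σ) hg q
  have h3 := (hσ.ovl p p (q - p) 0 (by omega) (by omega)
    (fun i hi => mem_D (g' := g') (p := q) (by omega) (by omega)) (fun i hi => absurd hi (by omega))).1 rfl
    (by rw [Nat.add_sub_cancel' h.le, Nat.add_zero]; exact he.symm)
  omega

theorem eq_of_cls {K D1 : ℕ} (hσ : σ.Pre K D1 g') (hg : 0 < g') {p q : ℕ}
    (hst : st σ g' p = st σ g' q) (hc : σ.cls p = σ.cls q) : p = q := by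
  rcases lt_trichotomy p q with h | h | h
  · exact absurd hc (cls_ne hσ hg h hst)
  · exact h
  · exact absurd hc.symm (cls_ne hσ hg h hst.symm)

theorem Mv_le {K D1 Y : ℕ} (hσ : σ.Pre K D1 g') (hT : σ.T ≤ Y * g') (hg : 0 < g') (v : ℕ) :
    σ.Mv v ≤ K + Y := by
  refine le_trans ?_ (card_starts hσ hT hg)
  unfold Shape.Mv
  refine Finset.card_le_card_of_injOn (st σ g') ?_ ?_
  · intro p hp
    simp only [Finset.coe_filter, Set.mem_ofPred_eq, Finset.mem_range] at hp
    exact st_mem hp.1
  · intro p hp q hq he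
    simp only [Finset.coe_filter, Set.mem_ofPred_eq, Finset.mem_range] at hp hq
    exact eq_of_cls hσ hg he (hp.2.trans hq.2.symm)

/-- the middle one of three positions of a piece whose classes lie in a piece is parallel -/
theorem par_mid {K D1 : ℕ} (hσ : σ.Pre K D1 g') (hg : 0 < g') {a b c : ℕ} (hab : a < b)
    (hbc : b < c) (h1 : st σ g' a = st σ g' c) (h2 : st σ g' (σ.cls a) = st σ g' (σ.cls c))
    (h3 : st σ g' (σ.cls b) = st σ g' (σ.cls c)) : σ.Par b (σ.cls b) := by
  have hac : σ.cls a ≠ σ.cls c := cls_ne hσ hg (hab.trans hbc) h1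
  have ha := hσ.cls_cls a
  have hb := hσ.cls_cls b
  have hc := hσ.cls_cls c
  have e1 := st_le (σ := σ) (g' := g') a
  have e2 := sub_lt (σ := σ) hg c
  have e3 := st_le (σ := σ) (g' := g') (σ.cls a)
  have e4 := sub_lt (σ := σ) hg (σ.cls c)
  have e5 := st_le (σ := σ) (g' := g') (σ.cls c)
  have e6 := sub_lt (σ := σ) hg (σ.cls a)
  rcases lt_or_gt_of_ne hac with h | h
  · obtain ⟨f1, f2⟩ := (hσ.ovl a (σ.cls a) (c - a) (σ.cls c - σ.cls a) (by omega) (by omega)
      (fun i hi => mem_D (g' := g') (p := c) (by omega) (by omega))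
      (fun i hi => mem_D (g' := g') (p := σ.cls c) (by omega) (by omega))).1 ha.symm
      (by rw [Nat.add_sub_cancel' (hab.trans hbc).le, Nat.add_sub_cancel' h.le, hc])
    have f3 := f2 (b - a) (by omega)
    have f4 := f2 (b - a - 1) (by omega)
    have f5 := f2 (b - a + 1) (by omega)
    rw [show a + (b - a) = b by omega] at f3
    rw [show a + (b - a - 1) = b - 1 by omega] at f4
    rw [show a + (b - a + 1) = b + 1 by omega] at f5
    have f6 : σ.cls b = σ.cls a + (b - a) := by
      refine eq_of_cls hσ hg ?_ (hb.trans f3)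
      rw [h3]
      exact (st_eq (by omega) (by omega)).symm
    refine Or.inl ⟨?_, ?_⟩
    · rw [f4, f6]
      congr 1
      omega
    · rw [f5, f6]
      congr 1
  · obtain ⟨f1, f2⟩ := (hσ.ovl a (σ.cls c) (c - a) (σ.cls a - σ.cls c) (by omega) (by omega)
      (fun i hi => mem_D (g' := g') (p := c) (by omega) (by omega))
      (fun i hi => mem_D (g' := g') (p := σ.cls a) (by omega) (by omega))).2
      (by rw [Nat.add_sub_cancel' (le_of_lt h), ha])
      (by rw [Nat.add_sub_cancel' (hab.trans hbc).le, hc])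
    have f3 := f2 (b - a) (by omega)
    have f4 := f2 (b - a - 1) (by omega)
    have f5 := f2 (b - a + 1) (by omega)
    rw [show a + (b - a) = b by omega, show c - a - (b - a) = c - b by omega] at f3
    rw [show a + (b - a - 1) = b - 1 by omega,
      show c - a - (b - a - 1) = c - b + 1 by omega] at f4
    rw [show a + (b - a + 1) = b + 1 by omega,
      show c - a - (b - a + 1) = c - b - 1 by omega] at f5
    have f6 : σ.cls b = σ.cls c + (c - b) := by
      refine eq_of_cls hσ hg ?_ (hb.trans f3)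
      rw [h3, ← h2]
      exact (st_eq (by omega) (by omega)).symm
    refine Or.inr ⟨?_, ?_⟩
    · rw [f4, f6]
      congr 1
    · rw [f5, f6]
      congr 1
      omega

/-- positions which are not parallel to their class -/
noncomputable def badPar (σ : Shape) : Finset ℕ :=
  (Finset.range σ.T).filter (fun p => ¬ σ.Par p (σ.cls p))

theorem card_badPar {K D1 Y : ℕ} (hσ : σ.Pre K D1 g') (hT : σ.T ≤ Y * g') (hg : 0 < g') :
    (badPar σ).card ≤ 2 * ((K + Y) * (K + Y)) := by
  have h1 : (badPar σ).card ≤ 2 * (starts σ g' ×ˢ starts σ g').card := by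
    refine Finset.card_le_mul_card_image_of_maps_to
      (f := fun p => (st σ g' p, st σ g' (σ.cls p))) ?_ 2 ?_
    · intro p hp
      simp only [badPar, Finset.mem_filter, Finset.mem_range] at hp
      rw [Finset.mem_product]
      exact ⟨st_mem hp.1, st_mem ((hσ.cls_le p).trans_lt hp.1)⟩
    · rintro ⟨u, v⟩ -
      by_contra h
      push Not at h
      obtain ⟨a, ha, b, hb, c, hc, hab, hac, hbc⟩ := Finset.two_lt_card.1 h
      simp only [badPar, Finset.mem_filter, Finset.mem_range, Prod.mk.injEq] at ha hb hc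
      have key : ∀ x y z : ℕ, x < y → y < z → st σ g' x = u → st σ g' z = u →
          st σ g' (σ.cls x) = v → st σ g' (σ.cls y) = v → st σ g' (σ.cls z) = v →
          ¬ σ.Par y (σ.cls y) → False := by
        intro x y z hxy hyz h1 h2 h3 h4 h5 h6
        exact h6 (par_mid hσ hg hxy hyz (h1.trans h2.symm) (h3.trans h5.symm) (h4.trans h5.symm))
      rcases lt_or_gt_of_ne hab with h1 | h1 <;> rcases lt_or_gt_of_ne hac with h2 | h2 <;>
        rcases lt_or_gt_of_ne hbc with h3 | h3
      · exact key a b c h1 h3 ha.2.1 hc.2.1 ha.2.2 hb.2.2 hc.2.2 hb.1.2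
      · exact key a c b h2 h3 ha.2.1 hb.2.1 ha.2.2 hc.2.2 hb.2.2 hc.1.2
      · omega
      · exact key c a b h2 h1 hc.2.1 hb.2.1 hc.2.2 ha.2.2 hb.2.2 ha.1.2
      · exact key b a c h1 h2 hb.2.1 hc.2.1 hb.2.2 ha.2.2 hc.2.2 ha.1.2
      · omega
      · exact key b c a h3 h2 hb.2.1 ha.2.1 hb.2.2 hc.2.2 ha.2.2 hc.1.2
      · exact key c b a h3 h1 hc.2.1 ha.2.1 hc.2.2 hb.2.2 ha.2.2 hb.1.2
  rw [Finset.card_product] at h1
  refine h1.trans (Nat.mul_le_mul_left 2 (Nat.mul_le_mul ?_ ?_)) <;>
  exact card_starts hσ hT hg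

/-- last positions of runs of matched corners -/
noncomputable def endsR (σ : Shape) : Finset ℕ :=
  (Finset.range σ.T).filter (fun p => σ.mt p ≠ none ∧ σ.mt (p + 1) = none)

/-- first positions of runs of matched corners -/
noncomputable def startsR (σ : Shape) : Finset ℕ :=
  (Finset.range σ.T).filter (fun p => σ.mt p ≠ none ∧ σ.mt (p - 1) = none)

theorem mt_lt (hσ : σ.Basic) {p : ℕ} (h : σ.mt p ≠ none) : p < σ.T ∧ 1 ≤ p := by
  obtain ⟨p', hp⟩ := Option.ne_none_iff_exists'.1 h
  obtain ⟨h1, h2, h3⟩ := hσ.mt_cor p p' hp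
  have := hσ.D_lt p h3
  exact ⟨by omega, h1⟩

theorem card_startsR (hσ : σ.Basic) : (startsR σ).card ≤ (endsR σ).card := by
  refine Finset.card_le_card_of_injOn (fun p => (σ.mt p).getD 0) ?_ ?_
  · intro p hp
    simp only [startsR, Finset.coe_filter, Set.mem_ofPred_eq, Finset.mem_range] at hp
    obtain ⟨h1, h2, h3⟩ := hp
    obtain ⟨p', hp⟩ := Option.ne_none_iff_exists'.1 h2
    simp only [endsR, Finset.coe_filter, Set.mem_ofPred_eq, Finset.mem_range]
    rw [hp, Option.getD_some]
    have h4 := hσ.mt_symm p p' hp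
    have h5 : σ.mt p' ≠ none := by rw [h4]; simp
    refine ⟨(mt_lt hσ h5).1, h5, ?_⟩
    by_contra h6
    obtain ⟨q, hq⟩ := Option.ne_none_iff_exists'.1 h6
    have h7 := hσ.mt_coh p' p q h4 hq
    have h8 := hσ.mt_symm _ _ hq
    rw [show p - 1 = q by omega, h8] at h3
    exact absurd h3 (by simp)
  · intro p hp q hq he
    simp only [startsR, Finset.coe_filter, Set.mem_ofPred_eq, Finset.mem_range] at hp hq
    obtain ⟨p', hp'⟩ := Option.ne_none_iff_exists'.1 hp.2.1
    obtain ⟨q', hq'⟩ := Option.ne_none_iff_exists'.1 hq.2.1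
    simp only [hp', hq', Option.getD_some] at he
    subst he
    have h1 := hσ.mt_symm _ _ hp'
    rw [hσ.mt_symm _ _ hq'] at h1
    exact (Option.some.inj h1).symm

/-- positions which are not regular corners -/
noncomputable def badPReg (σ : Shape) : Finset ℕ :=
  (Finset.range σ.T).filter (fun p => ¬ σ.PReg p)

theorem card_badPReg {K D1 : ℕ} (hσ : σ.Pre K D1 g') :
    (badPReg σ).card ≤ 1 + K + K + D1 + D1 + D1 + D1 := by
  have h : badPReg σ ⊆ {0} ∪ (Finset.range σ.T \ σ.D).image (· + 1) ∪ (Finset.range σ.T \ σ.D) ∪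
      (endsR σ).image (· + 1) ∪ endsR σ ∪ (startsR σ).image (· - 1) ∪ startsR σ := by
    intro p hp
    simp only [badPReg, Finset.mem_filter, Finset.mem_range] at hp
    obtain ⟨h1, h2⟩ := hp
    simp only [Finset.mem_union, Finset.mem_image, Finset.mem_sdiff, Finset.mem_range,
      Finset.mem_singleton]
    by_cases h0 : p = 0
    · simp only [h0, true_or]
    by_cases hD1 : p - 1 ∈ σ.D
    swap
    · exact Or.inl (Or.inl (Or.inl (Or.inl (Or.inl (Or.inr ⟨p - 1, ⟨by omega, hD1⟩, by omega⟩)))))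
    by_cases hD2 : p ∈ σ.D
    swap
    · exact Or.inl (Or.inl (Or.inl (Or.inl (Or.inr ⟨h1, hD2⟩))))
    by_cases hm : σ.mt p = none
    · by_cases hm1 : σ.mt (p - 1) = none
      · by_cases hm2 : σ.mt (p + 1) = none
        · exact absurd ⟨⟨by omega, hD1, hD2⟩, fun _ => ⟨hm1, hm2⟩, fun h => absurd hm h⟩ h2
        · refine Or.inl (Or.inr ⟨p + 1, ?_, by omega⟩)
          simp only [startsR, Finset.mem_filter, Finset.mem_range]
          exact ⟨(mt_lt hσ.toBasic hm2).1, hm2, by simpa using hm⟩
      · refine Or.inl (Or.inl (Or.inl (Or.inr ⟨p - 1, ?_, by omega⟩)))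
        simp only [endsR, Finset.mem_filter, Finset.mem_range]
        exact ⟨(mt_lt hσ.toBasic hm1).1, hm1, by rw [show p - 1 + 1 = p by omega]; exact hm⟩
    · by_cases hm1 : σ.mt (p - 1) = none
      · refine Or.inr ?_
        simp only [startsR, Finset.mem_filter, Finset.mem_range]
        exact ⟨h1, hm, hm1⟩
      · by_cases hm2 : σ.mt (p + 1) = none
        · refine Or.inl (Or.inl (Or.inr ?_))
          simp only [endsR, Finset.mem_filter, Finset.mem_range]
          exact ⟨h1, hm, hm2⟩
        · exact absurd ⟨⟨by omega, hD1, hD2⟩, fun h => absurd h hm, fun _ => ⟨hm1, hm2⟩⟩ h2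
  have hE : (endsR σ).card ≤ D1 := hσ.ends_le
  have hS : (startsR σ).card ≤ D1 := (card_startsR hσ.toBasic).trans hE
  refine (Finset.card_le_card h).trans ?_
  refine (Finset.card_union_le _ _).trans (Nat.add_le_add ?_ hS)
  refine (Finset.card_union_le _ _).trans (Nat.add_le_add ?_ (Finset.card_image_le.trans hS))
  refine (Finset.card_union_le _ _).trans (Nat.add_le_add ?_ hE)
  refine (Finset.card_union_le _ _).trans (Nat.add_le_add ?_ (Finset.card_image_le.trans hE))
  refine (Finset.card_union_le _ _).trans (Nat.add_le_add ?_ hσ.paths_le)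
  refine (Finset.card_union_le _ _).trans (Nat.add_le_add ?_ (Finset.card_image_le.trans
    hσ.paths_le))
  simp

end LG

open LG in
/-- LA2: the bounds for the multiplicities and for the number of irregular classes -/
theorem good_of_pre (K D1 Y : ℕ) : ∃ Z I : ℕ, ∀ (g' : ℕ) (σ : Shape), 2 ≤ g' → σ.Pre K D1 g' →
    σ.T ≤ Y * g' → σ.Good Z I := by
  refine ⟨K + Y, K + (1 + K + K + D1 + D1 + D1 + D1) + 2 * ((K + Y) * (K + Y)), ?_⟩
  intro g' σ hg2 hσ hT
  have hg : 0 < g' := by omega
  refine { toBasic := hσ.toBasic, card_cls := Mv_le hσ hT hg, irr := ?_ }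
  have h : (Finset.range σ.T).filter (fun v => σ.cls v = v ∧ ¬ σ.Reg v) ⊆
      σ.mrk ∪ (badPReg σ).image σ.cls ∪ (badPar σ).image σ.cls := by
    intro v hv
    simp only [Finset.mem_filter, Finset.mem_range] at hv
    obtain ⟨h1, h2, h3⟩ := hv
    simp only [Finset.mem_union, Finset.mem_image]
    by_cases hm : v ∈ σ.mrk
    · exact Or.inl (Or.inl hm)
    have h4 : ∃ p < σ.T, σ.cls p = v ∧ ¬ (σ.PReg p ∧ σ.Par p v) := by
      by_contra h5
      push Not at h5
      exact h3 ⟨h1, h2, hm, h5⟩
    obtain ⟨p, hp, hpv, h5⟩ := h4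
    by_cases h6 : σ.PReg p
    · refine Or.inr ⟨p, ?_, hpv⟩
      simp only [badPar, Finset.mem_filter, Finset.mem_range]
      exact ⟨hp, fun h7 => h5 ⟨h6, by rw [← hpv]; exact h7⟩⟩
    · refine Or.inl (Or.inr ⟨p, ?_, hpv⟩)
      simp only [badPReg, Finset.mem_filter, Finset.mem_range]
      exact ⟨hp, h6⟩
  refine (Finset.card_le_card h).trans ?_
  refine (Finset.card_union_le _ _).trans (Nat.add_le_add ?_
    (Finset.card_image_le.trans (card_badPar hσ hT hg)))
  exact (Finset.card_union_le _ _).trans (Nat.add_le_add hσ.mrk_card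
    (Finset.card_image_le.trans (card_badPReg hσ)))

end Crest.Agent.R177.Loc
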