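import Crest.Agent.R177.Defs

/-!
# R177 LOC: the Kraft sum with a normalised kernel (helper422)

`E` = edges of a level graph, ordered by `r`; `Root` = free edges, `Beta` = edges carrying a factor
`K (label of the predecessor) (label)`, all other edges are determined by earlier ones.
-/

set_option autoImplicit false
set_option maxHeartbeats 400000

open scoped Classical

namespace Crest.Agent.R177.Kraft2

section kraft

variable {E H : Type} [Fintype E] [Fintype H]

/-- Kraft sum: the sum over the realizable labellings of the product of the transition factors is
at most `|H| ^ #Root`. -/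
theorem kraft (r : E → ℕ) (hr : Function.Injective r) (L : Finset (E → H))
    (Root Beta : Finset E) (pred : E → E) (hpred : ∀ e ∈ Beta, r (pred e) < r e)
    (hdet : ∀ e, e ∉ Root → e ∉ Beta → ∀ l ∈ L, ∀ l' ∈ L,
      (∀ e', r e' < r e → l e' = l' e') → l e = l' e)
    (K : H → H → ℝ) (hK0 : ∀ h h', 0 ≤ K h h') (hK : ∀ h, ∑ h', K h h' ≤ 1) :
    ∑ l ∈ L, ∏ e ∈ Beta, K (l (pred e)) (l e) ≤ (Fintype.card H : ℝ) ^ Root.card := by
  rcases L.eq_empty_or_nonempty with rfl | ⟨l0, hl0⟩
  · simp
  set cut : ℕ → (E → H) → E → H := fun k l e => if r e < k then l e else l0 e with hcut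
  have main : ∀ k : ℕ, ∑ l ∈ L.image (cut k), ∏ e ∈ Beta.filter (fun e => r e < k),
      K (l (pred e)) (l e) ≤ (Fintype.card H : ℝ) ^ (Root.filter (fun e => r e < k)).card := by
    intro k
    induction k with
    | zero =>
      have h1 : L.image (cut 0) = {l0} := by
        apply Finset.eq_singleton_iff_unique_mem.2
        refine ⟨Finset.mem_image.2 ⟨l0, hl0, by funext e; simp [hcut]⟩, ?_⟩
        intro l hl
        obtain ⟨l', _, rfl⟩ := Finset.mem_image.1 hl
        funext e; simp [hcut]
      rw [h1]; simp
    | succ k ih =>
      by_cases hk : ∃ e, r e = k
      swap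
      · have hlt : ∀ e, r e < k + 1 ↔ r e < k := by
          intro e
          have : r e ≠ k := fun h => hk ⟨e, h⟩
          omega
        have hc : cut (k + 1) = cut k := by
          funext l e
          simp only [hcut, hlt]
        simp only [hlt, hc]
        exact ih
      obtain ⟨e, he⟩ := hk
      have hmaps : ∀ l ∈ L.image (cut (k + 1)), cut k l ∈ L.image (cut k) := by
        intro l hl
        obtain ⟨l', hl', rfl⟩ := Finset.mem_image.1 hl
        refine Finset.mem_image.2 ⟨l', hl', ?_⟩
        funext e'
        simp only [hcut]
        by_cases h : r e' < k
        · rw [if_pos h, if_pos h, if_pos (by omega)]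
        · rw [if_neg h, if_neg h]
      rw [← Finset.sum_fiberwise_of_maps_to hmaps]
      have hne : (0 : ℝ) ≤ Fintype.card H := Nat.cast_nonneg _
      have hcard1 : (1 : ℝ) ≤ Fintype.card H := by
        have : 0 < Fintype.card H := Fintype.card_pos_iff.2 ⟨l0 e⟩
        exact_mod_cast this
      -- filters
      have hB : ∀ s : Finset E, s.filter (fun e' => r e' < k + 1) =
          if e ∈ s then insert e (s.filter (fun e' => r e' < k)) else
            s.filter (fun e' => r e' < k) := by
        intro s
        ext e'
        by_cases hes : e ∈ s
        · simp only [if_pos hes, Finset.mem_filter, Finset.mem_insert]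
          constructor
          · rintro ⟨h1, h2⟩
            by_cases h3 : r e' = k
            · exact Or.inl (hr (h3.trans he.symm))
            · exact Or.inr ⟨h1, by omega⟩
          · rintro (rfl | ⟨h1, h2⟩)
            · exact ⟨hes, by omega⟩
            · exact ⟨h1, by omega⟩
        · simp only [if_neg hes, Finset.mem_filter]
          constructor
          · rintro ⟨h1, h2⟩
            refine ⟨h1, ?_⟩
            by_cases h3 : r e' = k
            · exact absurd (hr (h3.trans he.symm) ▸ h1) hes
            · omega
          · rintro ⟨h1, h2⟩
            exact ⟨h1, by omega⟩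
      -- the factor of one fiber
      have hfib : ∀ l' ∈ L.image (cut k),
          ∑ l ∈ L.image (cut (k + 1)) with cut k l = l',
            ∏ e' ∈ Beta.filter (fun e' => r e' < k + 1), K (l (pred e')) (l e') ≤
          (∏ e' ∈ Beta.filter (fun e' => r e' < k), K (l' (pred e')) (l' e')) *
            (if e ∈ Root then (Fintype.card H : ℝ) else 1) := by
        intro l' hl'
        have hval : ∀ l ∈ (L.image (cut (k + 1))).filter (fun l => cut k l = l'),
            ∀ e', r e' < k → l e' = l' e' := by
          intro l hl e' he'
          have := (Finset.mem_filter.1 hl).2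
          rw [← this]
          simp only [hcut, if_pos he']
        have hprod : ∀ l ∈ (L.image (cut (k + 1))).filter (fun l => cut k l = l'),
            ∏ e' ∈ Beta.filter (fun e' => r e' < k + 1), K (l (pred e')) (l e') =
            (∏ e' ∈ Beta.filter (fun e' => r e' < k), K (l' (pred e')) (l' e')) *
              (if e ∈ Beta then K (l' (pred e)) (l e) else 1) := by
          intro l hl
          have h1 : ∏ e' ∈ Beta.filter (fun e' => r e' < k), K (l (pred e')) (l e') =
              ∏ e' ∈ Beta.filter (fun e' => r e' < k), K (l' (pred e')) (l' e') := by
            refine Finset.prod_congr rfl fun e' he' => ?_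
            rw [Finset.mem_filter] at he'
            rw [hval l hl e' he'.2, hval l hl (pred e') (lt_trans (hpred e' he'.1) he'.2)]
          rw [hB]
          by_cases heB : e ∈ Beta
          · rw [if_pos heB, if_pos heB, Finset.prod_insert
              (by simp only [Finset.mem_filter, not_and]; intro _; omega), h1,
              hval l hl (pred e) (by have := hpred e heB; omega)]
            ring
          · rw [if_neg heB, if_neg heB, h1, mul_one]
        rw [Finset.sum_congr rfl hprod, ← Finset.mul_sum]
        refine mul_le_mul_of_nonneg_left ?_ (Finset.prod_nonneg fun _ _ => hK0 _ _)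
        -- injectivity of evaluation at `e` on the fiber
        have hinj : Set.InjOn (fun l : E → H => l e)
            ((L.image (cut (k + 1))).filter (fun l => cut k l = l') : Finset (E → H)) := by
          intro l1 h1 l2 h2 h12
          have h1' := Finset.mem_coe.1 h1
          have h2' := Finset.mem_coe.1 h2
          funext e'
          rcases lt_trichotomy (r e') k with h | h | h
          · rw [hval l1 h1' e' h, hval l2 h2' e' h]
          · have : e' = e := hr (h.trans he.symm)
            subst this; exact h12
          · obtain ⟨m1, _, hm1⟩ := Finset.mem_image.1 (Finset.mem_filter.1 h1').1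
            obtain ⟨m2, _, hm2⟩ := Finset.mem_image.1 (Finset.mem_filter.1 h2').1
            rw [← hm1, ← hm2]
            simp only [hcut]
            rw [if_neg (by omega), if_neg (by omega)]
        by_cases heB : e ∈ Beta
        · simp only [if_pos heB]
          have h1 : ∑ l ∈ (L.image (cut (k + 1))).filter (fun l => cut k l = l'),
              K (l' (pred e)) (l e) =
              ∑ h ∈ ((L.image (cut (k + 1))).filter (fun l => cut k l = l')).image
                (fun l => l e), K (l' (pred e)) h := by
            rw [Finset.sum_image]
            intro a ha b hb hab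
            exact hinj ha hb hab
          rw [h1]
          have h2 : ∑ h ∈ ((L.image (cut (k + 1))).filter (fun l => cut k l = l')).image
                (fun l => l e), K (l' (pred e)) h ≤ ∑ h, K (l' (pred e)) h :=
            Finset.sum_le_sum_of_subset_of_nonneg (Finset.subset_univ _) fun _ _ _ => hK0 _ _
          refine h2.trans ((hK _).trans ?_)
          split_ifs <;> linarith
        · simp only [if_neg heB, Finset.sum_const, nsmul_eq_mul, mul_one]
          by_cases heR : e ∈ Root
          · rw [if_pos heR]
            have := Finset.card_le_card_of_injOn (s := (L.image (cut (k + 1))).filter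
              (fun l => cut k l = l')) (t := (Finset.univ : Finset H)) (fun l => l e)
              (fun _ _ => Finset.mem_univ _) hinj
            rw [Finset.card_univ] at this
            exact_mod_cast this
          · rw [if_neg heR]
            have : ((L.image (cut (k + 1))).filter (fun l => cut k l = l')).card ≤ 1 := by
              rw [Finset.card_le_one]
              intro l1 h1 l2 h2
              apply hinj h1 h2
              obtain ⟨m1, hm1L, hm1⟩ := Finset.mem_image.1 (Finset.mem_filter.1 h1).1
              obtain ⟨m2, hm2L, hm2⟩ := Finset.mem_image.1 (Finset.mem_filter.1 h2).1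
              have h3 : m1 e = m2 e := by
                refine hdet e heR heB m1 hm1L m2 hm2L fun e' he' => ?_
                rw [he] at he'
                have a1 := hval l1 h1 e' he'
                have a2 := hval l2 h2 e' he'
                rw [← hm1] at a1
                rw [← hm2] at a2
                simp only [hcut] at a1 a2
                rw [if_pos (by omega)] at a1 a2
                rw [a1, a2]
              show l1 e = l2 e
              rw [← hm1, ← hm2]
              simp only [hcut]
              rw [if_pos (by omega), if_pos (by omega)]
              exact h3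
            exact_mod_cast this
      refine (Finset.sum_le_sum hfib).trans ?_
      rw [← Finset.sum_mul]
      rw [hB Root]
      by_cases heR : e ∈ Root
      · rw [if_pos heR, if_pos heR, Finset.card_insert_of_notMem
          (by simp only [Finset.mem_filter, not_and]; intro _; omega), pow_succ]
        exact mul_le_mul_of_nonneg_right ih hne
      · rw [if_neg heR, if_neg heR, mul_one]
        exact ih
  -- conclusion: a large `k`
  obtain ⟨k, hk⟩ : ∃ k, ∀ e, r e < k := by
    refine ⟨(Finset.univ.sup r) + 1, fun e => ?_⟩
    exact Nat.lt_succ_of_le (Finset.le_sup (f := r) (Finset.mem_univ e))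
  have h1 := main k
  have h2 : ∀ s : Finset E, s.filter (fun e => r e < k) = s := by
    intro s
    exact Finset.filter_true_of_mem fun e _ => hk e
  rw [h2, h2] at h1
  have h3 : L.image (cut k) = L := by
    ext l
    constructor
    · intro hl
      obtain ⟨l', hl', rfl⟩ := Finset.mem_image.1 hl
      have : cut k l' = l' := by
        funext e
        simp only [hcut, if_pos (hk e)]
      rw [this]; exact hl'
    · intro hl
      refine Finset.mem_image.2 ⟨l, hl, ?_⟩
      funext e
      simp only [hcut, if_pos (hk e)]
  rw [h3] at h1
  exact h1


end kraft

/-! ## The kernel of a model -/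

variable {S : Type} [Fintype S] (M : Model S)

/-- gauge of a half-edge -/
noncomputable def dl (h : S × Bool) : ℝ := if h.2 then M.δ h.1 else (M.δ h.1)⁻¹

/-- weight of an (unordered) turn -/
noncomputable def q (h h' : S × Bool) : ℝ :=
  M.n h h' ^ 2 / (M.N h.1 * M.N h'.1) * dl M h * dl M h' / M.ρ

/-- first moment weight of a turn -/
noncomputable def g (h h' : S × Bool) : ℝ := M.n h h' / Real.sqrt (M.N h.1 * M.N h'.1)

/-- the kernel: weight of the dart `b` after the dart `a` -/
noncomputable def K (a b : S × Bool) : ℝ :=
  if b = hinv a then 0 else q M (hinv a) b * M.u b / M.u a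

theorem dl_pos (h : S × Bool) : 0 < dl M h := by
  unfold dl; split_ifs
  · exact M.δ_pos _
  · exact inv_pos.2 (M.δ_pos _)





theorem q_pos {h h' : S × Bool} (hn : 0 < M.n h h') : 0 < q M h h' := by
  have := M.N_pos h.1
  have := M.N_pos h'.1
  have := dl_pos M h
  have := dl_pos M h'
  have := M.ρ_pos
  unfold q
  positivity









end Crest.Agent.R177.Kraft2
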