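import Crest.Agent.R177.LocBasic
import Crest.Agent.R177.LocKraft2
import Crest.Agent.R177.LocDefs
import Crest.Agent.R177.LocUnion
import Crest.Agent.R177.LocGood_Mg
import Crest.Agent.R177.DefsO

-- ▼ part R177/LocSum
section

/-!
# R177 LOC, module LC: the sum of the Kraft weights of one level (helper422)
-/

set_option autoImplicit false
set_option maxHeartbeats 400000

open scoped Classical

namespace Crest.Agent.R177.Loc


namespace LSum

/-! ## Telescoping products -/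

/-- telescoping: `∏ f (v-1) / f v` over a set of positive numbers is bounded in terms of the number
of its runs -/
theorem prod_tele (R : Finset ℕ) (hR : ∀ v ∈ R, 1 ≤ v) (f : ℕ → ℝ) (U : ℝ) (hU : 1 ≤ U)
    (h1 : ∀ v, f v ≤ U) (h2 : ∀ v, U⁻¹ ≤ f v) :
    ∏ v ∈ R, f (v - 1) / f v ≤ (U ^ 2) ^ (R.filter (fun v => v - 1 ∉ R)).card := by
  have hUp : 0 < U := lt_of_lt_of_le one_pos hU
  have hf : ∀ v, 0 < f v := fun v => lt_of_lt_of_le (inv_pos.2 hUp) (h2 v)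
  have hinj : Set.InjOn (fun v : ℕ => v - 1) (R : Set ℕ) := by
    intro a ha b hb hab
    have := hR a ha
    have := hR b hb
    simp only at hab
    omega
  set R1 := R.image (fun v => v - 1) with hR1
  have hcard : R1.card = R.card := Finset.card_image_of_injOn hinj
  have hnum : ∏ v ∈ R, f (v - 1) = ∏ x ∈ R1, f x := by
    rw [hR1, Finset.prod_image]
    exact fun a ha b hb h => hinj ha hb h
  rw [Finset.prod_div_distrib, hnum]
  have e1 : ∏ x ∈ R1, f x = (∏ x ∈ R1 \ R, f x) * ∏ x ∈ R1 ∩ R, f x := by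
    rw [← Finset.prod_union]
    · rw [Finset.sdiff_union_inter]
    · exact Finset.disjoint_sdiff_inter _ _
  have e2 : ∏ x ∈ R, f x = (∏ x ∈ R \ R1, f x) * ∏ x ∈ R1 ∩ R, f x := by
    rw [Finset.inter_comm R1 R, ← Finset.prod_union]
    · rw [Finset.sdiff_union_inter]
    · exact Finset.disjoint_sdiff_inter _ _
  have hc : (R1 \ R).card = (R \ R1).card := by
    have a1 := Finset.card_sdiff_add_card_inter R1 R
    have a2 := Finset.card_sdiff_add_card_inter R R1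
    rw [Finset.inter_comm R R1] at a2
    omega
  have hb : (R1 \ R).card ≤ (R.filter (fun v => v - 1 ∉ R)).card := by
    have : R1 \ R = (R.filter (fun v => v - 1 ∉ R)).image (fun v => v - 1) := by
      ext x
      simp only [hR1, Finset.mem_sdiff, Finset.mem_image, Finset.mem_filter]
      constructor
      · rintro ⟨⟨v, hv, rfl⟩, hx⟩
        exact ⟨v, ⟨hv, hx⟩, rfl⟩
      · rintro ⟨v, ⟨hv, hx⟩, rfl⟩
        exact ⟨⟨v, hv, rfl⟩, hx⟩
    rw [this]
    exact Finset.card_image_le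
  have hpos3 : 0 < ∏ x ∈ R1 ∩ R, f x := Finset.prod_pos fun x _ => hf x
  have hpos2 : 0 < ∏ x ∈ R \ R1, f x := Finset.prod_pos fun x _ => hf x
  rw [e1, e2, mul_div_mul_right _ _ hpos3.ne', div_le_iff₀ hpos2]
  have b1 : ∏ x ∈ R1 \ R, f x ≤ U ^ (R1 \ R).card := by
    rw [← Finset.prod_const]
    exact Finset.prod_le_prod (fun x _ => (hf x).le) fun x _ => h1 x
  have b2 : (U⁻¹) ^ (R \ R1).card ≤ ∏ x ∈ R \ R1, f x := by
    rw [← Finset.prod_const]
    exact Finset.prod_le_prod (fun x _ => (inv_pos.2 hUp).le) fun x _ => h2 x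
  have b3 : U ^ (R1 \ R).card = (U ^ 2) ^ (R1 \ R).card * (U⁻¹) ^ (R \ R1).card := by
    rw [← hc, ← mul_pow]
    congr 1
    field_simp
  have b4 : (U ^ 2) ^ (R1 \ R).card ≤ (U ^ 2) ^ (R.filter (fun v => v - 1 ∉ R)).card :=
    pow_le_pow_right₀ (one_le_pow₀ hU) hb
  calc ∏ x ∈ R1 \ R, f x ≤ (U ^ 2) ^ (R1 \ R).card * (U⁻¹) ^ (R \ R1).card := b3 ▸ b1
    _ ≤ (U ^ 2) ^ (R.filter (fun v => v - 1 ∉ R)).card * ∏ x ∈ R \ R1, f x :=
      mul_le_mul b4 b2 (by positivity) (by positivity)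

/-! ## Labels around regular classes -/

variable {S : Type} {σ : Shape}

theorem hinv_hinv (a : S × Bool) : hinv (hinv a) = a := by simp [hinv]


/-- labels around a position of a regular class are a function of the labels at the canonical
corner, and conversely -/
theorem lab_reg {v : ℕ} (hv : σ.Reg v) {p : ℕ} (hp : p < σ.T) (hc : σ.cls p = v) :
    (σ.cls (p - 1) = σ.cls (v - 1) ∧ σ.cls (p + 1) = σ.cls (v + 1) ∧
      ∀ ℓ : ℕ → S × Bool, σ.LabOK ℓ → ℓ (p - 1) = ℓ (v - 1) ∧ ℓ p = ℓ v) ∨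
    (σ.cls (p - 1) = σ.cls (v + 1) ∧ σ.cls (p + 1) = σ.cls (v - 1) ∧
      ∀ ℓ : ℕ → S × Bool, σ.LabOK ℓ → ℓ (p - 1) = hinv (ℓ v) ∧ ℓ p = hinv (ℓ (v - 1))) := by
  obtain ⟨hvT, hvv, _, hall⟩ := hv
  obtain ⟨⟨hcor, _⟩, hpar⟩ := hall p hp hc
  obtain ⟨⟨hcorv, _⟩, _⟩ := hall v hvT hvv
  obtain ⟨p1, p2, p3⟩ := hcor
  obtain ⟨v1, v2, v3⟩ := hcorv
  have ep : p - 1 + 1 = p := Nat.sub_add_cancel p1
  have ev : v - 1 + 1 = v := Nat.sub_add_cancel v1
  rcases hpar with ⟨h1, h2⟩ | ⟨h1, h2⟩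
  · refine Or.inl ⟨h1, h2, fun ℓ hℓ => ⟨?_, ?_⟩⟩
    · exact hℓ.same _ p2 _ v2 h1 (by rw [ep, ev, hc, hvv])
    · exact hℓ.same _ p3 _ v3 (by rw [hc, hvv]) h2
  · refine Or.inr ⟨h1, h2, fun ℓ hℓ => ⟨?_, ?_⟩⟩
    · exact hℓ.opp _ p2 _ v3 h1 (by rw [ep, hc, hvv])
    · exact hℓ.opp _ p3 _ v2 (by rw [ev, hc, hvv]) h2

/-- two labelings agree around a position of a regular class iff they agree around its canonical
corner -/
theorem agree_reg {v : ℕ} (hv : σ.Reg v) {ℓ ℓ' : ℕ → S × Bool} (hℓ : σ.LabOK ℓ)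
    (hℓ' : σ.LabOK ℓ') {p : ℕ} (hp : p < σ.T) (hc : σ.cls p = v) :
    (ℓ (p - 1) = ℓ' (p - 1) ∧ ℓ p = ℓ' p) ↔ (ℓ (v - 1) = ℓ' (v - 1) ∧ ℓ v = ℓ' v) := by
  have hinj : Function.Injective (hinv : S × Bool → S × Bool) := fun a b h => by
    rw [← hinv_hinv a, h, hinv_hinv]
  rcases lab_reg (S := S) hv hp hc with ⟨_, _, h⟩ | ⟨_, _, h⟩
  · rw [(h ℓ hℓ).1, (h ℓ hℓ).2, (h ℓ' hℓ').1, (h ℓ' hℓ').2]
  · rw [(h ℓ hℓ).1, (h ℓ hℓ).2, (h ℓ' hℓ').1, (h ℓ' hℓ').2]
    constructor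
    · rintro ⟨x, y⟩; exact ⟨hinj y, hinj x⟩
    · rintro ⟨x, y⟩; rw [x, y]; exact ⟨rfl, rfl⟩

/-- representatives of level `t` -/
noncomputable def Rt (σ : Shape) (t : ℕ) : Finset ℕ :=
  (Finset.range σ.T).filter (fun v => σ.InR v ∧ t ≤ σ.Mv v)

/-- darts starting at an irregular class -/
noncomputable def Irr (σ : Shape) : Finset ℕ := σ.D.filter (fun q => ¬ σ.Reg (σ.cls q))

theorem mem_Rt {t v : ℕ} : v ∈ Rt σ t ↔ σ.InR v ∧ t ≤ σ.Mv v := by
  unfold Rt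
  rw [Finset.mem_filter, Finset.mem_range]
  exact ⟨fun h => h.2, fun h => ⟨h.1.1.1, h⟩⟩

theorem card_Irr {Z I : ℕ} (hσ : σ.Good Z I) : (Irr σ).card ≤ I * Z := by
  have h1 : Irr σ ⊆ ((Finset.range σ.T).filter (fun v => σ.cls v = v ∧ ¬ σ.Reg v)).biUnion
      (fun v => (Finset.range σ.T).filter (fun p => σ.cls p = v)) := by
    intro q hq
    unfold Irr at hq
    rw [Finset.mem_filter] at hq
    have hqT : q < σ.T := by have := hσ.D_lt q hq.1; omega
    rw [Finset.mem_biUnion]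
    refine ⟨σ.cls q, ?_, ?_⟩
    · rw [Finset.mem_filter, Finset.mem_range]
      exact ⟨lt_of_le_of_lt (hσ.cls_le q) hqT, hσ.cls_cls q, hq.2⟩
    · rw [Finset.mem_filter, Finset.mem_range]
      exact ⟨hqT, rfl⟩
  refine (Finset.card_le_card h1).trans (Finset.card_biUnion_le.trans ?_)
  refine (Finset.sum_le_card_nsmul _ _ Z fun v _ => hσ.card_cls v).trans ?_
  rw [smul_eq_mul]
  exact Nat.mul_le_mul_right _ hσ.irr

/-- positions around which the labels are recorded -/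
noncomputable def Jt (σ : Shape) (t : ℕ) : Finset ℕ :=
  Rt σ t ∪ (Rt σ t).image (fun v => v - 1) ∪ Irr σ

/-- DETERMINATION around regular classes -/
theorem agree_of_Jt (hσ : σ.Basic) {t : ℕ} {ℓ ℓ' : ℕ → S × Bool} (hℓ : σ.LabOK ℓ)
    (hℓ' : σ.LabOK ℓ') (h : ∀ p ∈ Jt σ t, ℓ p = ℓ' p) :
    ∀ v, σ.Reg v → t ≤ σ.Mv v → ℓ (v - 1) = ℓ' (v - 1) ∧ ℓ v = ℓ' v := by
  -- multiplicities are bounded
  have hMv : ∀ v, σ.Mv v ≤ σ.T := by
    intro v
    unfold Shape.Mv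
    exact (Finset.card_filter_le _ _).trans (by rw [Finset.card_range])
  -- induction on the rank `(T - Mv v) * T + v`
  have key : ∀ n v, (σ.T - σ.Mv v) * σ.T + v ≤ n → σ.Reg v → t ≤ σ.Mv v →
      ℓ (v - 1) = ℓ' (v - 1) ∧ ℓ v = ℓ' v := by
    intro n
    induction n using Nat.strong_induction_on with
    | _ n ih =>
      intro v hn hv ht
      by_cases hR : σ.InR v
      · have h1 : v ∈ Rt σ t := mem_Rt.2 ⟨hR, ht⟩
        refine ⟨h _ ?_, h _ ?_⟩
        · unfold Jt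
          exact Finset.mem_union_left _ (Finset.mem_union_right _ (Finset.mem_image_of_mem _ h1))
        · unfold Jt
          exact Finset.mem_union_left _ (Finset.mem_union_left _ h1)
      · unfold Shape.InR at hR
        push Not at hR
        obtain ⟨p, p', hp, hc, hm, hw, hnp⟩ := hR hv
        have hm' := hσ.mt_symm _ _ hm
        have hcor' := hσ.mt_cor _ _ hm'
        have hcor := hσ.mt_cor _ _ hm
        have hp' : p' < σ.T := by have := hσ.D_lt _ hcor'.2.2; omega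
        have hne : v ≠ σ.cls p' := by rw [← hc]; exact hσ.mt_ne _ _ hm
        set w := σ.cls p' with hwdef
        have hprec : σ.Mv v ≤ σ.Mv w ∧ (σ.Mv v = σ.Mv w → w < v) := by
          unfold Shape.Prec at hnp
          push Not at hnp
          obtain ⟨a, b⟩ := hnp
          refine ⟨a, fun hab => ?_⟩
          have := b hab.symm
          omega
        have hrank : (σ.T - σ.Mv w) * σ.T + w < (σ.T - σ.Mv v) * σ.T + v := by
          have hw1 := hMv w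
          have hv1 := hMv v
          have hwT : w < σ.T := hw.1
          rcases hprec.1.lt_or_eq with hlt | heq
          · have : (σ.T - σ.Mv w) + 1 ≤ σ.T - σ.Mv v := by omega
            calc (σ.T - σ.Mv w) * σ.T + w < ((σ.T - σ.Mv w) + 1) * σ.T := by
                  rw [add_mul, one_mul]; omega
              _ ≤ (σ.T - σ.Mv v) * σ.T := Nat.mul_le_mul_right _ this
              _ ≤ _ := Nat.le_add_right _ _
          · rw [← heq]
            have := hprec.2 heq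
            omega
        have hind := ih _ (lt_of_lt_of_le hrank hn) w le_rfl hw (ht.trans hprec.1)
        have h1 := (agree_reg hw hℓ hℓ' hp' hwdef.symm).2 hind
        have h2 := hℓ.mate _ _ hm
        have h3 := hℓ'.mate _ _ hm
        have h4 := hℓ.mate _ _ hm'
        have h5 := hℓ'.mate _ _ hm'
        refine (agree_reg hv hℓ hℓ' hp hc).1 ⟨?_, ?_⟩
        · rw [← hinv_hinv (ℓ (p - 1)), ← hinv_hinv (ℓ' (p - 1)), ← h2, ← h3, h1.2]
        · rw [h4, h5, h1.1]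
  intro v hv ht
  exact key _ v le_rfl hv ht

/-- DETERMINATION: labels at level `t` are determined by the labels on `Jt` -/
theorem agree_level (hσ : σ.Basic) {t : ℕ} {ℓ ℓ' : ℕ → S × Bool} (hℓ : σ.LabOK ℓ)
    (hℓ' : σ.LabOK ℓ') (h : ∀ p ∈ Jt σ t, ℓ p = ℓ' p) :
    ∀ p ∈ σ.D, t ≤ σ.mul p → ℓ p = ℓ' p := by
  intro p hp ht
  by_cases hr : σ.Reg (σ.cls p)
  · rw [mul_eq hσ hr hp (Or.inl rfl)] at ht
    have hpT : p < σ.T := by have := hσ.D_lt p hp; omega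
    exact ((agree_reg hr hℓ hℓ' hpT rfl).2 (agree_of_Jt hσ hℓ hℓ' h _ hr ht)).2
  · apply h
    unfold Jt Irr
    exact Finset.mem_union_right _ (Finset.mem_filter.2 ⟨hp, hr⟩)

/-! ## The number of runs -/

/-- the number of runs of representatives is bounded -/
theorem card_runs {Z I : ℕ} (hσ : σ.Good Z I) (t : ℕ) :
    ((Rt σ t).filter (fun v => v - 1 ∉ Rt σ t)).card ≤ 2 * (I * Z) := by
  -- the three sources
  have hsub : (Rt σ t).filter (fun v => v - 1 ∉ Rt σ t) ⊆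
      (Irr σ).image (fun q => q + 1) ∪
        (Irr σ).image (fun q => match σ.mt q with | some d => σ.cls d | none => 0) := by
    intro v hv
    rw [Finset.mem_filter, mem_Rt] at hv
    obtain ⟨⟨hR, ht⟩, hnR⟩ := hv
    have hb := hσ.toBasic
    obtain ⟨hvT, hvv, _, hall⟩ := hR.1
    obtain ⟨v1, v2, v3⟩ := (hall v hvT hvv).1.1
    have ev : v - 1 + 1 = v := Nat.sub_add_cancel v1
    by_cases hu : σ.Reg (σ.cls (v - 1))
    swap
    · refine Finset.mem_union_left _ (Finset.mem_image.2 ⟨v - 1, ?_, ev⟩)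
      unfold Irr
      exact Finset.mem_filter.2 ⟨v2, hu⟩
    refine Finset.mem_union_right _ ?_
    -- `v - 1` is canonical
    have hadj := Reg.cls_adj hb hR.1 hu v2 (Or.inr ⟨rfl, by rw [ev, hvv]⟩)
    have hle := hb.cls_le (v - 1)
    have hcu : σ.cls (v - 1) = v - 1 := by omega
    rw [hcu] at hu
    have hMvu : σ.Mv (v - 1) = σ.Mv v := Mv_adj hb hu hR.1 v2 hcu (by rw [ev, hvv])
    have hnInR : ¬ σ.InR (v - 1) := fun h => hnR (mem_Rt.2 ⟨h, by omega⟩)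
    unfold Shape.InR at hnInR
    push Not at hnInR
    obtain ⟨p, p', hp, hc, hm, hw, hnp⟩ := hnInR hu
    have hm' := hb.mt_symm _ _ hm
    have hcor' := hb.mt_cor _ _ hm'
    have hcor := hb.mt_cor _ _ hm
    have hp' : p' < σ.T := by have := hb.D_lt _ hcor'.2.2; omega
    have hne : v - 1 ≠ σ.cls p' := by rw [← hc]; exact hb.mt_ne _ _ hm
    obtain ⟨⟨_, _, hmm⟩, _⟩ := hu.2.2.2 p hp hc
    have hmm := hmm (by rw [hm]; simp)
    -- the neighbouring corner in the class `v`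
    obtain ⟨d, d', hd, hcd, hmd, hdd⟩ : ∃ d d', d < σ.T ∧ σ.cls d = v ∧ σ.mt d = some d' ∧
        ((d' + 1 = p' ∧ d' ∈ σ.D) ∨ (d' = p' + 1 ∧ p' ∈ σ.D)) := by
      rcases lab_reg (S := ℕ) hu hp hc with ⟨h1, h2, _⟩ | ⟨h1, h2, _⟩
      · -- parallel: `p + 1` is in the class `v`
        rw [ev, hvv] at h2
        obtain ⟨d', hd'⟩ := Option.ne_none_iff_exists'.1 hmm.2
        have hcd := hb.mt_cor _ _ hd'
        have hcoh := hb.mt_coh _ _ _ hm hd'
        have hcd' := hb.mt_cor _ _ (hb.mt_symm _ _ hd')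
        refine ⟨p + 1, d', ?_, h2, hd', Or.inl ⟨hcoh, hcd'.2.2⟩⟩
        have := hb.D_lt _ hcd.2.2
        omega
      · rw [ev, hvv] at h1
        obtain ⟨d', hd'⟩ := Option.ne_none_iff_exists'.1 hmm.1
        have hcd := hb.mt_cor _ _ hd'
        have hcoh := hb.mt_coh _ _ _ hd' (by rw [Nat.sub_add_cancel hcor.1]; exact hm)
        refine ⟨p - 1, d', ?_, h1, hd', Or.inr ⟨hcoh.symm, hcor'.2.2⟩⟩
        omega
    have hmd' := hb.mt_symm _ _ hmd
    have hcord' := hb.mt_cor _ _ hmd'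
    have hd'T : d' < σ.T := by have := hb.D_lt _ hcord'.2.2; omega
    by_cases hw' : σ.Reg (σ.cls d')
    swap
    · refine Finset.mem_image.2 ⟨d', ?_, ?_⟩
      · unfold Irr
        exact Finset.mem_filter.2 ⟨hcord'.2.2, hw'⟩
      · rw [hmd']; exact hcd
    exfalso
    have hprec := hR.2 d d' hd hcd hmd hw'
    -- the dart between the classes of `p'` and `d'`
    obtain ⟨x, hx, hxx⟩ : ∃ x ∈ σ.D, (σ.cls x = σ.cls p' ∧ σ.cls (x + 1) = σ.cls d') ∨
        (σ.cls x = σ.cls d' ∧ σ.cls (x + 1) = σ.cls p') := by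
      rcases hdd with ⟨h1, h2⟩ | ⟨h1, h2⟩
      · exact ⟨d', h2, Or.inr ⟨rfl, by rw [h1]⟩⟩
      · exact ⟨p', h2, Or.inl ⟨rfl, by rw [h1]⟩⟩
    have hMw : σ.Mv (σ.cls p') = σ.Mv (σ.cls d') := by
      rcases hxx with ⟨h1, h2⟩ | ⟨h1, h2⟩
      · exact Mv_adj hb hw hw' hx h1 h2
      · exact (Mv_adj hb hw' hw hx h1 h2).symm
    have hadj' := Reg.cls_adj hb hw hw' hx hxx
    unfold Shape.Prec at hprec hnp
    push Not at hnp
    obtain ⟨a, b⟩ := hnp
    rcases hprec with h1 | ⟨h1, h2⟩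
    · omega
    · have := b (by omega)
      omega
  refine (Finset.card_le_card hsub).trans ((Finset.card_union_le _ _).trans ?_)
  have h1 : ((Irr σ).image (fun q => q + 1)).card ≤ (Irr σ).card := Finset.card_image_le
  have h2 : ((Irr σ).image (fun q => match σ.mt q with | some d => σ.cls d | none => 0)).card ≤
    (Irr σ).card := Finset.card_image_le
  have h3 := card_Irr hσ
  omega

/-! ## The kernel -/

variable [Fintype S] (κ : KD S)

/-- normalised kernel -/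
noncomputable def Kn (a b : S × Bool) : ℝ :=
  if b = hinv a then 0 else κ.q (hinv a) b * κ.u b / κ.u a

theorem q_pos (h h' : S × Bool) : 0 < κ.q h h' := lt_of_lt_of_le κ.q0_pos (κ.q0_le h h')

theorem Kn_nonneg (a b : S × Bool) : 0 ≤ Kn κ a b := by
  have := q_pos κ (hinv a) b
  have := κ.u_pos a
  have := κ.u_pos b
  unfold Kn
  split_ifs
  · exact le_rfl
  · positivity

theorem Kn_sum (a : S × Bool) : ∑ b, Kn κ a b ≤ 1 := by
  have hu := κ.u_pos a
  have h1 := κ.sub a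
  have h2 : ∑ b, Kn κ a b = (∑ b ∈ Finset.univ.filter (fun b => b ≠ hinv a),
      κ.q (hinv a) b * κ.u b) / κ.u a := by
    rw [Finset.sum_filter, Finset.sum_div]
    refine Finset.sum_congr rfl fun b _ => ?_
    unfold Kn
    by_cases hb : b = hinv a
    · simp [hb]
    · rw [if_neg hb, if_pos hb]
  rw [h2, div_le_one hu]
  exact h1

theorem exists_U : ∃ U : ℝ, 1 ≤ U ∧ (∀ h, κ.u h ≤ U) ∧ ∀ h, U⁻¹ ≤ κ.u h := by
  have hpos : ∀ h, 0 ≤ κ.u h + (κ.u h)⁻¹ := fun h => by have := κ.u_pos h; positivity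
  have hle : ∀ h, κ.u h + (κ.u h)⁻¹ ≤ ∑ h, (κ.u h + (κ.u h)⁻¹) := fun h =>
    Finset.single_le_sum (f := fun h => κ.u h + (κ.u h)⁻¹) (fun h _ => hpos h) (Finset.mem_univ h)
  have hsum : 0 ≤ ∑ h, (κ.u h + (κ.u h)⁻¹) := Finset.sum_nonneg fun h _ => hpos h
  refine ⟨1 + ∑ h, (κ.u h + (κ.u h)⁻¹), by linarith, fun h => ?_, fun h => ?_⟩
  · have := hle h
    have : 0 < (κ.u h)⁻¹ := inv_pos.2 (κ.u_pos h)
    linarith
  · have h1 := hle h
    have h2 := κ.u_pos h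
    rw [inv_le_comm₀ (by linarith) h2]
    linarith

omit [Fintype S] in
theorem reg_lab {v : ℕ} (hv : σ.Reg v) {ℓ : ℕ → S × Bool} (hℓ : σ.LabOK ℓ) :
    1 ≤ v ∧ ℓ v ≠ hinv (ℓ (v - 1)) := by
  obtain ⟨hvT, hvv, _, hall⟩ := hv
  obtain ⟨v1, v2, v3⟩ := (hall v hvT hvv).1.1
  refine ⟨v1, ?_⟩
  have := hℓ.red (v - 1) v2 (by rw [Nat.sub_add_cancel v1]; exact v3)
  rwa [Nat.sub_add_cancel v1] at this

theorem Wt_le {Z I : ℕ} (hσ : σ.Good Z I) (t : ℕ) (U : ℝ) (hU : 1 ≤ U) (hU1 : ∀ h, κ.u h ≤ U)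
    (hU2 : ∀ h, U⁻¹ ≤ κ.u h) {ℓ : ℕ → S × Bool} (hℓ : σ.LabOK ℓ) :
    Wt κ σ t ℓ ≤ (U ^ 2) ^ (2 * (I * Z)) * ∏ v ∈ Rt σ t, Kn κ (ℓ (v - 1)) (ℓ v) := by
  have h1 : Wt κ σ t ℓ = (∏ v ∈ Rt σ t, κ.u (ℓ (v - 1)) / κ.u (ℓ v)) *
      ∏ v ∈ Rt σ t, Kn κ (ℓ (v - 1)) (ℓ v) := by
    rw [← Finset.prod_mul_distrib]
    unfold Wt
    refine Finset.prod_congr rfl fun v hv => ?_
    have hR : σ.Reg v := (Finset.mem_filter.1 hv).2.1.1
    obtain ⟨_, hred⟩ := reg_lab hR hℓ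
    have hu1 := κ.u_pos (ℓ (v - 1))
    have hu2 := κ.u_pos (ℓ v)
    unfold Kn
    rw [if_neg hred]
    field_simp
  have hpos : 0 ≤ ∏ v ∈ Rt σ t, Kn κ (ℓ (v - 1)) (ℓ v) :=
    Finset.prod_nonneg fun _ _ => Kn_nonneg κ _ _
  rw [h1]
  refine mul_le_mul_of_nonneg_right ?_ hpos
  have h2 := prod_tele (Rt σ t) (fun v hv => (reg_lab (mem_Rt.1 hv).1.1 hℓ).1)
    (fun v => κ.u (ℓ v)) U hU (fun v => hU1 _) (fun v => hU2 _)
  refine h2.trans ?_
  exact pow_le_pow_right₀ (one_le_pow₀ hU) (card_runs hσ t)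

theorem sum_Kn {Z I : ℕ} (hσ : σ.Good Z I) (t : ℕ) (Λ : Finset (ℕ → S × Bool))
    (hΛ : ∀ ℓ ∈ Λ, σ.LabOK ℓ)
    (hinj : ∀ ℓ ∈ Λ, ∀ ℓ' ∈ Λ, (∀ p ∈ σ.D, t ≤ σ.mul p → ℓ p = ℓ' p) → ℓ = ℓ') :
    ∑ ℓ ∈ Λ, ∏ v ∈ Rt σ t, Kn κ (ℓ (v - 1)) (ℓ v) ≤
      ((Fintype.card (S × Bool) : ℝ) + 1) ^ (3 * (I * Z)) := by
  set J := Jt σ t with hJ
  set res : (ℕ → S × Bool) → (J → S × Bool) := fun ℓ e => ℓ e.1 with hres
  have hRJ : ∀ v ∈ Rt σ t, v ∈ J ∧ v - 1 ∈ J := by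
    intro v hv
    rw [hJ]
    unfold Jt
    exact ⟨Finset.mem_union_left _ (Finset.mem_union_left _ hv),
      Finset.mem_union_left _ (Finset.mem_union_right _ (Finset.mem_image_of_mem _ hv))⟩
  have hres_inj : Set.InjOn res (Λ : Set (ℕ → S × Bool)) := by
    intro ℓ hℓ ℓ' hℓ' h
    refine hinj ℓ hℓ ℓ' hℓ' ?_
    refine agree_level hσ.toBasic (hΛ ℓ hℓ) (hΛ ℓ' hℓ') fun p hp => ?_
    exact congrFun h ⟨p, hp⟩
  set Root : Finset J := Finset.univ.filter (fun e => e.1 ∉ Rt σ t) with hRoot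
  set Beta : Finset J := Finset.univ.filter (fun e => e.1 ∈ Rt σ t) with hBeta
  set pred : J → J := fun e => if h : e.1 - 1 ∈ J then ⟨e.1 - 1, h⟩ else e with hpred
  have hpv : ∀ e ∈ Beta, (pred e).1 = e.1 - 1 := by
    intro e he
    rw [hBeta, Finset.mem_filter] at he
    simp only [hpred, dif_pos (hRJ _ he.2).2]
  have hkraft := Kraft2.kraft (E := J) (fun e => e.1) Subtype.val_injective (Λ.image res)
    Root Beta pred
    (by
      intro e he
      rw [hpv e he]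
      rw [hBeta, Finset.mem_filter] at he
      obtain ⟨hvT, hvv, _, hall⟩ := (mem_Rt.1 he.2).1.1
      have := (hall _ hvT hvv).1.1.1
      omega)
    (by
      intro e he he'
      exfalso
      rw [hRoot, Finset.mem_filter] at he
      rw [hBeta, Finset.mem_filter] at he'
      simp only [Finset.mem_univ, true_and, not_not] at he he'
      exact he' he)
    (Kn κ) (Kn_nonneg κ) (Kn_sum κ)
  rw [Finset.sum_image (fun a ha b hb h => hres_inj ha hb h)] at hkraft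
  have hprod : ∀ ℓ : ℕ → S × Bool, ∏ e ∈ Beta, Kn κ (res ℓ (pred e)) (res ℓ e) =
      ∏ v ∈ Rt σ t, Kn κ (ℓ (v - 1)) (ℓ v) := by
    intro ℓ
    refine Finset.prod_bij (fun e _ => e.1) ?_ ?_ ?_ ?_
    · intro e he
      rw [hBeta, Finset.mem_filter] at he
      exact he.2
    · intro a _ b _ h
      exact Subtype.ext h
    · intro v hv
      refine ⟨⟨v, (hRJ v hv).1⟩, ?_, rfl⟩
      rw [hBeta, Finset.mem_filter]
      exact ⟨Finset.mem_univ _, hv⟩
    · intro e he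
      simp only [hres, hpv e he]
  simp only [hprod] at hkraft
  refine hkraft.trans ?_
  have hcard : Root.card ≤ 3 * (I * Z) := by
    have h1 : Root.card ≤ (((Rt σ t).filter (fun v => v - 1 ∉ Rt σ t)).image (fun v => v - 1) ∪
        Irr σ).card := by
      refine Finset.card_le_card_of_injOn (fun e => e.1) ?_ (Subtype.val_injective.injOn)
      intro e he
      have he' : e.1 ∉ Rt σ t := by
        have := Finset.mem_coe.1 he
        rw [hRoot, Finset.mem_filter] at this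
        exact this.2
      have h2 : (e : ℕ) ∈ Jt σ t := e.2
      unfold Jt at h2
      rw [Finset.mem_union, Finset.mem_union] at h2
      rw [Finset.mem_coe, Finset.mem_union]
      rcases h2 with (h2 | h2) | h2
      · exact absurd h2 he'
      · left
        obtain ⟨v, hv, hve⟩ := Finset.mem_image.1 h2
        refine Finset.mem_image.2 ⟨v, Finset.mem_filter.2 ⟨hv, ?_⟩, hve⟩
        rw [hve]; exact he'
      · right; exact h2
    refine h1.trans ((Finset.card_union_le _ _).trans ?_)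
    have h2 := card_runs hσ t
    have h3 := card_Irr hσ
    have h4 : (((Rt σ t).filter (fun v => v - 1 ∉ Rt σ t)).image (fun v => v - 1)).card ≤
      ((Rt σ t).filter (fun v => v - 1 ∉ Rt σ t)).card := Finset.card_image_le
    omega
  have hc0 : (0 : ℝ) ≤ Fintype.card (S × Bool) := Nat.cast_nonneg _
  calc (Fintype.card (S × Bool) : ℝ) ^ Root.card
      ≤ ((Fintype.card (S × Bool) : ℝ) + 1) ^ Root.card :=
        pow_le_pow_left₀ hc0 (by linarith) _
    _ ≤ _ := pow_le_pow_right₀ (by linarith) hcard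

end LSum

/-- LC: the sum of the Kraft weights of one level over all labelings is bounded -/
theorem sum_Wt {S : Type} [Fintype S] (κ : KD S) (Z I : ℕ) : ∃ Cs : ℝ, 0 < Cs ∧
    ∀ σ : Shape, σ.Good Z I →
    ∀ t, 1 ≤ t → ∀ Λ : Finset (ℕ → S × Bool), (∀ ℓ ∈ Λ, σ.LabOK ℓ) →
      (∀ ℓ ∈ Λ, ∀ ℓ' ∈ Λ, (∀ p ∈ σ.D, t ≤ σ.mul p → ℓ p = ℓ' p) → ℓ = ℓ') →
      ∑ ℓ ∈ Λ, Wt κ σ t ℓ ≤ Cs := by
  obtain ⟨U, hU, hU1, hU2⟩ := LSum.exists_U κ
  refine ⟨(U ^ 2) ^ (2 * (I * Z)) * ((Fintype.card (S × Bool) : ℝ) + 1) ^ (3 * (I * Z)), ?_, ?_⟩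
  · positivity
  intro σ hσ t _ Λ hΛ hinj
  calc ∑ ℓ ∈ Λ, Wt κ σ t ℓ ≤ ∑ ℓ ∈ Λ, (U ^ 2) ^ (2 * (I * Z)) *
        ∏ v ∈ LSum.Rt σ t, LSum.Kn κ (ℓ (v - 1)) (ℓ v) :=
        Finset.sum_le_sum fun ℓ hℓ => LSum.Wt_le κ hσ t U hU hU1 hU2 (hΛ ℓ hℓ)
    _ = (U ^ 2) ^ (2 * (I * Z)) * ∑ ℓ ∈ Λ, ∏ v ∈ LSum.Rt σ t, LSum.Kn κ (ℓ (v - 1)) (ℓ v) := by
        rw [Finset.mul_sum]
    _ ≤ _ := mul_le_mul_of_nonneg_left (LSum.sum_Kn κ hσ t Λ hΛ hinj) (by positivity)

end Crest.Agent.R177.Loc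
end

-- ▼ part R177/LocHe
section

/-!
# Row 177, module LOC: labels of half-edges `he` (helper143)
-/

set_option autoImplicit false

open scoped Classical

namespace Crest.Agent.R177.Loc

open Crest.Agent.R177
open Shape

variable {S : Type} {σ : Shape} {ℓ : ℕ → S × Bool}

@[simp] theorem hinv_hinv (a : S × Bool) : hinv (hinv a) = a := by
  unfold hinv; simp


@[simp] theorem hinv_fst (a : S × Bool) : (hinv a).1 = a.1 := rfl


/-- label of the half-edge at the start of a dart -/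
theorem he_eq (hσ : σ.Basic) (hℓ : σ.LabOK ℓ) {q : ℕ} (hq : q ∈ σ.D) :
    σ.he ℓ (σ.cls q) (σ.cls (q + 1)) = ℓ q := by
  unfold Shape.he
  have h : ∃ r ∈ σ.D, σ.cls r = σ.cls q ∧ σ.cls (r + 1) = σ.cls (q + 1) := ⟨q, hq, rfl, rfl⟩
  rw [dif_pos h]
  exact hℓ.same _ h.choose_spec.1 _ hq h.choose_spec.2.1 h.choose_spec.2.2

/-- label of the half-edge at the end of a dart -/
theorem he_eq' (hσ : σ.Basic) (hℓ : σ.LabOK ℓ) {q : ℕ} (hq : q ∈ σ.D) :
    σ.he ℓ (σ.cls (q + 1)) (σ.cls q) = hinv (ℓ q) := by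
  unfold Shape.he
  by_cases h : ∃ r ∈ σ.D, σ.cls r = σ.cls (q + 1) ∧ σ.cls (r + 1) = σ.cls q
  · rw [dif_pos h]
    exact hℓ.opp _ h.choose_spec.1 _ hq h.choose_spec.2.1 h.choose_spec.2.2
  · rw [dif_neg h]
    have h2 : ∃ r ∈ σ.D, σ.cls r = σ.cls q ∧ σ.cls (r + 1) = σ.cls (q + 1) := ⟨q, hq, rfl, rfl⟩
    rw [dif_pos h2]
    rw [hℓ.same _ h2.choose_spec.1 _ hq h2.choose_spec.2.1 h2.choose_spec.2.2]

theorem exists_of_am {v w : ℕ} (h : 1 ≤ σ.am v w) :
    ∃ q ∈ σ.D, (σ.cls q = v ∧ σ.cls (q + 1) = w) ∨ (σ.cls q = w ∧ σ.cls (q + 1) = v) := by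
  unfold Shape.am at h
  obtain ⟨q, hq⟩ := Finset.card_pos.mp h
  rw [Finset.mem_filter] at hq
  exact ⟨q, hq.1, hq.2⟩

theorem he_symm (hσ : σ.Basic) (hℓ : σ.LabOK ℓ) {v w : ℕ} (h : 1 ≤ σ.am v w) :
    σ.he ℓ w v = hinv (σ.he ℓ v w) := by
  obtain ⟨q, hq, ⟨h1, h2⟩ | ⟨h1, h2⟩⟩ := exists_of_am h
  · rw [← h1, ← h2, he_eq' hσ hℓ hq, he_eq hσ hℓ hq]
  · rw [← h1, ← h2, he_eq' hσ hℓ hq, he_eq hσ hℓ hq, hinv_hinv]

theorem he_fst_comm (hσ : σ.Basic) (hℓ : σ.LabOK ℓ) {v w : ℕ} (h : 1 ≤ σ.am v w) :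
    (σ.he ℓ w v).1 = (σ.he ℓ v w).1 := by
  rw [he_symm hσ hℓ h, hinv_fst]

theorem am_self (hσ : σ.Basic) (v : ℕ) : σ.am v v = 0 := by
  by_contra h
  obtain ⟨q, hq, h1⟩ := exists_of_am (σ := σ) (v := v) (w := v) (by omega)
  have := hσ.cls_ne q hq
  rcases h1 with ⟨h1, h2⟩ | ⟨h1, h2⟩ <;> exact this (h1.trans h2.symm)

theorem am_ne (hσ : σ.Basic) {v w : ℕ} (h : 1 ≤ σ.am v w) : v ≠ w := by
  rintro rfl
  rw [am_self hσ] at h
  omega

/-- the ends of an edge are canonical positions -/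
theorem cls_of_am (hσ : σ.Basic) {v w : ℕ} (h : 1 ≤ σ.am v w) : σ.cls v = v ∧ v < σ.T := by
  obtain ⟨q, hq, ⟨h1, h2⟩ | ⟨h1, h2⟩⟩ := exists_of_am h
  · rw [← h1]
    exact ⟨hσ.cls_cls q, lt_of_le_of_lt (hσ.cls_le q) (hσ.lt_of_mem hq)⟩
  · rw [← h2]
    exact ⟨hσ.cls_cls _, lt_of_le_of_lt (hσ.cls_le _) (hσ.succ_lt_of_mem hq)⟩

/-- the number of dart ends at a class -/
theorem sum_am (hσ : σ.Basic) (v : ℕ) : (∑ w ∈ Finset.range σ.T, σ.am v w) =
    (σ.D.filter (fun q => σ.cls q = v)).card + (σ.D.filter (fun q => σ.cls (q + 1) = v)).card := by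
  have h1 : ∀ w, σ.am v w = (σ.D.filter (fun q => σ.cls q = v ∧ σ.cls (q + 1) = w)).card +
      (σ.D.filter (fun q => σ.cls q = w ∧ σ.cls (q + 1) = v)).card := by
    intro w
    unfold Shape.am
    rw [← Finset.card_union_of_disjoint, ← Finset.filter_or]
    rw [Finset.disjoint_filter]
    rintro q hq ⟨h1, h2⟩ ⟨h3, h4⟩
    exact hσ.cls_ne q hq (h1.trans h4.symm)
  simp_rw [h1]
  rw [Finset.sum_add_distrib]
  congr 1
  · have := Finset.card_eq_sum_card_fiberwise (s := σ.D.filter (fun q => σ.cls q = v))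
      (t := Finset.range σ.T) (f := fun q => σ.cls (q + 1)) (by
        intro q hq
        simp only [Finset.coe_filter, Set.mem_ofPred_eq] at hq
        simp only [Finset.coe_range, Set.mem_Iio]
        exact lt_of_le_of_lt (hσ.cls_le _) (hσ.succ_lt_of_mem hq.1))
    rw [this]
    refine Finset.sum_congr rfl fun w _ => ?_
    rw [Finset.filter_filter]
  · have := Finset.card_eq_sum_card_fiberwise (s := σ.D.filter (fun q => σ.cls (q + 1) = v))
      (t := Finset.range σ.T) (f := fun q => σ.cls q) (by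
        intro q hq
        simp only [Finset.coe_filter, Set.mem_ofPred_eq] at hq
        simp only [Finset.coe_range, Set.mem_Iio]
        exact lt_of_le_of_lt (hσ.cls_le _) (hσ.lt_of_mem hq.1))
    rw [this]
    refine Finset.sum_congr rfl fun w _ => ?_
    rw [Finset.filter_filter]
    congr 1
    ext q
    simp only [Finset.mem_filter]
    tauto

theorem sum_am_le (hσ : σ.Basic) (v : ℕ) : (∑ w ∈ Finset.range σ.T, σ.am v w) ≤ 2 * σ.Mv v := by
  rw [sum_am hσ]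
  have h1 : (σ.D.filter (fun q => σ.cls q = v)).card ≤ σ.Mv v := by
    unfold Shape.Mv
    apply Finset.card_le_card
    intro q hq
    rw [Finset.mem_filter] at hq ⊢
    exact ⟨Finset.mem_range.mpr (hσ.lt_of_mem hq.1), hq.2⟩
  have h2 : (σ.D.filter (fun q => σ.cls (q + 1) = v)).card ≤ σ.Mv v := by
    unfold Shape.Mv
    refine Finset.card_le_card_of_injOn (fun q => q + 1) ?_ ?_
    · intro q hq
      simp only [Finset.coe_filter, Set.mem_ofPred_eq, Finset.mem_range] at hq ⊢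
      exact ⟨hσ.succ_lt_of_mem hq.1, hq.2⟩
    · intro q _ q' _ h
      simpa using h
  omega

end Crest.Agent.R177.Loc
end

-- ▼ part R177/LocCoreA
section

/-!
# Row 177, module LOC: task LD, products over levels (helper143)
-/

set_option autoImplicit false

open scoped Classical

namespace Crest.Agent.R177.Loc

open Crest.Agent.R177
open Shape Finset

namespace Core

variable {S : Type} {σ : Shape} {ℓ : ℕ → S × Bool}

/-- neighbours at level `t` along edges which are not inside the marked part -/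
noncomputable def NB (σ : Shape) (t v : ℕ) : Finset ℕ :=
  (range σ.T).filter (fun w => t ≤ σ.am v w ∧ ¬ (v ∈ σ.mrk ∧ w ∈ σ.mrk))

theorem NB_eq {t v : ℕ} (hv : v ∉ σ.mrk) : NB σ t v = σ.Nb t v := by
  unfold NB Shape.Nb
  ext w
  simp [hv]

theorem prod_Et (hσ : σ.Basic) {t : ℕ} (ht : 1 ≤ t) (f : ℕ → ℕ → ℝ)
    (hf : ∀ v w, t ≤ σ.am v w → f v w = f w v) :
    (∏ e ∈ σ.Et t, f e.1 e.2) ^ 2 = ∏ v ∈ range σ.T, ∏ w ∈ NB σ t v, f v w := by
  have h1 : ∏ v ∈ range σ.T, ∏ w ∈ NB σ t v, f v w =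
      ∏ x ∈ (range σ.T ×ˢ range σ.T).filter
        (fun x => t ≤ σ.am x.1 x.2 ∧ ¬ (x.1 ∈ σ.mrk ∧ x.2 ∈ σ.mrk)), f x.1 x.2 := by
    rw [prod_filter, prod_product]
    refine prod_congr rfl fun v _ => ?_
    unfold NB
    rw [prod_filter]
  rw [h1, pow_two]
  conv_rhs => rw [← prod_filter_mul_prod_filter_not _ (fun x : ℕ × ℕ => x.1 < x.2)]
  refine congrArg₂ (fun a b : ℝ => a * b) ?_ ?_
  · refine prod_congr ?_ fun _ _ => rfl
    unfold Shape.Et
    ext x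
    simp only [mem_filter]
    tauto
  · refine prod_nbij' (fun x => (x.2, x.1)) (fun x => (x.2, x.1)) ?_ ?_ ?_ ?_ ?_
    · rintro ⟨v, w⟩ hx
      unfold Shape.Et at hx
      simp only [mem_filter, mem_product] at hx ⊢
      obtain ⟨⟨h1, h2⟩, h3, h4, h5⟩ := hx
      rw [Shape.am_comm] at h4
      exact ⟨⟨⟨h2, h1⟩, h4, fun h => h5 ⟨h.2, h.1⟩⟩, by omega⟩
    · rintro ⟨v, w⟩ hx
      unfold Shape.Et
      simp only [mem_filter, mem_product] at hx ⊢
      obtain ⟨⟨⟨h1, h2⟩, h3, h4⟩, h5⟩ := hx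
      have h6 := am_ne hσ (ht.trans h3)
      rw [Shape.am_comm] at h3
      refine ⟨⟨h2, h1⟩, by omega, h3, fun h => h4 ⟨h.2, h.1⟩⟩
    · intro x _; rfl
    · intro x _; rfl
    · rintro ⟨v, w⟩ hx
      unfold Shape.Et at hx
      simp only [mem_filter] at hx
      exact hf _ _ hx.2.2.1

variable [Fintype S]

/-- factor of the class `v` at level `t` -/
noncomputable def Fac (M : Model S) (m : ℕ) (σ : Shape) (t : ℕ) (ℓ : ℕ → S × Bool) (v : ℕ) : ℝ :=
  (if v ∉ σ.mrk ∧ (σ.Nb t v).Nonempty then cnt M m σ t ℓ v ^ 2 else 1) *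
    ∏ w ∈ NB σ t v, (M.N (σ.he ℓ v w).1 * M.sz m)⁻¹

theorem At_sq (M : Model S) (m : ℕ) (hσ : σ.Basic) (hℓ : σ.LabOK ℓ) {t : ℕ} (ht : 1 ≤ t) :
    At M m σ t ℓ ^ 2 = ∏ v ∈ range σ.T, Fac M m σ t ℓ v := by
  unfold At Fac
  have h1 := prod_Et hσ ht (fun v w => (M.N (σ.he ℓ v w).1 * M.sz m : ℝ))
    (fun v w h => by simp only [he_fst_comm hσ hℓ (ht.trans h)])
  rw [div_pow, h1, prod_mul_distrib, div_eq_mul_inv]
  congr 1
  · unfold Shape.Vt
    rw [← prod_pow, prod_filter]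
  · rw [← prod_inv_distrib]
    exact prod_congr rfl fun v _ => by rw [← prod_inv_distrib]

theorem prod_At_sq (M : Model S) (m : ℕ) (hσ : σ.Basic) (hℓ : σ.LabOK ℓ) (Z : ℕ) :
    (∏ t ∈ Icc 1 Z, At M m σ t ℓ) ^ 2 =
      ∏ v ∈ range σ.T, ∏ t ∈ Icc 1 Z, Fac M m σ t ℓ v := by
  rw [← prod_pow, prod_comm]
  exact prod_congr rfl fun t ht => At_sq M m hσ hℓ (mem_Icc.mp ht).1

theorem cnt_nonneg (M : Model S) (m t v : ℕ) : 0 ≤ cnt M m σ t ℓ v := by
  unfold cnt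
  positivity

theorem cnt_le_tot {κ : KD S} {M : Model S} (hf : κ.Fits M) (m t v : ℕ) :
    cnt M m σ t ℓ v ≤ κ.tot * M.sz m := by
  have := M.fin m
  refine le_trans ?_ (hf.tot m)
  unfold cnt
  exact_mod_cast Nat.card_le_card_of_injective
    (fun x : {x : M.V m // ∀ w ∈ σ.Nb t v, M.has m x (σ.he ℓ v w)} => x.1)
    Subtype.val_injective

theorem cnt_le_n {κ : KD S} {M : Model S} (hf : κ.Fits M) (m t v : ℕ) {a b : S × Bool} (hab : a ≠ b)
    {w w' : ℕ} (hw : w ∈ σ.Nb t v) (hw' : w' ∈ σ.Nb t v) (ha : σ.he ℓ v w = a)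
    (hb : σ.he ℓ v w' = b) : cnt M m σ t ℓ v ≤ κ.n a b * M.sz m := by
  have := M.fin m
  rw [hf.n]
  refine le_trans ?_ (M.n_le m a b hab)
  unfold cnt
  have h : Function.Injective (fun x : {x : M.V m // ∀ w ∈ σ.Nb t v, M.has m x (σ.he ℓ v w)} =>
      (⟨x.1, ha ▸ x.2 w hw, hb ▸ x.2 w' hw'⟩ : {x : M.V m // M.has m x a ∧ M.has m x b})) := by
    intro x y hxy
    simp only [Subtype.mk.injEq] at hxy
    exact Subtype.ext hxy
  exact_mod_cast Nat.card_le_card_of_injective _ h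

/-- lower bound for the numbers `N s` -/
theorem exists_Nm (κ : KD S) : ∃ c : ℝ, 1 ≤ c ∧ ∀ s, (κ.N s)⁻¹ ≤ c := by
  refine ⟨1 + ∑ s, (κ.N s)⁻¹, ?_, fun s => ?_⟩
  · have : 0 ≤ ∑ s, (κ.N s)⁻¹ := sum_nonneg fun s _ => (inv_pos.mpr (κ.N_pos s)).le
    linarith
  · have := single_le_sum (f := fun s => (κ.N s)⁻¹)
      (fun s _ => (inv_pos.mpr (κ.N_pos s)).le) (mem_univ s)
    linarith

theorem Fac_nonneg {M : Model S} (m t v : ℕ) : 0 ≤ Fac M m σ t ℓ v := by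
  unfold Fac
  refine mul_nonneg ?_ (prod_nonneg fun w _ => ?_)
  · split_ifs
    · exact sq_nonneg _
    · exact zero_le_one
  · exact inv_nonneg.mpr (mul_nonneg (M.N_pos _).le (Nat.cast_nonneg _))

theorem prod_inv_le {κ : KD S} {M : Model S} (hf : κ.Fits M) {c : ℝ}
    (hc : ∀ s, (κ.N s)⁻¹ ≤ c) {m : ℕ} (hm : 1 ≤ M.sz m) (t v : ℕ) :
    ∏ w ∈ NB σ t v, (M.N (σ.he ℓ v w).1 * M.sz m : ℝ)⁻¹ ≤
      c ^ (NB σ t v).card * ((M.sz m : ℝ)⁻¹) ^ (NB σ t v).card := by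
  rw [← mul_pow, ← prod_const]
  refine prod_le_prod (fun w _ => ?_) (fun w _ => ?_)
  · exact inv_nonneg.mpr (mul_nonneg (M.N_pos _).le (Nat.cast_nonneg _))
  · rw [mul_inv, ← hf.N]
    exact mul_le_mul_of_nonneg_right (hc _) (by positivity)

/-- sum of the numbers of neighbours over all levels -/
theorem sum_NB (hσ : σ.Basic) {Z : ℕ} (hZ : ∀ v, σ.Mv v ≤ Z) (v : ℕ) :
    ∑ t ∈ Icc 1 Z, (NB σ t v).card =
      ∑ w ∈ (range σ.T).filter (fun w => ¬ (v ∈ σ.mrk ∧ w ∈ σ.mrk)), σ.am v w := by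
  unfold NB
  simp_rw [card_filter]
  rw [sum_comm, sum_filter]
  refine sum_congr rfl fun w _ => ?_
  by_cases h : v ∈ σ.mrk ∧ w ∈ σ.mrk
  · simp [h]
  · simp only [h, not_false_eq_true, and_true, if_true]
    rw [← card_filter]
    have h1 : (Icc 1 Z).filter (fun t => t ≤ σ.am v w) = Icc 1 (σ.am v w) := by
      ext t
      simp only [mem_filter, mem_Icc]
      have := (hσ.am_le v w).trans (hZ v)
      omega
    rw [h1, Nat.card_Icc]
    omega

/-- bound for a marked class -/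
theorem marked_le {κ : KD S} {M : Model S} (hf : κ.Fits M) {c : ℝ} (hc1 : 1 ≤ c)
    (hc : ∀ s, (κ.N s)⁻¹ ≤ c) {m : ℕ} (hm : 1 ≤ M.sz m) (hσ : σ.Basic) {Z : ℕ}
    (hZ : ∀ v, σ.Mv v ≤ Z) {v : ℕ} (hv : v ∈ σ.mrk) :
    (∏ t ∈ Icc 1 Z, Fac M m σ t ℓ v) *
      (M.sz m : ℝ) ^ (∑ w ∈ (range σ.T).filter (fun w => w ∉ σ.mrk), σ.am v w) ≤
        c ^ (2 * Z) := by
  have hs : (1 : ℝ) ≤ M.sz m := by exact_mod_cast hm
  have hs0 : (0 : ℝ) < M.sz m := by linarith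
  have h1 : ∑ t ∈ Icc 1 Z, (NB σ t v).card =
      ∑ w ∈ (range σ.T).filter (fun w => w ∉ σ.mrk), σ.am v w := by
    rw [sum_NB hσ hZ v]
    refine sum_congr ?_ fun _ _ => rfl
    ext w
    simp [hv]
  have h2 : ∏ t ∈ Icc 1 Z, Fac M m σ t ℓ v ≤ ∏ t ∈ Icc 1 Z,
      (c ^ (NB σ t v).card * ((M.sz m : ℝ)⁻¹) ^ (NB σ t v).card) := by
    refine prod_le_prod (fun t _ => Fac_nonneg m t v) (fun t _ => ?_)
    unfold Fac
    rw [if_neg (by simp [hv]), one_mul]
    exact prod_inv_le hf hc hm t v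
  rw [prod_mul_distrib, prod_pow_eq_pow_sum, prod_pow_eq_pow_sum, h1] at h2
  set e := ∑ w ∈ (range σ.T).filter (fun w => w ∉ σ.mrk), σ.am v w with he
  have h3 : e ≤ 2 * Z := by
    have h4 : e ≤ ∑ w ∈ range σ.T, σ.am v w :=
      sum_le_sum_of_subset (filter_subset _ _)
    have := sum_am_le hσ v
    have := hZ v
    omega
  calc (∏ t ∈ Icc 1 Z, Fac M m σ t ℓ v) * (M.sz m : ℝ) ^ e
      ≤ (c ^ e * ((M.sz m : ℝ)⁻¹) ^ e) * (M.sz m : ℝ) ^ e :=
        mul_le_mul_of_nonneg_right h2 (by positivity)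
    _ = c ^ e := by
        rw [mul_assoc, ← mul_pow, inv_mul_cancel₀ hs0.ne', one_pow, mul_one]
    _ ≤ c ^ (2 * Z) := pow_le_pow_right₀ hc1 h3

/-- there are no factors at noncanonical positions -/
theorem noncan (M : Model S) (m : ℕ) (hσ : σ.Basic) {t v : ℕ} (ht : 1 ≤ t) (hv : σ.cls v ≠ v) :
    Fac M m σ t ℓ v = 1 := by
  have h1 : ∀ w, ¬ t ≤ σ.am v w := fun w hw => hv (cls_of_am hσ (ht.trans hw)).1
  unfold Fac
  have h2 : NB σ t v = ∅ := by
    unfold NB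
    ext w
    simp [h1 w]
  have h3 : σ.Nb t v = ∅ := by
    unfold Shape.Nb
    ext w
    simp [h1 w]
  rw [h2, h3]
  simp

/-- bound for an unmarked class; `o` = number of open ends at this class -/
theorem unmarked_le {κ : KD S} {M : Model S} (hf : κ.Fits M) {c : ℝ} (hc1 : 1 ≤ c)
    (hc : ∀ s, (κ.N s)⁻¹ ≤ c) {m : ℕ} (hm : 1 ≤ M.sz m) (hσ : σ.Basic) {Z : ℕ}
    (hZ : ∀ v, σ.Mv v ≤ Z) {v : ℕ} (hv : v ∉ σ.mrk) (o : ℕ)
    (hchi : ∀ w, 2 * σ.am v w ≤ (∑ w' ∈ range σ.T, σ.am v w') + o) :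
    (∏ t ∈ Icc 1 Z, Fac M m σ t ℓ v) ≤
        (κ.tot ^ 2) ^ Z * c ^ (2 * Z) * (M.sz m : ℝ) ^ o := by
  have hs : (1 : ℝ) ≤ M.sz m := by exact_mod_cast hm
  have hs0 : (0 : ℝ) < M.sz m := by linarith
  have htot := κ.one_le_tot
  have h1 : ∑ t ∈ Icc 1 Z, (NB σ t v).card = ∑ w ∈ range σ.T, σ.am v w := by
    rw [sum_NB hσ hZ v]
    refine sum_congr ?_ fun _ _ => rfl
    ext w
    simp [hv]
  set E := ∑ w ∈ range σ.T, σ.am v w with hE
  set T1 := (Icc 1 Z).filter (fun t => (σ.Nb t v).Nonempty) with hT1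
  have hE2 : E ≤ 2 * Z := (sum_am_le hσ v).trans (by have := hZ v; omega)
  -- |T1| ≤ max am
  have h2 : 2 * T1.card ≤ E + o := by
    rcases T1.eq_empty_or_nonempty with h | h
    · rw [h]; simp
    · set tm := T1.max' h
      have h3 : tm ∈ T1 := T1.max'_mem h
      rw [hT1, mem_filter] at h3
      obtain ⟨w, hw⟩ := h3.2
      unfold Shape.Nb at hw
      rw [mem_filter] at hw
      have h4 : T1 ⊆ Icc 1 tm := by
        intro t ht
        have := T1.le_max' t ht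
        rw [hT1, mem_filter, mem_Icc] at ht
        exact mem_Icc.mpr ⟨ht.1.1, this⟩
      have h5 := card_le_card h4
      rw [Nat.card_Icc] at h5
      have := hchi w
      omega
  have hT1c : T1.card ≤ Z := by
    have h3 : T1.card ≤ (Icc 1 Z).card := card_filter_le _ _
    rw [Nat.card_Icc] at h3
    omega
  have h3 : ∏ t ∈ Icc 1 Z, Fac M m σ t ℓ v ≤ ∏ t ∈ Icc 1 Z,
      ((if (σ.Nb t v).Nonempty then (κ.tot * M.sz m) ^ 2 else 1) *
      (c ^ (NB σ t v).card * ((M.sz m : ℝ)⁻¹) ^ (NB σ t v).card)) := by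
    refine prod_le_prod (fun t _ => Fac_nonneg m t v) (fun t _ => ?_)
    unfold Fac
    refine mul_le_mul ?_ (prod_inv_le hf hc hm t v) (prod_nonneg fun w _ => ?_) ?_
    · by_cases h : (σ.Nb t v).Nonempty
      · rw [if_pos ⟨hv, h⟩, if_pos h]
        exact pow_le_pow_left₀ (cnt_nonneg M m t v) (cnt_le_tot hf m t v) 2
      · rw [if_neg (fun h' => h h'.2), if_neg h]
    · exact inv_nonneg.mpr (mul_nonneg (M.N_pos _).le (Nat.cast_nonneg _))
    · split_ifs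
      · positivity
      · exact zero_le_one
  rw [prod_mul_distrib, prod_mul_distrib, prod_pow_eq_pow_sum, prod_pow_eq_pow_sum, h1,
    ← prod_filter, prod_const, ← hT1] at h3
  refine h3.trans ?_
  rw [mul_pow, mul_pow]
  have e1 : (κ.tot ^ 2) ^ T1.card ≤ (κ.tot ^ 2) ^ Z :=
    pow_le_pow_right₀ (one_le_pow₀ htot) hT1c
  have e2 : c ^ E ≤ c ^ (2 * Z) := pow_le_pow_right₀ hc1 hE2
  have e3 : (((M.sz m : ℝ)) ^ 2) ^ T1.card * ((M.sz m : ℝ)⁻¹) ^ E ≤ (M.sz m : ℝ) ^ o := by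
    rw [inv_pow, ← div_eq_mul_inv, div_le_iff₀ (by positivity), ← pow_mul, ← pow_add]
    exact pow_le_pow_right₀ hs (by omega)
  calc (κ.tot ^ 2) ^ T1.card * ((M.sz m : ℝ) ^ 2) ^ T1.card * (c ^ E * ((M.sz m : ℝ)⁻¹) ^ E)
      = (κ.tot ^ 2) ^ T1.card * c ^ E *
        (((M.sz m : ℝ) ^ 2) ^ T1.card * ((M.sz m : ℝ)⁻¹) ^ E) := by ring
    _ ≤ (κ.tot ^ 2) ^ Z * c ^ (2 * Z) * (M.sz m : ℝ) ^ o := by gcongr

end Core

end Crest.Agent.R177.Loc
end

-- ▼ part R177/LocCoreR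
section

/-!
# Row 177, module LOC: task LD, regular classes (helper143)
-/

set_option autoImplicit false

open scoped Classical

namespace Crest.Agent.R177.Loc

open Crest.Agent.R177
open Shape Finset

namespace Core

variable {S : Type} {σ : Shape} {ℓ : ℕ → S × Bool}

/-- labels at a position of a regular class -/
theorem lab_par (hℓ : σ.LabOK ℓ) {v p : ℕ} (hv : σ.Reg v) (hp : p < σ.T) (hpv : σ.cls p = v) :
    (ℓ (p - 1) = ℓ (v - 1) ∧ ℓ p = ℓ v) ∨
      (ℓ (p - 1) = hinv (ℓ v) ∧ ℓ p = hinv (ℓ (v - 1))) := by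
  obtain ⟨c1, c2, c3⟩ := hv.cor hp hpv
  obtain ⟨d1, d2, d3⟩ := hv.cor_self
  have e1 : p - 1 + 1 = p := by omega
  have e2 : v - 1 + 1 = v := by omega
  have hvv := hv.cls_self
  rcases hv.par hp hpv hv.lt hvv with ⟨h1, h2⟩ | ⟨h1, h2⟩
  · left
    exact ⟨hℓ.same _ c2 _ d2 h1 (by rw [e1, e2, hpv, hvv]), hℓ.same _ c3 _ d3 (by rw [hpv, hvv]) h2⟩
  · right
    exact ⟨hℓ.opp _ c2 _ d3 h1 (by rw [e1, hpv, hvv]), hℓ.opp _ c3 _ d2 (by rw [e2, hpv, hvv]) h2⟩

theorem lab_ne (hℓ : σ.LabOK ℓ) {p : ℕ} (hp : σ.Cor p) : hinv (ℓ (p - 1)) ≠ ℓ p := by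
  obtain ⟨c1, c2, c3⟩ := hp
  have e1 : p - 1 + 1 = p := by omega
  have := hℓ.red (p - 1) c2 (by rw [e1]; exact c3)
  rw [e1] at this
  exact this.symm

/-- neighbours of a regular class -/
theorem Nb_reg (hσ : σ.Basic) {v : ℕ} (hv : σ.Reg v) {t : ℕ} (ht : 1 ≤ t) (htv : t ≤ σ.Mv v) :
    σ.Nb t v = {σ.cls (v - 1), σ.cls (v + 1)} := by
  obtain ⟨d1, d2, d3⟩ := hv.cor_self
  have e2 : v - 1 + 1 = v := by omega
  have hvv := hv.cls_self
  have hne := hσ.cls_ne_cor hv.cor_self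
  have h1 : σ.am v (σ.cls (v - 1)) = σ.Mv v := by
    rw [Shape.am_comm, ← mul_eq hσ hv d2 (Or.inr (by rw [e2, hvv]))]
    exact Shape.am_eq_mul rfl (by rw [e2, hvv])
  have h2 : σ.am v (σ.cls (v + 1)) = σ.Mv v := by
    rw [← mul_eq hσ hv d3 (Or.inl hvv)]
    exact Shape.am_eq_mul hvv rfl
  have hl1 : σ.cls (v - 1) ∈ range σ.T :=
    mem_range.mpr (lt_of_le_of_lt (hσ.cls_le _) (hσ.lt_of_mem d2))
  have hl2 : σ.cls (v + 1) ∈ range σ.T :=
    mem_range.mpr (lt_of_le_of_lt (hσ.cls_le _) (hσ.succ_lt_of_mem d3))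
  have hsum := sum_am_le hσ v
  ext w
  unfold Shape.Nb
  simp only [mem_filter, mem_insert, mem_singleton]
  constructor
  · rintro ⟨hw, hw2⟩
    by_contra hcon
    push Not at hcon
    have h3 : ∑ x ∈ ({w, σ.cls (v - 1), σ.cls (v + 1)} : Finset ℕ), σ.am v x ≤
        ∑ x ∈ range σ.T, σ.am v x := by
      refine sum_le_sum_of_subset ?_
      intro x hx
      simp only [mem_insert, mem_singleton] at hx
      rcases hx with rfl | rfl | rfl
      · exact hw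
      · exact hl1
      · exact hl2
    rw [sum_insert (by simp [hcon.1, hcon.2]), sum_insert (by simpa using hne),
      sum_singleton, h1, h2] at h3
    omega
  · rintro (rfl | rfl)
    · exact ⟨hl1, by omega⟩
    · exact ⟨hl2, by omega⟩

theorem Nb_empty (hσ : σ.Basic) {v t : ℕ} (htv : σ.Mv v < t) : σ.Nb t v = ∅ := by
  ext w
  unfold Shape.Nb
  have := hσ.am_le v w
  simp only [mem_filter, notMem_empty, iff_false, not_and]
  intro _
  omega

variable [Fintype S]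

/-- the Kraft factor of a corner -/
noncomputable def X (κ : KD S) (ℓ : ℕ → S × Bool) (p : ℕ) : ℝ :=
  κ.ρ * κ.q (hinv (ℓ (p - 1))) (ℓ p) * (κ.δ (ℓ (p - 1)) * (κ.δ (ℓ p))⁻¹)

theorem q_pos (κ : KD S) (a b : S × Bool) : 0 < κ.q a b := lt_of_lt_of_le κ.q0_pos (κ.q0_le a b)


/-- the Kraft factor is the same for all positions of a regular class -/
theorem X_par (κ : KD S) (hℓ : σ.LabOK ℓ) {v p : ℕ} (hv : σ.Reg v) (hp : p < σ.T)
    (hpv : σ.cls p = v) : X κ ℓ p = X κ ℓ v := by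
  unfold X
  rcases lab_par hℓ hv hp hpv with ⟨h1, h2⟩ | ⟨h1, h2⟩
  · rw [h1, h2]
  · rw [h1, h2, hinv_hinv, κ.q_symm (ℓ v), κ.δ_inv, κ.δ_inv, inv_inv]
    ring


/-- bound for one level of a regular class -/
theorem Fac_reg_le {κ : KD S} {M : Model S} (hf : κ.Fits M) {m : ℕ} (hm : 1 ≤ M.sz m)
    (hσ : σ.Basic) (hℓ : σ.LabOK ℓ) {v : ℕ} (hv : σ.Reg v) {t : ℕ} (ht : 1 ≤ t)
    (htv : t ≤ σ.Mv v) : Fac M m σ t ℓ v ≤ X κ ℓ v := by
  have hs : (1 : ℝ) ≤ M.sz m := by exact_mod_cast hm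
  have hs0 : (0 : ℝ) < M.sz m := by linarith
  obtain ⟨d1, d2, d3⟩ := hv.cor_self
  have e2 : v - 1 + 1 = v := by omega
  have hvv := hv.cls_self
  have hNb := Nb_reg hσ hv ht htv
  have hne := hσ.cls_ne_cor hv.cor_self
  have ha : σ.he ℓ v (σ.cls (v - 1)) = hinv (ℓ (v - 1)) := by
    have := he_eq' hσ hℓ d2
    rwa [e2, hvv] at this
  have hb : σ.he ℓ v (σ.cls (v + 1)) = ℓ v := by
    have := he_eq hσ hℓ d3
    rwa [hvv] at this
  have hab := lab_ne hℓ hv.cor_self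
  have hcnt : cnt M m σ t ℓ v ≤ κ.n (hinv (ℓ (v - 1))) (ℓ v) * M.sz m :=
    cnt_le_n hf m t v hab (by rw [hNb]; simp) (by rw [hNb]; simp) ha hb
  unfold Fac
  rw [NB_eq hv.2.2.1, hNb, if_pos ⟨hv.2.2.1, ⟨_, mem_insert_self _ _⟩⟩,
    prod_insert (by simpa using hne), prod_singleton, ha, hb]
  set a := hinv (ℓ (v - 1)) with hadef
  set b := ℓ v with hbdef
  have h1 : cnt M m σ t ℓ v ^ 2 ≤ (κ.n a b * M.sz m) ^ 2 :=
    pow_le_pow_left₀ (cnt_nonneg M m t v) hcnt 2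
  have hNa : 0 < M.N a.1 := M.N_pos _
  have hNb' : 0 < M.N b.1 := M.N_pos _
  have hδa := κ.δ_pos a
  have hδb := κ.δ_pos b
  have hkey := κ.key a b hab
  rw [hf.N] at hkey
  have hXe : X κ ℓ v = κ.ρ * κ.q a b * ((κ.δ a)⁻¹ * (κ.δ b)⁻¹) := by
    unfold X
    rw [hadef, κ.δ_inv, inv_inv]
  rw [hXe]
  calc cnt M m σ t ℓ v ^ 2 * ((M.N a.1 * M.sz m : ℝ)⁻¹ * (M.N b.1 * M.sz m : ℝ)⁻¹)
      ≤ (κ.n a b * M.sz m) ^ 2 * ((M.N a.1 * M.sz m : ℝ)⁻¹ * (M.N b.1 * M.sz m : ℝ)⁻¹) := by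
        gcongr
    _ = (κ.n a b ^ 2 * κ.δ a * κ.δ b) * ((κ.δ a)⁻¹ * (κ.δ b)⁻¹ * (M.N a.1 * M.N b.1)⁻¹) := by
        field_simp
    _ ≤ (κ.ρ * κ.q a b * (M.N a.1 * M.N b.1)) *
          ((κ.δ a)⁻¹ * (κ.δ b)⁻¹ * (M.N a.1 * M.N b.1)⁻¹) := by
        gcongr
    _ = κ.ρ * κ.q a b * ((κ.δ a)⁻¹ * (κ.δ b)⁻¹) := by
        field_simp

theorem Fac_reg_one (M : Model S) (m : ℕ) (hσ : σ.Basic) {v : ℕ} (hv : σ.Reg v) {t : ℕ}
    (htv : σ.Mv v < t) : Fac M m σ t ℓ v = 1 := by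
  unfold Fac
  rw [NB_eq hv.2.2.1, Nb_empty hσ htv]
  simp

/-- bound for a regular class -/
theorem reg_le {κ : KD S} {M : Model S} (hf : κ.Fits M) {m : ℕ} (hm : 1 ≤ M.sz m)
    (hσ : σ.Basic) (hℓ : σ.LabOK ℓ) {Z : ℕ} (hZ : ∀ v, σ.Mv v ≤ Z) {v : ℕ} (hv : σ.Reg v) :
    ∏ t ∈ Icc 1 Z, Fac M m σ t ℓ v ≤ X κ ℓ v ^ σ.Mv v := by
  have h1 : ∏ t ∈ Icc 1 Z, Fac M m σ t ℓ v = ∏ t ∈ Icc 1 (σ.Mv v), Fac M m σ t ℓ v := by
    symm
    refine prod_subset (Icc_subset_Icc_right (hZ v)) ?_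
    intro t ht ht'
    rw [mem_Icc] at ht ht'
    exact Fac_reg_one M m hσ hv (by omega)
  rw [h1]
  calc ∏ t ∈ Icc 1 (σ.Mv v), Fac M m σ t ℓ v ≤ ∏ _t ∈ Icc 1 (σ.Mv v), X κ ℓ v :=
        prod_le_prod (fun t _ => Fac_nonneg m t v) (fun t ht => by
          rw [mem_Icc] at ht
          exact Fac_reg_le hf hm hσ hℓ hv ht.1 ht.2)
    _ = X κ ℓ v ^ σ.Mv v := by rw [prod_const, Nat.card_Icc]; simp

/-- the product over the regular classes as a product over regular positions -/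
theorem prod_reg (κ : KD S) (hσ : σ.Basic) (hℓ : σ.LabOK ℓ) :
    ∏ v ∈ (range σ.T).filter (fun v => σ.Reg v), X κ ℓ v ^ σ.Mv v =
      ∏ p ∈ (range σ.T).filter (fun p => σ.Reg (σ.cls p)), X κ ℓ p := by
  rw [← prod_fiberwise_of_maps_to (s := (range σ.T).filter (fun p => σ.Reg (σ.cls p)))
    (t := (range σ.T).filter (fun v => σ.Reg v)) (g := σ.cls)]
  · refine prod_congr rfl fun v hv => ?_
    rw [mem_filter, mem_range] at hv
    have h1 : ((range σ.T).filter (fun p => σ.Reg (σ.cls p))).filter (fun p => σ.cls p = v) =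
        (range σ.T).filter (fun p => σ.cls p = v) := by
      ext p
      simp only [mem_filter]
      constructor
      · rintro ⟨⟨h1, h2⟩, h3⟩
        exact ⟨h1, h3⟩
      · rintro ⟨h1, h3⟩
        exact ⟨⟨h1, by rw [h3]; exact hv.2⟩, h3⟩
    rw [h1]
    have h2 : ∏ p ∈ (range σ.T).filter (fun p => σ.cls p = v), X κ ℓ p =
        ∏ _p ∈ (range σ.T).filter (fun p => σ.cls p = v), X κ ℓ v := by
      refine prod_congr rfl fun p hp => ?_
      rw [mem_filter, mem_range] at hp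
      exact X_par κ hℓ hv.2 hp.1 hp.2
    rw [h2, prod_const]
    rfl
  · intro p hp
    simp only [mem_filter, mem_range] at hp ⊢
    exact ⟨lt_of_le_of_lt (hσ.cls_le p) hp.1, hp.2⟩

end Core

end Crest.Agent.R177.Loc
end

-- ▼ part R177/LocCoreB
section

/-!
# Row 177, LOC, LD second half (helper516): products over regular positions
-/

set_option autoImplicit false

open scoped Classical

namespace Crest.Agent.R177.Loc

variable {S : Type} [Fintype S]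

/-- positions with regular class -/
noncomputable def Shape.RP (σ : Shape) : Finset ℕ :=
  (Finset.range σ.T).filter (fun p => σ.Reg (σ.cls p))

/-- positions with irregular class -/
noncomputable def Shape.NR (σ : Shape) : Finset ℕ :=
  (Finset.range σ.T).filter (fun p => ¬ σ.Reg (σ.cls p))

theorem NR_card {Z I : ℕ} {σ : Shape} (hσ : σ.Good Z I) : σ.NR.card ≤ Z * I := by
  have h1 := Finset.card_le_mul_card_image_of_maps_to (s := σ.NR)
    (t := (Finset.range σ.T).filter (fun v => σ.cls v = v ∧ ¬ σ.Reg v)) (f := σ.cls) (by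
      intro p hp
      simp only [Shape.NR, Finset.mem_filter, Finset.mem_range] at hp ⊢
      exact ⟨lt_of_le_of_lt (hσ.cls_le p) hp.1, hσ.cls_cls p, hp.2⟩) Z (by
      intro v _
      refine le_trans (Finset.card_le_card ?_) (hσ.card_cls v)
      intro p hp
      simp only [Shape.NR, Finset.mem_filter, Finset.mem_range] at hp ⊢
      exact ⟨hp.1.1, hp.2⟩)
  exact le_trans h1 (Nat.mul_le_mul_left _ hσ.irr)

theorem gl_le_RP {Z I : ℕ} {σ : Shape} (hσ : σ.Good Z I) : σ.gl ≤ σ.RP.card + Z * I := by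
  have h1 : (Finset.range σ.T).filter (fun p => σ.mt p ≠ none) ⊆ σ.RP ∪ σ.NR := by
    intro p hp
    simp only [Finset.mem_filter, Finset.mem_range, Finset.mem_union, Shape.RP, Shape.NR] at hp ⊢
    by_cases h : σ.Reg (σ.cls p)
    · exact Or.inl ⟨hp.1, h⟩
    · exact Or.inr ⟨hp.1, h⟩
  have h2 := Finset.card_le_card h1
  have h3 := Finset.card_union_le σ.RP σ.NR
  have h4 := NR_card hσ
  unfold Shape.gl
  omega

theorem mem_RP {σ : Shape} {p : ℕ} : p ∈ σ.RP ↔ p < σ.T ∧ σ.Reg (σ.cls p) := by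
  simp [Shape.RP]

theorem cor_of_RP {σ : Shape} {p : ℕ} (hp : p ∈ σ.RP) : σ.Cor p :=
  (mem_RP.1 hp).2.cor (mem_RP.1 hp).1 rfl

/-- telescoping -/
theorem prod_delta (d : S × Bool → ℝ) (hd : ∀ h, 0 < d h) (Z I : ℕ) : ∃ Cd : ℝ, 0 < Cd ∧
    ∀ σ : Shape, σ.Good Z I → ∀ ℓ : ℕ → S × Bool,
      ∏ p ∈ σ.RP, (d (ℓ (p - 1)) * (d (ℓ p))⁻¹) ≤ Cd := by
  set Δ : ℝ := 1 + ∑ h : S × Bool, (d h + (d h)⁻¹) with hΔ
  have hpos : ∀ h : S × Bool, 0 < d h + (d h)⁻¹ := fun h =>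
    add_pos (hd h) (inv_pos.2 (hd h))
  have hΔ1 : 1 ≤ Δ := by
    have : 0 ≤ ∑ h : S × Bool, (d h + (d h)⁻¹) := Finset.sum_nonneg fun h _ => (hpos h).le
    linarith
  have hle : ∀ h : S × Bool, d h + (d h)⁻¹ ≤ Δ := by
    intro h
    have := Finset.single_le_sum (f := fun h : S × Bool => d h + (d h)⁻¹)
      (fun h _ => (hpos h).le) (Finset.mem_univ h)
    linarith
  have hδ1 : ∀ h : S × Bool, d h ≤ Δ := fun h => by
    have := inv_pos.2 (hd h)
    linarith [hle h]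
  have hδ2 : ∀ h : S × Bool, (d h)⁻¹ ≤ Δ := fun h => by
    have := hd h
    linarith [hle h]
  refine ⟨Δ ^ (Z * I) * Δ ^ (Z * I), by positivity, ?_⟩
  intro σ hσ ℓ
  set R := σ.RP with hR
  set R' := R.image (fun p => p - 1) with hR'
  have hinj : Set.InjOn (fun p : ℕ => p - 1) (R : Set ℕ) := by
    intro a ha b hb hab
    have h1 := (cor_of_RP (Finset.mem_coe.1 ha)).1
    have h2 := (cor_of_RP (Finset.mem_coe.1 hb)).1
    simp only at hab
    omega
  have hprod : ∏ p ∈ R, (d (ℓ (p - 1)) * (d (ℓ p))⁻¹) =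
      (∏ p ∈ R', d (ℓ p)) * ∏ p ∈ R, (d (ℓ p))⁻¹ := by
    rw [Finset.prod_mul_distrib, hR', Finset.prod_image hinj]
  have hsplit1 := Finset.prod_inter_mul_prod_sdiff R' R (fun p => d (ℓ p))
  have hsplit2 := Finset.prod_inter_mul_prod_sdiff R R' (fun p => (d (ℓ p))⁻¹)
  have hinter : (∏ p ∈ R' ∩ R, d (ℓ p)) * ∏ p ∈ R ∩ R', (d (ℓ p))⁻¹ = 1 := by
    rw [Finset.inter_comm R' R, ← Finset.prod_mul_distrib]
    refine Finset.prod_eq_one fun p _ => ?_
    exact mul_inv_cancel₀ (hd _).ne'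
  have hc1 : (R \ R').card ≤ Z * I := by
    refine le_trans ?_ (NR_card hσ)
    refine Finset.card_le_card_of_injOn (fun p => p + 1) ?_ ?_
    · intro p hp
      rw [Finset.mem_coe, Finset.mem_sdiff] at hp
      have h1 := (cor_of_RP hp.1).2.2
      have h2 := hσ.D_lt p h1
      simp only [Shape.NR, Finset.coe_filter, Finset.mem_range, Set.mem_ofPred_eq]
      refine ⟨h2, fun h3 => hp.2 ?_⟩
      rw [hR', Finset.mem_image]
      exact ⟨p + 1, mem_RP.2 ⟨h2, h3⟩, by omega⟩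
    · intro a _ b _ hab
      simp only at hab
      omega
  have hc2 : (R' \ R).card ≤ Z * I := by
    refine le_trans (Finset.card_le_card ?_) (NR_card hσ)
    intro p hp
    rw [Finset.mem_sdiff, hR', Finset.mem_image] at hp
    obtain ⟨⟨q, hq, rfl⟩, h2⟩ := hp
    have h3 := (mem_RP.1 hq).1
    simp only [Shape.NR, Finset.mem_filter, Finset.mem_range]
    refine ⟨by omega, fun h4 => h2 (mem_RP.2 ⟨by omega, h4⟩)⟩
  have hb1 : ∏ p ∈ R' \ R, d (ℓ p) ≤ Δ ^ (Z * I) := by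
    refine le_trans (Finset.prod_le_prod (fun p _ => (hd _).le) (fun p _ => hδ1 (ℓ p))) ?_
    rw [Finset.prod_const]
    exact pow_le_pow_right₀ hΔ1 hc2
  have hb2 : ∏ p ∈ R \ R', (d (ℓ p))⁻¹ ≤ Δ ^ (Z * I) := by
    refine le_trans (Finset.prod_le_prod (fun p _ => (inv_pos.2 (hd _)).le)
      (fun p _ => hδ2 (ℓ p))) ?_
    rw [Finset.prod_const]
    exact pow_le_pow_right₀ hΔ1 hc1
  rw [hprod, ← hsplit1, ← hsplit2]
  calc (∏ p ∈ R' ∩ R, d (ℓ p)) * (∏ p ∈ R' \ R, d (ℓ p)) *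
        ((∏ p ∈ R ∩ R', (d (ℓ p))⁻¹) * ∏ p ∈ R \ R', (d (ℓ p))⁻¹)
      = ((∏ p ∈ R' ∩ R, d (ℓ p)) * ∏ p ∈ R ∩ R', (d (ℓ p))⁻¹) *
        ((∏ p ∈ R' \ R, d (ℓ p)) * ∏ p ∈ R \ R', (d (ℓ p))⁻¹) := by ring
    _ = (∏ p ∈ R' \ R, d (ℓ p)) * ∏ p ∈ R \ R', (d (ℓ p))⁻¹ := by rw [hinter, one_mul]
    _ ≤ _ := by
      refine mul_le_mul hb1 hb2 ?_ (by positivity)
      exact Finset.prod_nonneg fun p _ => (inv_pos.2 (hd _)).le

/-- the turn weight at a position -/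
noncomputable def qp (κ : KD S) (ℓ : ℕ → S × Bool) (p : ℕ) : ℝ := κ.q (hinv (ℓ (p - 1))) (ℓ p)

theorem qp_pos (κ : KD S) (ℓ : ℕ → S × Bool) (p : ℕ) : 0 < qp κ ℓ p :=
  lt_of_lt_of_le κ.q0_pos (κ.q0_le _ _)

omit [Fintype S] in
theorem hinv_hinv_loc (a : S × Bool) : hinv (hinv a) = a := by simp [hinv]

theorem qp_le_one (κ : KD S) {σ : Shape} {ℓ : ℕ → S × Bool} (hℓ : σ.LabOK ℓ) {p : ℕ}
    (hp : σ.Cor p) : qp κ ℓ p ≤ 1 := by
  refine κ.q_le_one _ _ ?_
  have h1 := hℓ.red (p - 1) hp.2.1 (by rw [Nat.sub_add_cancel hp.1]; exact hp.2.2)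
  rw [Nat.sub_add_cancel hp.1] at h1
  exact fun h => h1 h.symm

theorem qp_par (κ : KD S) {σ : Shape} {ℓ : ℕ → S × Bool} (hℓ : σ.LabOK ℓ) {p v : ℕ}
    (hp : σ.Cor p) (hv : σ.Cor v) (hpv : σ.cls p = σ.cls v) (h : σ.Par p v) :
    qp κ ℓ p = qp κ ℓ v := by
  have e1 : p - 1 + 1 = p := Nat.sub_add_cancel hp.1
  have e2 : v - 1 + 1 = v := Nat.sub_add_cancel hv.1
  rcases h with ⟨h1, h2⟩ | ⟨h1, h2⟩
  · have a1 : ℓ p = ℓ v := hℓ.same p hp.2.2 v hv.2.2 hpv h2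
    have a2 : ℓ (p - 1) = ℓ (v - 1) := hℓ.same (p - 1) hp.2.1 (v - 1) hv.2.1 h1
      (by rw [e1, e2]; exact hpv)
    unfold qp
    rw [a1, a2]
  · have a1 : ℓ p = hinv (ℓ (v - 1)) := hℓ.opp p hp.2.2 (v - 1) hv.2.1 (by rw [e2]; exact hpv) h2
    have a2 : ℓ (p - 1) = hinv (ℓ v) := hℓ.opp (p - 1) hp.2.1 v hv.2.2 h1 (by rw [e1]; exact hpv)
    unfold qp
    rw [a1, a2, hinv_hinv_loc, κ.q_symm]

theorem qp_mate (κ : KD S) {σ : Shape} (hσ : σ.Basic) {ℓ : ℕ → S × Bool} (hℓ : σ.LabOK ℓ)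
    {p p' : ℕ} (h : σ.mt p = some p') : qp κ ℓ p' = qp κ ℓ p := by
  have a1 := hℓ.mate p p' h
  have a2 := hℓ.mate p' p (hσ.mt_symm p p' h)
  unfold qp
  rw [a1, ← a2, κ.q_symm]

/-- the product of the Kraft weights of all levels -/
theorem prod_Wt (κ : KD S) {Z I : ℕ} {σ : Shape} (hσ : σ.Good Z I) {ℓ : ℕ → S × Bool}
    (hℓ : σ.LabOK ℓ) : ∏ t ∈ Finset.Icc 1 Z, Wt κ σ t ℓ =
      ∏ p ∈ (Finset.range σ.T).filter (fun p => σ.InR (σ.cls p)), qp κ ℓ p := by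
  have h1 : ∏ t ∈ Finset.Icc 1 Z, Wt κ σ t ℓ =
      ∏ v ∈ (Finset.range σ.T).filter (fun v => σ.InR v), qp κ ℓ v ^ σ.Mv v := by
    have e1 : ∀ t ∈ Finset.Icc 1 Z, Wt κ σ t ℓ =
        ∏ v ∈ (Finset.range σ.T).filter (fun v => σ.InR v),
          (if t ≤ σ.Mv v then qp κ ℓ v else 1) := by
      intro t _
      rw [← Finset.prod_filter, Finset.filter_filter]
      rfl
    rw [Finset.prod_congr rfl e1, Finset.prod_comm]
    refine Finset.prod_congr rfl fun v _ => ?_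
    rw [← Finset.prod_filter, Finset.prod_const]
    congr 1
    have e2 : (Finset.Icc 1 Z).filter (fun t => t ≤ σ.Mv v) = Finset.Icc 1 (σ.Mv v) := by
      ext t
      simp only [Finset.mem_filter, Finset.mem_Icc]
      have := hσ.card_cls v
      omega
    rw [e2]
    simp
  rw [h1, ← Finset.prod_fiberwise_of_maps_to
    (s := (Finset.range σ.T).filter (fun p => σ.InR (σ.cls p)))
    (t := (Finset.range σ.T).filter (fun v => σ.InR v)) (g := σ.cls) (f := qp κ ℓ)]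
  · refine Finset.prod_congr rfl fun v hv => ?_
    simp only [Finset.mem_filter, Finset.mem_range] at hv
    have e3 : ((Finset.range σ.T).filter (fun p => σ.InR (σ.cls p))).filter
        (fun p => σ.cls p = v) = (Finset.range σ.T).filter (fun p => σ.cls p = v) := by
      ext p
      simp only [Finset.mem_filter, Finset.mem_range]
      constructor
      · rintro ⟨⟨h1, h2⟩, h3⟩
        exact ⟨h1, h3⟩
      · rintro ⟨h1, h3⟩
        exact ⟨⟨h1, h3 ▸ hv.2⟩, h3⟩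
    rw [e3, Finset.prod_eq_pow_card (b := qp κ ℓ v)]
    · rfl
    · intro p hp
      simp only [Finset.mem_filter, Finset.mem_range] at hp
      have hreg := hv.2.1
      exact qp_par κ hℓ (hreg.cor hp.1 hp.2) hreg.cor_self (by rw [hp.2, hreg.cls_self])
        (hreg.par hp.1 hp.2 hreg.1 hreg.2.1)
  · intro p hp
    simp only [Finset.mem_filter, Finset.mem_range] at hp ⊢
    exact ⟨lt_of_le_of_lt (hσ.cls_le p) hp.1, hp.2⟩

theorem Prec_asymm {σ : Shape} {v w : ℕ} (h : σ.Prec v w) (h' : σ.Prec w v) : False := by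
  unfold Shape.Prec at h h'
  omega

/-- mate pairing -/
theorem prod_q (κ : KD S) {Z I : ℕ} {σ : Shape} (hσ : σ.Good Z I) (ℓ : ℕ → S × Bool)
    (hℓ : σ.LabOK ℓ) :
    ∏ p ∈ σ.RP, κ.q (hinv (ℓ (p - 1))) (ℓ p) ≤
      (κ.q0⁻¹) ^ (σ.ug + Z * I) * (∏ t ∈ Finset.Icc 1 Z, Wt κ σ t ℓ) ^ 2 := by
  rw [prod_Wt κ hσ hℓ]
  change ∏ p ∈ σ.RP, qp κ ℓ p ≤ _
  set Rp := (Finset.range σ.T).filter (fun p => σ.InR (σ.cls p)) with hRp
  set m : ℕ → ℕ := fun p => (σ.mt p).getD 0 with hm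
  set G := Rp.filter (fun p => ∃ p', σ.mt p = some p' ∧ σ.Reg (σ.cls p')) with hG
  have hmem : ∀ p, p ∈ Rp ↔ p < σ.T ∧ σ.InR (σ.cls p) := by
    intro p; rw [hRp]; simp
  have hsub : Rp ⊆ σ.RP := by
    intro p hp
    rw [hmem] at hp
    exact mem_RP.2 ⟨hp.1, hp.2.1⟩
  have hinj : Set.InjOn m (G : Set ℕ) := by
    intro a ha b hb hab
    rw [Finset.mem_coe, hG, Finset.mem_filter] at ha hb
    obtain ⟨_, a', ha', _⟩ := ha
    obtain ⟨_, b', hb', _⟩ := hb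
    simp only [hm, ha', hb', Option.getD_some] at hab
    have h1 := hσ.mt_symm _ _ ha'
    have h2 := hσ.mt_symm _ _ hb'
    rw [hab, h2] at h1
    exact (Option.some.inj h1).symm
  have hmlt : ∀ p p', σ.mt p = some p' → p' < σ.T := by
    intro p p' h
    have h1 := hσ.mt_cor _ _ (hσ.mt_symm _ _ h)
    have := hσ.D_lt _ h1.2.2
    omega
  have hP' : G.image m ⊆ σ.RP \ Rp := by
    intro p' hp'
    rw [Finset.mem_image] at hp'
    obtain ⟨p, hp, rfl⟩ := hp'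
    rw [hG, Finset.mem_filter] at hp
    obtain ⟨hp1, p', hp2, hp3⟩ := hp
    have e : m p = p' := by simp [hm, hp2]
    rw [e, Finset.mem_sdiff, mem_RP, hmem]
    refine ⟨⟨hmlt p p' hp2, hp3⟩, ?_⟩
    rintro ⟨_, hR⟩
    rw [hmem] at hp1
    exact Prec_asymm (hp1.2.2 p p' hp1.1 rfl hp2 hp3)
      (hR.2 p' p (hmlt p p' hp2) rfl (hσ.mt_symm _ _ hp2) hp1.2.1)
  have hq1 : ∀ p ∈ σ.RP, qp κ ℓ p ≤ 1 := fun p hp => qp_le_one κ hℓ (cor_of_RP hp)
  have s1 : (∏ p ∈ σ.RP \ Rp, qp κ ℓ p) * ∏ p ∈ Rp, qp κ ℓ p = ∏ p ∈ σ.RP, qp κ ℓ p :=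
    Finset.prod_sdiff hsub
  have s2 : (∏ p ∈ (σ.RP \ Rp) \ G.image m, qp κ ℓ p) * ∏ p ∈ G.image m, qp κ ℓ p =
      ∏ p ∈ σ.RP \ Rp, qp κ ℓ p := Finset.prod_sdiff hP'
  have s3 : ∏ p ∈ G.image m, qp κ ℓ p = ∏ p ∈ G, qp κ ℓ p := by
    rw [Finset.prod_image hinj]
    refine Finset.prod_congr rfl fun p hp => ?_
    rw [hG, Finset.mem_filter] at hp
    obtain ⟨_, p', hp2, _⟩ := hp
    have e : m p = p' := by simp [hm, hp2]
    rw [e]
    exact qp_mate κ hσ.toBasic hℓ hp2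
  have s4 : (∏ p ∈ Rp \ G, qp κ ℓ p) * ∏ p ∈ G, qp κ ℓ p = ∏ p ∈ Rp, qp κ ℓ p :=
    Finset.prod_sdiff (Finset.filter_subset _ _)
  have hcard : (Rp \ G).card ≤ σ.ug + Z * I := by
    have hsub2 : Rp \ G ⊆ ((Finset.range σ.T).filter (fun p => σ.Cor p ∧ σ.mt p = none)) ∪
        σ.NR.image m := by
      intro p hp
      obtain ⟨hp1, hp2⟩ := Finset.mem_sdiff.1 hp
      have hp3 : ¬ ∃ p', σ.mt p = some p' ∧ σ.Reg (σ.cls p') := fun h =>
        hp2 (by rw [hG]; exact Finset.mem_filter.2 ⟨hp1, h⟩)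
      rw [hmem] at hp1
      rw [Finset.mem_union, Finset.mem_filter, Finset.mem_range, Finset.mem_image]
      cases hmt : σ.mt p with
      | none => exact Or.inl ⟨hp1.1, hp1.2.1.cor hp1.1 rfl, rfl⟩
      | some p' =>
        right
        refine ⟨p', ?_, ?_⟩
        · simp only [Shape.NR, Finset.mem_filter, Finset.mem_range]
          exact ⟨hmlt p p' hmt, fun h => hp3 ⟨p', hmt, h⟩⟩
        · simp [hm, hσ.mt_symm _ _ hmt]
    have h1 := Finset.card_le_card hsub2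
    have h2 := Finset.card_union_le
      ((Finset.range σ.T).filter (fun p => σ.Cor p ∧ σ.mt p = none)) (σ.NR.image m)
    have h3 : (σ.NR.image m).card ≤ σ.NR.card := Finset.card_image_le
    have h4 := NR_card hσ
    unfold Shape.ug
    omega
  have hq0 : κ.q0 ^ (σ.ug + Z * I) ≤ ∏ p ∈ Rp \ G, qp κ ℓ p := by
    calc κ.q0 ^ (σ.ug + Z * I) ≤ κ.q0 ^ (Rp \ G).card :=
          pow_le_pow_of_le_one κ.q0_pos.le κ.q0_lt.le hcard
      _ = ∏ _p ∈ Rp \ G, κ.q0 := by rw [Finset.prod_const]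
      _ ≤ _ := Finset.prod_le_prod (fun _ _ => κ.q0_pos.le) (fun p _ => κ.q0_le _ _)
  have hAG : 0 < ∏ p ∈ G, qp κ ℓ p := Finset.prod_pos fun p _ => qp_pos κ ℓ p
  have hAR : 0 < ∏ p ∈ Rp, qp κ ℓ p := Finset.prod_pos fun p _ => qp_pos κ ℓ p
  have hx : ∏ p ∈ (σ.RP \ Rp) \ G.image m, qp κ ℓ p ≤ 1 := by
    refine Finset.prod_le_one (fun p _ => (qp_pos κ ℓ p).le) fun p hp => ?_
    exact hq1 p (Finset.mem_sdiff.1 (Finset.mem_sdiff.1 hp).1).1
  have h5 : ∏ p ∈ σ.RP \ Rp, qp κ ℓ p ≤ ∏ p ∈ G, qp κ ℓ p := by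
    rw [← s2, s3]
    exact mul_le_of_le_one_left hAG.le hx
  have h6 : ∏ p ∈ G, qp κ ℓ p ≤ (κ.q0⁻¹) ^ (σ.ug + Z * I) * ∏ p ∈ Rp, qp κ ℓ p := by
    rw [← s4, inv_pow, ← div_eq_inv_mul, le_div_iff₀ (pow_pos κ.q0_pos _), mul_comm]
    exact mul_le_mul_of_nonneg_right hq0 hAG.le
  rw [← s1]
  calc (∏ p ∈ σ.RP \ Rp, qp κ ℓ p) * ∏ p ∈ Rp, qp κ ℓ p
      ≤ ((κ.q0⁻¹) ^ (σ.ug + Z * I) * ∏ p ∈ Rp, qp κ ℓ p) * ∏ p ∈ Rp, qp κ ℓ p :=
        mul_le_mul_of_nonneg_right (h5.trans h6) hAR.le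
    _ = _ := by ring

end Crest.Agent.R177.Loc
end

-- ▼ part R177/LocChi
section

/-!
# Row 177, module LOC, LD3 (helper753): every passage uses two different edges at a node
-/

set_option autoImplicit false

open scoped Classical

namespace Crest.Agent.R177.Loc

open Crest.Agent.R177

section chi

variable {σ : Shape} (hσ : σ.Basic) (v w : ℕ)

include hσ in
theorem chi_cls_lt {q : ℕ} (hq : q ∈ σ.D) : σ.cls q < σ.T :=
  lt_of_le_of_lt (hσ.cls_le q) (lt_trans (Nat.lt_succ_self q) (hσ.D_lt q hq))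

include hσ in
theorem chi_cls_succ_lt {q : ℕ} (hq : q ∈ σ.D) : σ.cls (q + 1) < σ.T :=
  lt_of_le_of_lt (hσ.cls_le (q + 1)) (hσ.D_lt q hq)

include hσ in
theorem chi_am_split : σ.am v w = (σ.D.filter (fun q => σ.cls q = v ∧ σ.cls (q + 1) = w)).card +
    (σ.D.filter (fun q => σ.cls (q + 1) = v ∧ σ.cls q = w)).card := by
  unfold Shape.am
  rw [← Finset.card_union_of_disjoint]
  · congr 1
    ext q
    simp only [Finset.mem_filter, Finset.mem_union]
    tauto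
  · rw [Finset.disjoint_left]
    intro q h1 h2
    rw [Finset.mem_filter] at h1 h2
    exact hσ.cls_ne q h1.1 (h1.2.1.trans h2.2.1.symm)

include hσ in
theorem chi_sum_am : ∑ w' ∈ Finset.range σ.T, σ.am v w' =
    (σ.D.filter (fun q => σ.cls q = v)).card + (σ.D.filter (fun q => σ.cls (q + 1) = v)).card := by
  rw [Finset.sum_congr rfl fun w' _ => chi_am_split hσ v w', Finset.sum_add_distrib]
  congr 1
  · rw [Finset.card_eq_sum_card_fiberwise (f := fun q => σ.cls (q + 1)) (t := Finset.range σ.T)]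
    · refine Finset.sum_congr rfl fun w' _ => ?_
      rw [Finset.filter_filter]
    · intro q hq
      rw [Finset.mem_coe, Finset.mem_filter] at hq
      rw [Finset.mem_coe, Finset.mem_range]
      exact chi_cls_succ_lt hσ hq.1
  · rw [Finset.card_eq_sum_card_fiberwise (f := fun q => σ.cls q) (t := Finset.range σ.T)]
    · refine Finset.sum_congr rfl fun w' _ => ?_
      rw [Finset.filter_filter]
    · intro q hq
      rw [Finset.mem_coe, Finset.mem_filter] at hq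
      rw [Finset.mem_coe, Finset.mem_range]
      exact chi_cls_lt hσ hq.1

end chi

/-- LD3: every passage uses two different edges at a node -/
theorem chi_le {σ : Shape} (hσ : σ.Basic) (v w : ℕ) (hv : v < σ.T) :
    2 * σ.am v w ≤ (∑ w' ∈ Finset.range σ.T, σ.am v w') +
      ((Finset.range σ.T).filter (fun p => σ.OpenEnd p ∧ σ.cls p = v)).card := by
  have _ := hv
  rw [chi_sum_am hσ v, chi_am_split hσ v w]
  -- splitting of the leaving darts
  have L1 : (σ.D.filter (fun q => σ.cls q = v)).card =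
      (σ.D.filter (fun q => σ.cls q = v ∧ σ.cls (q + 1) = w)).card +
      ((σ.D.filter (fun q => (σ.cls q = v ∧ σ.cls (q + 1) ≠ w) ∧ σ.Cor q)).card +
      (σ.D.filter (fun q => (σ.cls q = v ∧ σ.cls (q + 1) ≠ w) ∧ ¬ σ.Cor q)).card) := by
    rw [← Finset.card_filter_add_card_filter_not (s := σ.D.filter (fun q => σ.cls q = v))
      (fun q => σ.cls (q + 1) = w), Finset.filter_filter, Finset.filter_filter,
      ← Finset.card_filter_add_card_filter_not
        (s := σ.D.filter (fun q => σ.cls q = v ∧ ¬ σ.cls (q + 1) = w)) (fun q => σ.Cor q),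
      Finset.filter_filter, Finset.filter_filter]
  have R1 : (σ.D.filter (fun q => σ.cls (q + 1) = v)).card =
      (σ.D.filter (fun q => σ.cls (q + 1) = v ∧ σ.cls q = w)).card +
      ((σ.D.filter (fun q => (σ.cls (q + 1) = v ∧ σ.cls q ≠ w) ∧ q + 1 ∈ σ.D)).card +
      (σ.D.filter (fun q => (σ.cls (q + 1) = v ∧ σ.cls q ≠ w) ∧ ¬ q + 1 ∈ σ.D)).card) := by
    rw [← Finset.card_filter_add_card_filter_not (s := σ.D.filter (fun q => σ.cls (q + 1) = v))
      (fun q => σ.cls q = w), Finset.filter_filter, Finset.filter_filter,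
      ← Finset.card_filter_add_card_filter_not
        (s := σ.D.filter (fun q => σ.cls (q + 1) = v ∧ ¬ σ.cls q = w)) (fun q => q + 1 ∈ σ.D),
      Finset.filter_filter, Finset.filter_filter]
  have E1 : ((Finset.range σ.T).filter (fun p => σ.OpenEnd p ∧ σ.cls p = v)).card =
      ((Finset.range σ.T).filter (fun p => (σ.OpenEnd p ∧ σ.cls p = v) ∧ p ∈ σ.D)).card +
      ((Finset.range σ.T).filter (fun p => (σ.OpenEnd p ∧ σ.cls p = v) ∧ ¬ p ∈ σ.D)).card := by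
    rw [← Finset.card_filter_add_card_filter_not
      (s := (Finset.range σ.T).filter (fun p => σ.OpenEnd p ∧ σ.cls p = v)) (fun p => p ∈ σ.D),
      Finset.filter_filter, Finset.filter_filter]
  -- leaving darts on the edge
  have L2 : (σ.D.filter (fun q => σ.cls q = v ∧ σ.cls (q + 1) = w)).card =
      (σ.D.filter (fun q => (σ.cls q = v ∧ σ.cls (q + 1) = w) ∧ σ.Cor q)).card +
      ((σ.D.filter (fun q => ((σ.cls q = v ∧ σ.cls (q + 1) = w) ∧ ¬ σ.Cor q) ∧ q ∈ σ.cs)).card +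
      (σ.D.filter (fun q => ((σ.cls q = v ∧ σ.cls (q + 1) = w) ∧ ¬ σ.Cor q) ∧ ¬ q ∈ σ.cs)).card)
      := by
    rw [← Finset.card_filter_add_card_filter_not
      (s := σ.D.filter (fun q => σ.cls q = v ∧ σ.cls (q + 1) = w)) (fun q => σ.Cor q),
      Finset.filter_filter, Finset.filter_filter,
      ← Finset.card_filter_add_card_filter_not
        (s := σ.D.filter (fun q => (σ.cls q = v ∧ σ.cls (q + 1) = w) ∧ ¬ σ.Cor q))
        (fun q => q ∈ σ.cs),
      Finset.filter_filter, Finset.filter_filter]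
  have R2 : (σ.D.filter (fun q => σ.cls (q + 1) = v ∧ σ.cls q = w)).card =
      (σ.D.filter (fun q => (σ.cls (q + 1) = v ∧ σ.cls q = w) ∧ q + 1 ∈ σ.D)).card +
      ((σ.D.filter (fun q => ((σ.cls (q + 1) = v ∧ σ.cls q = w) ∧ ¬ q + 1 ∈ σ.D) ∧
        ∃ s ∈ σ.cs, σ.ce s = q + 1)).card +
      (σ.D.filter (fun q => ((σ.cls (q + 1) = v ∧ σ.cls q = w) ∧ ¬ q + 1 ∈ σ.D) ∧
        ¬ ∃ s ∈ σ.cs, σ.ce s = q + 1)).card) := by
    rw [← Finset.card_filter_add_card_filter_not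
      (s := σ.D.filter (fun q => σ.cls (q + 1) = v ∧ σ.cls q = w)) (fun q => q + 1 ∈ σ.D),
      Finset.filter_filter, Finset.filter_filter,
      ← Finset.card_filter_add_card_filter_not
        (s := σ.D.filter (fun q => (σ.cls (q + 1) = v ∧ σ.cls q = w) ∧ ¬ q + 1 ∈ σ.D))
        (fun q => ∃ s ∈ σ.cs, σ.ce s = q + 1),
      Finset.filter_filter, Finset.filter_filter]
  -- the injections
  have a1 : (σ.D.filter (fun q => (σ.cls q = v ∧ σ.cls (q + 1) = w) ∧ σ.Cor q)).card ≤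
      (σ.D.filter (fun q => (σ.cls (q + 1) = v ∧ σ.cls q ≠ w) ∧ q + 1 ∈ σ.D)).card := by
    refine Finset.card_le_card_of_injOn (fun q => q - 1) ?_ ?_
    · intro q hq
      rw [Finset.mem_coe, Finset.mem_filter] at hq
      obtain ⟨hqD, ⟨h1, h2⟩, h3, h4, -⟩ := hq
      have e : q - 1 + 1 = q := by omega
      rw [Finset.mem_coe, Finset.mem_filter]
      refine ⟨h4, ⟨?_, ?_⟩, ?_⟩
      · rw [e]; exact h1
      · intro h5
        refine hσ.red (q - 1) h4 (by rw [e]; exact hqD) ?_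
        have e2 : q - 1 + 2 = q + 1 := by omega
        rw [e2, h5, h2]
      · rw [e]; exact hqD
    · intro q hq q' hq' h
      rw [Finset.mem_coe, Finset.mem_filter] at hq hq'
      have h1 := hq.2.2.1
      have h2 := hq'.2.2.1
      simp only at h
      omega
  have a2 : (σ.D.filter (fun q => ((σ.cls q = v ∧ σ.cls (q + 1) = w) ∧ ¬ σ.Cor q) ∧
        q ∈ σ.cs)).card ≤
      (σ.D.filter (fun q => (σ.cls (q + 1) = v ∧ σ.cls q ≠ w) ∧ ¬ q + 1 ∈ σ.D)).card := by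
    refine Finset.card_le_card_of_injOn (fun q => σ.ce q - 1) ?_ ?_
    · intro q hq
      rw [Finset.mem_coe, Finset.mem_filter] at hq
      obtain ⟨hqD, ⟨⟨h1, h2⟩, -⟩, h3⟩ := hq
      obtain ⟨s1, s2, s3⟩ := hσ.ce_stop q h3
      have e : σ.ce q - 1 + 1 = σ.ce q := by omega
      rw [Finset.mem_coe, Finset.mem_filter]
      refine ⟨s2, ⟨?_, ?_⟩, ?_⟩
      · rw [e, hσ.ce_cls q h3]; exact h1
      · intro h5
        exact hσ.ce_red q h3 (by rw [h5, h2])
      · rw [e]; exact s3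
    · intro q hq q' hq' h
      rw [Finset.mem_coe, Finset.mem_filter] at hq hq'
      have h1 := (hσ.ce_stop q hq.2.2).1
      have h2 := (hσ.ce_stop q' hq'.2.2).1
      simp only at h
      exact hσ.ce_inj q hq.2.2 q' hq'.2.2 (by omega)
  have a3 : (σ.D.filter (fun q => ((σ.cls q = v ∧ σ.cls (q + 1) = w) ∧ ¬ σ.Cor q) ∧
        ¬ q ∈ σ.cs)).card ≤
      ((Finset.range σ.T).filter (fun p => (σ.OpenEnd p ∧ σ.cls p = v) ∧ p ∈ σ.D)).card := by
    refine Finset.card_le_card ?_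
    intro q hq
    rw [Finset.mem_filter] at hq
    obtain ⟨hqD, ⟨⟨h1, h2⟩, h3⟩, h4⟩ := hq
    rw [Finset.mem_filter, Finset.mem_range]
    have := hσ.D_lt q hqD
    exact ⟨by omega, ⟨Or.inl ⟨⟨hqD, h3⟩, h4⟩, h1⟩, hqD⟩
  have b1 : (σ.D.filter (fun q => (σ.cls (q + 1) = v ∧ σ.cls q = w) ∧ q + 1 ∈ σ.D)).card ≤
      (σ.D.filter (fun q => (σ.cls q = v ∧ σ.cls (q + 1) ≠ w) ∧ σ.Cor q)).card := by
    refine Finset.card_le_card_of_injOn (fun q => q + 1) ?_ ?_
    · intro q hq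
      rw [Finset.mem_coe, Finset.mem_filter] at hq
      obtain ⟨hqD, ⟨h1, h2⟩, h3⟩ := hq
      rw [Finset.mem_coe, Finset.mem_filter]
      refine ⟨h3, ⟨h1, ?_⟩, Nat.le_add_left 1 q, hqD, h3⟩
      intro h5
      exact hσ.red q hqD h3 (h2.trans h5.symm)
    · intro q _ q' _ h
      simp only at h
      omega
  have b2 : (σ.D.filter (fun q => ((σ.cls (q + 1) = v ∧ σ.cls q = w) ∧ ¬ q + 1 ∈ σ.D) ∧
        ∃ s ∈ σ.cs, σ.ce s = q + 1)).card ≤
      (σ.D.filter (fun q => (σ.cls q = v ∧ σ.cls (q + 1) ≠ w) ∧ ¬ σ.Cor q)).card := by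
    let f : ℕ → ℕ := fun q => if h : ∃ s ∈ σ.cs, σ.ce s = q + 1 then h.choose else 0
    have hf : ∀ q, (∃ s ∈ σ.cs, σ.ce s = q + 1) → f q ∈ σ.cs ∧ σ.ce (f q) = q + 1 := by
      intro q h
      have : f q = h.choose := dif_pos h
      rw [this]
      exact h.choose_spec
    refine Finset.card_le_card_of_injOn f ?_ ?_
    · intro q hq
      rw [Finset.mem_coe, Finset.mem_filter] at hq
      obtain ⟨hqD, ⟨⟨h1, h2⟩, h3⟩, h4⟩ := hq
      obtain ⟨f1, f2⟩ := hf q h4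
      obtain ⟨s1, s2⟩ := hσ.cs_start (f q) f1
      rw [Finset.mem_coe, Finset.mem_filter]
      refine ⟨s1, ⟨?_, ?_⟩, s2⟩
      · rw [← hσ.ce_cls (f q) f1, f2]; exact h1
      · intro h5
        refine hσ.ce_red (f q) f1 ?_
        rw [f2, Nat.add_sub_cancel, h2, h5]
    · intro q hq q' hq' h
      rw [Finset.mem_coe, Finset.mem_filter] at hq hq'
      have h1 := (hf q hq.2.2).2
      have h2 := (hf q' hq'.2.2).2
      rw [h, h2] at h1
      omega
  have b3 : (σ.D.filter (fun q => ((σ.cls (q + 1) = v ∧ σ.cls q = w) ∧ ¬ q + 1 ∈ σ.D) ∧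
        ¬ ∃ s ∈ σ.cs, σ.ce s = q + 1)).card ≤
      ((Finset.range σ.T).filter (fun p => (σ.OpenEnd p ∧ σ.cls p = v) ∧ ¬ p ∈ σ.D)).card := by
    refine Finset.card_le_card_of_injOn (fun q => q + 1) ?_ ?_
    · intro q hq
      rw [Finset.mem_coe, Finset.mem_filter] at hq
      obtain ⟨hqD, ⟨⟨h1, h2⟩, h3⟩, h4⟩ := hq
      rw [Finset.mem_coe, Finset.mem_filter, Finset.mem_range]
      refine ⟨hσ.D_lt q hqD, ⟨Or.inr ⟨⟨Nat.le_add_left 1 q, hqD, h3⟩, ?_⟩, h1⟩, h3⟩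
      intro s hs hs'
      exact h4 ⟨s, hs, hs'⟩
    · intro q _ q' _ h
      simp only at h
      omega
  omega

end Crest.Agent.R177.Loc
end

-- ▼ part R177/LocCore
section

/-!
# Row 177, module LOC: task LD, the core inequality (helper143)
-/

set_option autoImplicit false

open scoped Classical

namespace Crest.Agent.R177.Loc

open Crest.Agent.R177
open Shape Finset

namespace Core

variable {S : Type} {σ : Shape} {ℓ : ℕ → S × Bool}

/-- marked to unmarked darts -/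
theorem om_le (hσ : σ.Basic) :
    σ.om ≤ ∑ v ∈ σ.mrk, ∑ w ∈ (range σ.T).filter (fun w => w ∉ σ.mrk), σ.am v w := by
  unfold Shape.om Shape.am
  simp_rw [card_filter]
  rw [sum_congr rfl (fun v _ => sum_comm), sum_comm]
  refine sum_le_sum fun q hq => ?_
  by_cases h : (σ.cls q ∈ σ.mrk) ≠ (σ.cls (q + 1) ∈ σ.mrk)
  · rw [if_pos h]
    have hl1 : σ.cls q ∈ range σ.T :=
      mem_range.mpr (lt_of_le_of_lt (hσ.cls_le _) (hσ.lt_of_mem hq))
    have hl2 : σ.cls (q + 1) ∈ range σ.T :=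
      mem_range.mpr (lt_of_le_of_lt (hσ.cls_le _) (hσ.succ_lt_of_mem hq))
    have key : ∀ v w : ℕ, v ∈ σ.mrk → w ∈ range σ.T → w ∉ σ.mrk →
        ((σ.cls q = v ∧ σ.cls (q + 1) = w) ∨ (σ.cls q = w ∧ σ.cls (q + 1) = v)) →
        1 ≤ ∑ v ∈ σ.mrk, ∑ w ∈ (range σ.T).filter (fun w => w ∉ σ.mrk),
          (if (σ.cls q = v ∧ σ.cls (q + 1) = w) ∨ (σ.cls q = w ∧ σ.cls (q + 1) = v)
            then 1 else 0) := by
      intro v w hv hw hw' hc
      have h1 := single_le_sum (f := fun v => ∑ w ∈ (range σ.T).filter (fun w => w ∉ σ.mrk),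
          (if (σ.cls q = v ∧ σ.cls (q + 1) = w) ∨ (σ.cls q = w ∧ σ.cls (q + 1) = v)
            then 1 else 0)) (fun _ _ => Nat.zero_le _) hv
      refine le_trans ?_ h1
      have h2 := single_le_sum (s := (range σ.T).filter (fun w => w ∉ σ.mrk)) (f := fun w =>
          (if (σ.cls q = v ∧ σ.cls (q + 1) = w) ∨ (σ.cls q = w ∧ σ.cls (q + 1) = v)
            then 1 else 0)) (fun _ _ => Nat.zero_le _) (mem_filter.mpr ⟨hw, hw'⟩)
      refine le_trans ?_ h2
      simp only [if_pos hc, le_refl]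
    by_cases h1 : σ.cls q ∈ σ.mrk
    · have h2 : σ.cls (q + 1) ∉ σ.mrk := fun h2 => h (by simp [h1, h2])
      exact key _ _ h1 hl2 h2 (Or.inl ⟨rfl, rfl⟩)
    · have h2 : σ.cls (q + 1) ∈ σ.mrk := by
        by_contra h2
        exact h (by simp [h1, h2])
      exact key _ _ h2 hl1 h1 (Or.inr ⟨rfl, rfl⟩)
  · rw [if_neg h]
    exact Nat.zero_le _

/-- open ends at unmarked classes -/
theorem oe_ge (V : Finset ℕ) (hV : ∀ v ∈ V, v ∉ σ.mrk) :
    ∑ v ∈ V, ((range σ.T).filter (fun p => σ.OpenEnd p ∧ σ.cls p = v)).card ≤ σ.oe := by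
  unfold Shape.oe
  rw [← card_biUnion]
  · apply card_le_card
    intro p hp
    simp only [mem_biUnion, mem_filter] at hp ⊢
    obtain ⟨v, hv, h1, h2, h3⟩ := hp
    exact ⟨h1, h2, by rw [h3]; exact hV v hv⟩
  · intro v _ w _ hvw
    rw [Function.onFun, disjoint_left]
    intro p hp hp'
    rw [mem_filter] at hp hp'
    exact hvw (hp.2.2.symm.trans hp'.2.2)

end Core

open Loc.Core

variable {S : Type} [Fintype S]

theorem core (κ : KD S) (M : Model S) (hf : κ.Fits M) (Z I : ℕ) : ∃ Cc : ℝ, 0 < Cc ∧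
    ∀ σ : Shape, σ.Good Z I → ∀ m, 1 ≤ M.sz m → ∀ ℓ : ℕ → S × Bool, σ.LabOK ℓ →
      (∏ t ∈ Finset.Icc 1 Z, At M m σ t ℓ) ^ 2 * (M.sz m : ℝ) ^ σ.om ≤
        Cc * (M.sz m : ℝ) ^ σ.oe * (κ.q0⁻¹) ^ σ.ug * κ.ρ ^ σ.gl *
          (∏ t ∈ Finset.Icc 1 Z, Wt κ σ t ℓ) ^ 2 := by
  obtain ⟨c, hc1, hc⟩ := exists_Nm κ
  obtain ⟨Cd, hCd, hCd'⟩ := prod_delta κ.δ κ.δ_pos Z I
  have htot := κ.one_le_tot
  set C2 : ℝ := (κ.tot ^ 2) ^ Z * c ^ (2 * Z) with hC2
  have hC21 : 1 ≤ C2 := by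
    have h1 : 1 ≤ (κ.tot ^ 2) ^ Z := one_le_pow₀ (one_le_pow₀ htot)
    have h2 : 1 ≤ c ^ (2 * Z) := one_le_pow₀ hc1
    nlinarith
  have hC12 : c ^ (2 * Z) ≤ C2 := by
    have h1 : 1 ≤ (κ.tot ^ 2) ^ Z := one_le_pow₀ (one_le_pow₀ htot)
    have h2 : 0 < c ^ (2 * Z) := by positivity
    nlinarith
  have hρ := κ.ρ_pos
  have hq0 := κ.q0_pos
  refine ⟨C2 ^ I * (Cd * (κ.ρ⁻¹) ^ (Z * I) * (κ.q0⁻¹) ^ (Z * I)), by positivity, ?_⟩
  intro σ hσ m hm ℓ hℓ
  have hB : σ.Basic := hσ.toBasic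
  have hZ := hσ.card_cls
  have hs : (1 : ℝ) ≤ M.sz m := by exact_mod_cast hm
  have hs0 : (0 : ℝ) < M.sz m := by linarith
  rw [prod_At_sq M m hB hℓ Z]
  set G : ℕ → ℝ := fun v => ∏ t ∈ Icc 1 Z, Fac M m σ t ℓ v with hG
  have hG0 : ∀ v, 0 ≤ G v := fun v => prod_nonneg fun t _ => Fac_nonneg m t v
  -- irregular classes
  set V1 := (range σ.T).filter (fun v => σ.cls v = v ∧ ¬ σ.Reg v) with hV1
  have hsplit : ∏ v ∈ range σ.T, G v =
      (∏ v ∈ (range σ.T).filter (fun v => σ.Reg v), G v) * ∏ v ∈ V1, G v := by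
    rw [← prod_filter_mul_prod_filter_not (range σ.T) (fun v => σ.Reg v)]
    congr 1
    symm
    refine prod_subset ?_ ?_
    · intro v hv
      rw [hV1, mem_filter] at hv
      exact mem_filter.mpr ⟨hv.1, hv.2.2⟩
    · intro v hv hv'
      rw [mem_filter] at hv
      rw [hV1, mem_filter] at hv'
      have h1 : σ.cls v ≠ v := fun h => hv' ⟨hv.1, h, hv.2⟩
      exact prod_eq_one fun t ht => noncan M m hB (mem_Icc.mp ht).1 h1
  have hirr : (∏ v ∈ V1, G v) * (M.sz m : ℝ) ^ σ.om ≤ C2 ^ I * (M.sz m : ℝ) ^ σ.oe := by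
    set e : ℕ → ℕ := fun v => if v ∈ σ.mrk then
      ∑ w ∈ (range σ.T).filter (fun w => w ∉ σ.mrk), σ.am v w else 0 with he
    set o : ℕ → ℕ := fun v => if v ∈ σ.mrk then 0 else
      ((range σ.T).filter (fun p => σ.OpenEnd p ∧ σ.cls p = v)).card with ho
    have h1 : ∀ v ∈ V1, G v * (M.sz m : ℝ) ^ e v ≤ C2 * (M.sz m : ℝ) ^ o v := by
      intro v hv
      rw [hV1, mem_filter, mem_range] at hv
      by_cases hvm : v ∈ σ.mrk
      · simp only [he, ho, if_pos hvm, pow_zero, mul_one]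
        exact (marked_le hf hc1 hc hm hB hZ hvm).trans hC12
      · simp only [he, ho, if_neg hvm, pow_zero, mul_one]
        exact unmarked_le hf hc1 hc hm hB hZ hvm _ (fun w => chi_le hB v w hv.1)
    have h2 : (∏ v ∈ V1, G v) * (M.sz m : ℝ) ^ (∑ v ∈ V1, e v) ≤
        C2 ^ V1.card * (M.sz m : ℝ) ^ (∑ v ∈ V1, o v) := by
      rw [← prod_pow_eq_pow_sum, ← prod_pow_eq_pow_sum, ← prod_mul_distrib, ← prod_const,
        ← prod_mul_distrib]
      exact prod_le_prod (fun v _ => mul_nonneg (hG0 v) (by positivity)) h1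
    have h3 : σ.om ≤ ∑ v ∈ V1, e v := by
      refine (om_le hB).trans ?_
      have h4 : σ.mrk ⊆ V1 := by
        intro v hv
        rw [hV1, mem_filter, mem_range]
        have := hB.mrk_lt v hv
        exact ⟨this.1, this.2, fun h => h.2.2.1 hv⟩
      refine le_trans ?_ (sum_le_sum_of_subset h4)
      refine sum_le_sum fun v hv => ?_
      simp only [he, if_pos hv, le_refl]
    have h5 : ∑ v ∈ V1, o v ≤ σ.oe := by
      have h6 : ∑ v ∈ V1, o v = ∑ v ∈ V1.filter (fun v => v ∉ σ.mrk),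
          ((range σ.T).filter (fun p => σ.OpenEnd p ∧ σ.cls p = v)).card := by
        conv_rhs => rw [sum_filter]
        refine sum_congr rfl fun v _ => ?_
        by_cases hvm : v ∈ σ.mrk
        · simp [ho, hvm]
        · simp [ho, hvm]
      rw [h6]
      exact oe_ge _ fun v hv => (mem_filter.mp hv).2
    have h7 : V1.card ≤ I := hσ.irr
    calc (∏ v ∈ V1, G v) * (M.sz m : ℝ) ^ σ.om
        ≤ (∏ v ∈ V1, G v) * (M.sz m : ℝ) ^ (∑ v ∈ V1, e v) := by
          refine mul_le_mul_of_nonneg_left ?_ (prod_nonneg fun v _ => hG0 v)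
          exact pow_le_pow_right₀ hs h3
      _ ≤ C2 ^ V1.card * (M.sz m : ℝ) ^ (∑ v ∈ V1, o v) := h2
      _ ≤ C2 ^ I * (M.sz m : ℝ) ^ σ.oe := by
          refine mul_le_mul (pow_le_pow_right₀ hC21 h7) (pow_le_pow_right₀ hs h5)
            (by positivity) (by positivity)
  -- regular classes
  have hreg : ∏ v ∈ (range σ.T).filter (fun v => σ.Reg v), G v ≤
      (Cd * (κ.ρ⁻¹) ^ (Z * I) * (κ.q0⁻¹) ^ (Z * I)) *
        ((κ.q0⁻¹) ^ σ.ug * κ.ρ ^ σ.gl * (∏ t ∈ Icc 1 Z, Wt κ σ t ℓ) ^ 2) := by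
    have h1 : ∏ v ∈ (range σ.T).filter (fun v => σ.Reg v), G v ≤
        ∏ v ∈ (range σ.T).filter (fun v => σ.Reg v), X κ ℓ v ^ σ.Mv v :=
      prod_le_prod (fun v _ => hG0 v) fun v hv =>
        reg_le hf hm hB hℓ hZ (mem_filter.mp hv).2
    refine h1.trans ?_
    rw [prod_reg κ hB hℓ]
    have h2 : ∏ p ∈ σ.RP, X κ ℓ p = κ.ρ ^ σ.RP.card *
        (∏ p ∈ σ.RP, κ.q (hinv (ℓ (p - 1))) (ℓ p)) *
        ∏ p ∈ σ.RP, (κ.δ (ℓ (p - 1)) * (κ.δ (ℓ p))⁻¹) := by
      unfold X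
      rw [prod_mul_distrib, prod_mul_distrib, prod_const]
    have h3 := prod_q κ hσ ℓ hℓ
    have h4 := hCd' σ hσ ℓ
    have h5 := gl_le_RP hσ
    have h6 : κ.ρ ^ σ.RP.card ≤ (κ.ρ⁻¹) ^ (Z * I) * κ.ρ ^ σ.gl := by
      rw [inv_pow, ← div_eq_inv_mul, le_div_iff₀ (by positivity), ← pow_add]
      exact pow_le_pow_of_le_one hρ.le κ.ρ_lt.le h5
    have h7 : 0 ≤ ∏ p ∈ σ.RP, κ.q (hinv (ℓ (p - 1))) (ℓ p) :=
      prod_nonneg fun p _ => (Core.q_pos κ _ _).le
    have h8 : 0 ≤ ∏ p ∈ σ.RP, (κ.δ (ℓ (p - 1)) * (κ.δ (ℓ p))⁻¹) :=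
      prod_nonneg fun p _ => mul_nonneg (κ.δ_pos _).le (inv_nonneg.mpr (κ.δ_pos _).le)
    change ∏ p ∈ σ.RP, X κ ℓ p ≤ _
    rw [h2]
    calc κ.ρ ^ σ.RP.card * (∏ p ∈ σ.RP, κ.q (hinv (ℓ (p - 1))) (ℓ p)) *
          ∏ p ∈ σ.RP, (κ.δ (ℓ (p - 1)) * (κ.δ (ℓ p))⁻¹)
        ≤ ((κ.ρ⁻¹) ^ (Z * I) * κ.ρ ^ σ.gl) *
            ((κ.q0⁻¹) ^ (σ.ug + Z * I) * (∏ t ∈ Icc 1 Z, Wt κ σ t ℓ) ^ 2) * Cd := by
          gcongr
      _ = _ := by rw [pow_add]; ring
  have hWt : 0 ≤ ∏ v ∈ V1, G v := prod_nonneg fun v _ => hG0 v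
  calc (∏ v ∈ range σ.T, G v) * (M.sz m : ℝ) ^ σ.om
      = (∏ v ∈ (range σ.T).filter (fun v => σ.Reg v), G v) *
          ((∏ v ∈ V1, G v) * (M.sz m : ℝ) ^ σ.om) := by rw [hsplit]; ring
    _ ≤ ((Cd * (κ.ρ⁻¹) ^ (Z * I) * (κ.q0⁻¹) ^ (Z * I)) *
        ((κ.q0⁻¹) ^ σ.ug * κ.ρ ^ σ.gl * (∏ t ∈ Icc 1 Z, Wt κ σ t ℓ) ^ 2)) *
          (C2 ^ I * (M.sz m : ℝ) ^ σ.oe) := by
        refine mul_le_mul hreg hirr (mul_nonneg hWt (by positivity)) (by positivity)
    _ = _ := by ring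

end Crest.Agent.R177.Loc
end

-- ▼ part R177/LocCode
section

/-!
# Rows 177 / 184, module LOC, part LB (helper541): the number of shapes
-/

set_option autoImplicit false

open scoped Classical

namespace Crest.Agent.R177.Loc

/-- number of subsets of size at most `B` -/
theorem card_powerset_filter_le {β : Type} (s : Finset β) (B : ℕ) :
    (s.powerset.filter (fun t => t.card ≤ B)).card ≤ (s.card + 1) ^ B := by
  induction B with
  | zero =>
    have hsub : s.powerset.filter (fun t => t.card ≤ 0) ⊆ {∅} := by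
      intro t ht
      simp only [Finset.mem_filter, Nat.le_zero, Finset.card_eq_zero] at ht
      simpa using ht.2
    simpa using Finset.card_le_card hsub
  | succ B ih =>
    have hsub : s.powerset.filter (fun t => t.card ≤ B + 1) ⊆
        ((insert none (s.image some)) ×ˢ (s.powerset.filter (fun t => t.card ≤ B))).image
          (fun o : Option β × Finset β => o.1.elim o.2 (fun x => insert x o.2)) := by
      intro t ht
      simp only [Finset.mem_filter, Finset.mem_powerset] at ht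
      simp only [Finset.mem_image, Finset.mem_product, Finset.mem_insert, Finset.mem_filter,
        Finset.mem_powerset, Prod.exists]
      by_cases hc : t.card ≤ B
      · exact ⟨none, t, ⟨Or.inl rfl, ht.1, hc⟩, rfl⟩
      · have hne : t.Nonempty := by
          rw [← Finset.card_pos]; omega
        obtain ⟨x, hx⟩ := hne
        refine ⟨some x, t.erase x, ⟨Or.inr ⟨x, ht.1 hx, rfl⟩,
          (Finset.erase_subset _ _).trans ht.1, ?_⟩, ?_⟩
        · rw [Finset.card_erase_of_mem hx]; omega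
        · simp [Finset.insert_erase hx]
    refine (Finset.card_le_card hsub).trans (Finset.card_image_le.trans ?_)
    rw [Finset.card_product, pow_succ, mul_comm]
    refine Nat.mul_le_mul ih ?_
    refine (Finset.card_insert_le _ _).trans ?_
    exact Nat.add_le_add_right Finset.card_image_le 1

namespace Shape

variable (σ : Shape)

/-- number of positions before `p` which are not darts -/
noncomputable def cnt (p : ℕ) : ℕ := ((Finset.range p).filter (fun q => q ∉ σ.D)).card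

/-- index of the arc of the position `p` -/
noncomputable def arc (g' p : ℕ) : ℕ := p / g' + σ.cnt p

theorem cnt_mono {p q : ℕ} (h : p ≤ q) : σ.cnt p ≤ σ.cnt q :=
  Finset.card_le_card (Finset.filter_subset_filter _ (Finset.range_mono h))

theorem arc_mono (g' : ℕ) {p q : ℕ} (h : p ≤ q) : σ.arc g' p ≤ σ.arc g' q :=
  Nat.add_le_add (Nat.div_le_div_right h) (σ.cnt_mono h)

variable {σ}

theorem arc_eq {g' : ℕ} (hg : 0 < g') {p q : ℕ} (h : σ.arc g' p = σ.arc g' q) (hpq : p ≤ q) :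
    q - p < g' ∧ ∀ r, p ≤ r → r < q → r ∈ σ.D := by
  have h1 : p / g' ≤ q / g' := Nat.div_le_div_right hpq
  have h2 := σ.cnt_mono hpq
  unfold arc at h
  have h3 : p / g' = q / g' := by omega
  have h4 : σ.cnt p = σ.cnt q := by omega
  constructor
  · have e1 := Nat.div_add_mod p g'
    have e2 := Nat.div_add_mod q g'
    rw [← h3] at e2
    have := Nat.mod_lt q hg
    omega
  · intro r hr hrq
    by_contra hD
    have hlt : (Finset.range p).filter (fun q => q ∉ σ.D) ⊂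
        (Finset.range q).filter (fun q => q ∉ σ.D) := by
      refine ⟨Finset.filter_subset_filter _ (Finset.range_mono hpq), fun hh => ?_⟩
      have : r ∈ (Finset.range q).filter (fun q => q ∉ σ.D) := by simp [hrq, hD]
      have := hh this
      simp only [Finset.mem_filter, Finset.mem_range] at this
      omega
    have := Finset.card_lt_card hlt
    unfold cnt at h4
    omega

section Cls

variable {K D1 g' Y : ℕ} (hσ : σ.Pre K D1 g') (hg : 2 ≤ g')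

include hσ in
theorem arc_le (hT : σ.T ≤ Y * g') {p : ℕ} (hp : p < σ.T) :
    σ.arc g' p ≤ Y + K := by
  unfold arc
  refine Nat.add_le_add ?_ ?_
  · refine Nat.div_le_of_le_mul ?_
    rw [mul_comm]; omega
  · refine le_trans (Finset.card_le_card ?_) hσ.paths_le
    intro q hq
    simp only [Finset.mem_filter, Finset.mem_range] at hq
    simp only [Finset.mem_sdiff, Finset.mem_range]
    exact ⟨by omega, hq.2⟩

/-- `p` has a partner in the arc `b` -/
def Match (σ : Shape) (g' p b : ℕ) : Prop := ∃ q, σ.arc g' q = b ∧ σ.cls q = σ.cls p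

include hσ in
theorem match_self (p : ℕ) : σ.Match g' p (σ.arc g' (σ.cls p)) :=
  ⟨σ.cls p, rfl, hσ.cls_cls p⟩

include hσ in
theorem match_le {p b : ℕ} (h : σ.Match g' p b) : σ.arc g' (σ.cls p) ≤ b := by
  obtain ⟨q, rfl, hq⟩ := h
  rw [← hq]
  exact σ.arc_mono g' (hσ.cls_le q)

include hσ hg in
theorem ovl_pair {p p' q q' : ℕ} (hp : σ.arc g' p = σ.arc g' p') (hpp : p ≤ p')
    (hq : σ.arc g' q = σ.arc g' q') (h1 : σ.cls p = σ.cls q) (h2 : σ.cls p' = σ.cls q') :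
    (q ≤ q' ∧ q' - q = p' - p ∧ ∀ i ≤ p' - p, σ.cls (p + i) = σ.cls (q + i)) ∨
    (q' ≤ q ∧ q - q' = p' - p ∧ ∀ i ≤ p' - p, σ.cls (p + i) = σ.cls (q' + (p' - p - i))) := by
  obtain ⟨hd, hD⟩ := arc_eq (by omega) hp hpp
  rcases le_total q q' with hqq | hqq
  · left
    obtain ⟨he, hE⟩ := arc_eq (by omega) hq hqq
    have := (hσ.ovl p q (p' - p) (q' - q) hd.le he.le (fun i hi => hD _ (by omega) (by omega))
      (fun i hi => hE _ (by omega) (by omega))).1 h1 (by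
        rw [Nat.add_sub_cancel' hpp, Nat.add_sub_cancel' hqq]; exact h2)
    exact ⟨hqq, this.1, this.2⟩
  · right
    obtain ⟨he, hE⟩ := arc_eq (by omega) hq.symm hqq
    have := (hσ.ovl p q' (p' - p) (q - q') hd.le he.le (fun i hi => hD _ (by omega) (by omega))
      (fun i hi => hE _ (by omega) (by omega))).2 (by
        rw [Nat.add_sub_cancel' hqq]; exact h1) (by
        rw [Nat.add_sub_cancel' hpp]; exact h2)
    exact ⟨hqq, this.1, this.2⟩

include hσ hg in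
theorem match_conv {p p' p'' b : ℕ} (ha : σ.arc g' p = σ.arc g' p'') (h1 : p ≤ p')
    (h2 : p' ≤ p'') (hm : σ.Match g' p b) (hm' : σ.Match g' p'' b) : σ.Match g' p' b := by
  obtain ⟨q, hq, hqc⟩ := hm
  obtain ⟨q'', hq'', hqc''⟩ := hm'
  rcases ovl_pair hσ hg ha (h1.trans h2) (hq.trans hq''.symm) hqc.symm hqc''.symm with
    ⟨hle, he, hi⟩ | ⟨hle, he, hi⟩
  · refine ⟨q + (p' - p), ?_, ?_⟩
    · apply le_antisymm
      · rw [← hq'']; exact σ.arc_mono g' (by omega)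
      · rw [← hq]; exact σ.arc_mono g' (by omega)
    · have := hi (p' - p) (by omega)
      rw [Nat.add_sub_cancel' h1] at this
      exact this.symm
  · refine ⟨q'' + (p'' - p - (p' - p)), ?_, ?_⟩
    · apply le_antisymm
      · rw [← hq]; exact σ.arc_mono g' (by omega)
      · rw [← hq'']; exact σ.arc_mono g' (by omega)
    · have := hi (p' - p) (by omega)
      rw [Nat.add_sub_cancel' h1] at this
      exact this.symm

include hσ hg in
/-- the recursion of `cls` inside an arc -/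
theorem cls_rec {p : ℕ} (ha : σ.arc g' p = σ.arc g' (p + 2))
    (hb1 : σ.arc g' (σ.cls p) = σ.arc g' (σ.cls (p + 1)))
    (hb2 : σ.arc g' (σ.cls (p + 1)) = σ.arc g' (σ.cls (p + 2))) :
    σ.cls (p + 2) + σ.cls p = 2 * σ.cls (p + 1) := by
  have ha1 : σ.arc g' p = σ.arc g' (p + 1) :=
    le_antisymm (σ.arc_mono g' (by omega)) (by rw [ha]; exact σ.arc_mono g' (by omega))
  have ha2 : σ.arc g' (p + 1) = σ.arc g' (p + 2) := ha1.symm.trans ha
  have e1 := ovl_pair hσ hg ha1 (by omega) hb1 (hσ.cls_cls p).symm (hσ.cls_cls (p + 1)).symm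
  have e2 := ovl_pair hσ hg ha2 (by omega) hb2 (hσ.cls_cls (p + 1)).symm
    (hσ.cls_cls (p + 2)).symm
  have e3 := ovl_pair hσ hg ha (by omega) (hb1.trans hb2) (hσ.cls_cls p).symm
    (hσ.cls_cls (p + 2)).symm
  omega

/-- exceptional positions of `cls` -/
noncomputable def ExC (σ : Shape) : Finset ℕ :=
  (Finset.range σ.T).filter (fun p => ¬ (2 ≤ p ∧ σ.cls p + σ.cls (p - 2) = 2 * σ.cls (p - 1)))

/-- positions where the arc changes -/
noncomputable def ExJ (σ : Shape) (g' : ℕ) : Finset ℕ :=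
  (Finset.range σ.T).filter (fun p => p + 1 < σ.T ∧ σ.arc g' p ≠ σ.arc g' (p + 1))

noncomputable def ExL (σ : Shape) (g' : ℕ) : Finset ℕ :=
  (Finset.range σ.T).filter (fun p => p + 1 < σ.T ∧ σ.arc g' p = σ.arc g' (p + 1) ∧
    ¬ σ.Match g' p (σ.arc g' (σ.cls (p + 1))))

noncomputable def ExR (σ : Shape) (g' : ℕ) : Finset ℕ :=
  (Finset.range σ.T).filter (fun p => p + 1 < σ.T ∧ σ.arc g' p = σ.arc g' (p + 1) ∧
    ¬ σ.Match g' (p + 1) (σ.arc g' (σ.cls p)))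

include hσ in
theorem card_ExJ (hT : σ.T ≤ Y * g') : (σ.ExJ g').card ≤ Y + K + 1 := by
  rw [← Finset.card_range (Y + K + 1)]
  refine Finset.card_le_card_of_injOn (fun p => σ.arc g' p) ?_ ?_
  · intro p hp
    simp only [ExJ, Finset.coe_filter, Finset.mem_range, Set.mem_ofPred_eq] at hp
    simp only [Finset.coe_range, Set.mem_Iio]
    have := arc_le hσ hT hp.1
    omega
  · intro p hp q hq h
    simp only [ExJ, Finset.coe_filter, Finset.mem_range, Set.mem_ofPred_eq] at hp hq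
    simp only at h
    rcases lt_trichotomy p q with hlt | heq | hlt
    · exfalso
      apply hp.2.2
      have := σ.arc_mono g' (show p + 1 ≤ q by omega)
      have := σ.arc_mono g' (show p ≤ p + 1 by omega)
      omega
    · exact heq
    · exfalso
      apply hq.2.2
      have := σ.arc_mono g' (show q + 1 ≤ p by omega)
      have := σ.arc_mono g' (show q ≤ q + 1 by omega)
      omega

include hσ hg in
theorem card_ExL (hT : σ.T ≤ Y * g') : (σ.ExL g').card ≤ (Y + K + 1) * (Y + K + 1) := by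
  have hc : ((Finset.range (Y + K + 1)) ×ˢ (Finset.range (Y + K + 1))).card =
      (Y + K + 1) * (Y + K + 1) := by simp
  rw [← hc]
  refine Finset.card_le_card_of_injOn
    (fun p => (σ.arc g' p, σ.arc g' (σ.cls (p + 1)))) ?_ ?_
  · intro p hp
    simp only [ExL, Finset.coe_filter, Finset.mem_range, Set.mem_ofPred_eq] at hp
    simp only [Finset.coe_product, Finset.coe_range, Set.mem_prod, Set.mem_Iio]
    have h1 := arc_le hσ hT hp.1
    have h2 : σ.arc g' (σ.cls (p + 1)) ≤ Y + K :=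
      arc_le hσ hT (lt_of_le_of_lt (hσ.cls_le _) hp.2.1)
    omega
  · intro p hp q hq h
    simp only [ExL, Finset.coe_filter, Finset.mem_range, Set.mem_ofPred_eq] at hp hq
    simp only [Prod.mk.injEq] at h
    obtain ⟨ha, hb⟩ := h
    have key : ∀ p q : ℕ, p < q → σ.arc g' p = σ.arc g' (p + 1) → σ.arc g' q = σ.arc g' (q + 1) →
        σ.arc g' p = σ.arc g' q → σ.arc g' (σ.cls (p + 1)) = σ.arc g' (σ.cls (q + 1)) →
        σ.Match g' q (σ.arc g' (σ.cls (q + 1))) := by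
      intro p q hlt h1 h2 ha hb
      refine match_conv hσ hg (p := p + 1) (p'' := q + 1) (by omega) (by omega) (by omega) ?_
        (match_self hσ (q + 1))
      rw [← hb]
      exact match_self hσ (p + 1)
    rcases lt_trichotomy p q with hlt | heq | hlt
    · exact absurd (key p q hlt hp.2.2.1 hq.2.2.1 ha hb) hq.2.2.2
    · exact heq
    · exact absurd (key q p hlt hq.2.2.1 hp.2.2.1 ha.symm hb.symm) hp.2.2.2

include hσ hg in
theorem card_ExR (hT : σ.T ≤ Y * g') : (σ.ExR g').card ≤ (Y + K + 1) * (Y + K + 1) := by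
  have hc : ((Finset.range (Y + K + 1)) ×ˢ (Finset.range (Y + K + 1))).card =
      (Y + K + 1) * (Y + K + 1) := by simp
  rw [← hc]
  refine Finset.card_le_card_of_injOn
    (fun p => (σ.arc g' p, σ.arc g' (σ.cls p))) ?_ ?_
  · intro p hp
    simp only [ExR, Finset.coe_filter, Finset.mem_range, Set.mem_ofPred_eq] at hp
    simp only [Finset.coe_product, Finset.coe_range, Set.mem_prod, Set.mem_Iio]
    have h1 := arc_le hσ hT hp.1
    have h2 : σ.arc g' (σ.cls p) ≤ Y + K :=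
      arc_le hσ hT (lt_of_le_of_lt (hσ.cls_le _) hp.1)
    omega
  · intro p hp q hq h
    simp only [ExR, Finset.coe_filter, Finset.mem_range, Set.mem_ofPred_eq] at hp hq
    simp only [Prod.mk.injEq] at h
    obtain ⟨ha, hb⟩ := h
    have key : ∀ p q : ℕ, p < q → σ.arc g' p = σ.arc g' q →
        σ.arc g' (σ.cls p) = σ.arc g' (σ.cls q) →
        σ.Match g' (p + 1) (σ.arc g' (σ.cls p)) := by
      intro p q hlt ha hb
      refine match_conv hσ hg (p := p) (p'' := q) ha (by omega) (by omega) (match_self hσ p) ?_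
      rw [hb]
      exact match_self hσ q
    rcases lt_trichotomy p q with hlt | heq | hlt
    · exact absurd (key p q hlt ha hb) hp.2.2.2
    · exact heq
    · exact absurd (key q p hlt ha.symm hb.symm) hq.2.2.2

include hσ hg in
theorem ExC_subset : σ.ExC ⊆ {0, 1} ∪ ((σ.ExJ g' ∪ σ.ExL g' ∪ σ.ExR g').image (· + 1) ∪
    (σ.ExJ g' ∪ σ.ExL g' ∪ σ.ExR g').image (· + 2)) := by
  intro p hp
  simp only [ExC, Finset.mem_filter, Finset.mem_range, not_and] at hp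
  obtain ⟨hpT, hp⟩ := hp
  simp only [Finset.mem_union, Finset.mem_insert, Finset.mem_singleton, Finset.mem_image]
  by_cases h2 : 2 ≤ p
  · right
    have hp := hp h2
    obtain ⟨r, rfl⟩ : ∃ r, p = r + 2 := ⟨p - 2, by omega⟩
    simp only [Nat.add_sub_cancel, show r + 2 - 1 = r + 1 by omega] at hp
    by_contra hcon
    push Not at hcon
    obtain ⟨hc1, hc2⟩ := hcon
    have m1 : r + 1 ∉ σ.ExJ g' ∧ r + 1 ∉ σ.ExL g' ∧ r + 1 ∉ σ.ExR g' := by
      refine ⟨fun h => ?_, fun h => ?_, fun h => ?_⟩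
      · exact hc1 (r + 1) (Or.inl (Or.inl h)) rfl
      · exact hc1 (r + 1) (Or.inl (Or.inr h)) rfl
      · exact hc1 (r + 1) (Or.inr h) rfl
    have m2 : r ∉ σ.ExJ g' ∧ r ∉ σ.ExL g' ∧ r ∉ σ.ExR g' := by
      refine ⟨fun h => ?_, fun h => ?_, fun h => ?_⟩
      · exact hc2 r (Or.inl (Or.inl h)) rfl
      · exact hc2 r (Or.inl (Or.inr h)) rfl
      · exact hc2 r (Or.inr h) rfl
    have step : ∀ s, s + 1 < σ.T → s ∉ σ.ExJ g' ∧ s ∉ σ.ExL g' ∧ s ∉ σ.ExR g' →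
        σ.arc g' s = σ.arc g' (s + 1) ∧ σ.arc g' (σ.cls s) = σ.arc g' (σ.cls (s + 1)) := by
      intro s hs ⟨a1, a2, a3⟩
      simp only [ExJ, ExL, ExR, Finset.mem_filter, Finset.mem_range, not_and, not_not] at a1 a2 a3
      have b1 := a1 (by omega) hs
      have b2 := a2 (by omega) hs b1
      have b3 := a3 (by omega) hs b1
      exact ⟨b1, le_antisymm (match_le hσ b2) (match_le hσ b3)⟩
    obtain ⟨e1, f1⟩ := step r (by omega) m2
    obtain ⟨e2, f2⟩ := step (r + 1) (by omega) m1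
    exact hp (cls_rec hσ hg (e1.trans e2) f1 f2)
  · left; omega

include hσ hg in
theorem card_ExC (hT : σ.T ≤ Y * g') :
    σ.ExC.card ≤ 2 + 2 * ((Y + K + 1) + 2 * ((Y + K + 1) * (Y + K + 1))) := by
  refine (Finset.card_le_card (ExC_subset hσ hg)).trans ?_
  refine (Finset.card_union_le _ _).trans ?_
  have h0 : ({0, 1} : Finset ℕ).card ≤ 2 := Finset.card_le_two
  have hU : (σ.ExJ g' ∪ σ.ExL g' ∪ σ.ExR g').card ≤
      (Y + K + 1) + 2 * ((Y + K + 1) * (Y + K + 1)) := by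
    have := card_ExJ hσ hT
    have := card_ExL hσ hg hT
    have := card_ExR hσ hg hT
    have h1 := Finset.card_union_le (σ.ExJ g' ∪ σ.ExL g') (σ.ExR g')
    have h2 := Finset.card_union_le (σ.ExJ g') (σ.ExL g')
    omega
  have h3 := Finset.card_union_le ((σ.ExJ g' ∪ σ.ExL g' ∪ σ.ExR g').image (· + 1))
    ((σ.ExJ g' ∪ σ.ExL g' ∪ σ.ExR g').image (· + 2))
  have h4 : ((σ.ExJ g' ∪ σ.ExL g' ∪ σ.ExR g').image (· + 1)).card ≤ _ := Finset.card_image_le
  have h5 : ((σ.ExJ g' ∪ σ.ExL g' ∪ σ.ExR g').image (· + 2)).card ≤ _ := Finset.card_image_le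
  omega

/-- exceptional positions of `mt` -/
noncomputable def ExM (σ : Shape) : Finset ℕ :=
  (Finset.range σ.T).filter (fun p => ¬ (1 ≤ p ∧ σ.mt p = (σ.mt (p - 1)).map (· - 1)))

include hσ in
theorem card_ExM : σ.ExM.card ≤ 1 + 2 * D1 := by
  set E := (Finset.range σ.T).filter (fun p => σ.mt p ≠ none ∧ σ.mt (p + 1) = none) with hE
  set St := (Finset.range σ.T).filter (fun p => σ.mt p ≠ none ∧ (1 ≤ p ∧ σ.mt (p - 1) = none))
    with hSt
  have hSE : St.card ≤ E.card := by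
    refine Finset.card_le_card_of_injOn (fun p => (σ.mt p).getD 0) ?_ ?_
    · intro p hp
      simp only [hSt, Finset.coe_filter, Finset.mem_range, Set.mem_ofPred_eq] at hp
      obtain ⟨hpT, hne, h1, hnone⟩ := hp
      obtain ⟨p', hp'⟩ := Option.ne_none_iff_exists'.mp hne
      have hs := hσ.mt_symm _ _ hp'
      have hcor := hσ.mt_cor _ _ hs
      have hlt := hσ.D_lt _ hcor.2.2
      simp only [hE, hp', Option.getD_some, Finset.coe_filter, Finset.mem_range, Set.mem_ofPred_eq]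
      refine ⟨by omega, by rw [hs]; simp, ?_⟩
      by_contra hcon
      obtain ⟨r, hr⟩ := Option.ne_none_iff_exists'.mp hcon
      have := hσ.mt_coh _ _ _ hs hr
      have hr' := hσ.mt_symm _ _ hr
      have e : r = p - 1 := by omega
      rw [e, hnone] at hr'
      cases hr'
    · intro p hp q hq h
      simp only [hSt, Finset.coe_filter, Finset.mem_range, Set.mem_ofPred_eq] at hp hq
      obtain ⟨p', hp'⟩ := Option.ne_none_iff_exists'.mp hp.2.1
      obtain ⟨q', hq'⟩ := Option.ne_none_iff_exists'.mp hq.2.1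
      simp only [hp', hq', Option.getD_some] at h
      subst h
      have e1 := hσ.mt_symm _ _ hp'
      have e2 := hσ.mt_symm _ _ hq'
      rw [e1] at e2
      exact Option.some.inj e2
  have hsub : σ.ExM ⊆ {0} ∪ (St ∪ E.image (· + 1)) := by
    intro p hp
    simp only [ExM, Finset.mem_filter, Finset.mem_range, not_and] at hp
    obtain ⟨hpT, hp⟩ := hp
    simp only [hSt, hE, Finset.mem_union, Finset.mem_singleton, Finset.mem_filter,
      Finset.mem_range, Finset.mem_image]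
    by_cases h1 : 1 ≤ p
    · right
      have hp := hp h1
      rcases hm : σ.mt (p - 1) with _ | p'
      · left
        rw [hm] at hp
        simp only [Option.map_none] at hp
        exact ⟨hpT, hp, h1, rfl⟩
      · right
        refine ⟨p - 1, ⟨by omega, by simp [hm], ?_⟩, by omega⟩
        rw [Nat.sub_add_cancel h1]
        by_contra hcon
        obtain ⟨q, hq⟩ := Option.ne_none_iff_exists'.mp hcon
        have := hσ.mt_coh (p - 1) p' q hm (by rw [Nat.sub_add_cancel h1]; exact hq)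
        apply hp
        rw [hm, hq]
        simp only [Option.map_some, Option.some.injEq]
        omega
    · left; omega
  have h1 := Finset.card_le_card hsub
  have h2 := Finset.card_union_le {0} (St ∪ E.image (· + 1))
  have h3 := Finset.card_union_le St (E.image (· + 1))
  have h4 : (E.image (· + 1)).card ≤ E.card := Finset.card_image_le
  have h5 := hσ.ends_le
  rw [← hE] at h5
  simp only [Finset.card_singleton] at h2
  omega

include hσ in
theorem card_cs : σ.cs.card ≤ K + 1 := by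
  have hsub : σ.cs ⊆ {0} ∪ (Finset.range σ.T \ σ.D).image (· + 1) := by
    intro s hs
    have h := hσ.cs_start s hs
    simp only [Finset.mem_union, Finset.mem_singleton, Finset.mem_image, Finset.mem_sdiff,
      Finset.mem_range]
    by_cases h0 : s = 0
    · left; exact h0
    · right
      have hlt := hσ.D_lt _ h.1
      refine ⟨s - 1, ⟨by omega, fun hD => h.2 ⟨by omega, hD, h.1⟩⟩, by omega⟩
  have h1 := Finset.card_le_card hsub
  have h2 := Finset.card_union_le {0} ((Finset.range σ.T \ σ.D).image (· + 1))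
  have h3 : ((Finset.range σ.T \ σ.D).image (· + 1)).card ≤ _ := Finset.card_image_le
  have h4 := hσ.paths_le
  simp only [Finset.card_singleton] at h2
  omega

/-- code of an optional position -/
def oc : Option ℕ → ℕ
  | none => 0
  | some p => p + 1

theorem oc_inj {a b : Option ℕ} (h : oc a = oc b) : a = b := by
  cases a <;> cases b <;> simp_all [oc]

/-- the code of a shape -/
noncomputable def code (σ : Shape) : Finset (ℕ × ℕ × ℕ) :=
  {(0, σ.T, 0)} ∪ ((Finset.range σ.T \ σ.D).image (fun p => (1, p, 0)) ∪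
    (σ.ExC.image (fun p => (2, p, σ.cls p)) ∪ (σ.ExM.image (fun p => (3, p, oc (σ.mt p))) ∪
      (σ.cs.image (fun s => (4, s, σ.ce s)) ∪ σ.mrk.image (fun v => (5, v, 0))))))

theorem mem_code0 {σ : Shape} {a b : ℕ} : (0, a, b) ∈ σ.code ↔ a = σ.T ∧ b = 0 := by
  simp [code]

theorem mem_code1 {σ : Shape} {a b : ℕ} : (1, a, b) ∈ σ.code ↔ (a < σ.T ∧ a ∉ σ.D) ∧ b = 0 := by
  simp [code, eq_comm]

theorem mem_code2 {σ : Shape} {a b : ℕ} : (2, a, b) ∈ σ.code ↔ a ∈ σ.ExC ∧ b = σ.cls a := by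
  simp [code, eq_comm]

theorem mem_code3 {σ : Shape} {a b : ℕ} : (3, a, b) ∈ σ.code ↔ a ∈ σ.ExM ∧ b = oc (σ.mt a) := by
  simp [code, eq_comm]

theorem mem_code4 {σ : Shape} {a b : ℕ} : (4, a, b) ∈ σ.code ↔ a ∈ σ.cs ∧ b = σ.ce a := by
  simp [code, eq_comm]

theorem mem_code5 {σ : Shape} {a b : ℕ} : (5, a, b) ∈ σ.code ↔ a ∈ σ.mrk ∧ b = 0 := by
  simp [code, eq_comm]

end Cls

theorem code_inj {σ σ' : Shape} (hσ : σ.Basic) (hσ' : σ'.Basic) (h : σ.code = σ'.code) :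
    σ = σ' := by
  have hT : σ.T = σ'.T := by
    have : (0, σ.T, 0) ∈ σ'.code := by rw [← h, mem_code0]; exact ⟨rfl, rfl⟩
    exact (mem_code0.mp this).1
  have hD : σ.D = σ'.D := by
    ext p
    have h1 : (1, p, 0) ∈ σ.code ↔ (1, p, 0) ∈ σ'.code := by rw [h]
    rw [mem_code1, mem_code1, hT] at h1
    constructor
    · intro hp
      have := hσ.D_lt p hp
      by_contra hc
      exact (h1.mpr ⟨⟨by omega, hc⟩, rfl⟩).1.2 hp
    · intro hp
      have := hσ'.D_lt p hp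
      by_contra hc
      exact (h1.mp ⟨⟨by omega, hc⟩, rfl⟩).1.2 hp
  have hcls : ∀ p, σ.cls p = σ'.cls p := by
    intro p
    induction p using Nat.strong_induction_on with
    | _ p ih =>
      by_cases hp : p < σ.T
      · by_cases he : p ∈ σ.ExC
        · have : (2, p, σ.cls p) ∈ σ'.code := by rw [← h, mem_code2]; exact ⟨he, rfl⟩
          exact (mem_code2.mp this).2
        · by_cases he' : p ∈ σ'.ExC
          · have : (2, p, σ'.cls p) ∈ σ.code := by rw [h, mem_code2]; exact ⟨he', rfl⟩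
            exact (mem_code2.mp this).2.symm
          · simp only [ExC, Finset.mem_filter, Finset.mem_range, not_and] at he he'
            have e1 := he hp
            have e2 := he' (hT ▸ hp)
            have i1 := ih (p - 1) (by omega)
            have i2 := ih (p - 2) (by omega)
            omega
      · rw [hσ.cls_out p (by omega), hσ'.cls_out p (by omega)]
  have hmt0 : ∀ (τ : Shape), τ.Basic → ∀ p, τ.T ≤ p → τ.mt p = none := by
    intro τ hτ p hp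
    by_contra hc
    obtain ⟨q, hq⟩ := Option.ne_none_iff_exists'.mp hc
    have := hτ.D_lt _ (hτ.mt_cor _ _ hq).2.2
    omega
  have hmt : ∀ p, σ.mt p = σ'.mt p := by
    intro p
    induction p using Nat.strong_induction_on with
    | _ p ih =>
      by_cases hp : p < σ.T
      · by_cases he : p ∈ σ.ExM
        · have : (3, p, oc (σ.mt p)) ∈ σ'.code := by rw [← h, mem_code3]; exact ⟨he, rfl⟩
          exact oc_inj (mem_code3.mp this).2
        · by_cases he' : p ∈ σ'.ExM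
          · have : (3, p, oc (σ'.mt p)) ∈ σ.code := by rw [h, mem_code3]; exact ⟨he', rfl⟩
            exact (oc_inj (mem_code3.mp this).2).symm
          · simp only [ExM, Finset.mem_filter, Finset.mem_range, not_and] at he he'
            have e1 : 1 ≤ p ∧ σ.mt p = (σ.mt (p - 1)).map (· - 1) := by
              by_contra hc
              exact he hp fun h1 h2 => hc ⟨h1, h2⟩
            have e2 : 1 ≤ p ∧ σ'.mt p = (σ'.mt (p - 1)).map (· - 1) := by
              by_contra hc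
              exact he' (hT ▸ hp) fun h1 h2 => hc ⟨h1, h2⟩
            rw [e1.2, e2.2, ih (p - 1) (by omega)]
      · rw [hmt0 σ hσ p (by omega), hmt0 σ' hσ' p (by omega)]
  have hcs : σ.cs = σ'.cs ∧ ∀ s ∈ σ.cs, σ.ce s = σ'.ce s := by
    have hf : ∀ s ∈ σ.cs, s ∈ σ'.cs ∧ σ.ce s = σ'.ce s := by
      intro s hs
      have : (4, s, σ.ce s) ∈ σ'.code := by rw [← h, mem_code4]; exact ⟨hs, rfl⟩
      exact mem_code4.mp this
    have hb : ∀ s ∈ σ'.cs, s ∈ σ.cs := by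
      intro s hs
      have : (4, s, σ'.ce s) ∈ σ.code := by rw [h, mem_code4]; exact ⟨hs, rfl⟩
      exact (mem_code4.mp this).1
    exact ⟨Finset.ext fun s => ⟨fun hs => (hf s hs).1, hb s⟩, fun s hs => (hf s hs).2⟩
  have hce : ∀ s, σ.ce s = σ'.ce s := by
    intro s
    by_cases hs : s ∈ σ.cs
    · exact hcs.2 s hs
    · rw [hσ.ce_out s hs, hσ'.ce_out s (hcs.1 ▸ hs)]
  have hmrk : σ.mrk = σ'.mrk := by
    ext v
    have h1 : (5, v, 0) ∈ σ.code ↔ (5, v, 0) ∈ σ'.code := by rw [h]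
    simpa [mem_code5] using h1
  exact Shape.ext hT hD (funext hcls) (funext hmt) hcs.1 (funext hce) hmrk

theorem card_code {σ : Shape} {K D1 g' Y : ℕ} (hσ : σ.Pre K D1 g') (hg : 2 ≤ g')
    (hT : σ.T ≤ Y * g') :
    σ.code.card ≤ 1 + (K + ((2 + 2 * ((Y + K + 1) + 2 * ((Y + K + 1) * (Y + K + 1)))) +
      ((1 + 2 * D1) + ((K + 1) + K)))) := by
  unfold code
  refine (Finset.card_union_le _ _).trans (Nat.add_le_add (by simp) ?_)
  refine (Finset.card_union_le _ _).trans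
    (Nat.add_le_add (Finset.card_image_le.trans hσ.paths_le) ?_)
  refine (Finset.card_union_le _ _).trans
    (Nat.add_le_add (Finset.card_image_le.trans (card_ExC hσ hg hT)) ?_)
  refine (Finset.card_union_le _ _).trans
    (Nat.add_le_add (Finset.card_image_le.trans (card_ExM hσ)) ?_)
  refine (Finset.card_union_le _ _).trans
    (Nat.add_le_add (Finset.card_image_le.trans (card_cs hσ)) ?_)
  exact Finset.card_image_le.trans hσ.mrk_card

theorem code_subset {σ : Shape} (hσ : σ.Basic) {M : ℕ} (hM : σ.T + 1 < M) :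
    σ.code ⊆ Finset.range 6 ×ˢ (Finset.range M ×ˢ Finset.range M) := by
  rintro ⟨i, a, b⟩ h
  simp only [Finset.mem_product, Finset.mem_range]
  simp only [code, Finset.mem_union, Finset.mem_singleton, Finset.mem_image, Prod.mk.injEq,
    Finset.mem_sdiff, Finset.mem_range] at h
  rcases h with ⟨rfl, rfl, rfl⟩ | ⟨p, hp, rfl, rfl, rfl⟩ | ⟨p, hp, rfl, rfl, rfl⟩ |
    ⟨p, hp, rfl, rfl, rfl⟩ | ⟨p, hp, rfl, rfl, rfl⟩ | ⟨p, hp, rfl, rfl, rfl⟩
  · omega
  · omega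
  · simp only [ExC, Finset.mem_filter, Finset.mem_range] at hp
    have := hσ.cls_le p
    omega
  · simp only [ExM, Finset.mem_filter, Finset.mem_range] at hp
    refine ⟨by omega, by omega, ?_⟩
    rcases hm : σ.mt p with _ | q
    · simp only [oc]; omega
    · have := hσ.D_lt _ (hσ.mt_cor _ _ (hσ.mt_symm _ _ hm)).2.2
      simp only [oc]; omega
  · have h1 := hσ.D_lt _ (hσ.cs_start p hp).1
    have h2 := hσ.ce_stop p hp
    have h3 := hσ.D_lt _ h2.2.1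
    omega
  · have := (hσ.mrk_lt p hp).1
    omega

end Shape

/-- LB: the number of shapes of configurations is polynomial in `g'` -/
theorem card_shapes (K D1 Y : ℕ) : ∃ B : ℕ, ∀ g' : ℕ, 2 ≤ g' → ∃ 𝒮 : Finset Shape,
    𝒮.card ≤ (B * (g' + 1)) ^ B ∧ ∀ σ : Shape, σ.Pre K D1 g' → σ.T ≤ Y * g' → σ ∈ 𝒮 := by
  set B0 := 1 + (K + ((2 + 2 * ((Y + K + 1) + 2 * ((Y + K + 1) * (Y + K + 1)))) +
      ((1 + 2 * D1) + ((K + 1) + K)))) with hB0
  refine ⟨2 * B0 + 3 * (Y + 2), fun g' hg => ?_⟩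
  set M := Y * g' + 2 with hM
  set box := Finset.range 6 ×ˢ (Finset.range M ×ˢ Finset.range M) with hbox
  set A : Set Shape := {σ | σ.Pre K D1 g' ∧ σ.T ≤ Y * g'} with hA
  have hmem : ∀ σ ∈ A, σ.code ∈ box.powerset.filter (fun t => t.card ≤ B0) := by
    rintro σ ⟨h1, h2⟩
    simp only [Finset.mem_filter, Finset.mem_powerset]
    exact ⟨Shape.code_subset h1.toBasic (by omega), Shape.card_code h1 hg h2⟩
  have hinj : Set.InjOn Shape.code A := fun σ h1 σ' h2 h =>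
    Shape.code_inj h1.1.toBasic h2.1.toBasic h
  have hfin : A.Finite := by
    refine Set.Finite.of_finite_image (f := Shape.code) ?_ hinj
    refine (Finset.finite_toSet (box.powerset.filter (fun t => t.card ≤ B0))).subset ?_
    rintro _ ⟨σ, hσ, rfl⟩
    exact hmem σ hσ
  refine ⟨hfin.toFinset, ?_, fun σ h1 h2 => by simpa using ⟨h1, h2⟩⟩
  have h1 : hfin.toFinset.card ≤ (box.powerset.filter (fun t => t.card ≤ B0)).card := by
    refine Finset.card_le_card_of_injOn Shape.code ?_ ?_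
    · intro σ hσ
      exact hmem σ (by simpa using hσ)
    · intro σ hσ σ' hσ' h
      exact hinj (by simpa using hσ) (by simpa using hσ') h
  refine h1.trans ((card_powerset_filter_le box B0).trans ?_)
  have h2 : box.card + 1 ≤ (3 * (Y + 2) * (g' + 1)) ^ 2 := by
    have hb : box.card = 6 * (M * M) := by simp [hbox]
    have hMle : M ≤ (Y + 2) * (g' + 1) := by
      rw [hM]; nlinarith
    have : M * M ≤ ((Y + 2) * (g' + 1)) * ((Y + 2) * (g' + 1)) := Nat.mul_le_mul hMle hMle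
    have h1 : 1 ≤ (Y + 2) * (g' + 1) := by nlinarith
    have h3 : 1 ≤ ((Y + 2) * (g' + 1)) * ((Y + 2) * (g' + 1)) := by nlinarith
    rw [hb]
    calc 6 * (M * M) + 1 ≤ 9 * (((Y + 2) * (g' + 1)) * ((Y + 2) * (g' + 1))) := by omega
      _ = (3 * (Y + 2) * (g' + 1)) ^ 2 := by ring
  calc (box.card + 1) ^ B0 ≤ ((3 * (Y + 2) * (g' + 1)) ^ 2) ^ B0 := Nat.pow_le_pow_left h2 _
    _ = (3 * (Y + 2) * (g' + 1)) ^ (2 * B0) := by rw [pow_mul]
    _ ≤ ((2 * B0 + 3 * (Y + 2)) * (g' + 1)) ^ (2 * B0) :=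
        Nat.pow_le_pow_left (Nat.mul_le_mul (by omega) le_rfl) _
    _ ≤ ((2 * B0 + 3 * (Y + 2)) * (g' + 1)) ^ (2 * B0 + 3 * (Y + 2)) :=
        Nat.pow_le_pow_right (by nlinarith) (by omega)

end Crest.Agent.R177.Loc
private theorem rz_f399dc73d9 : type_of% @_root_.Crest.Agent.R177.Loc.Shape.oc.eq_1 := @_root_.Crest.Agent.R177.Loc.Shape.oc.eq_1 -- L430
end

-- ▼ part R177/LocFinal

/-!
# Row 177, module LOC: final assembly (helper928)
-/

set_option autoImplicit false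
set_option linter.unusedSectionVars false

open scoped Classical

namespace Crest.Agent.R177.Loc

open Crest.Agent.R177
open Crest.Agent.R199 (PAct)

lemma Shape.Good.mono {σ : Shape} {Z I Z' : ℕ} (h : σ.Good Z I) (hZ : Z ≤ Z') : σ.Good Z' I :=
  { toBasic := h.toBasic
    card_cls := fun v => (h.card_cls v).trans hZ
    irr := h.irr }

/-- a polynomial times a decreasing exponential -/
lemma tendsto_poly_exp (B : ℕ) (a b α : ℝ) (hα : 0 < α) :
    Filter.Tendsto (fun g : ℕ => (a * ((g : ℝ) + 1)) ^ B * (b * Real.exp (-(α * g))))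
      Filter.atTop (nhds 0) := by
  have h1 := Real.tendsto_pow_mul_exp_neg_atTop_nhds_zero B
  have h2 : Filter.Tendsto (fun g : ℕ => α * ((g : ℝ) + 1)) Filter.atTop Filter.atTop := by
    apply Filter.Tendsto.const_mul_atTop hα
    exact Filter.tendsto_atTop_add_const_right _ _ tendsto_natCast_atTop_atTop
  have h3 := (h1.comp h2).const_mul ((a / α) ^ B * b * Real.exp α)
  rw [mul_zero] at h3
  refine h3.congr fun g => ?_
  simp only [Function.comp_apply]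
  have e1 : Real.exp (-(α * g)) = Real.exp α * Real.exp (-(α * ((g : ℝ) + 1))) := by
    rw [← Real.exp_add]; congr 1; ring
  rw [e1]
  have e2 : (a * ((g : ℝ) + 1)) ^ B = (a / α) ^ B * (α * ((g : ℝ) + 1)) ^ B := by
    rw [← mul_pow]; congr 1; field_simp
  rw [e2]; ring

variable {S : Type} [Fintype S]

/-- bad graphs are rare -/
theorem bad_small (M : Model S) (hKD : ∃ κ : KD S, κ.Fits M) : ∃ (c : ℝ) (κ : KD S), 0 < c ∧
    ∀ (K D1 Y : ℕ) (η δ : ℝ), 0 < η → 0 < δ → ∃ n0 : ℕ, ∀ m, n0 ≤ M.sz m →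
      (OmegaSet M m ⌊c * Real.log (M.sz m)⌋₊).Finite ∧
      (OmegaSet M m ⌊c * Real.log (M.sz m)⌋₊).Nonempty ∧ ∀ o : Finset (M.V m), o.card ≤ 1 →
        (Nat.card {A // A ∈ OmegaSet M m ⌊c * Real.log (M.sz m)⌋₊ ∧
          ∃ (σ : Shape) (nd : ℕ → M.V m) (ℓ : ℕ → S × Bool),
            σ.Pre K D1 ((⌊c * Real.log (M.sz m)⌋₊ - 1) / 2) ∧
            σ.T ≤ Y * ((⌊c * Real.log (M.sz m)⌋₊ - 1) / 2) ∧
            σ.Real A o nd ℓ ∧ σ.LabOK ℓ ∧
            (M.sz m : ℝ) ^ σ.oe * (κ.q0⁻¹) ^ σ.ug * κ.ρ ^ σ.gl ≤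
              Real.exp (-(η * ⌊c * Real.log (M.sz m)⌋₊)) * (M.sz m : ℝ) ^ σ.om} : ℝ) ≤
          δ * Nat.card (OmegaSet M m ⌊c * Real.log (M.sz m)⌋₊) := by
  obtain ⟨κ, hκ⟩ := hKD
  obtain ⟨c, hc, hmeas⟩ := exists_meas M
  refine ⟨c, κ, hc, fun K D1 Y η δ hη hδ => ?_⟩
  obtain ⟨Z₀, I, hgood⟩ := good_of_pre K D1 Y
  set Z := max Z₀ 1 with hZdef
  have hZ1 : 1 ≤ Z := le_max_right _ _
  obtain ⟨Cs, hCs, hsum⟩ := sum_Wt κ Z I
  obtain ⟨Cc, hCc, hcore⟩ := core κ M hκ Z I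
  obtain ⟨B, hB⟩ := card_shapes K D1 Y
  obtain ⟨n1, h1⟩ := hmeas (Y * c)
  -- the final estimate
  have h2Z : 2 * Z ≠ 0 := by omega
  set α : ℝ := η * (((2 * Z : ℕ) : ℝ)⁻¹) with hα
  have hα0 : 0 < α := by positivity
  have hlim := tendsto_poly_exp B B
    ((Z * (2 * (1 + 1) ^ K)) * (Cc ^ (((2 * Z : ℕ) : ℝ)⁻¹) * Cs)) α hα0
  obtain ⟨g1, hg1⟩ := Filter.eventually_atTop.1 (hlim.eventually_le_const hδ)
  refine ⟨max (max n1 3) ⌈Real.exp ((max g1 5 : ℕ) / c)⌉₊, fun m hm => ?_⟩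
  have hm1 : n1 ≤ M.sz m := le_trans (le_trans (le_max_left _ _) (le_max_left _ _)) hm
  have hm3 : 3 ≤ M.sz m := le_trans (le_trans (le_max_right _ _) (le_max_left _ _)) hm
  have hme : Real.exp ((max g1 5 : ℕ) / c) ≤ M.sz m :=
    (Nat.le_ceil _).trans (by exact_mod_cast le_trans (le_max_right _ _) hm)
  obtain ⟨hfin, hne, hM⟩ := h1 m hm1
  set g : ℕ := ⌊c * Real.log (M.sz m)⌋₊ with hg
  have hszpos : (0 : ℝ) < M.sz m := by
    have : 0 < M.sz m := by omega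
    exact_mod_cast this
  have hlog1 : (1 : ℝ) ≤ Real.log (M.sz m) := by
    rw [Real.le_log_iff_exp_le hszpos]
    have h3 : (3 : ℝ) ≤ M.sz m := by exact_mod_cast hm3
    linarith [Real.exp_one_lt_d9]
  have hlog : ((max g1 5 : ℕ) : ℝ) / c ≤ Real.log (M.sz m) :=
    (Real.le_log_iff_exp_le hszpos).2 hme
  have hgge : max g1 5 ≤ g := by
    rw [hg]
    apply Nat.le_floor
    rwa [div_le_iff₀' hc] at hlog
  have hgg1 : g1 ≤ g := le_trans (le_max_left _ _) hgge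
  have hg5 : 5 ≤ g := le_trans (le_max_right _ _) hgge
  have hgle : (g : ℝ) ≤ c * Real.log (M.sz m) := Nat.floor_le (by positivity)
  set g' : ℕ := (g - 1) / 2 with hg'
  have hg'2 : 2 ≤ g' := by omega
  have hg'g : g' ≤ g := by omega
  refine ⟨hfin, hne, fun o ho => ?_⟩
  have : Fintype (OmegaSet M m g) := hfin.fintype
  have hM' := hM o (Y * g') (by
    push_cast
    have : (g' : ℝ) ≤ g := by exact_mod_cast hg'g
    calc (Y : ℝ) * g' ≤ Y * (c * Real.log (M.sz m)) :=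
          mul_le_mul_of_nonneg_left (this.trans hgle) (Nat.cast_nonneg _)
      _ = _ := by ring)
  obtain ⟨𝒮, h𝒮c, h𝒮⟩ := hB g' hg'2
  set E : ℝ := Real.exp (-(η * g)) with hE
  have hE0 : 0 < E := Real.exp_pos _
  set x : ℝ := (Cc * E) ^ (((2 * Z : ℕ) : ℝ)⁻¹) with hx
  have hx0 : 0 < x := by positivity
  have hxE : x ^ (2 * Z) = Cc * E := Real.rpow_inv_natCast_pow (by positivity) h2Z
  have hx' : x = Cc ^ (((2 * Z : ℕ) : ℝ)⁻¹) * Real.exp (-(α * g)) := by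
    rw [hx, Real.mul_rpow hCc.le hE0.le, hE, ← Real.exp_mul]
    congr 2
    rw [hα]; ring
  set P : Shape → Prop := fun σ => σ.Pre K D1 g' ∧ σ.T ≤ Y * g' with hP
  set Bad : Set (OmegaSet M m g) := {ω | ∃ (σ : Shape) (nd : ℕ → M.V m) (ℓ : ℕ → S × Bool),
            σ.Pre K D1 g' ∧ σ.T ≤ Y * g' ∧ σ.Real ω.1 o nd ℓ ∧ σ.LabOK ℓ ∧
            (M.sz m : ℝ) ^ σ.oe * (κ.q0⁻¹) ^ σ.ug * κ.ρ ^ σ.gl ≤ E * (M.sz m : ℝ) ^ σ.om} with hBad
  have hmain := card_bad_le κ M m (by omega) o (OmegaSet M m g) (fun ω => ω.1) (Y * g') hM' Z K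
    Cs x hx0.le (𝒮.filter P) (by
      intro σ hσ
      obtain ⟨hσ1, hσ2, hσ3⟩ := Finset.mem_filter.1 hσ
      exact ⟨hσ2.toBasic, hσ3, hσ2.mrk_card,
        hsum σ ((hgood g' σ hg'2 hσ2 hσ3).mono (le_max_left _ _))⟩) Bad (by
      rintro ω ⟨σ, nd, ℓ, hpre, hT, hR, hL, hv⟩
      refine ⟨σ, Finset.mem_filter.2 ⟨h𝒮 σ hpre hT, hpre, hT⟩, nd, ℓ, hR, hL, ?_⟩
      exact exists_level κ M m σ ℓ Z x Cc E hx0 hZ1 (by omega)
        (hcore σ ((hgood g' σ hg'2 hpre hT).mono (le_max_left _ _)) m (by omega) ℓ hL) hv hCc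
        hxE.ge)
  have hcard : Nat.card Bad = Nat.card {A // A ∈ OmegaSet M m g ∧
          ∃ (σ : Shape) (nd : ℕ → M.V m) (ℓ : ℕ → S × Bool),
            σ.Pre K D1 g' ∧ σ.T ≤ Y * g' ∧ σ.Real A o nd ℓ ∧ σ.LabOK ℓ ∧
            (M.sz m : ℝ) ^ σ.oe * (κ.q0⁻¹) ^ σ.ug * κ.ρ ^ σ.gl ≤ E * (M.sz m : ℝ) ^ σ.om} :=
    Nat.card_congr
      { toFun := fun ω => ⟨ω.1.1, ω.1.2, ω.2⟩
        invFun := fun A => ⟨⟨A.1, A.2.1⟩, A.2.2⟩
        left_inv := fun ω => rfl
        right_inv := fun A => rfl }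
  rw [← hcard]
  refine hmain.trans ?_
  have hfinal := hg1 g hgg1
  have hcs : ((𝒮.filter P).card : ℝ) ≤ (B * ((g : ℝ) + 1)) ^ B := by
    have h3 : ((𝒮.filter P).card : ℝ) ≤ (𝒮.card : ℝ) := by
      exact_mod_cast Finset.card_filter_le _ _
    have h4 : (𝒮.card : ℝ) ≤ ((B * (g' + 1)) ^ B : ℕ) := by exact_mod_cast h𝒮c
    refine h3.trans (h4.trans ?_)
    push_cast
    have : (g' : ℝ) ≤ g := by exact_mod_cast hg'g
    gcongr
  have hocard : (1 + (o.card : ℝ)) ^ K ≤ (1 + 1) ^ K := by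
    have : (o.card : ℝ) ≤ 1 := by exact_mod_cast ho
    gcongr
  have hΩ : (0 : ℝ) ≤ Fintype.card (OmegaSet M m g) := Nat.cast_nonneg _
  calc ((𝒮.filter P).card : ℝ) *
        (Z * (2 * Fintype.card (OmegaSet M m g) * (1 + (o.card : ℝ)) ^ K * (x * Cs)))
      ≤ (B * ((g : ℝ) + 1)) ^ B *
        (Z * (2 * Fintype.card (OmegaSet M m g) * (1 + 1) ^ K * (x * Cs))) := by
        gcongr
    _ = (B * ((g : ℝ) + 1)) ^ B * ((Z * (2 * (1 + 1) ^ K)) * (Cc ^ (((2 * Z : ℕ) : ℝ)⁻¹) * Cs) *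
          Real.exp (-(α * g))) * Fintype.card (OmegaSet M m g) := by
        rw [hx']; ring
    _ ≤ δ * Fintype.card (OmegaSet M m g) := mul_le_mul_of_nonneg_right hfinal hΩ
    _ = _ := by rw [Nat.card_eq_fintype_card]

/-- the general local lemma with at most one marked node -/
theorem local_lemma_gen (M : Model S) (hKD : ∃ κ : KD S, κ.Fits M) :
    ∃ κ C P : ℝ, 0 < κ ∧ 0 < C ∧ 0 < P ∧ ∀ (L K D0 : ℕ) (η δ : ℝ), 0 < η → 0 < δ → ∀ g₀ : ℕ,
      ∃ g, g₀ ≤ g ∧ ∃ m, (OmegaSet M m g).Finite ∧ (OmegaSet M m g).Nonempty ∧ ∀ o : Finset (M.V m), o.card ≤ 1 →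
        (Nat.card {A // A ∈ OmegaSet M m g ∧ ¬ ∀ (F : Frame) (c : Conf A F), F.K ≤ K →
          (∀ i, F.len i ≤ L * g) → c.ends ≤ D0 →
          κ * c.glued ≤ C * c.unglued +
            P * g * ((F.openN : ℝ) -
              ((Nat.card {i : Fin F.K // F.cl i = false ∧ c.node ⟨i, 0⟩ ∈ o} : ℝ) +
                Nat.card {i : Fin F.K // F.cl i = false ∧ c.node ⟨i, Fin.last _⟩ ∈ o})) + η * g} : ℝ) ≤
          δ * Nat.card (OmegaSet M m g) := by
  obtain ⟨c, κ, hc, hbad⟩ := bad_small M hKD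
  have hκ : 0 < Real.log κ.ρ⁻¹ := Real.log_pos ((one_lt_inv₀ κ.ρ_pos).2 κ.ρ_lt)
  have hC : 0 < Real.log κ.q0⁻¹ := Real.log_pos ((one_lt_inv₀ κ.q0_pos).2 κ.q0_lt)
  refine ⟨Real.log κ.ρ⁻¹, Real.log κ.q0⁻¹, 2 / c, hκ, hC, by positivity, ?_⟩
  intro L K D0 η δ hη hδ g₀
  obtain ⟨n0, h0⟩ := hbad (K + 1) (D0 + 4 * K) (K * (3 * L + 1)) (η / 2) δ (by positivity) hδ
  -- how large must `g` be
  set g1 : ℕ := max (max g₀ 5)
    ⌈(2 * K * (Real.log κ.ρ⁻¹ + Real.log κ.q0⁻¹) + 2 / c * K) / (η / 2)⌉₊ with hg1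
  obtain ⟨m, hm⟩ := M.sz_large (max (max n0 3) ⌈Real.exp (g1 / c)⌉₊)
  have hm0 : n0 ≤ M.sz m := le_trans (le_trans (le_max_left _ _) (le_max_left _ _)) hm
  have hm3 : 3 ≤ M.sz m := le_trans (le_trans (le_max_right _ _) (le_max_left _ _)) hm
  have hme : Real.exp (g1 / c) ≤ M.sz m :=
    (Nat.le_ceil _).trans (by exact_mod_cast le_trans (le_max_right _ _) hm)
  have hszpos : (0 : ℝ) < M.sz m := by
    have : 0 < M.sz m := by omega
    exact_mod_cast this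
  have hlog : (g1 : ℝ) / c ≤ Real.log (M.sz m) := (Real.le_log_iff_exp_le hszpos).2 hme
  have hgge : g1 ≤ ⌊c * Real.log (M.sz m)⌋₊ := by
    apply Nat.le_floor
    rwa [div_le_iff₀' hc] at hlog
  obtain ⟨hfin, hne, hsmall⟩ := h0 m hm0
  have hfloor : c * Real.log (M.sz m) < ⌊c * Real.log (M.sz m)⌋₊ + 1 := Nat.lt_floor_add_one _
  set g : ℕ := ⌊c * Real.log (M.sz m)⌋₊ with hg
  have hgg0 : g₀ ≤ g := le_trans (le_trans (le_max_left _ _) (le_max_left _ _)) hgge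
  have hg5 : 5 ≤ g := le_trans (le_trans (le_max_right _ _) (le_max_left _ _)) hgge
  have hgbig : 2 * K * (Real.log κ.ρ⁻¹ + Real.log κ.q0⁻¹) + 2 / c * K ≤ η / 2 * g := by
    have h3 : (2 * K * (Real.log κ.ρ⁻¹ + Real.log κ.q0⁻¹) + 2 / c * K) / (η / 2) ≤ g :=
      (Nat.le_ceil _).trans (by exact_mod_cast le_trans (le_max_right _ _) hgge)
    rw [div_le_iff₀ (by positivity)] at h3
    linarith
  have hlog0 : 0 ≤ Real.log (M.sz m) := Real.log_natCast_nonneg _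
  have hlogg1 : 2 / c * g ≤ 2 * Real.log (M.sz m) := by
    have h3 : (g : ℝ) ≤ c * Real.log (M.sz m) := Nat.floor_le (by positivity)
    rw [div_mul_eq_mul_div, div_le_iff₀ hc]
    nlinarith
  have hlogg2 : 2 * Real.log (M.sz m) ≤ 2 / c * g + 2 / c := by
    have h3 : 2 / c * g + 2 / c = (2 * g + 2) / c := by ring
    rw [h3, le_div_iff₀ hc]
    nlinarith
  refine ⟨g, hgg0, m, hfin, hne, fun o ho => ?_⟩
  refine le_trans ?_ (hsmall o ho)
  have hfinΩ : Finite {A // A ∈ OmegaSet M m g ∧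
          ∃ (σ : Shape) (nd : ℕ → M.V m) (ℓ : ℕ → S × Bool),
            σ.Pre (K + 1) (D0 + 4 * K) ((g - 1) / 2) ∧
            σ.T ≤ K * (3 * L + 1) * ((g - 1) / 2) ∧
            σ.Real A o nd ℓ ∧ σ.LabOK ℓ ∧
            (M.sz m : ℝ) ^ σ.oe * (κ.q0⁻¹) ^ σ.ug * κ.ρ ^ σ.gl ≤
              Real.exp (-(η / 2 * g)) * (M.sz m : ℝ) ^ σ.om} :=
    Set.Finite.subset hfin (fun A hA => hA.1)
  have himp : ∀ A : PAct S (M.V m), (A ∈ OmegaSet M m g ∧ ¬ ∀ (F : Frame) (c' : Conf A F),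
      F.K ≤ K → (∀ i, F.len i ≤ L * g) → c'.ends ≤ D0 →
        Real.log κ.ρ⁻¹ * c'.glued ≤ Real.log κ.q0⁻¹ * c'.unglued +
          2 / c * g * ((F.openN : ℝ) -
              ((Nat.card {i : Fin F.K // F.cl i = false ∧ c'.node ⟨i, 0⟩ ∈ o} : ℝ) +
                Nat.card {i : Fin F.K // F.cl i = false ∧ c'.node ⟨i, Fin.last _⟩ ∈ o})) + η * g) →
      A ∈ OmegaSet M m g ∧
          ∃ (σ : Shape) (nd : ℕ → M.V m) (ℓ : ℕ → S × Bool),
            σ.Pre (K + 1) (D0 + 4 * K) ((g - 1) / 2) ∧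
            σ.T ≤ K * (3 * L + 1) * ((g - 1) / 2) ∧
            σ.Real A o nd ℓ ∧ σ.LabOK ℓ ∧
            (M.sz m : ℝ) ^ σ.oe * (κ.q0⁻¹) ^ σ.ug * κ.ρ ^ σ.gl ≤
              Real.exp (-(η / 2 * g)) * (M.sz m : ℝ) ^ σ.om := by
    rintro A ⟨hA, hneg⟩
    refine ⟨hA, ?_⟩
    push Not at hneg
    obtain ⟨F, c', hFK, hFL, hD, hlt⟩ := hneg
    rcases Nat.eq_zero_or_pos F.K with hF0 | hFpos
    · exfalso
      obtain ⟨h1, h2, h3, h4⟩ := glued_eq_zero c' hF0
      have : IsEmpty (Fin F.K) := ⟨fun x => by have := x.2; omega⟩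
      rw [h1, h2, h4] at hlt
      simp only [Nat.card_of_isEmpty, Nat.cast_zero, mul_zero, add_zero, sub_zero, zero_add] at hlt
      have : 0 ≤ η * g := by positivity
      linarith
    obtain ⟨σ, nd, ℓ, hpre, -, hT, hR, hL, hgl, hug, hoe, hom⟩ :=
      exists_shape A g ((g - 1) / 2) hA.2 (by omega) (by omega) K D0 (L * g) F c' hFK hFpos hFL hD
        o ho
    refine ⟨σ, nd, ℓ, hpre, ?_, hR, hL, ?_⟩
    · refine hT.trans ?_
      rw [mul_assoc]
      refine Nat.mul_le_mul_left _ ?_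
      have h1 : g ≤ 3 * ((g - 1) / 2) := by omega
      have h2 : 1 ≤ (g - 1) / 2 := by omega
      calc L * g + 1 ≤ L * (3 * ((g - 1) / 2)) + (g - 1) / 2 :=
            add_le_add (Nat.mul_le_mul_left _ h1) h2
        _ = _ := by ring
    · set s : ℕ := Nat.card {i : Fin F.K // F.cl i = false ∧ c'.node ⟨i, 0⟩ ∈ o} with hs
      set e : ℕ := Nat.card {i : Fin F.K // F.cl i = false ∧ c'.node ⟨i, Fin.last _⟩ ∈ o} with he
      have e1 : (M.sz m : ℝ) ^ σ.oe = Real.exp (σ.oe * Real.log (M.sz m)) := by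
        rw [Real.exp_nat_mul, Real.exp_log hszpos]
      have e2 : (M.sz m : ℝ) ^ σ.om = Real.exp (σ.om * Real.log (M.sz m)) := by
        rw [Real.exp_nat_mul, Real.exp_log hszpos]
      have e3 : (κ.q0⁻¹) ^ σ.ug = Real.exp (σ.ug * Real.log κ.q0⁻¹) := by
        rw [Real.exp_nat_mul, Real.exp_log (inv_pos.2 κ.q0_pos)]
      have e4 : κ.ρ ^ σ.gl = Real.exp (-(σ.gl * Real.log κ.ρ⁻¹)) := by
        rw [Real.log_inv, mul_neg, neg_neg, Real.exp_nat_mul, Real.exp_log κ.ρ_pos]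
      rw [e1, e2, e3, e4, ← Real.exp_add, ← Real.exp_add, ← Real.exp_add, Real.exp_le_exp]
      have hgl' : (c'.glued : ℝ) ≤ σ.gl + 2 * K := by exact_mod_cast hgl
      have hug' : (σ.ug : ℝ) ≤ c'.unglued + 2 * K := by exact_mod_cast hug
      have h1 : (σ.oe : ℝ) + (s + e) ≤ 2 * F.openN := by exact_mod_cast hoe
      have h2 : (s : ℝ) + e ≤ σ.om := by exact_mod_cast hom
      have hoo : (σ.oe : ℝ) - σ.om ≤ 2 * ((F.openN : ℝ) - (s + e)) := by linarith
      have hoN : (F.openN : ℝ) ≤ K := by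
        have h3 : F.openN ≤ F.K := by
          unfold Frame.openN
          refine (Nat.card_le_card_of_injective (fun i : {i : Fin F.K // F.cl i = false} => i.1)
            Subtype.val_injective).trans (by simp)
        exact_mod_cast h3.trans hFK
      have hd1 : (F.openN : ℝ) - (s + e) ≤ K := by
        have h3 : (0 : ℝ) ≤ (s : ℝ) + e := by positivity
        linarith
      have hd2 : -(K : ℝ) ≤ (F.openN : ℝ) - (s + e) := by
        have h3 : (0 : ℝ) ≤ σ.oe := Nat.cast_nonneg _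
        linarith
      have h5 : ((σ.oe : ℝ) - σ.om) * Real.log (M.sz m) ≤
          2 / c * g * ((F.openN : ℝ) - (s + e)) + 2 / c * K := by
        calc ((σ.oe : ℝ) - σ.om) * Real.log (M.sz m) ≤
              (2 * ((F.openN : ℝ) - (s + e))) * Real.log (M.sz m) :=
              mul_le_mul_of_nonneg_right hoo hlog0
          _ = 2 / c * g * ((F.openN : ℝ) - (s + e)) +
              (2 * Real.log (M.sz m) - 2 / c * g) * ((F.openN : ℝ) - (s + e)) := by ring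
          _ ≤ 2 / c * g * ((F.openN : ℝ) - (s + e)) +
              (2 * Real.log (M.sz m) - 2 / c * g) * K := by
              have := mul_le_mul_of_nonneg_left hd1 (sub_nonneg.2 hlogg1)
              linarith
          _ ≤ _ := by
              have := mul_le_mul_of_nonneg_right
                (show 2 * Real.log (M.sz m) - 2 / c * g ≤ 2 / c by linarith)
                (Nat.cast_nonneg (α := ℝ) K)
              linarith
      have h6 := mul_le_mul_of_nonneg_right hgl' hκ.le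
      have h7 := mul_le_mul_of_nonneg_right hug' hC.le
      nlinarith
  exact_mod_cast Nat.card_le_card_of_injective
    (fun A : {A // A ∈ OmegaSet M m g ∧ ¬ ∀ (F : Frame) (c' : Conf A F),
      F.K ≤ K → (∀ i, F.len i ≤ L * g) → c'.ends ≤ D0 →
        Real.log κ.ρ⁻¹ * c'.glued ≤ Real.log κ.q0⁻¹ * c'.unglued +
          2 / c * g * ((F.openN : ℝ) -
              ((Nat.card {i : Fin F.K // F.cl i = false ∧ c'.node ⟨i, 0⟩ ∈ o} : ℝ) +
                Nat.card {i : Fin F.K // F.cl i = false ∧ c'.node ⟨i, Fin.last _⟩ ∈ o})) + η * g} =>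
      (⟨A.1, himp A.1 A.2⟩ : {A // A ∈ OmegaSet M m g ∧
          ∃ (σ : Shape) (nd : ℕ → M.V m) (ℓ : ℕ → S × Bool),
            σ.Pre (K + 1) (D0 + 4 * K) ((g - 1) / 2) ∧
            σ.T ≤ K * (3 * L + 1) * ((g - 1) / 2) ∧
            σ.Real A o nd ℓ ∧ σ.LabOK ℓ ∧
            (M.sz m : ℝ) ^ σ.oe * (κ.q0⁻¹) ^ σ.ug * κ.ρ ^ σ.gl ≤
              Real.exp (-(η / 2 * g)) * (M.sz m : ℝ) ^ σ.om}))
    (fun A A' h => Subtype.ext (by simpa using congrArg Subtype.val h))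

/-- existence of a good graph, at most one marked node -/
theorem local_lemma_exists (M : Model S) (hKD : ∃ κ : KD S, κ.Fits M) :
    ∃ κ C P : ℝ, 0 < κ ∧ 0 < C ∧ 0 < P ∧ ∀ (L K D0 : ℕ) (η : ℝ), 0 < η → ∀ g₀ : ℕ,
      ∃ g, g₀ ≤ g ∧ ∃ m, ∀ o : Finset (M.V m), o.card ≤ 1 → ∃ A : PAct S (M.V m),
        M.Adm m A ∧ Girth A g ∧ ∀ (F : Frame) (c : Conf A F), F.K ≤ K →
          (∀ i, F.len i ≤ L * g) → c.ends ≤ D0 →
          κ * c.glued ≤ C * c.unglued +
            P * g * ((F.openN : ℝ) -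
              ((Nat.card {i : Fin F.K // F.cl i = false ∧ c.node ⟨i, 0⟩ ∈ o} : ℝ) +
                Nat.card {i : Fin F.K // F.cl i = false ∧ c.node ⟨i, Fin.last _⟩ ∈ o})) + η * g := by
  obtain ⟨κ, C, P, hκ, hC, hP, h⟩ := local_lemma_gen M hKD
  refine ⟨κ, C, P, hκ, hC, hP, fun L K D0 η hη g₀ => ?_⟩
  obtain ⟨g, hg, m, hfin, hne, hb⟩ := h L K D0 η (1 / 2) hη (by norm_num) g₀
  refine ⟨g, hg, m, fun o ho => ?_⟩
  have hbo := hb o ho
  by_contra hcon
  push Not at hcon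
  have : Finite (OmegaSet M m g) := hfin
  have hpos : 0 < Nat.card (OmegaSet M m g) := by
    have : Nonempty (OmegaSet M m g) := hne.to_subtype
    exact Nat.card_pos
  have hall : Nat.card (OmegaSet M m g) ≤ Nat.card {A // A ∈ OmegaSet M m g ∧
      ¬ ∀ (F : Frame) (c : Conf A F), F.K ≤ K → (∀ i, F.len i ≤ L * g) → c.ends ≤ D0 →
          κ * c.glued ≤ C * c.unglued +
            P * g * ((F.openN : ℝ) -
              ((Nat.card {i : Fin F.K // F.cl i = false ∧ c.node ⟨i, 0⟩ ∈ o} : ℝ) +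
                Nat.card {i : Fin F.K // F.cl i = false ∧ c.node ⟨i, Fin.last _⟩ ∈ o})) + η * g} := by
    have hfin' : Finite {A // A ∈ OmegaSet M m g ∧
      ¬ ∀ (F : Frame) (c : Conf A F), F.K ≤ K → (∀ i, F.len i ≤ L * g) → c.ends ≤ D0 →
          κ * c.glued ≤ C * c.unglued +
            P * g * ((F.openN : ℝ) -
              ((Nat.card {i : Fin F.K // F.cl i = false ∧ c.node ⟨i, 0⟩ ∈ o} : ℝ) +
                Nat.card {i : Fin F.K // F.cl i = false ∧ c.node ⟨i, Fin.last _⟩ ∈ o})) + η * g} :=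
      Set.Finite.subset hfin (fun A hA => hA.1)
    refine Nat.card_le_card_of_injective (fun A : OmegaSet M m g => ⟨A.1, A.2, ?_⟩)
      (fun A A' h => Subtype.ext (by simpa using congrArg Subtype.val h))
    push Not
    obtain ⟨F, c, h1, h2, h3, h4⟩ := hcon A.1 A.2.1 A.2.2
    exact ⟨F, c, h1, h2, h3, h4⟩
  have h1 : (Nat.card (OmegaSet M m g) : ℝ) ≤ 1 / 2 * Nat.card (OmegaSet M m g) :=
    le_trans (by exact_mod_cast hall) hbo
  have h2 : (0 : ℝ) < Nat.card (OmegaSet M m g) := by exact_mod_cast hpos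
  linarith

end Crest.Agent.R177.Loc
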