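import Crest.Agent.R177.Defs
import Crest.Agent.R177.DefsO

-- ▼ part R177/MkFrame
section

/-!
# Rows 177/184: from partial successor maps to frames (helper323)

`D` finite, `nx : D → Option D` injective partial successor. `exists_frame`: there are a `Frame F`
and `e : D ≃ F.Dart` with `F.Next (e x) (e y) ↔ nx x = some y`.
-/

set_option autoImplicit false

open scoped Classical

namespace Crest.Agent.R177.Mk

variable {D : Type}

/-- iterates of a partial map -/
def it (nx : D → Option D) : ℕ → D → Option D
  | 0, x => some x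
  | n + 1, x => (it nx n x).bind nx

section it
variable {nx : D → Option D}

@[simp] theorem it_zero (x : D) : it nx 0 x = some x := rfl

theorem it_succ (n : ℕ) (x : D) : it nx (n + 1) x = (it nx n x).bind nx := rfl

theorem it_add (m n : ℕ) (x : D) : it nx (m + n) x = (it nx m x).bind (it nx n) := by
  induction n with
  | zero => simp [it]
  | succ n ih =>
    rw [← Nat.add_assoc, it_succ, ih]
    cases h : it nx m x with
    | none => simp
    | some y => simp [it_succ]

theorem it_succ' (n : ℕ) (x : D) : it nx (n + 1) x = (nx x).bind (it nx n) := by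
  rw [Nat.add_comm, it_add]
  simp [it]

theorem it_none_mono {m n : ℕ} (h : m ≤ n) {x : D} (hx : it nx m x = none) : it nx n x = none := by
  obtain ⟨k, rfl⟩ := Nat.exists_eq_add_of_le h
  rw [it_add, hx]; rfl

variable (inj : ∀ x y z, nx x = some z → nx y = some z → x = y)

include inj in
/-- backwards cancellation -/
theorem it_cancel (n : ℕ) {x y z : D} (hx : it nx n x = some z) (hy : it nx n y = some z) :
    x = y := by
  induction n generalizing z with
  | zero => simp at hx hy; rw [hx, hy]
  | succ n ih =>
    rw [it_succ] at hx hy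
    cases h1 : it nx n x with
    | none => simp [h1] at hx
    | some u =>
      cases h2 : it nx n y with
      | none => simp [h2] at hy
      | some v =>
        simp only [h1, Option.bind_some] at hx
        simp only [h2, Option.bind_some] at hy
        have := inj _ _ _ hx hy
        subst this
        exact ih h1 h2

include inj in
theorem it_sub {m n : ℕ} {x y z : D} (h : m ≤ n) (hx : it nx n x = some z)
    (hy : it nx m y = some z) : it nx (n - m) x = some y := by
  obtain ⟨k, rfl⟩ := Nat.exists_eq_add_of_le h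
  have e : m + k - m = k := by omega
  rw [e]
  rw [Nat.add_comm, it_add] at hx
  cases h1 : it nx k x with
  | none => simp [h1] at hx
  | some u =>
    simp only [h1, Option.bind_some] at hx
    rw [it_cancel inj m hx hy]

/-- periodic -/
def Per (nx : D → Option D) (x : D) : Prop := ∃ n, 0 < n ∧ it nx n x = some x

theorem Per.mul {x : D} {n : ℕ} (h : it nx n x = some x) (k : ℕ) : it nx (k * n) x = some x := by
  induction k with
  | zero => simp
  | succ k ih => rw [Nat.add_mul, Nat.one_mul, it_add, ih]; simpa using h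

include inj in
/-- a point from which a periodic point is reachable is reachable from it -/
theorem Per.back {x r : D} {n : ℕ} (hr : Per nx r) (h : it nx n x = some r) :
    ∃ k, 0 < k ∧ it nx k r = some x := by
  obtain ⟨m, hm, hm'⟩ := hr
  have h1 := Per.mul hm' (n + 1)
  have h2 : n < (n + 1) * m := by nlinarith
  exact ⟨_, Nat.sub_pos_of_lt h2, it_sub inj h2.le h1 h⟩

include inj in
theorem Per.of_back {x r : D} {n : ℕ} (hr : Per nx r) (h : it nx n x = some r) : Per nx x := by
  obtain ⟨k, hk0, hk⟩ := Per.back inj hr h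
  refine ⟨n + k, by omega, ?_⟩
  rw [it_add, h]; exact hk

theorem Per.of_forw {x r : D} {n : ℕ} (hr : Per nx r) (h : it nx n r = some x) : Per nx x := by
  obtain ⟨m, hm, hm'⟩ := hr
  have h1 := Per.mul hm' (n + 1)
  have h2 : n < (n + 1) * m := by nlinarith
  -- it ((n+1)m - n) x = r
  have h3 : it nx ((n + 1) * m - n) x = some r := by
    have e : (n + 1) * m = n + ((n + 1) * m - n) := by omega
    rw [e, it_add, h] at h1
    exact h1
  refine ⟨((n + 1) * m - n) + n, by omega, ?_⟩
  rw [it_add, h3]; exact h

/-- roots: no predecessor, or minimal on a cycle -/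
def Root (nx : D → Option D) (idx : D → ℕ) (r : D) : Prop :=
  (∀ y, nx y ≠ some r) ∨ (Per nx r ∧ ∀ k y, it nx k r = some y → idx r ≤ idx y)

include inj in
theorem exists_root [Finite D] (idx : D → ℕ) (x : D) :
    ∃ r k, Root nx idx r ∧ it nx k r = some x := by
  by_cases hx : Per nx x
  · -- choose the minimal index on the cycle
    have hne : ∃ m, ∃ y k, it nx k x = some y ∧ idx y = m := ⟨_, x, 0, rfl, rfl⟩
    obtain ⟨y, k, h1, h2⟩ := Nat.find_spec hne
    have hy : Per nx y := Per.of_forw hx h1
    obtain ⟨j, _, hj⟩ := Per.back inj hy h1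
    refine ⟨y, j, Or.inr ⟨hy, ?_⟩, hj⟩
    intro l z hz
    rw [h2]
    refine Nat.find_min' hne ⟨z, k + l, ?_, rfl⟩
    rw [it_add, h1]; exact hz
  · -- go back as far as possible
    by_contra hcon
    push Not at hcon
    have key : ∀ n, ∃ y, it nx n y = some x := by
      intro n
      induction n with
      | zero => exact ⟨x, rfl⟩
      | succ n ih =>
        obtain ⟨y, hy⟩ := ih
        have h1 : ¬ Root nx idx y := fun h => hcon y n h hy
        have h2 : ∃ z, nx z = some y := by
          by_contra h3
          push Not at h3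
          exact h1 (Or.inl h3)
        obtain ⟨z, hz⟩ := h2
        refine ⟨z, ?_⟩
        rw [it_succ', hz]; exact hy
    choose f hf using key
    obtain ⟨i, j, hij, he⟩ := Finite.exists_ne_map_eq_of_infinite f
    wlog hlt : i < j generalizing i j
    · exact this j i hij.symm he.symm (lt_of_le_of_ne (not_lt.1 hlt) hij.symm)
    have h1 := hf j
    have h2 := hf i
    rw [← he] at h1
    -- it j (f i) = x, it i (f i) = x
    have e : j = i + (j - i) := by omega
    rw [e, it_add, h2] at h1
    exact hx ⟨j - i, by omega, h1⟩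

include inj in
theorem it_sub_root {r x : D} {i j : ℕ} (hij : i ≤ j) (hj : it nx j r = some x)
    (hi : it nx i r = some x) : it nx (j - i) r = some r := by
  have e : j = (j - i) + i := by omega
  rw [e, it_add] at hj
  cases h4 : it nx (j - i) r with
  | none => simp [h4] at hj
  | some u =>
    simp only [h4, Option.bind_some] at hj
    rw [it_cancel inj i hj hi]

include inj in
theorem stops [Finite D] (r : D) : ∃ n, 0 < n ∧ (it nx n r = none ∨ it nx n r = some r) := by
  by_contra hcon
  push Not at hcon
  have key : ∀ n, ∃ y, it nx n r = some y := by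
    intro n
    rcases Nat.eq_zero_or_pos n with rfl | hn
    · exact ⟨r, rfl⟩
    · exact Option.ne_none_iff_exists'.1 (hcon n hn).1
  choose f hf using key
  obtain ⟨i, j, hij, he⟩ := Finite.exists_ne_map_eq_of_infinite f
  wlog hlt : i < j generalizing i j
  · exact this j i hij.symm he.symm (lt_of_le_of_ne (not_lt.1 hlt) hij.symm)
  have h1 := hf j
  rw [← he] at h1
  exact (hcon (j - i) (by omega)).2 (it_sub_root inj hlt.le h1 (hf i))

/-- length of the component of a root -/
noncomputable def ln [Finite D] (inj : ∀ x y z, nx x = some z → nx y = some z → x = y) (r : D) :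
    ℕ := Nat.find (stops inj r)

theorem ln_pos [Finite D] (r : D) : 0 < ln inj r := (Nat.find_spec (stops inj r)).1

theorem ln_spec [Finite D] (r : D) : it nx (ln inj r) r = none ∨ it nx (ln inj r) r = some r :=
  (Nat.find_spec (stops inj r)).2

theorem ln_min [Finite D] {r : D} {n : ℕ} (h0 : 0 < n) (h : n < ln inj r) :
    it nx n r ≠ none ∧ it nx n r ≠ some r := by
  have := Nat.find_min (stops inj r) h
  push Not at this
  exact this h0

theorem ln_ne_none [Finite D] {r : D} {n : ℕ} (h : n < ln inj r) : it nx n r ≠ none := by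
  rcases Nat.eq_zero_or_pos n with rfl | h0
  · simp
  · exact (ln_min inj h0 h).1

theorem it_inj_lt [Finite D] {r x : D} {i j : ℕ} (hj : j < ln inj r) (hi : it nx i r = some x)
    (hj' : it nx j r = some x) (hij : i ≤ j) : i = j := by
  by_contra hne
  have hlt : i < j := lt_of_le_of_ne hij hne
  have h3 : it nx (j - i) r = some r := it_sub_root inj hij hj' hi
  exact (ln_min inj (n := j - i) (by omega) (by omega)).2 h3

include inj in
theorem root_unique [Finite D] {idx : D → ℕ} (hidx : Function.Injective idx) {r r' x : D}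
    (hr : Root nx idx r) (hr' : Root nx idx r') {i j : ℕ} (hi : it nx i r = some x)
    (hj : it nx j r' = some x) : r = r' := by
  wlog hij : i ≤ j generalizing r r' i j
  · exact (this hr' hr hj hi (le_of_not_ge hij)).symm
  -- it (j - i) r' = r
  have h1 : it nx (j - i) r' = some r := by
    have e : j = (j - i) + i := by omega
    rw [e, it_add] at hj
    cases h4 : it nx (j - i) r' with
    | none => simp [h4] at hj
    | some u =>
      simp only [h4, Option.bind_some] at hj
      rw [it_cancel inj i hj hi]
  rcases Nat.eq_zero_or_pos (j - i) with h0 | h0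
  · rw [h0] at h1; simpa using h1.symm
  have hpred : ∃ y, nx y = some r := by
    have e : j - i = (j - i - 1) + 1 := by omega
    rw [e, it_succ] at h1
    cases h4 : it nx (j - i - 1) r' with
    | none => simp [h4] at h1
    | some u =>
      simp only [h4, Option.bind_some] at h1
      exact ⟨u, h1⟩
  rcases hr with hr | ⟨hp, hmin⟩
  · obtain ⟨y, hy⟩ := hpred
    exact absurd hy (hr y)
  have hp' : Per nx r' := Per.of_back inj hp h1
  rcases hr' with hr' | ⟨_, hmin'⟩
  · obtain ⟨n, hn, hn'⟩ := hp'
    have e : n = (n - 1) + 1 := by omega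
    rw [e, it_succ] at hn'
    cases h4 : it nx (n - 1) r' with
    | none => simp [h4] at hn'
    | some u =>
      simp only [h4, Option.bind_some] at hn'
      exact absurd hn' (hr' u)
  · obtain ⟨k, _, hk⟩ := Per.back inj hp h1
    exact hidx (le_antisymm (hmin k _ hk) (hmin' _ _ h1))

end it

/-- **Frames from partial successor maps.** -/
theorem exists_frame [Finite D] (nx : D → Option D)
    (inj : ∀ x y z, nx x = some z → nx y = some z → x = y) :
    ∃ (F : Frame) (e : D ≃ F.Dart),
      (∀ x y, F.Next (e x) (e y) ↔ nx x = some y) ∧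
      (∀ i, F.cl i = false ↔ ∀ x, nx x ≠ some (e.symm ⟨i, ⟨0, F.len_pos i⟩⟩)) ∧
      (∀ i, F.cl i = false ↔
        nx (e.symm ⟨i, ⟨F.len i - 1, Nat.sub_lt (F.len_pos i) one_pos⟩⟩) = none) := by
  let idx : D → ℕ := fun x => (Finite.equivFin D x).val
  have hidx : Function.Injective idx := fun x y h => (Finite.equivFin D).injective (Fin.ext h)
  let R := {r : D // Root nx idx r}
  let eR : R ≃ Fin (Nat.card R) := Finite.equivFin R
  let F : Frame :=
    { K := Nat.card R
      len := fun i => ln inj (eR.symm i).1
      cl := fun i => decide (it nx (ln inj (eR.symm i).1) (eR.symm i).1 = some (eR.symm i).1)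
      len_pos := fun i => ln_pos inj _ }
  have hsome : ∀ a : F.Dart, ∃ y, it nx a.2.val (eR.symm a.1).1 = some y := fun a =>
    Option.ne_none_iff_exists'.1 (ln_ne_none inj a.2.isLt)
  choose f hf using hsome
  have finj : Function.Injective f := by
    intro a b hab
    have h1 := hf a
    have h2 := hf b
    rw [← hab] at h2
    have h3 := root_unique inj hidx (eR.symm a.1).2 (eR.symm b.1).2 h1 h2
    have h4 : a.1 = b.1 := eR.symm.injective (Subtype.ext h3)
    obtain ⟨i, j⟩ := a
    obtain ⟨i', j'⟩ := b
    simp only at h4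
    subst h4
    have h5 : j.val = j'.val := by
      rcases le_total j.val j'.val with h | h
      · exact it_inj_lt inj j'.isLt h1 h2 h
      · exact (it_inj_lt inj j.isLt h2 h1 h).symm
    rw [Fin.ext h5]
  have fsurj : Function.Surjective f := by
    intro x
    obtain ⟨r, k, hr, hk⟩ := exists_root inj idx x
    have hk' : ∃ k, it nx k r = some x := ⟨k, hk⟩
    have hlt : Nat.find hk' < ln inj r := by
      by_contra hcon
      push Not at hcon
      have h1 := Nat.find_spec hk'
      rcases ln_spec inj r with h2 | h2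
      · rw [it_none_mono hcon h2] at h1; cases h1
      · obtain ⟨m, hm⟩ := Nat.exists_eq_add_of_le hcon
        rw [hm, it_add, h2] at h1
        exact Nat.find_min hk' (m := m) (by have := ln_pos inj r; omega) h1
    refine ⟨⟨eR ⟨r, hr⟩, ⟨Nat.find hk', ?_⟩⟩, ?_⟩
    · show _ < ln inj (eR.symm (eR ⟨r, hr⟩)).1
      simpa using hlt
    · have h1 := hf ⟨eR ⟨r, hr⟩, ⟨Nat.find hk', by
        show _ < ln inj (eR.symm (eR ⟨r, hr⟩)).1
        simpa using hlt⟩⟩
      simp only [Equiv.symm_apply_apply] at h1
      rw [Nat.find_spec hk'] at h1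
      exact (Option.some.inj h1).symm
  have hnext : ∀ a b : F.Dart, F.Next a b ↔ nx (f a) = some (f b) := by
    intro a b
    constructor
    · rintro ⟨h1, h2⟩
      have ha : it nx (a.2.val + 1) (eR.symm a.1).1 = nx (f a) := by
        rw [it_succ, hf a]; rfl
      rw [← ha]
      rcases h2 with h2 | ⟨h2, h3, h4⟩
      · rw [← h2, h1]; exact hf b
      · have h5 := hf b
        rw [h2, it_zero] at h5
        rw [h3]
        have h6 := of_decide_eq_true h4
        show it nx (ln inj (eR.symm a.1).1) _ = _
        rw [h6, h1]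
        exact h5
    · intro h
      have ha : it nx (a.2.val + 1) (eR.symm a.1).1 = some (f b) := by
        rw [it_succ, hf a]; exact h
      by_cases hlt : a.2.val + 1 < F.len a.1
      · have h1 := hf ⟨a.1, ⟨a.2.val + 1, hlt⟩⟩
        have h2 : f ⟨a.1, ⟨a.2.val + 1, hlt⟩⟩ = f b := Option.some.inj (h1.symm.trans ha)
        have h3 := finj h2
        rw [← h3]
        exact ⟨rfl, Or.inl rfl⟩
      · have hlen : a.2.val + 1 = F.len a.1 := by
          have := a.2.isLt
          omega
        rw [hlen] at ha
        rcases ln_spec inj (eR.symm a.1).1 with h2 | h2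
        · have h3 : it nx (ln inj (eR.symm a.1).1) (eR.symm a.1).1 = some (f b) := ha
          rw [h2] at h3; cases h3
        · have h3 : it nx (ln inj (eR.symm a.1).1) (eR.symm a.1).1 = some (f b) := ha
          have h4 := hf ⟨a.1, ⟨0, F.len_pos a.1⟩⟩
          rw [it_zero] at h4
          have h5 : f ⟨a.1, ⟨0, F.len_pos a.1⟩⟩ = f b := by
            rw [h2] at h3
            exact Option.some.inj (h4.symm.trans h3)
          have h6 := finj h5
          rw [← h6]
          exact ⟨rfl, Or.inr ⟨rfl, hlen, decide_eq_true h2⟩⟩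
  let e : F.Dart ≃ D := Equiv.ofBijective f ⟨finj, fsurj⟩
  have he : ∀ a, e a = f a := fun _ => rfl
  refine ⟨F, e.symm, ?_, ?_, ?_⟩
  · intro x y
    rw [hnext, ← he, ← he, Equiv.apply_symm_apply, Equiv.apply_symm_apply]
  · intro i
    have h0 : e.symm.symm ⟨i, ⟨0, F.len_pos i⟩⟩ = f ⟨i, ⟨0, F.len_pos i⟩⟩ := rfl
    rw [h0]
    constructor
    · intro hcl x hx
      obtain ⟨a, rfl⟩ := fsurj x
      have h1 := (hnext _ _).2 hx
      obtain ⟨h2, h3 | ⟨_, _, h4⟩⟩ := h1
      · simp at h3
      · rw [h2] at h4
        rw [hcl] at h4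
        cases h4
    · intro h
      by_contra hcl
      have hcl' : F.cl i = true := by simpa using hcl
      refine h (f ⟨i, ⟨F.len i - 1, Nat.sub_lt (F.len_pos i) one_pos⟩⟩) ((hnext _ _).1 ?_)
      refine ⟨rfl, Or.inr ⟨rfl, ?_, hcl'⟩⟩
      show F.len i - 1 + 1 = F.len i
      have := F.len_pos i
      omega
  · intro i
    have h0 : e.symm.symm ⟨i, ⟨F.len i - 1, Nat.sub_lt (F.len_pos i) one_pos⟩⟩ =
      f ⟨i, ⟨F.len i - 1, Nat.sub_lt (F.len_pos i) one_pos⟩⟩ := rfl
    rw [h0]
    constructor
    · intro hcl
      by_contra hne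
      obtain ⟨y, hy⟩ := Option.ne_none_iff_exists'.1 hne
      obtain ⟨b, rfl⟩ := fsurj y
      obtain ⟨h2, h3 | ⟨_, _, h4⟩⟩ := (hnext _ _).2 hy
      · have h5 := b.2.isLt
        obtain ⟨b1, b2⟩ := b
        simp only at h2
        subst h2
        simp only at h3 h5
        have := F.len_pos i
        omega
      · simp only at h4
        rw [hcl] at h4
        cases h4
    · intro h
      by_contra hcl
      have hcl' : F.cl i = true := by simpa using hcl
      have h1 : nx (f ⟨i, ⟨F.len i - 1, Nat.sub_lt (F.len_pos i) one_pos⟩⟩) =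
          some (f ⟨i, ⟨0, F.len_pos i⟩⟩) := (hnext _ _).1 ⟨rfl, Or.inr ⟨rfl, by
            show F.len i - 1 + 1 = F.len i
            have := F.len_pos i
            omega, hcl'⟩⟩
      rw [h] at h1
      cases h1

end Crest.Agent.R177.Mk
private theorem rz_232f52a422 : type_of% @_root_.Crest.Agent.R177.Mk.it.eq_def := @_root_.Crest.Agent.R177.Mk.it.eq_def -- L19
private theorem rz_ddbc0c6d4f : type_of% @_root_.Crest.Agent.R177.Mk.it.eq_1 := @_root_.Crest.Agent.R177.Mk.it.eq_1 -- L19
end

-- ▼ part R177/MkConf

/-!
# Rows 177/184: from pre-configurations on a finite type of darts to configurations (helper323)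
-/

set_option autoImplicit false

open scoped Classical

namespace Crest.Agent.R177

open Crest.Agent.R199 (PAct)

/-- A configuration on a finite type of darts with a partial successor map `nx`. -/
structure Pre {S V : Type} (A : PAct S V) (D : Type) where
  nx : D → Option D
  inj : ∀ x y z, nx x = some z → nx y = some z → x = y
  /-- start node -/
  nd : D → V
  /-- end node -/
  nd' : D → V
  lab : D → S × Bool
  mate : D → Option D
  step : ∀ x, A.st (lab x) (nd x) = some (nd' x)
  glueN : ∀ x y, nx x = some y → nd' x = nd y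
  red : ∀ x y, nx x = some y → lab y ≠ hinv (lab x)
  mate_symm : ∀ x x', mate x = some x' → mate x' = some x
  mate_corner : ∀ x x', mate x = some x' → ∃ y, nx y = some x
  mate_lab : ∀ x x' y, mate x = some x' → nx y = some x → lab x' = hinv (lab y)
  mate_node : ∀ x x', mate x = some x' → nd x ≠ nd x'
  mate_coh : ∀ x x' y y', mate x = some x' → nx x = some y → mate y = some y' → nx y' = some x'

namespace Pre

variable {S V : Type} {A : PAct S V} {D : Type} (P : Pre A D)

/-- matched corners -/
noncomputable def glued : ℕ := Nat.card {x : D // P.mate x ≠ none}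

/-- unmatched corners -/
noncomputable def unglued : ℕ := Nat.card {x : D // (∃ y, P.nx y = some x) ∧ P.mate x = none}

/-- matched corners whose next corner is unmatched or does not exist -/
noncomputable def ends : ℕ :=
  Nat.card {x : D // P.mate x ≠ none ∧ ∀ y, P.nx x = some y → P.mate y = none}

/-- number of open paths -/
noncomputable def openN : ℕ := Nat.card {x : D // ∀ y, P.nx y ≠ some x}

/-- ends at `o` -/
noncomputable def endsAt (o : V) : ℕ :=
  Nat.card {x : D // (∀ y, P.nx y ≠ some x) ∧ P.nd x = o} +
    Nat.card {x : D // P.nx x = none ∧ P.nd' x = o}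

/-- **Configurations from pre-configurations.** -/
theorem exists_conf [Finite D] : ∃ (F : Frame) (c : Conf A F) (e : D ≃ F.Dart),
    (∀ x y, F.Next (e x) (e y) ↔ P.nx x = some y) ∧
    (∀ x, c.lab (e x) = P.lab x) ∧ (∀ x, c.node (F.start (e x)) = P.nd x) ∧
    (∀ x, c.node (F.stop (e x)) = P.nd' x) ∧ (∀ x, c.mate (e x) = (P.mate x).map e) ∧
    (∀ i, F.cl i = false ↔ ∀ x, P.nx x ≠ some (e.symm ⟨i, ⟨0, F.len_pos i⟩⟩)) ∧
    c.glued = P.glued ∧ c.unglued = P.unglued ∧ c.ends = P.ends ∧ F.openN = P.openN ∧
    ∀ o, c.endsAt o = P.endsAt o := by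
  obtain ⟨F, e, hN, hcl, hcl'⟩ := Mk.exists_frame P.nx P.inj
  have hN' : ∀ a b, F.Next a b ↔ P.nx (e.symm a) = some (e.symm b) := by
    intro a b
    rw [← hN, Equiv.apply_symm_apply, Equiv.apply_symm_apply]
  have hcor : ∀ x, F.IsCorner (e x) ↔ ∃ y, P.nx y = some x := by
    intro x
    constructor
    · rintro ⟨y, hy⟩
      rw [hN', Equiv.symm_apply_apply] at hy
      exact ⟨_, hy⟩
    · rintro ⟨y, hy⟩
      exact ⟨e y, (hN _ _).2 hy⟩
  let first : ∀ i : Fin F.K, F.Dart := fun i => ⟨i, ⟨0, F.len_pos i⟩⟩
  let last : ∀ i : Fin F.K, F.Dart := fun i => ⟨i, ⟨F.len i - 1, Nat.sub_lt (F.len_pos i) one_pos⟩⟩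
  let node : F.Pos → V := fun p =>
    if h : p.2.val < F.len p.1 then P.nd (e.symm ⟨p.1, ⟨p.2.val, h⟩⟩) else P.nd' (e.symm (last p.1))
  have node_start : ∀ a : F.Dart, node (F.start a) = P.nd (e.symm a) := by
    intro a
    have h : (F.start a).2.val < F.len (F.start a).1 := a.2.isLt
    show (if h : (F.start a).2.val < F.len (F.start a).1 then _ else _) = _
    rw [dif_pos h]
    rfl
  have node_stop : ∀ a : F.Dart, node (F.stop a) = P.nd' (e.symm a) := by
    intro a
    by_cases h : (F.stop a).2.val < F.len (F.stop a).1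
    · have h1 : F.Next a ⟨a.1, ⟨a.2.val + 1, h⟩⟩ := ⟨rfl, Or.inl rfl⟩
      rw [hN'] at h1
      show (if h : (F.stop a).2.val < F.len (F.stop a).1 then _ else _) = _
      rw [dif_pos h]
      exact (P.glueN _ _ h1).symm
    · show (if h : (F.stop a).2.val < F.len (F.stop a).1 then _ else _) = _
      rw [dif_neg h]
      have h1 : last a.1 = a := by
        obtain ⟨i, j⟩ := a
        have h2 : ¬ j.val + 1 < F.len i := h
        have h3 := j.isLt
        show (⟨i, ⟨F.len i - 1, _⟩⟩ : F.Dart) = ⟨i, j⟩
        have h4 : (⟨F.len i - 1, Nat.sub_lt (F.len_pos i) one_pos⟩ : Fin (F.len i)) = j :=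
          Fin.ext (by show F.len i - 1 = j.val; omega)
        rw [h4]
      show P.nd' (e.symm (last a.1)) = _
      rw [h1]
  have lastnext : ∀ i, F.cl i = true → F.Next (last i) (first i) := fun i hi =>
    ⟨rfl, Or.inr ⟨rfl, by
      show F.len i - 1 + 1 = F.len i
      have := F.len_pos i
      omega, hi⟩⟩
  have node_zero : ∀ i, node ⟨i, 0⟩ = P.nd (e.symm (first i)) := by
    intro i
    have := node_start (first i)
    exact this
  have node_last : ∀ i, node ⟨i, Fin.last _⟩ = P.nd' (e.symm (last i)) := by
    intro i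
    show (if h : (Fin.last (F.len i)).val < F.len i then _ else _) = _
    rw [dif_neg (by simp)]
  let c : Conf A F :=
    { node := node
      lab := fun a => P.lab (e.symm a)
      mate := fun a => (P.mate (e.symm a)).map e
      step := by
        intro a
        rw [node_start, node_stop]
        exact P.step _
      closed := by
        intro i hi
        rw [node_zero, node_last]
        exact P.glueN _ _ ((hN' _ _).1 (lastnext i hi))
      red := fun a b h => P.red _ _ ((hN' _ _).1 h)
      mate_symm := by
        intro a a' h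
        obtain ⟨u, hu, rfl⟩ := Option.map_eq_some_iff.1 h
        rw [Equiv.symm_apply_apply, P.mate_symm _ _ hu]
        simp
      mate_corner := by
        intro a a' h
        obtain ⟨u, hu, rfl⟩ := Option.map_eq_some_iff.1 h
        have := (hcor (e.symm a)).2 (P.mate_corner _ _ hu)
        rwa [Equiv.apply_symm_apply] at this
      mate_lab := by
        intro a a' b h hb
        obtain ⟨u, hu, rfl⟩ := Option.map_eq_some_iff.1 h
        rw [Equiv.symm_apply_apply]
        exact P.mate_lab _ _ _ hu ((hN' _ _).1 hb)
      mate_node := by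
        intro a a' h
        obtain ⟨u, hu, rfl⟩ := Option.map_eq_some_iff.1 h
        rw [node_start, node_start, Equiv.symm_apply_apply]
        exact P.mate_node _ _ hu
      mate_coh := by
        intro a a' b b' h h1 h2
        obtain ⟨u, hu, rfl⟩ := Option.map_eq_some_iff.1 h
        obtain ⟨v, hv, rfl⟩ := Option.map_eq_some_iff.1 h2
        rw [hN]
        exact P.mate_coh _ _ _ _ hu ((hN' _ _).1 h1) hv }
  have hmate : ∀ x, c.mate (e x) = (P.mate x).map e := by
    intro x
    show (P.mate (e.symm (e x))).map e = _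
    rw [Equiv.symm_apply_apply]
  have hmn : ∀ x, c.mate (e x) = none ↔ P.mate x = none := by
    intro x
    rw [hmate]; simp
  refine ⟨F, c, e, hN, ?_, ?_, ?_, hmate, hcl, ?_, ?_, ?_, ?_, ?_⟩
  · intro x
    show P.lab (e.symm (e x)) = _
    rw [Equiv.symm_apply_apply]
  · intro x
    show node (F.start (e x)) = _
    rw [node_start, Equiv.symm_apply_apply]
  · intro x
    show node (F.stop (e x)) = _
    rw [node_stop, Equiv.symm_apply_apply]
  · refine (Nat.card_congr (e.subtypeEquiv fun x => ?_)).symm
    exact (not_congr (hmn x)).symm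
  · refine (Nat.card_congr (e.subtypeEquiv fun x => ?_)).symm
    rw [hcor, hmn]
  · refine (Nat.card_congr (e.subtypeEquiv fun x => ?_)).symm
    refine and_congr (not_congr (hmn x)).symm ⟨fun h y hy => ?_, fun h y hy => ?_⟩
    · rw [hN', Equiv.symm_apply_apply] at hy
      have := h _ hy
      rwa [← hmn, Equiv.apply_symm_apply] at this
    · rw [← hmn]
      exact h _ ((hN _ _).2 hy)
  · -- open paths
    refine Nat.card_congr (Equiv.ofBijective (fun i : {i : Fin F.K // F.cl i = false} =>
      (⟨e.symm (first i.1), (hcl i.1).1 i.2⟩ : {x : D // ∀ y, P.nx y ≠ some x})) ⟨?_, ?_⟩)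
    · intro i j hij
      have h1 := e.symm.injective (congrArg Subtype.val hij)
      exact Subtype.ext (congrArg Sigma.fst h1)
    · rintro ⟨x, hx⟩
      have h0 : (e x).2.val = 0 := by
        by_contra hne
        have h1 : F.Next ⟨(e x).1, ⟨(e x).2.val - 1, by have := (e x).2.isLt; omega⟩⟩ (e x) :=
          ⟨rfl, Or.inl (by show (e x).2.val = (e x).2.val - 1 + 1; omega)⟩
        rw [hN', Equiv.symm_apply_apply] at h1
        exact hx _ h1
      have h1 : first (e x).1 = e x := by
        generalize e x = a at h0 ⊢
        obtain ⟨i, j⟩ := a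
        show (⟨i, ⟨0, _⟩⟩ : F.Dart) = ⟨i, j⟩
        have : (⟨0, F.len_pos i⟩ : Fin (F.len i)) = j := Fin.ext h0.symm
        rw [this]
      refine ⟨⟨(e x).1, ?_⟩, ?_⟩
      · rw [hcl]
        intro y hy
        have h2 : e.symm (first (e x).1) = x := by rw [h1, Equiv.symm_apply_apply]
        exact hx y (hy.trans (congrArg some h2))
      · apply Subtype.ext
        show e.symm (first (e x).1) = x
        rw [h1, Equiv.symm_apply_apply]
  · intro o
    unfold Conf.endsAt Pre.endsAt
    congr 1
    · refine Nat.card_congr (Equiv.ofBijective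
        (fun i : {i : Fin F.K // F.cl i = false ∧ c.node ⟨i, 0⟩ = o} =>
        (⟨e.symm (first i.1), (hcl i.1).1 i.2.1, (node_zero i.1).symm.trans i.2.2⟩ :
          {x : D // (∀ y, P.nx y ≠ some x) ∧ P.nd x = o})) ⟨?_, ?_⟩)
      · intro i j hij
        have h1 := e.symm.injective (congrArg Subtype.val hij)
        exact Subtype.ext (congrArg Sigma.fst h1)
      · rintro ⟨x, hx, hxo⟩
        have h0 : (e x).2.val = 0 := by
          by_contra hne
          have h1 : F.Next ⟨(e x).1, ⟨(e x).2.val - 1, by have := (e x).2.isLt; omega⟩⟩ (e x) :=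
            ⟨rfl, Or.inl (by show (e x).2.val = (e x).2.val - 1 + 1; omega)⟩
          rw [hN', Equiv.symm_apply_apply] at h1
          exact hx _ h1
        have h1 : first (e x).1 = e x := by
          generalize e x = a at h0 ⊢
          obtain ⟨i, j⟩ := a
          show (⟨i, ⟨0, _⟩⟩ : F.Dart) = ⟨i, j⟩
          have : (⟨0, F.len_pos i⟩ : Fin (F.len i)) = j := Fin.ext h0.symm
          rw [this]
        have h2 : e.symm (first (e x).1) = x := by rw [h1, Equiv.symm_apply_apply]
        refine ⟨⟨(e x).1, ?_, ?_⟩, Subtype.ext h2⟩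
        · rw [hcl]
          intro y hy
          exact hx y (hy.trans (congrArg some h2))
        · show node _ = o
          rw [node_zero, h2, hxo]
    · refine Nat.card_congr (Equiv.ofBijective
        (fun i : {i : Fin F.K // F.cl i = false ∧ c.node ⟨i, Fin.last _⟩ = o} =>
        (⟨e.symm (last i.1), (hcl' i.1).1 i.2.1, (node_last i.1).symm.trans i.2.2⟩ :
          {x : D // P.nx x = none ∧ P.nd' x = o})) ⟨?_, ?_⟩)
      · intro i j hij
        have h1 := e.symm.injective (congrArg Subtype.val hij)
        exact Subtype.ext (congrArg Sigma.fst h1)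
      · rintro ⟨x, hx, hxo⟩
        have h0 : (e x).2.val + 1 = F.len (e x).1 := by
          by_contra hne
          have h1 : F.Next (e x) ⟨(e x).1, ⟨(e x).2.val + 1, by have := (e x).2.isLt; omega⟩⟩ :=
            ⟨rfl, Or.inl rfl⟩
          rw [hN', Equiv.symm_apply_apply, hx] at h1
          cases h1
        have h1 : last (e x).1 = e x := by
          generalize e x = a at h0 ⊢
          obtain ⟨i, j⟩ := a
          show (⟨i, ⟨F.len i - 1, _⟩⟩ : F.Dart) = ⟨i, j⟩
          have h4 : (⟨F.len i - 1, Nat.sub_lt (F.len_pos i) one_pos⟩ : Fin (F.len i)) = j :=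
            Fin.ext (by show F.len i - 1 = j.val; simp only at h0; omega)
          rw [h4]
        have h2 : e.symm (last (e x).1) = x := by rw [h1, Equiv.symm_apply_apply]
        refine ⟨⟨(e x).1, ?_, ?_⟩, Subtype.ext h2⟩
        · rw [hcl']
          show P.nx (e.symm (last (e x).1)) = none
          rw [h2]; exact hx
        · show node _ = o
          rw [node_last, h2, hxo]

end Pre

end Crest.Agent.R177

namespace Crest.Agent.R177

/-- length bound for the paths of a frame obtained from a successor map -/
theorem Frame.len_le_of {D ι : Type} [Finite D] {nx : D → Option D} {F : Frame}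
    (e : D ≃ F.Dart) (hN : ∀ x y, F.Next (e x) (e y) ↔ nx x = some y) (p : D → ι)
    (hp : ∀ x y, nx x = some y → p x = p y) (L : ℕ) (hL : ∀ j, Nat.card {x // p x = j} ≤ L)
    (i : Fin F.K) : F.len i ≤ L := by
  have key : ∀ k (hk : k < F.len i), p (e.symm ⟨i, ⟨k, hk⟩⟩) = p (e.symm ⟨i, ⟨0, F.len_pos i⟩⟩) := by
    intro k
    induction k with
    | zero => intro _; rfl
    | succ k ih =>
      intro hk
      rw [← ih (by omega)]
      refine (hp _ _ ?_).symm
      rw [← hN, Equiv.apply_symm_apply, Equiv.apply_symm_apply]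
      exact ⟨rfl, Or.inl rfl⟩
  let f : Fin (F.len i) → {x // p x = p (e.symm ⟨i, ⟨0, F.len_pos i⟩⟩)} :=
    fun k => ⟨e.symm ⟨i, k⟩, key k.1 k.2⟩
  have hf : Function.Injective f := by
    intro k k' h
    have h1 := e.symm.injective (congrArg Subtype.val h)
    simpa using h1
  have := Nat.card_le_card_of_injective f hf
  rw [Nat.card_eq_fintype_card, Fintype.card_fin] at this
  exact this.trans (hL _)


end Crest.Agent.R177
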