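import Crest.Agent.R177.GroupingDefs

/-!
# Row 177: star subdivision of faces keeps (P)

`start : X → Prop` marks the cut corners.  Every face (`φ`-cycle) containing starts is divided into
sectors by spokes from a new centre to the starts.  New darts: `inr (s, true)` = spoke from the
corner `s` to the centre, `inr (s, false)` = spoke from the centre to the corner `s`.
-/

set_option autoImplicit false

namespace Crest.Agent.R177

open Equiv.Perm

variable {X : Type*} [Fintype X]

section defs

variable (φ : Equiv.Perm X) (start : X → Prop)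

/-- the face of `x` contains a start -/
def HasStart (x : X) : Prop := ∃ k : ℕ, start ((φ⁻¹ ^ k) x)

open scoped Classical in
/-- the last start before (or at) `x` on its face; `x` itself if there is no start -/
noncomputable def sec (x : X) : X :=
  if h : HasStart φ start x then (φ⁻¹ ^ (Nat.find h)) x else x

end defs

variable {φ : Equiv.Perm X} {start : X → Prop}

omit [Fintype X] in
lemma hasStart_of_start {x : X} (h : start x) : HasStart φ start x := ⟨0, by simpa using h⟩

omit [Fintype X] in
lemma sec_start {x : X} (h : start x) : sec φ start x = x := by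
  classical
  have h1 : HasStart φ start x := hasStart_of_start h
  have h2 : Nat.find h1 = 0 := by
    refine (Nat.find_eq_zero (p := fun k => start ((φ⁻¹ ^ k) x)) h1).2 ?_
    simpa using h
  rw [sec, dif_pos h1, h2]
  simp

omit [Fintype X] in
lemma start_sec {x : X} (h : HasStart φ start x) : start (sec φ start x) := by
  classical
  rw [sec, dif_pos h]
  exact Nat.find_spec h

omit [Fintype X] in
lemma hasStart_apply {x : X} (h : HasStart φ start x) : HasStart φ start (φ x) := by
  obtain ⟨k, hk⟩ := h
  refine ⟨k + 1, ?_⟩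
  rw [pow_succ, Equiv.Perm.mul_apply]
  simpa using hk

lemma hasStart_of_apply {x : X} (h : HasStart φ start (φ x)) : HasStart φ start x := by
  obtain ⟨k, hk⟩ := h
  have ho : 0 < orderOf φ⁻¹ := orderOf_pos _
  refine ⟨k + (orderOf φ⁻¹ - 1), ?_⟩
  have : (φ⁻¹ ^ (k + (orderOf φ⁻¹ - 1))) x = (φ⁻¹ ^ k) (φ x) := by
    rw [pow_add, Equiv.Perm.mul_apply]
    congr 1
    apply φ⁻¹.injective
    rw [← Equiv.Perm.mul_apply, ← pow_succ', Nat.sub_add_cancel ho, pow_orderOf_eq_one]
    simp
  rw [this]; exact hk


omit [Fintype X] in
lemma sec_apply {x : X} (hx : HasStart φ start x) (h : ¬ start (φ x)) :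
    sec φ start (φ x) = sec φ start x := by
  classical
  have hx' : HasStart φ start (φ x) := hasStart_apply hx
  rw [sec, sec, dif_pos hx, dif_pos hx']
  have key : Nat.find hx' = Nat.find hx + 1 := by
    refine (Nat.find_eq_iff (p := fun k => start ((φ⁻¹ ^ k) (φ x))) hx').2 ?_
    constructor
    · rw [pow_succ, Equiv.Perm.mul_apply]
      have := Nat.find_spec hx
      simpa using this
    · intro n hn
      rcases n with _ | n
      · simpa using h
      · rw [pow_succ, Equiv.Perm.mul_apply]
        have := Nat.find_min hx (m := n) (by omega)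
        simpa using this
  rw [key, pow_succ, Equiv.Perm.mul_apply]
  simp

omit [Fintype X] in
lemma sec_eq_pow (x : X) : ∃ k : ℕ, sec φ start x = (φ⁻¹ ^ k) x := by
  classical
  by_cases h : HasStart φ start x
  · exact ⟨_, by rw [sec, dif_pos h]⟩
  · exact ⟨0, by rw [sec, dif_neg h]; simp⟩

omit [Fintype X] in
/-- the previous start, as an injective map on starts -/
lemma prev_inj {s s' : X} (hs : start s) (hs' : start s')
    (h1 : HasStart φ start (φ⁻¹ s)) (h1' : HasStart φ start (φ⁻¹ s'))
    (h : sec φ start (φ⁻¹ s) = sec φ start (φ⁻¹ s')) : s = s' := by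
  classical
  rw [sec, sec, dif_pos h1, dif_pos h1'] at h
  -- `s = φ^(k+1) p`, `s' = φ^(k'+1) p`
  have aux : ∀ {u v : X} (hu : start u) (h2 : HasStart φ start (φ⁻¹ u))
      (h2' : HasStart φ start (φ⁻¹ v)),
      (φ⁻¹ ^ (Nat.find h2)) (φ⁻¹ u) = (φ⁻¹ ^ (Nat.find h2')) (φ⁻¹ v) →
      Nat.find h2' ≤ Nat.find h2 := by
    intro u v hu h2 h2' he
    by_contra hlt
    push Not at hlt
    obtain ⟨d, hd⟩ : ∃ d, Nat.find h2' = Nat.find h2 + (d + 1) := ⟨Nat.find h2' - Nat.find h2 - 1, by omega⟩
    rw [hd, pow_add, Equiv.Perm.mul_apply] at he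
    have he' := (φ⁻¹ ^ (Nat.find h2)).injective he
    rw [pow_succ', Equiv.Perm.mul_apply] at he'
    have he'' := φ⁻¹.injective he'
    have := Nat.find_min h2' (m := d) (by omega)
    exact this (he'' ▸ hu)
  have e1 := aux hs h1 h1' h
  have e2 := aux hs' h1' h1 h.symm
  have e3 : Nat.find h1 = Nat.find h1' := le_antisymm e2 e1
  rw [e3] at h
  exact φ⁻¹.injective ((φ⁻¹ ^ (Nat.find h1')).injective h)

/-! ## The subdivided map -/

/-- darts of the star subdivision -/
abbrev StarX (start : X → Prop) : Type _ := X ⊕ ({x // start x} × Bool)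

lemma hasStart_inv {s : X} (hs : start s) : HasStart φ start (φ⁻¹ s) :=
  hasStart_of_apply (by simpa using hasStart_of_start hs)

open scoped Classical in
/-- the face permutation of the star subdivision, as a function -/
noncomputable def starFun (φ : Equiv.Perm X) (start : X → Prop) : StarX start → StarX start
  | Sum.inl x => if h : start (φ x) then Sum.inr (⟨φ x, h⟩, true) else Sum.inl (φ x)
  | Sum.inr (s, true) =>
      Sum.inr (⟨sec φ start (φ⁻¹ s.1), start_sec (hasStart_inv s.2)⟩, false)
  | Sum.inr (s, false) => Sum.inl s.1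

lemma starFun_inj (φ : Equiv.Perm X) (start : X → Prop) :
    Function.Injective (starFun φ start) := by
  classical
  rintro (x | ⟨s, b⟩) (y | ⟨t, c⟩) h
  · simp only [starFun] at h
    split_ifs at h with h1 h2 h2
    · simp only [Sum.inr.injEq, Prod.mk.injEq, Subtype.mk.injEq, and_true] at h
      rw [φ.injective h]
    · simp only [Sum.inl.injEq] at h
      rw [φ.injective h]
  · cases c
    · simp only [starFun] at h
      split_ifs at h with h1
      simp only [Sum.inl.injEq] at h
      exact absurd (h ▸ t.2) h1
    · simp only [starFun] at h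
      split_ifs at h with h1
      simp at h
  · cases b
    · simp only [starFun] at h
      split_ifs at h with h1
      simp only [Sum.inl.injEq] at h
      exact absurd (h ▸ s.2) h1
    · simp only [starFun] at h
      split_ifs at h with h1
      simp at h
  · cases b <;> cases c
    · simp only [starFun, Sum.inl.injEq] at h
      rw [Subtype.ext h]
    · simp [starFun] at h
    · simp [starFun] at h
    · simp only [starFun, Sum.inr.injEq, Prod.mk.injEq, Subtype.mk.injEq, and_true] at h
      have := prev_inj s.2 t.2 (hasStart_inv s.2) (hasStart_inv t.2) h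
      rw [Subtype.ext this]

/-- the face permutation of the star subdivision -/
noncomputable def starφ (φ : Equiv.Perm X) (start : X → Prop) : Equiv.Perm (StarX start) :=
  Equiv.ofBijective (starFun φ start) (Finite.injective_iff_bijective.1 (starFun_inj φ start))

/-- the edge involution of the star subdivision -/
def starα (α : Equiv.Perm X) (start : X → Prop) : Equiv.Perm (StarX start) :=
  Equiv.sumCongr α (Equiv.prodCongr (Equiv.refl _) (Equiv.boolNot))

omit [Fintype X] in
@[simp] lemma starα_inl (α : Equiv.Perm X) (x : X) :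
    starα α start (Sum.inl x) = Sum.inl (α x) := rfl

omit [Fintype X] in
@[simp] lemma starα_inr (α : Equiv.Perm X) (s : {x // start x}) (b : Bool) :
    starα α start (Sum.inr (s, b)) = Sum.inr (s, !b) := rfl

lemma starφ_inl_of_start {x : X} (h : start (φ x)) :
    starφ φ start (Sum.inl x) = Sum.inr (⟨φ x, h⟩, true) := by
  change starFun φ start (Sum.inl x) = _
  simp [starFun, h]

lemma starφ_inl_of_not {x : X} (h : ¬ start (φ x)) :
    starφ φ start (Sum.inl x) = Sum.inl (φ x) := by
  change starFun φ start (Sum.inl x) = _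
  simp [starFun, h]

lemma starφ_in (s : {x // start x}) :
    starφ φ start (Sum.inr (s, true))
      = Sum.inr (⟨sec φ start (φ⁻¹ s.1), start_sec (hasStart_inv s.2)⟩, false) := rfl

lemma starφ_out (s : {x // start x}) :
    starφ φ start (Sum.inr (s, false)) = Sum.inl s.1 := rfl

omit [Fintype X] in
lemma starα_invol {α : Equiv.Perm X} (h2 : ∀ x, α (α x) = x) (x : StarX start) :
    starα α start (starα α start x) = x := by
  rcases x with x | ⟨s, b⟩
  · simp [h2]
  · simp

omit [Fintype X] in
lemma starα_ne {α : Equiv.Perm X} (h0 : ∀ x, α x ≠ x) (x : StarX start) :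
    starα α start x ≠ x := by
  rcases x with x | ⟨s, b⟩
  · simp [h0]
  · simp

/-- Star subdivision keeps property (P). -/
theorem propP_star {α : Equiv.Perm X} (hP : PropP φ α) :
    PropP (starφ φ start) (starα α start) := by
  classical
  intro a' ha'
  have c2 : ∀ z : ZMod 2, z + z = 0 := fun z => CharTwo.add_self_eq_zero z
  -- the correction
  set τ : X → ZMod 2 := fun z =>
    if h : HasStart φ start z then a' (Sum.inr (⟨sec φ start z, start_sec h⟩, false)) else 0
    with hτ
  have τ_start : ∀ s : {x // start x}, τ s.1 = a' (Sum.inr (s, false)) := by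
    intro s
    have h : HasStart φ start s.1 := hasStart_of_start s.2
    simp only [hτ, dif_pos h]
    congr 3
    exact Subtype.ext (sec_start s.2)
  have τ_inv : ∀ s : {x // start x}, τ (φ⁻¹ s.1) = a' (starφ φ start (Sum.inr (s, true))) := by
    intro s
    have h : HasStart φ start (φ⁻¹ s.1) := hasStart_inv s.2
    simp only [hτ, dif_pos h]
    rfl
  have τ_apply : ∀ z, ¬ start (φ z) → τ (φ z) = τ z := by
    intro z hz
    by_cases h : HasStart φ start z
    · have h' : HasStart φ start (φ z) := hasStart_apply h
      simp only [hτ, dif_pos h, dif_pos h']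
      congr 3
      exact Subtype.ext (sec_apply h hz)
    · have h' : ¬ HasStart φ start (φ z) := fun h' => h (hasStart_of_apply h')
      simp only [hτ, dif_neg h, dif_neg h']
  -- the spoke condition
  have spoke : ∀ s : {x // start x},
      a' (Sum.inr (s, true)) = a' (Sum.inl s.1) + τ s.1 + τ (φ⁻¹ s.1) := by
    intro s
    have := ha' (Sum.inr (s, true))
    rw [← τ_inv s, starα_inr, Bool.not_true, ← τ_start s, starφ_out] at this
    calc a' (Sum.inr (s, true))
        = a' (Sum.inr (s, true)) + 0 := by ring
      _ = a' (Sum.inr (s, true)) + ((a' (Sum.inr (s, true)) + τ (φ⁻¹ s.1) + τ s.1 + a' (Sum.inl s.1))) := by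
          rw [this]
      _ = (a' (Sum.inr (s, true)) + a' (Sum.inr (s, true))) + (a' (Sum.inl s.1) + τ s.1 + τ (φ⁻¹ s.1)) := by
          ring
      _ = _ := by rw [c2]; ring
  set a : X → ZMod 2 := fun z => a' (Sum.inl z) + τ z with ha
  have hA : ∀ z, a z + a (φ z) = a' (Sum.inl z) + a' (starφ φ start (Sum.inl z)) := by
    intro z
    by_cases h : start (φ z)
    · rw [starφ_inl_of_start h, spoke ⟨φ z, h⟩]
      have : φ⁻¹ (φ z) = z := by simp
      simp only [this, ha]
      ring
    · rw [starφ_inl_of_not h]
      simp only [ha, τ_apply z h]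
      have := c2 (τ z)
      calc a' (Sum.inl z) + τ z + (a' (Sum.inl (φ z)) + τ z)
          = a' (Sum.inl z) + a' (Sum.inl (φ z)) + (τ z + τ z) := by ring
        _ = _ := by rw [this]; ring
  obtain ⟨b, h, hb, hh, hab⟩ := hP a (by
    intro x
    have e1 := hA x
    have e2 := hA (α x)
    have e3 := ha' (Sum.inl x)
    rw [starα_inl] at e3
    calc a x + a (φ x) + a (α x) + a (φ (α x))
        = (a x + a (φ x)) + (a (α x) + a (φ (α x))) := by ring
      _ = a' (Sum.inl x) + a' (starφ φ start (Sum.inl x)) + a' (Sum.inl (α x))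
            + a' (starφ φ start (Sum.inl (α x))) := by rw [e1, e2]; ring
      _ = 0 := e3)
  have h_pow : ∀ (k : ℕ) (z : X), h ((φ⁻¹ ^ k) z) = h z := by
    intro k
    induction k with
    | zero => intro z; simp
    | succ k ih =>
      intro z
      rw [pow_succ, Equiv.Perm.mul_apply, ih]
      have := hh (φ⁻¹ z)
      simpa using this.symm
  have h_sec : ∀ z, h (sec φ start z) = h z := by
    intro z
    obtain ⟨k, hk⟩ := sec_eq_pow (φ := φ) (start := start) z
    rw [hk, h_pow]
  have h_inv : ∀ z, h (φ⁻¹ z) = h z := by
    intro z; simpa using h_pow 1 z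
  refine ⟨Sum.elim b (fun p => if p.2 then b p.1.1 else h p.1.1),
    Sum.elim (fun z => h z + τ z) (fun p => if p.2 then h p.1.1 + τ (φ⁻¹ p.1.1)
      else h p.1.1 + τ p.1.1), ?_, ?_, ?_⟩
  · rintro (z | ⟨s, c⟩)
    · rw [starα_inl]
      by_cases h1 : start (φ (α z))
      · rw [starφ_inl_of_start h1]
        simpa using hb z
      · rw [starφ_inl_of_not h1]
        simpa using hb z
    · cases c
      · rw [starα_inr, Bool.not_false, starφ_in]
        change h (sec φ start (φ⁻¹ s.1)) = h s.1
        rw [h_sec, h_inv]
      · rw [starα_inr, Bool.not_true, starφ_out]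
        simp
  · rintro (z | ⟨s, c⟩)
    · by_cases h1 : start (φ z)
      · rw [starφ_inl_of_start h1]
        simp [hh]
      · rw [starφ_inl_of_not h1]
        simp [hh, τ_apply z h1]
    · cases c
      · rw [starφ_out]
        simp
      · rw [starφ_in]
        have e : τ (sec φ start (φ⁻¹ s.1)) = τ (φ⁻¹ s.1) := by
          rw [τ_start ⟨_, start_sec (hasStart_inv s.2)⟩, τ_inv s]
          rfl
        change h (sec φ start (φ⁻¹ s.1)) + τ (sec φ start (φ⁻¹ s.1)) = h s.1 + τ (φ⁻¹ s.1)
        rw [e, h_sec, h_inv]
  · rintro (z | ⟨s, c⟩)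
    · have := hab z
      simp only [Sum.elim_inl]
      calc a' (Sum.inl z) = a z + τ z := by
            simp only [ha]
            calc a' (Sum.inl z) = a' (Sum.inl z) + (τ z + τ z) := by rw [c2]; ring
              _ = _ := by ring
        _ = _ := by rw [this]; ring
    · cases c
      · simp only [Sum.elim_inr, Bool.false_eq_true, if_false]
        rw [← τ_start s]
        calc τ s.1 = (h s.1 + h s.1) + τ s.1 := by rw [c2]; ring
          _ = _ := by ring
      · have := hab s.1
        simp only [Sum.elim_inr, if_true]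
        rw [spoke s]
        calc a' (Sum.inl s.1) + τ s.1 + τ (φ⁻¹ s.1) = a s.1 + τ (φ⁻¹ s.1) := by simp only [ha]
          _ = _ := by rw [this]; ring

end Crest.Agent.R177
private theorem rz_4a53422ad1 : type_of% @_root_.Crest.Agent.R177.starFun.eq_1 := @_root_.Crest.Agent.R177.starFun.eq_1 -- L142
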