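import Crest.Agent.R177.TopPaths_Mg
import Crest.Agent.R177.LocDefs
import Crest.Agent.R177.LocFinal
import Crest.Agent.R177.GroupingDefs
import Crest.Agent.R177.MkConf
import Crest.Agent.R177.SectorsBase
import Crest.Agent.R177.Defs
import Crest.Agent.R177.HyperMap
import Mathlib
import Crest.Agent.R177.Euler

-- ▼ part R177/TopFinal
section

/-!
# Rows 177 / 184, module TOPOLOGY: final statement (helper961)
-/

set_option autoImplicit false

namespace Crest.Agent.R177

open Crest.Agent.R199 (PAct)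

/-- TOP (files Top*.lean): the cone complex of an aspherical graphical presentation -/
theorem classifying_of_aspherical {S V : Type} (A : PAct S V) [Finite S] [Finite V]
    (h : Aspherical A) : Crest.Topology.HasFiniteClassifyingComplex (Grp A) 2 := by
  have : ContractibleSpace (Top.Real (Top.coneX A)) := Top.contractible_coneX A h (Top.Real.cone _)
  have : Finite (Top.gcxCone A).TP :=
    inferInstanceAs (Finite (Option (Quotient (Dev.conn A))))
  have : Finite (Top.gcxCone A).TA := inferInstanceAs (Finite S)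
  have : Finite (Top.gcxCone A).TB := inferInstanceAs (Finite V)
  have : Finite (Top.gcxCone A).TF :=
    inferInstanceAs (Finite {e : V × S // (A.st (e.2, true) e.1).isSome})
  exact Top.GCx.classifying (Top.gcxCone A)

end Crest.Agent.R177
end

-- ▼ part R177/LocKD
section

/-!
# Row 177, module LOC: task LK, Kraft data of a model (helper143)
-/

set_option autoImplicit false

open scoped Classical

namespace Crest.Agent.R177.Loc

open Crest.Agent.R177
open Finset

variable {S : Type} [Fintype S]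

namespace KDa

/-- `δ` on half-edges -/
noncomputable def dl (M : Model S) (h : S × Bool) : ℝ := if h.2 then M.δ h.1 else (M.δ h.1)⁻¹

theorem dl_pos (M : Model S) (h : S × Bool) : 0 < dl M h := by
  unfold dl
  have := M.δ_pos h.1
  split_ifs
  · exact this
  · exact inv_pos.mpr this

theorem dl_inv (M : Model S) (h : S × Bool) : dl M (hinv h) = (dl M h)⁻¹ := by
  rcases h with ⟨s, b⟩
  cases b <;> simp [dl, hinv]

/-- the Kraft matrix of the model -/
noncomputable def q (M : Model S) (h h' : S × Bool) : ℝ :=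
  M.n h h' ^ 2 / (M.N h.1 * M.N h'.1) * dl M h * dl M h' / M.ρ

theorem q_nonneg (M : Model S) (h h' : S × Bool) : 0 ≤ q M h h' := by
  unfold q
  have h1 := M.N_pos h.1
  have h2 := M.N_pos h'.1
  have h3 := dl_pos M h
  have h4 := dl_pos M h'
  have h5 := M.ρ_pos
  positivity

theorem q_symm (M : Model S) (h h' : S × Bool) : q M h h' = q M h' h := by
  unfold q
  rw [M.n_symm h h']
  ring

theorem q_le_one (M : Model S) (h h' : S × Bool) (hh : h ≠ h') : q M h h' ≤ 1 :=
  M.q_le_one h h' hh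

theorem q_key (M : Model S) (h h' : S × Bool) :
    M.n h h' ^ 2 * dl M h * dl M h' = M.ρ * q M h h' * (M.N h.1 * M.N h'.1) := by
  unfold q
  have h1 := M.N_pos h.1
  have h2 := M.N_pos h'.1
  have h5 := M.ρ_pos
  field_simp

theorem q_sub (M : Model S) (h : S × Bool) :
    (∑ h' ∈ univ.filter (fun h' => h' ≠ hinv h), q M (hinv h) h' * M.u h') ≤ M.u h := by
  refine le_trans (le_of_eq ?_) (M.sub h)
  refine sum_congr rfl fun h' _ => ?_
  unfold q
  rcases h with ⟨s, b⟩
  cases b <;> simp [dl, hinv]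

end KDa

open KDa

theorem exists_KD (M : Model S) : ∃ κ : KD S, κ.Fits M := by
  set e : ℝ := 1 + ∑ h, (M.u h)⁻¹ with he
  set U : ℝ := ∑ h, M.u h with hU
  have hU0 : 0 ≤ U := sum_nonneg fun h _ => (M.u_pos h).le
  have he1 : 1 ≤ e := by
    have : 0 ≤ ∑ h, (M.u h)⁻¹ := sum_nonneg fun h _ => (inv_pos.mpr (M.u_pos h)).le
    linarith
  have hule : ∀ h, 1 ≤ e * M.u h := by
    intro h
    have h1 : (M.u h)⁻¹ ≤ e := by
      have := single_le_sum (f := fun h => (M.u h)⁻¹)
        (fun h _ => (inv_pos.mpr (M.u_pos h)).le) (mem_univ h)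
      linarith
    have h2 := M.u_pos h
    calc (1 : ℝ) = (M.u h)⁻¹ * M.u h := by field_simp
      _ ≤ e * M.u h := by gcongr
  have hρ := M.ρ_pos
  have hρ1 := M.ρ_lt
  set r : ℝ := (1 + M.ρ) / 2 with hr
  have hr0 : 0 < r := by rw [hr]; linarith
  have hr1 : r < 1 := by rw [hr]; linarith
  have hρr : M.ρ < r := by rw [hr]; linarith
  set a : ℝ := M.ρ / r with ha
  have ha0 : 0 < a := div_pos hρ hr0
  have ha1 : a < 1 := (div_lt_one hr0).mpr hρr
  have har : r * a = M.ρ := by rw [ha]; field_simp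
  set q0 : ℝ := (1 - a) / (1 + e * U) with hq0
  have hden : 0 < 1 + e * U := by positivity
  have hq0p : 0 < q0 := div_pos (by linarith) hden
  have hq0a : q0 ≤ 1 - a := by
    rw [hq0, div_le_iff₀ hden]
    nlinarith [mul_nonneg (by linarith : (0 : ℝ) ≤ e) hU0]
  have hq0U : ∀ h, q0 * U ≤ (1 - a) * M.u h := by
    intro h
    have h1 := hule h
    have h2 := M.u_pos h
    rw [hq0, div_mul_eq_mul_div, div_le_iff₀ hden]
    have h3 : U ≤ M.u h * (1 + e * U) := by nlinarith
    nlinarith
  refine ⟨{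
    tot := max 1 M.tot
    one_le_tot := le_max_left _ _
    N := M.N
    N_pos := M.N_pos
    n := M.n
    n_symm := M.n_symm
    n_nonneg := M.n_nonneg
    δ := dl M
    δ_pos := dl_pos M
    δ_inv := dl_inv M
    u := M.u
    u_pos := M.u_pos
    ρ := r
    ρ_pos := hr0
    ρ_lt := hr1
    q := fun h h' => a * q M h h' + q0
    q_symm := fun h h' => by rw [q_symm M h h']
    q0 := q0
    q0_pos := hq0p
    q0_lt := by linarith
    q0_le := fun h h' => by
      have := mul_nonneg ha0.le (q_nonneg M h h')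
      linarith
    q_le_one := fun h h' hh => by
      have h1 := q_le_one M h h' hh
      nlinarith
    key := fun h h' hh => by
      rw [q_key M h h']
      have h1 := M.N_pos h.1
      have h2 := M.N_pos h'.1
      have h3 : r * (a * q M h h' + q0) = M.ρ * q M h h' + r * q0 := by rw [← har]; ring
      rw [h3]
      have h4 : 0 ≤ r * q0 * (M.N h.1 * M.N h'.1) := by positivity
      nlinarith
    sub := fun h => by
      have h1 := q_sub M h
      have h2 := hq0U h
      have h3 : ∑ h' ∈ univ.filter (fun h' => h' ≠ hinv h), M.u h' ≤ U :=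
        sum_le_sum_of_subset_of_nonneg (filter_subset _ _) fun h' _ _ => (M.u_pos h').le
      calc ∑ h' ∈ univ.filter (fun h' => h' ≠ hinv h), (a * q M (hinv h) h' + q0) * M.u h'
          = a * (∑ h' ∈ univ.filter (fun h' => h' ≠ hinv h), q M (hinv h) h' * M.u h') +
            q0 * ∑ h' ∈ univ.filter (fun h' => h' ≠ hinv h), M.u h' := by
            rw [mul_sum, mul_sum, ← sum_add_distrib]
            exact sum_congr rfl fun h' _ => by ring
        _ ≤ a * M.u h + q0 * U := by gcongr
        _ ≤ M.u h := by linarith }, ?_⟩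
  refine ⟨fun m => (M.tot_le m).trans ?_, rfl, rfl⟩
  exact mul_le_mul_of_nonneg_right (le_max_right _ _) (Nat.cast_nonneg _)

end Crest.Agent.R177.Loc
end

-- ▼ part R177/Local
section

/-!
# Rows 177 / 184: the local lemma, in the frozen form of Iface.lean and IfaceO.lean (helper928)
-/

set_option autoImplicit false

open scoped Classical

namespace Crest.Agent.R177

open Crest.Agent.R199 (PAct)

/-- LOCAL -/
theorem local_lemma {S : Type} [Fintype S] (M : Model S) :
    ∃ κ C P : ℝ, 0 < κ ∧ 0 < C ∧ 0 < P ∧ ∀ (L K D0 : ℕ) (η : ℝ), 0 < η → ∀ g₀ : ℕ,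
      ∃ g, g₀ ≤ g ∧ ∃ (m : ℕ) (A : PAct S (M.V m)), M.Adm m A ∧ Girth A g ∧
        LocalIneq A K D0 (L * g) κ C (P * g) (η * g) := by
  obtain ⟨κ, C, P, hκ, hC, hP, h⟩ := Loc.local_lemma_exists M (Loc.exists_KD M)
  refine ⟨κ, C, P, hκ, hC, hP, fun L K D0 η hη g₀ => ?_⟩
  obtain ⟨g, hg, m, hm⟩ := h L K D0 η hη g₀
  obtain ⟨A, h1, h2, h3⟩ := hm ∅ (by simp)
  refine ⟨g, hg, m, A, h1, h2, fun F c hK hL hD => ?_⟩
  have := h3 F c hK hL hD
  simpa using this

/-- LOCAL-O -/
theorem local_lemmaO {S : Type} [Fintype S] (M : Model S) (o : ∀ m, M.V m) :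
    ∃ κ C P : ℝ, 0 < κ ∧ 0 < C ∧ 0 < P ∧ ∀ (L K D0 : ℕ) (η : ℝ), 0 < η → ∀ g₀ : ℕ,
      ∃ g, g₀ ≤ g ∧ ∃ (m : ℕ) (A : PAct S (M.V m)), M.Adm m A ∧ Girth A g ∧
        LocalIneqO A (o m) K D0 (L * g) κ C (P * g) (η * g) := by
  obtain ⟨κ, C, P, hκ, hC, hP, h⟩ := Loc.local_lemma_exists M (Loc.exists_KD M)
  refine ⟨κ, C, P, hκ, hC, hP, fun L K D0 η hη g₀ => ?_⟩
  obtain ⟨g, hg, m, hm⟩ := h L K D0 η hη g₀
  obtain ⟨A, h1, h2, h3⟩ := hm {o m} (by simp)
  refine ⟨g, hg, m, A, h1, h2, fun F c hK hL hD => ?_⟩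
  have := h3 F c hK hL hD
  simpa [Conf.endsAt] using this

end Crest.Agent.R177
end

-- ▼ part R177/GeomDefs
section

/-!
# Rows 177/184, GEOM: definitions (captain helper427)
-/

set_option autoImplicit false

open scoped Classical

namespace Crest.Agent.R177.Geom

open Equiv

/-- `y` is the only head of its face (the sector is a whole face) -/
def Sgl {X : Type} (φ : Perm X) (head : X → Prop) (y : X) : Prop :=
  head y ∧ ∀ i : ℕ, head ((φ ^ i) y) → (φ ^ i) y = y

/-- the darts of one group -/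
abbrev GD {X : Type} (O : X → Prop) (grp : X → ℕ) (c : ℕ) : Type := {x : X // ¬ O x ∧ grp x = c}

end Crest.Agent.R177.Geom
end

-- ▼ part R177/SectorsPrev
section

/-!
# Row 177: the previous start
-/

set_option autoImplicit false

namespace Crest.Agent.R177

variable {X : Type*} {φ : Equiv.Perm X} {start : X → Prop}

/-- `sec` is the last start: characterisation by powers of `φ` -/
lemma sec_spec {x : X} (h : HasStart φ start x) :
    ∃ n : ℕ, (φ ^ n) (sec φ start x) = x ∧
      ∀ j, 0 < j → j ≤ n → ¬ start ((φ ^ j) (sec φ start x)) := by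
  classical
  have hk : ∀ (a b : ℕ) (y : X), b ≤ a → (φ ^ b) ((φ⁻¹ ^ a) y) = (φ⁻¹ ^ (a - b)) y := by
    intro a b y hab
    obtain ⟨c, rfl⟩ := Nat.exists_eq_add_of_le hab
    rw [Nat.add_sub_cancel_left, pow_add, Equiv.Perm.mul_apply, inv_pow, inv_pow]
    simp
  refine ⟨Nat.find h, ?_, ?_⟩
  · rw [sec, dif_pos h, hk _ _ _ le_rfl]
    simp
  · intro j hj0 hj
    rw [sec, dif_pos h, hk _ _ _ hj]
    exact Nat.find_min h (m := Nat.find h - j) (by omega)

variable [Fintype X]


end Crest.Agent.R177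
end

-- ▼ part R177/GeomFrame
section

/-!
# Rows 177/184, GEOM (G3): bounds for the frame of a group (helper516)
-/

set_option autoImplicit false

open scoped Classical

namespace Crest.Agent.R177.Geom

open Equiv

section

variable {X : Type} [Fintype X] {φ α : Perm X} {O head glued : X → Prop} {grp : X → ℕ} {L K : ℕ}

omit [Fintype X] in
theorem not_O_pow (hO : ∀ x, O (φ x) ↔ O x) {x : X} (hx : ¬ O x) (n : ℕ) : ¬ O ((φ ^ n) x) := by
  induction n with
  | zero => simpa using hx
  | succ n ih => rw [pow_succ', Perm.mul_apply, hO]; exact ih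

theorem hasStart_of_not_O (hG : Grouping φ α O head glued grp L K) {x : X} (hx : ¬ O x) :
    HasStart φ head x := by
  obtain ⟨i, _, hi⟩ := hG.head_lt x hx
  have key : ∀ i : ℕ, ∀ x : X, HasStart φ head ((φ ^ i) x) → HasStart φ head x := by
    intro i
    induction i with
    | zero => intro x h; simpa using h
    | succ i ih =>
      intro x h
      rw [pow_succ, Perm.mul_apply] at h
      exact hasStart_of_apply (ih _ h)
  exact key i x (hasStart_of_start hi)

theorem head_sec (hG : Grouping φ α O head glued grp L K) {x : X} (hx : ¬ O x) :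
    head (sec φ head x) := start_sec (hasStart_of_not_O hG hx)

/-- the index of a dart in its sector -/
theorem sec_index (hO : ∀ x, O (φ x) ↔ O x) (hG : Grouping φ α O head glued grp L K) {x : X}
    (hx : ¬ O x) : ∃ n < 2 * L, (φ ^ n) (sec φ head x) = x ∧
      ∀ j, 0 < j → j ≤ n → ¬ head ((φ ^ j) (sec φ head x)) := by
  obtain ⟨n, hn, hn'⟩ := sec_spec (hasStart_of_not_O hG hx)
  refine ⟨n, ?_, hn, hn'⟩
  by_contra hcon
  rw [not_lt] at hcon
  have h1 : ¬ O (φ (sec φ head x)) := by rw [hO]; exact hG.head_out _ (head_sec hG hx)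
  obtain ⟨i, hi, hh⟩ := hG.head_lt _ h1
  refine hn' (i + 1) (Nat.succ_pos i) (by omega) ?_
  rwa [pow_succ, Perm.mul_apply]

omit [Fintype X] in
/-- the group is constant along a sector -/
theorem grp_sec (hO : ∀ x, O (φ x) ↔ O x) (hG : Grouping φ α O head glued grp L K) {x : X}
    (hx : ¬ O x) (n : ℕ) (hn : ∀ j, 0 < j → j ≤ n → ¬ head ((φ ^ j) x)) :
    grp ((φ ^ n) x) = grp x := by
  induction n with
  | zero => simp
  | succ n ih =>
    rw [← ih (fun j h1 h2 => hn j h1 (by omega)), pow_succ', Perm.mul_apply]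
    refine hG.grp_const _ (not_O_pow hO hx n) ?_
    have := hn (n + 1) (Nat.succ_pos n) le_rfl
    rwa [pow_succ', Perm.mul_apply] at this

/-- the sector head is constant along `nx` -/
theorem sec_nx (hG : Grouping φ α O head glued grp L K) {x y : X}
    (hx : ¬ O x) (hxy : φ x = y) (hy : ¬ head y ∨ Sgl φ head y) :
    sec φ head x = sec φ head y := by
  subst hxy
  by_cases h : head (φ x)
  · rcases hy with h' | h'
    · exact absurd h h'
    · rw [sec_start (φ := φ) h]
      obtain ⟨k, hk⟩ := sec_eq_pow (φ := φ) (start := head) x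
      have hh := head_sec hG hx
      -- `sec x = φ⁻¹^k x = φ⁻¹^(k+1) (φ x)` is a power of `φ x`
      have h1 : sec φ head x = (φ⁻¹ ^ (k + 1)) (φ x) := by
        rw [pow_succ, Perm.mul_apply, hk]
        simp
      obtain ⟨i, hi⟩ : ∃ i : ℕ, (φ ^ i) (φ x) = (φ⁻¹ ^ (k + 1)) (φ x) := by
        have hs : φ.SameCycle (φ x) ((φ⁻¹ ^ (k + 1)) (φ x)) := by
          refine ⟨-((k + 1 : ℕ) : ℤ), ?_⟩
          rw [zpow_neg, zpow_natCast, inv_pow]
        obtain ⟨i, _, hi⟩ := hs.exists_pow_eq'
        exact ⟨i, hi⟩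
      have h2 := h'.2 i (by rw [hi, ← h1]; exact hh)
      rw [h1, ← hi, h2]
  · exact (sec_apply (hasStart_of_not_O hG hx) h).symm

/-- (G3) bounds for the frame of a group -/
theorem frame_bounds (hO : ∀ x, O (φ x) ↔ O x) (hG : Grouping φ α O head glued grp L K) (c : ℕ)
    (nx : GD O grp c → Option (GD O grp c))
    (hnx : ∀ x y, nx x = some y ↔ (φ x.1 = y.1 ∧ (¬ head y.1 ∨ Sgl φ head y.1)))
    (F : Frame) (e : GD O grp c ≃ F.Dart) (hN : ∀ x y, F.Next (e x) (e y) ↔ nx x = some y) :
    F.K ≤ K ∧ ∀ i, F.len i ≤ 2 * L := by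
  constructor
  · -- the head of the sector of a dart of the group, as an element of the group
    have hd : ∀ x : GD O grp c, ∃ h : GD O grp c, h.1 = sec φ head x.1 ∧ (e h).1 = (e x).1 := by
      intro x
      obtain ⟨n, _, hn, hn'⟩ := sec_index hO hG x.2.1
      have hOh : ¬ O (sec φ head x.1) := hG.head_out _ (head_sec hG x.2.1)
      have hmem : ∀ j ≤ n, ¬ O ((φ ^ j) (sec φ head x.1)) ∧
          grp ((φ ^ j) (sec φ head x.1)) = c := by
        intro j hj
        refine ⟨not_O_pow hO hOh j, ?_⟩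
        have h1 := grp_sec hO hG hOh n hn'
        have h2 := grp_sec hO hG hOh j (fun i h3 h4 => hn' i h3 (by omega))
        rw [hn] at h1
        rw [h2, ← h1]
        exact x.2.2
      have key : ∀ j (hj : j ≤ n), (e ⟨_, hmem j hj⟩).1 = (e ⟨_, hmem 0 (Nat.zero_le n)⟩).1 := by
        intro j
        induction j with
        | zero => intro _; rfl
        | succ j ih =>
          intro hj
          rw [← ih (by omega)]
          have h1 : nx ⟨_, hmem j (by omega)⟩ = some ⟨_, hmem (j + 1) hj⟩ := by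
            rw [hnx]
            refine ⟨?_, Or.inl (hn' (j + 1) (Nat.succ_pos j) hj)⟩
            simp only
            rw [pow_succ', Perm.mul_apply]
          rw [← hN] at h1
          exact h1.1.symm
      refine ⟨⟨_, hmem 0 (Nat.zero_le n)⟩, by simp, ?_⟩
      rw [← key n le_rfl]
      congr 2
      exact Subtype.ext hn
    choose hdf hdf1 hdf2 using hd
    let f : Fin F.K → {x : X | head x ∧ grp x = c} := fun i =>
      ⟨(hdf (e.symm ⟨i, ⟨0, F.len_pos i⟩⟩)).1, by
        constructor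
        · rw [hdf1]
          exact head_sec hG (e.symm ⟨i, ⟨0, F.len_pos i⟩⟩).2.1
        · exact (hdf (e.symm ⟨i, ⟨0, F.len_pos i⟩⟩)).2.2⟩
    have hf : Function.Injective f := by
      intro i j hij
      have h0 : (f i).1 = (f j).1 := by rw [hij]
      have h1 : hdf (e.symm ⟨i, ⟨0, F.len_pos i⟩⟩) = hdf (e.symm ⟨j, ⟨0, F.len_pos j⟩⟩) :=
        Subtype.ext h0
      have h2 := hdf2 (e.symm ⟨i, ⟨0, F.len_pos i⟩⟩)
      have h3 := hdf2 (e.symm ⟨j, ⟨0, F.len_pos j⟩⟩)
      rw [h1, h3, Equiv.apply_symm_apply, Equiv.apply_symm_apply] at h2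
      exact h2.symm
    have h1 := Nat.card_le_card_of_injective f hf
    rw [Nat.card_eq_fintype_card, Fintype.card_fin] at h1
    refine h1.trans ?_
    have h2 := hG.grp_card c
    rwa [← Nat.card_coe_set_eq] at h2
  · refine Frame.len_le_of e hN (fun x => sec φ head x.1) ?_ (2 * L) ?_
    · intro x y hxy
      rw [hnx] at hxy
      exact sec_nx hG x.2.1 hxy.1 hxy.2
    · intro h
      have hidx : ∀ x : {x : GD O grp c // sec φ head x.1 = h}, ∃ n : Fin (2 * L),
          (φ ^ n.1) h = x.1.1 := by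
        rintro ⟨x, hx⟩
        obtain ⟨n, hn, hn', _⟩ := sec_index hO hG x.2.1
        rw [hx] at hn'
        exact ⟨⟨n, hn⟩, hn'⟩
      choose fn hfn using hidx
      have hinj : Function.Injective fn := by
        intro x y hxy
        apply Subtype.ext
        apply Subtype.ext
        rw [← hfn x, ← hfn y, hxy]
      have h1 := Nat.card_le_card_of_injective fn hinj
      rwa [Nat.card_eq_fintype_card (α := Fin (2 * L)), Fintype.card_fin] at h1

end

end Crest.Agent.R177.Geom
end

-- ▼ part R177/Sectors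
section

/-!
# Row 177: SECTORS (interface theorem)
-/

set_option autoImplicit false

open scoped Classical

namespace Crest.Agent.R177

lemma sec_pow {X : Type*} {φ : Equiv.Perm X} {start : X → Prop} {x : X} (hx : start x) (n : ℕ)
    (h : ∀ j, 0 < j → j < n → ¬ start ((φ ^ j) x)) (m : ℕ) (hm : m < n) :
    sec φ start ((φ ^ m) x) = x := by
  induction m with
  | zero => simpa using sec_start (φ := φ) hx
  | succ m ih =>
    have hp : ∀ k : ℕ, HasStart φ start ((φ ^ k) x) := by
      intro k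
      induction k with
      | zero => simpa using hasStart_of_start (φ := φ) hx
      | succ k ih' => rw [pow_succ', Equiv.Perm.mul_apply]; exact hasStart_apply ih'
    have h1 := h (m + 1) (Nat.succ_pos m) hm
    rw [pow_succ', Equiv.Perm.mul_apply] at h1 ⊢
    rw [sec_apply (hp m) h1]
    exact ih (by omega)

/-- SECTORS (file Sectors.lean): star subdivision of the faces at the darts of `I`. In the new map
`inr (x, true)` runs from the start vertex of `x` to the centre of the face, `inr (x, false)`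
back. -/
theorem sectors {X : Type} [Finite X] (M : PMap X) (I : Set X) :
    ∃ M' : PMap (X ⊕ (I × Bool)),
      (∀ y, M.φ y ∉ I → M'.φ (Sum.inl y) = Sum.inl (M.φ y)) ∧
      (∀ (y : X) (h : M.φ y ∈ I), M'.φ (Sum.inl y) = Sum.inr (⟨M.φ y, h⟩, true)) ∧
      (∀ x : I, M'.φ (Sum.inr (x, false)) = Sum.inl (x : X)) ∧
      (∀ (x y : I) (n : ℕ), 0 < n → (∀ j, 0 < j → j < n → (M.φ ^ j) (x : X) ∉ I) →
        (M.φ ^ n) (x : X) = y → M'.φ (Sum.inr (y, true)) = Sum.inr (x, false)) ∧
      (∀ y : X, M'.α (Sum.inl y) = Sum.inl (M.α y)) ∧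
      (∀ (x : I) (b : Bool), M'.α (Sum.inr (x, b)) = Sum.inr (x, !b)) := by
  have : Fintype X := Fintype.ofFinite X
  refine ⟨⟨starφ M.φ (fun x => x ∈ I), starα M.α (fun x => x ∈ I), starα_invol M.inv,
    starα_ne M.ne, propP_star M.planar⟩, ?_, ?_, ?_, ?_, ?_, ?_⟩
  · intro y hy
    exact starφ_inl_of_not hy
  · intro y h
    exact starφ_inl_of_start h
  · intro x
    rfl
  · intro x y n hn h hxy
    change starφ M.φ (fun x => x ∈ I) (Sum.inr (y, true)) = _
    have e : sec M.φ (fun x => x ∈ I) (M.φ⁻¹ (y : X)) = (x : X) := by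
      have h1 : M.φ⁻¹ (y : X) = (M.φ ^ (n - 1)) (x : X) := by
        rw [← hxy]
        obtain ⟨k, rfl⟩ : ∃ k, n = k + 1 := ⟨n - 1, by omega⟩
        rw [pow_succ', Equiv.Perm.mul_apply]
        simp
      rw [h1]
      exact sec_pow (start := fun x => x ∈ I) x.2 n h (n - 1) (by omega)
    have e2 := starφ_in (φ := M.φ) (start := fun x => x ∈ I) y
    refine e2.trans ?_
    congr 2
    exact Subtype.ext e
  · intro y; rfl
  · intro x b; rfl

end Crest.Agent.R177
end

-- ▼ part R177/GeomOpen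
section

/-!
# Rows 177/184, GEOM (G1), (G2) (helper516)
-/

set_option autoImplicit false

open scoped Classical

namespace Crest.Agent.R177.Geom

open Equiv

section

variable {X : Type} [Fintype X] {φ α : Perm X} {O head glued : X → Prop} {grp : X → ℕ}
  {L K g : ℕ}

omit [Fintype X] in
/-- open sectors have at least `L` darts -/
theorem not_head_pow (hG : Grouping φ α O head glued grp L K) {x : X} (hx : head x)
    (hs : ¬ Sgl φ head x) (i : ℕ) (hi : 0 < i) (hiL : i < L) : ¬ head ((φ ^ i) x) := by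
  intro hh
  apply hs
  refine ⟨hx, ?_⟩
  have h1 := hG.head_ge x hx i hi hiL hh
  have hq : ∀ q : ℕ, (φ ^ (i * q)) x = x := by
    intro q
    induction q with
    | zero => simp
    | succ q ih => rw [Nat.mul_succ, pow_add, Perm.mul_apply, h1, ih]
  have hmod : ∀ k : ℕ, (φ ^ k) x = (φ ^ (k % i)) x := by
    intro k
    conv_lhs => rw [← Nat.mod_add_div k i]
    rw [pow_add, Perm.mul_apply, hq]
  intro k hk
  rw [hmod k] at hk ⊢
  rcases Nat.eq_zero_or_pos (k % i) with h0 | h0
  · rw [h0]; simp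
  · have hlt := Nat.mod_lt k hi
    exact hG.head_ge x hx (k % i) h0 (by omega) hk

/-- (G1) open sectors are long -/
theorem open_card (hO : ∀ x, O (φ x) ↔ O x) (hG : Grouping φ α O head glued grp L K) :
    Nat.card {x // head x ∧ ¬ Sgl φ head x} * L ≤ Nat.card {x // ¬ O x} := by
  let f : {x // head x ∧ ¬ Sgl φ head x} × Fin L → {x // ¬ O x} := fun p =>
    ⟨(φ ^ p.2.1) p.1.1, not_O_pow hO (hG.head_out _ p.1.2.1) _⟩
  have hf : Function.Injective f := by
    rintro ⟨⟨x, hx, hxs⟩, ⟨i, hi⟩⟩ ⟨⟨y, hy, hys⟩, ⟨j, hj⟩⟩ h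
    have h1 : (φ ^ i) x = (φ ^ j) y := congrArg Subtype.val h
    have hx1 := sec_pow (φ := φ) (start := head) hx L
      (fun j h1 h2 => not_head_pow hG hx hxs j h1 h2) i hi
    have hy1 := sec_pow (φ := φ) (start := head) hy L
      (fun j h1 h2 => not_head_pow hG hy hys j h1 h2) j hj
    have hxy : x = y := by rw [← hx1, ← hy1, h1]
    subst hxy
    have key : ∀ i j : ℕ, j < L → i < j → (φ ^ i) x = (φ ^ j) x → False := by
      intro i j hj hij h1
      have h2 : (φ ^ (j - i)) x = x := by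
        apply (φ ^ i).injective
        rw [← Perm.mul_apply, ← pow_add, Nat.add_sub_cancel' hij.le]
        exact h1.symm
      exact not_head_pow hG hx hxs (j - i) (by omega) (by omega) (by rw [h2]; exact hx)
    rcases lt_trichotomy i j with h2 | h2 | h2
    · exact absurd h1 (fun h => key i j hj h2 h)
    · subst h2; rfl
    · exact absurd h1.symm (fun h => key j i hi h2 h)
  have h1 := Nat.card_le_card_of_injective f hf
  rwa [Nat.card_prod, Nat.card_eq_fintype_card (α := Fin L), Fintype.card_fin] at h1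

/-- (G2) a non-empty group has at least `g` darts -/
theorem group_card (hO : ∀ x, O (φ x) ↔ O x) (hG : Grouping φ α O head glued grp L K)
    (hgL : g ≤ L) (hg : ∀ x, ¬ O x → ∀ i, 0 < i → i < g → (φ ^ i) x ≠ x) (c : ℕ)
    (hc : ∃ x, ¬ O x ∧ grp x = c) : g ≤ Nat.card (GD O grp c) := by
  obtain ⟨x, hx, hxc⟩ := hc
  obtain ⟨n, _, hn, hn'⟩ := sec_index hO hG hx
  set h := sec φ head x with hh
  have hhead : head h := head_sec hG hx
  have hOh : ¬ O h := hG.head_out _ hhead
  have hgrp : grp h = c := by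
    have h1 := grp_sec hO hG hOh n hn'
    rw [hn] at h1
    rw [← h1, hxc]
  have hno : ∀ i, 0 < i → i < g → ¬ head ((φ ^ i) h) := by
    intro i hi hig
    by_cases hs : Sgl φ head h
    · intro hk
      exact hg h hOh i hi hig (hs.2 i hk)
    · exact not_head_pow hG hhead hs i hi (by omega)
  let f : Fin g → GD O grp c := fun j => ⟨(φ ^ j.1) h, not_O_pow hO hOh _, by
    rw [grp_sec hO hG hOh j.1 (fun i h1 h2 => hno i h1 (by have := j.2; omega)), hgrp]⟩
  have hf : Function.Injective f := by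
    rintro ⟨i, hi⟩ ⟨j, hj⟩ hij
    have h1 : (φ ^ i) h = (φ ^ j) h := congrArg Subtype.val hij
    have key : ∀ i j : ℕ, j < g → i < j → (φ ^ i) h = (φ ^ j) h → False := by
      intro i j hj hij h1
      have h2 : (φ ^ (j - i)) h = h := by
        apply (φ ^ i).injective
        rw [← Perm.mul_apply, ← pow_add, Nat.add_sub_cancel' hij.le]
        exact h1.symm
      exact hg h hOh (j - i) (by omega) (by omega) h2
    rcases lt_trichotomy i j with h2 | h2 | h2
    · exact absurd h1 (fun h => key i j hj h2 h)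
    · subst h2; rfl
    · exact absurd h1.symm (fun h => key j i hi h2 h)
  have h1 := Nat.card_le_card_of_injective f hf
  rwa [Nat.card_eq_fintype_card (α := Fin g), Fintype.card_fin] at h1

end

end Crest.Agent.R177.Geom
end

-- ▼ part R177/Hyper
section

/-!
# Hyperfiniteness of maps with `H^1(.;F_2) = 0`: the final statement
-/

set_option linter.unusedSectionVars false
set_option linter.unusedTactic false

namespace Crest.Agent.R177.Hyper

open Finset

/-- **Hyperfiniteness.**  For every `ε` there is `K` such that in each closed map with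
`H^1(.;F_2) = 0` one can remove at most `ε |F|` faces and divide the others into groups of at most
`K` faces such that faces in different groups share no edge. -/
theorem hyperfinite (ε : ℝ) (hε : 0 < ε) : ∃ K : ℕ, ∀ (X F : Type) [Fintype X] [Fintype F]
    (φ α : Equiv.Perm X) (f : X → F), (∀ x, α (α x) = x) → (∀ x, α x ≠ x) → PropP φ α →
    (∀ x y, f x = f y ↔ φ.SameCycle x y) → Function.Surjective f →
    ∃ (R : Finset F) (g : F → ℕ), (R.card : ℝ) ≤ ε * Fintype.card F ∧
      (∀ x, f x ∉ R → f (α x) ∉ R → g (f x) = g (f (α x))) ∧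
      ∀ (n : ℕ) (A : Finset F), (∀ m ∈ A, m ∉ R ∧ g m = n) → A.card ≤ K := by
  classical
  obtain ⟨k, hk⟩ := exists_nat_ge (4 / ε + 1)
  have hkpos : 0 < k := by
    have : (0 : ℝ) < k := lt_of_lt_of_le (by positivity) hk
    exact_mod_cast this
  obtain ⟨K', hK'⟩ := exists_nat_ge (8 * k / ε + 1)
  have hK'pos : 0 < K' := by
    have : (0 : ℝ) < K' := lt_of_lt_of_le (by positivity) hK'
    exact_mod_cast this
  refine ⟨max 1 (2 * K' + 4 * k), ?_⟩
  intro X F _ _ φ α f hinv hfpf hP hf hsurj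
  let V := Quotient (Equiv.Perm.SameCycle.setoid (φ * α))
  let v : X → V := fun x => Quotient.mk _ x
  have hv : ∀ x y, v x = v y ↔ (φ * α).SameCycle x y := by
    intro x y
    exact Quotient.eq (r := Equiv.Perm.SameCycle.setoid (φ * α))
  have hM : IsMap φ α f v := ⟨hinv, hfpf, hP, hf, hv⟩
  let B : BFS (fun x => (Sum.inl (f x) : F ⊕ V)) (fun x => (Sum.inr (v x) : F ⊕ V)) :=
    Classical.choice (exists_BFS _ _)
  let lev : F → ℕ := fun m => B.lev (Sum.inl m)
  let Rem : ℕ → Finset F := fun c => univ.filter (fun m => (∃ x, f x = m) ∧ ((lev m + c) % k = 0 ∨ (lev m + c) % k = 1))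
  obtain ⟨c, hc⟩ : ∃ c, k * (Rem c).card ≤ 2 * Fintype.card F := by
    by_contra hcon
    push Not at hcon
    have h1 : ∑ c ∈ range k, (Rem c).card ≤ 2 * Fintype.card F := by
      have h2 : ∀ c, (Rem c).card ≤ ∑ m : F, (if ((lev m + c) % k = 0 ∨ (lev m + c) % k = 1) then 1 else 0) := by
        intro c
        rw [← Finset.card_filter]
        apply Finset.card_le_card
        intro m hm
        simp only [Rem, Finset.mem_filter, Finset.mem_univ, true_and] at hm ⊢
        exact hm.2
      refine (Finset.sum_le_sum (fun c _ => h2 c)).trans ?_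
      rw [Finset.sum_comm, mul_comm, ← Finset.card_univ, ← smul_eq_mul, ← Finset.sum_const]
      refine Finset.sum_le_sum (fun m _ => ?_)
      rw [← Finset.card_filter]
      have h3 : ((range k).filter (fun c => (lev m + c) % k = 0 ∨ (lev m + c) % k = 1)).card ≤ ({0, 1} : Finset ℕ).card := by
        refine Finset.card_le_card_of_injOn (fun c => (lev m + c) % k) ?_ ?_
        · intro c hc
          rw [Finset.mem_coe, Finset.mem_filter] at hc
          simp only [Finset.coe_insert, Finset.coe_singleton, Set.mem_insert_iff, Set.mem_singleton_iff]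
          exact hc.2
        · intro c hc c' hc' hcc
          rw [Finset.mem_coe, Finset.mem_filter, Finset.mem_range] at hc hc'
          simp only at hcc
          have : (lev m + c) ≡ (lev m + c') [MOD k] := hcc
          have := Nat.ModEq.add_left_cancel' _ this
          rwa [Nat.ModEq, Nat.mod_eq_of_lt hc.1, Nat.mod_eq_of_lt hc'.1] at this
      exact h3.trans (by decide)
    have h2 : ∑ c ∈ range k, (2 * Fintype.card F) < k * ∑ c ∈ range k, (Rem c).card := by
      rw [Finset.mul_sum]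
      exact Finset.sum_lt_sum_of_nonempty (by simpa using hkpos.ne') (fun c _ => hcon c)
    rw [Finset.sum_const, Finset.card_range, smul_eq_mul] at h2
    have h3 := Nat.mul_le_mul_left k h1
    omega
  let band : F → ℕ := fun m => (lev m + c) / k
  let Vi : ℕ → Finset F := fun i => univ.filter (fun m => (∃ x, f x = m) ∧ m ∉ Rem c ∧ band m = i)
  have hcut : ∀ i, Cut (fun m => SS B α (Sum.inl m)) (4 * k) K' (Vi i) := by
    intro i
    refine treedec_cut (acyc hM B) (4 * k) K' (Vi i) _ ?_ ?_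
    · intro m hm
      refine ⟨?_, conn hM B _⟩
      simp only [Vi, Finset.mem_filter, Finset.mem_univ, true_and] at hm
      obtain ⟨⟨x, rfl⟩, _⟩ := hm
      exact ⟨de α x, (mem_SS B _ _).mpr ⟨x, Or.inl (B.desc_refl _), rfl⟩⟩
    · intro e
      obtain ⟨x, hx⟩ : ∃ x, de α x = e := Quotient.exists_rep e
      let D : F ⊕ V → Finset F := fun u => (Vi i).filter (fun m => B.Desc u (Sum.inl m))
      have hD : ∀ u, (D u).card ≤ k := by
        intro u
        calc (D u).card ≤ (range k).card := by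
              refine Finset.card_le_card_of_injOn (fun m => (lev m + c) % k) ?_ ?_
              · intro m _
                rw [Finset.mem_coe, Finset.mem_range]
                exact Nat.mod_lt _ hkpos
              · intro m hm m' hm' hmm
                simp only [D, Vi, band, Finset.coe_filter, Set.mem_ofPred_eq, Finset.mem_filter,
                  Finset.mem_univ, true_and] at hm hm'
                simp only at hmm
                have h1 : lev m + c = lev m' + c := by
                  rw [← Nat.div_add_mod (lev m + c) k, ← Nat.div_add_mod (lev m' + c) k, hmm,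
                    hm.1.2.2, hm'.1.2.2]
                have h2 : lev m = lev m' := by omega
                exact Sum.inl_injective (B.desc_lev_inj hm.2 hm'.2 h2)
          _ = k := Finset.card_range k
      have hsub : (Vi i).filter (fun m => e ∈ SS B α (Sum.inl m)) ⊆
          (D (Sum.inl (f x)) ∪ D (Sum.inr (v x))) ∪ (D (Sum.inl (f (α x))) ∪ D (Sum.inr (v (α x)))) := by
        intro m hm
        rw [Finset.mem_filter] at hm
        obtain ⟨hm1, hm2⟩ := hm
        obtain ⟨y, hy1, hy2⟩ := (mem_SS B _ _).mp hm2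
        rw [← hx, eq_comm, de_eq α hinv] at hy2
        simp only [Finset.mem_union, D, Finset.mem_filter]
        rcases hy2 with rfl | rfl
        · rcases hy1 with h | h
          · exact Or.inl (Or.inl ⟨hm1, h⟩)
          · exact Or.inl (Or.inr ⟨hm1, h⟩)
        · rcases hy1 with h | h
          · exact Or.inr (Or.inl ⟨hm1, h⟩)
          · exact Or.inr (Or.inr ⟨hm1, h⟩)
      refine (Finset.card_le_card hsub).trans ?_
      refine (Finset.card_union_le _ _).trans ?_
      have h1 := Finset.card_union_le (D (Sum.inl (f x))) (D (Sum.inr (v x)))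
      have h2 := Finset.card_union_le (D (Sum.inl (f (α x)))) (D (Sum.inr (v (α x))))
      have h3 := hD (Sum.inl (f x))
      have h4 := hD (Sum.inr (v x))
      have h5 := hD (Sum.inl (f (α x)))
      have h6 := hD (Sum.inr (v (α x)))
      omega
  choose Ri gi hRi hcost hgi hsz using hcut
  set I : Finset ℕ := univ.image band with hI
  refine ⟨Rem c ∪ I.biUnion Ri, fun m => Nat.pair (band m) (if (∃ x, f x = m) then gi (band m) m else 0), ?_, ?_, ?_⟩
  · -- size of the removed set
    have h1 : (Rem c ∪ I.biUnion Ri).card ≤ (Rem c).card + ∑ i ∈ I, (Ri i).card :=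
      (Finset.card_union_le _ _).trans (Nat.add_le_add_left Finset.card_biUnion_le _)
    have h2 : K' * ∑ i ∈ I, (Ri i).card ≤ 4 * k * Fintype.card F := by
      rw [Finset.mul_sum]
      refine (Finset.sum_le_sum (fun i _ => hcost i)).trans ?_
      rw [← Finset.mul_sum]
      refine Nat.mul_le_mul_left _ ?_
      rw [← Finset.card_univ, Finset.card_eq_sum_card_fiberwise (f := band) (t := I)
        (by intro m _; simp [hI])]
      refine Finset.sum_le_sum (fun i _ => Finset.card_le_card ?_)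
      intro m hm
      simp only [Vi, Finset.mem_filter, Finset.mem_univ, true_and] at hm ⊢
      exact hm.2.2
    have h1' : ((Rem c ∪ I.biUnion Ri).card : ℝ) ≤ (Rem c).card + (∑ i ∈ I, (Ri i).card : ℕ) := by
      exact_mod_cast h1
    have h2' : (K' : ℝ) * (∑ i ∈ I, (Ri i).card : ℕ) ≤ 4 * k * Fintype.card F := by exact_mod_cast h2
    have h3' : (k : ℝ) * (Rem c).card ≤ 2 * Fintype.card F := by exact_mod_cast hc
    have hk0 : (0 : ℝ) < k := by exact_mod_cast hkpos
    have hK0 : (0 : ℝ) < K' := by exact_mod_cast hK'pos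
    have hF : (0 : ℝ) ≤ Fintype.card F := by positivity
    have hk4 : 4 ≤ ε * k := by
      have : 4 / ε ≤ k := by linarith
      rwa [div_le_iff₀ hε, mul_comm] at this
    have hK8 : 8 * k ≤ ε * K' := by
      have : 8 * k / ε ≤ K' := by linarith
      rwa [div_le_iff₀ hε, mul_comm (K' : ℝ)] at this
    have ha : ((Rem c).card : ℝ) ≤ ε / 2 * Fintype.card F := by
      have : (k : ℝ) * (Rem c).card ≤ k * (ε / 2 * Fintype.card F) := by
        refine h3'.trans ?_
        have : (2 : ℝ) ≤ k * (ε / 2) := by linarith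
        calc (2 : ℝ) * Fintype.card F ≤ (k * (ε / 2)) * Fintype.card F :=
              mul_le_mul_of_nonneg_right this hF
          _ = _ := by ring
      exact le_of_mul_le_mul_left this hk0
    have hb : ((∑ i ∈ I, (Ri i).card : ℕ) : ℝ) ≤ ε / 2 * Fintype.card F := by
      have : (K' : ℝ) * (∑ i ∈ I, (Ri i).card : ℕ) ≤ K' * (ε / 2 * Fintype.card F) := by
        refine h2'.trans ?_
        have : (4 : ℝ) * k ≤ K' * (ε / 2) := by linarith
        calc (4 : ℝ) * k * Fintype.card F ≤ (K' * (ε / 2)) * Fintype.card F :=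
              mul_le_mul_of_nonneg_right this hF
          _ = _ := by ring
      exact le_of_mul_le_mul_left this hK0
    linarith
  · -- adjacency
    intro x hx hx'
    simp only [Finset.mem_union, not_or, Finset.mem_biUnion, not_exists, not_and] at hx hx'
    have hex : ∃ y, f y = f x := ⟨x, rfl⟩
    have hex' : ∃ y, f y = f (α x) := ⟨α x, rfl⟩
    have hl1 : lev (f x) ≤ B.lev (Sum.inr (v x)) + 1 := B.lev_le1 x
    have hl2 : B.lev (Sum.inr (v x)) ≤ lev (f x) + 1 := B.lev_le2 x
    have hl3 : lev (f (α x)) ≤ B.lev (Sum.inr (v x)) + 1 := by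
      have := B.lev_le1 (φ (α x))
      simp only [hM.f_phi, hM.v_phi] at this
      exact this
    have hl4 : B.lev (Sum.inr (v x)) ≤ lev (f (α x)) + 1 := by
      have := B.lev_le2 (φ (α x))
      simp only [hM.f_phi, hM.v_phi] at this
      exact this
    have hr1 : 2 ≤ (lev (f x) + c) % k := by
      by_contra hlt
      apply hx.1
      simp only [Rem, Finset.mem_filter, Finset.mem_univ, true_and]
      exact ⟨hex, by omega⟩
    have hr2 : 2 ≤ (lev (f (α x)) + c) % k := by
      by_contra hlt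
      apply hx'.1
      simp only [Rem, Finset.mem_filter, Finset.mem_univ, true_and]
      exact ⟨hex', by omega⟩
    have hband : band (f x) = band (f (α x)) := by
      simp only [band]
      have e1 := Nat.div_add_mod (lev (f x) + c) k
      have e2 := Nat.div_add_mod (lev (f (α x)) + c) k
      have m1 := Nat.mod_lt (lev (f x) + c) hkpos
      have m2 := Nat.mod_lt (lev (f (α x)) + c) hkpos
      rcases lt_trichotomy ((lev (f x) + c) / k) ((lev (f (α x)) + c) / k) with h | h | h
      · exfalso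
        have : k * ((lev (f x) + c) / k + 1) ≤ k * ((lev (f (α x)) + c) / k) := Nat.mul_le_mul_left _ h
        rw [Nat.mul_add] at this
        omega
      · exact h
      · exfalso
        have : k * ((lev (f (α x)) + c) / k + 1) ≤ k * ((lev (f x) + c) / k) := Nat.mul_le_mul_left _ h
        rw [Nat.mul_add] at this
        omega
    have hbI : ∀ m, band m ∈ I := fun m => by simp [hI]
    simp only [hex, hex', if_true, ← hband]
    congr 1
    refine hgi (band (f x)) (f x) ?_ (f (α x)) ?_ ?_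
    · rw [Finset.mem_sdiff]
      refine ⟨?_, hx.2 _ (hbI _)⟩
      simp only [Vi, Finset.mem_filter, Finset.mem_univ, true_and]
      exact ⟨hex, hx.1, trivial⟩
    · rw [Finset.mem_sdiff]
      refine ⟨?_, hx'.2 _ (hbI _)⟩
      simp only [Vi, Finset.mem_filter, Finset.mem_univ, true_and]
      exact ⟨hex', hx'.1, hband.symm⟩
    · refine ⟨de α x, (mem_SS B _ _).mpr ⟨x, Or.inl (B.desc_refl _), rfl⟩,
        (mem_SS B _ _).mpr ⟨α x, Or.inl (B.desc_refl _), de_alpha α hinv x⟩⟩
  · -- sizes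
    intro n A hA
    refine le_trans (le_trans (Finset.card_le_card ?_) (hsz n.unpair.1 n.unpair.2)) (by
      have : 2 * K' + 4 * k ≤ max 1 (2 * K' + 4 * k) := le_max_right _ _
      exact this)
    intro m hm
    obtain ⟨hmR, hmn⟩ := hA m hm
    have hex : ∃ y, f y = m := hsurj m
    simp only [hex, if_true] at hmn
    rw [← hmn, Nat.unpair_pair]
    simp only [Finset.mem_union, not_or, Finset.mem_biUnion, not_exists, not_and] at hmR
    rw [Finset.mem_filter, Finset.mem_sdiff]
    refine ⟨⟨?_, hmR.2 _ (by simp [hI])⟩, rfl⟩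
    simp only [Vi, Finset.mem_filter, Finset.mem_univ, true_and]
    exact ⟨hex, hmR.1, trivial⟩

end Crest.Agent.R177.Hyper

namespace Crest.Agent.R177

open scoped Classical

/-- HYPER: planar maps are hyperfinite. -/
theorem hyper (ε : ℝ) (hε : 0 < ε) : ∃ K : ℕ, ∀ (X : Type) [Finite X] (M : PMap X),
    ∃ grp : M.Face → Option ℕ,
      (∀ x, grp (M.face x) ≠ none → grp (M.face (M.α x)) ≠ none →
        grp (M.face (M.α x)) = grp (M.face x)) ∧
      (Nat.card {f // grp f = none} : ℝ) ≤ ε * Nat.card M.Face ∧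
      ∀ i : ℕ, Nat.card {f // grp f = some i} ≤ K := by
  obtain ⟨K, hK⟩ := Hyper.hyperfinite ε hε
  refine ⟨K, ?_⟩
  intro X _ M
  have := Fintype.ofFinite X
  have : Finite M.Face := inferInstanceAs (Finite (Quotient _))
  have := Fintype.ofFinite M.Face
  obtain ⟨R, g, h1, h2, h3⟩ := hK X M.Face M.φ M.α M.face M.inv M.ne
    (fun a ha => by
      obtain ⟨b, h, hb, hh, hab⟩ := M.planar a ha
      exact ⟨b, h, hab, hb, hh⟩)
    (fun x y => Quotient.eq (r := Equiv.Perm.SameCycle.setoid M.φ))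
    (fun f => Quotient.exists_rep f)
  refine ⟨fun f => if f ∈ R then none else some (g f), ?_, ?_, ?_⟩
  · intro x hx hx'
    have h4 : M.face x ∉ R := by
      intro hc; simp [hc] at hx
    have h5 : M.face (M.α x) ∉ R := by
      intro hc; simp [hc] at hx'
    simp only [h4, h5, if_false, h2 x h4 h5]
  · have h4 : Nat.card {f // (if f ∈ R then none else some (g f)) = none} = R.card := by
      rw [Nat.card_eq_fintype_card, Fintype.card_subtype]
      congr 1
      ext f
      simp
    rw [h4, Nat.card_eq_fintype_card]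
    exact h1
  · intro i
    rw [Nat.card_eq_fintype_card, Fintype.card_subtype]
    refine h3 i _ ?_
    intro f hf
    simp only [Finset.mem_filter, Finset.mem_univ, true_and, ite_eq_iff] at hf
    rcases hf with hf | hf
    · exact absurd hf.2 (by simp)
    · exact ⟨hf.1, Option.some_injective _ hf.2⟩

end Crest.Agent.R177
end

-- ▼ part R177/HypLast
section

set_option autoImplicit false

namespace Crest.Agent.R177

namespace HM

open Equiv

section Last

variable {X : Type*} (φ : Perm X) (p : X → Prop)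

open Classical in
/-- distance to the last marked point (at or before `x`) -/
noncomputable def back (x : X) : ℕ :=
  if h : ∃ k : ℕ, p ((φ⁻¹ ^ k) x) then Nat.find h else 0

/-- last marked point at or before `x` -/
noncomputable def lst (x : X) : X := (φ⁻¹ ^ (back φ p x)) x

theorem lst_spec {x : X} (h : ∃ k : ℕ, p ((φ⁻¹ ^ k) x)) : p (lst φ p x) := by
  classical
  unfold lst back
  rw [dif_pos h]
  exact Nat.find_spec h

theorem back_min {x : X} (h : ∃ k : ℕ, p ((φ⁻¹ ^ k) x)) {j : ℕ} (hj : j < back φ p x) :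
    ¬ p ((φ⁻¹ ^ j) x) := by
  classical
  unfold back at hj
  rw [dif_pos h] at hj
  exact Nat.find_min h hj

theorem back_eq_zero {x : X} (h : p x) : back φ p x = 0 := by
  classical
  have h' : ∃ k : ℕ, p ((φ⁻¹ ^ k) x) := ⟨0, by simpa using h⟩
  unfold back
  rw [dif_pos h']
  exact (Nat.find_eq_zero h').2 (by simpa using h)

theorem lst_of_mem {x : X} (h : p x) : lst φ p x = x := by
  unfold lst
  rw [back_eq_zero φ p h]
  rfl

theorem back_succ {x : X} (hx : ¬ p x) (h : ∃ k : ℕ, p ((φ⁻¹ ^ k) x)) :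
    back φ p x = back φ p (φ⁻¹ x) + 1 := by
  classical
  have h' : ∃ k : ℕ, p ((φ⁻¹ ^ k) (φ⁻¹ x)) := by
    obtain ⟨k, hk⟩ := h
    cases k with
    | zero => exact absurd (by simpa using hk) hx
    | succ k => exact ⟨k, by rwa [pow_succ, Perm.mul_apply] at hk⟩
  unfold back
  rw [dif_pos h, dif_pos h']
  rw [Nat.find_comp_succ h h' ?_]
  · congr 1
  · simpa using hx

theorem lst_step {x : X} (hx : ¬ p x) (h : ∃ k : ℕ, p ((φ⁻¹ ^ k) x)) :
    lst φ p x = lst φ p (φ⁻¹ x) := by
  unfold lst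
  rw [back_succ φ p hx h, pow_succ, Perm.mul_apply]

omit p in
theorem appInv (x : X) : φ (φ⁻¹ x) = x := φ.apply_symm_apply x

omit p in
theorem invApp (x : X) : φ⁻¹ (φ x) = x := φ.symm_apply_apply x

theorem pow_back (x : X) : (φ ^ back φ p x) (lst φ p x) = x := by
  unfold lst
  rw [inv_pow, appInv]

omit p in
theorem inv_pow_pow {m n : ℕ} (h : m ≤ n) (s : X) : (φ⁻¹ ^ m) ((φ ^ n) s) = (φ ^ (n - m)) s := by
  obtain ⟨k, rfl⟩ := Nat.exists_eq_add_of_le h
  rw [pow_add, Perm.mul_apply, inv_pow, invApp, Nat.add_sub_cancel_left]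


end Last

end HM

end Crest.Agent.R177
end

-- ▼ part R177/HypHeads
section

set_option autoImplicit false

namespace Crest.Agent.R177

namespace HM

open Equiv

section Cycles

variable {X : Type*} [Finite X] (φ : Perm X) (a₀ : Option X)

/-- base point of the cycle -/
noncomputable def base0 (x : X) : X := Quotient.out (Quotient.mk (Perm.SameCycle.setoid φ) x)

omit [Finite X] in
theorem base0_same (x : X) : φ.SameCycle (base0 φ x) x :=
  Quotient.exact (s := Perm.SameCycle.setoid φ) (Quotient.out_eq _)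

omit [Finite X] in
theorem base0_eq {x y : X} (h : φ.SameCycle x y) : base0 φ x = base0 φ y := by
  unfold base0
  rw [Quotient.sound (s := Perm.SameCycle.setoid φ) h]

open Classical in
/-- base point of the cycle (the designated dart `a₀` on its cycle) -/
noncomputable def base (x : X) : X :=
  if φ.SameCycle (a₀.getD (base0 φ x)) x then a₀.getD (base0 φ x) else base0 φ x

omit [Finite X] in
theorem base_same (x : X) : φ.SameCycle (base φ a₀ x) x := by
  unfold base
  split_ifs with h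
  · exact h
  · exact base0_same φ x

omit [Finite X] in
theorem base_eq {x y : X} (h : φ.SameCycle x y) : base φ a₀ x = base φ a₀ y := by
  unfold base
  rw [base0_eq φ h]
  have h1 : φ.SameCycle (a₀.getD (base0 φ y)) x ↔ φ.SameCycle (a₀.getD (base0 φ y)) y :=
    ⟨fun h2 => h2.trans h, fun h2 => h2.trans h.symm⟩
  by_cases h2 : φ.SameCycle (a₀.getD (base0 φ y)) y
  · rw [if_pos h2, if_pos (h1.2 h2)]
  · rw [if_neg h2, if_neg (fun h3 => h2 (h1.1 h3))]

omit [Finite X] in
theorem base_some (a : X) (h : a₀ = some a) : base φ a₀ a = a := by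
  subst h
  unfold base
  rw [Option.getD_some, if_pos (Perm.SameCycle.refl _ _)]

omit [Finite X] in
theorem base_pow (x : X) (i : ℕ) : base φ a₀ ((φ ^ i) x) = base φ a₀ x :=
  base_eq φ a₀ ⟨-(i : ℤ), by simp⟩

/-- length of the cycle -/
noncomputable def clen (x : X) : ℕ := Function.minimalPeriod φ (base φ a₀ x)

omit [Finite X] in
theorem clen_pow (x : X) (i : ℕ) : clen φ a₀ ((φ ^ i) x) = clen φ a₀ x := by
  unfold clen; rw [base_pow]

theorem exists_pow (x : X) : ∃ k : ℕ, (φ ^ k) (base φ a₀ x) = x := by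
  have := Fintype.ofFinite X
  classical
  obtain ⟨i, hi, h⟩ := (base_same φ a₀ x).exists_pow_eq'
  exact ⟨i, h⟩

open Classical in
/-- position on the cycle -/
noncomputable def cpos (x : X) : ℕ := Nat.find (exists_pow φ a₀ x)

theorem cpos_spec (x : X) : (φ ^ cpos φ a₀ x) (base φ a₀ x) = x := by
  classical
  exact Nat.find_spec (exists_pow φ a₀ x)

theorem clen_pos (x : X) : 0 < clen φ a₀ x := by
  have := Fintype.ofFinite X
  classical
  apply Function.minimalPeriod_pos_of_mem_periodicPts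
  refine ⟨orderOf φ, orderOf_pos _, ?_⟩
  unfold Function.IsPeriodicPt Function.IsFixedPt
  rw [Perm.iterate_eq_pow, pow_orderOf_eq_one]
  rfl

theorem cpos_lt (x : X) : cpos φ a₀ x < clen φ a₀ x := by
  classical
  by_contra hcon
  push Not at hcon
  have h1 : (φ ^ (cpos φ a₀ x % clen φ a₀ x)) (base φ a₀ x) = x := by
    rw [← Perm.iterate_eq_pow]
    unfold clen
    rw [Function.iterate_mod_minimalPeriod_eq, Perm.iterate_eq_pow]
    exact cpos_spec φ a₀ x
  have h2 : cpos φ a₀ x ≤ cpos φ a₀ x % clen φ a₀ x := Nat.find_min' (exists_pow φ a₀ x) h1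
  have h3 := Nat.mod_lt (cpos φ a₀ x) (clen_pos φ a₀ x)
  omega

theorem cpos_unique {x : X} {k : ℕ} (hk : k < clen φ a₀ x) (h : (φ ^ k) (base φ a₀ x) = x) :
    cpos φ a₀ x = k := by
  have h1 : φ^[k] (base φ a₀ x) = φ^[cpos φ a₀ x] (base φ a₀ x) := by
    rw [Perm.iterate_eq_pow, Perm.iterate_eq_pow, h, cpos_spec]
  exact ((Function.iterate_eq_iterate_iff_of_lt_minimalPeriod hk (cpos_lt φ a₀ x)).1 h1).symm

theorem cpos_pow (x : X) (i : ℕ) : cpos φ a₀ ((φ ^ i) x) = (cpos φ a₀ x + i) % clen φ a₀ x := by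
  apply cpos_unique
  · rw [clen_pow]; exact Nat.mod_lt _ (clen_pos φ a₀ x)
  · rw [base_pow, ← Perm.iterate_eq_pow]
    unfold clen
    rw [Function.iterate_mod_minimalPeriod_eq, Perm.iterate_eq_pow, add_comm, pow_add,
      Perm.mul_apply, cpos_spec]


theorem eq_of_cpos {x y : X} (h : φ.SameCycle x y) (hp : cpos φ a₀ x = cpos φ a₀ y) : x = y := by
  rw [← cpos_spec φ a₀ x, ← cpos_spec φ a₀ y, hp, base_eq φ a₀ h]

theorem pow_ne {x : X} {i : ℕ} (h0 : 0 < i) (h1 : i < clen φ a₀ x) : (φ ^ i) x ≠ x := by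
  intro h
  have h2 : cpos φ a₀ ((φ ^ i) x) = cpos φ a₀ x := by rw [h]
  rw [cpos_pow] at h2
  have h3 := cpos_lt φ a₀ x
  rcases lt_or_ge (cpos φ a₀ x + i) (clen φ a₀ x) with h4 | h4
  · rw [Nat.mod_eq_of_lt h4] at h2; omega
  · rw [Nat.mod_eq_sub_mod h4, Nat.mod_eq_of_lt (by omega)] at h2; omega

end Cycles

section Head

variable {X : Type*} [Finite X] (φ : Perm X) (a₀ : Option X) (O : X → Prop) (L : ℕ)

/-- sector heads -/
def head (x : X) : Prop :=
  ¬ O x ∧ (cpos φ a₀ x = 0 ∨ (2 * L ≤ clen φ a₀ x ∧ L ∣ cpos φ a₀ x ∧ cpos φ a₀ x + L ≤ clen φ a₀ x))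

/-- starts of proper sectors -/
def start (x : X) : Prop := head φ a₀ O L x ∧ 2 * L ≤ clen φ a₀ x

variable {φ a₀ O L}

omit [Finite X] in
theorem O_pow (hO : ∀ x, O (φ x) ↔ O x) (x : X) (i : ℕ) : O ((φ ^ i) x) ↔ O x := by
  induction i with
  | zero => simp
  | succ n ih => rw [pow_succ', Perm.mul_apply, hO, ih]

theorem head_lt (hO : ∀ x, O (φ x) ↔ O x) (hL : 0 < L) (x : X) (hx : ¬ O x) :
    ∃ i < 2 * L, head φ a₀ O L ((φ ^ i) x) := by
  have hc := cpos_lt φ a₀ x
  rcases lt_or_ge (clen φ a₀ x - cpos φ a₀ x) (2 * L) with h1 | h1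
  · refine ⟨clen φ a₀ x - cpos φ a₀ x, h1, by rwa [O_pow hO], Or.inl ?_⟩
    rw [cpos_pow, Nat.add_sub_cancel' hc.le, Nat.mod_self]
  · -- next multiple of L
    have h2 := Nat.div_add_mod (cpos φ a₀ x) L
    have h3 := Nat.mod_lt (cpos φ a₀ x) hL
    refine ⟨(L - cpos φ a₀ x % L), by omega, by rwa [O_pow hO], Or.inr ?_⟩
    rw [clen_pow, cpos_pow]
    have h4 : cpos φ a₀ x + (L - cpos φ a₀ x % L) = L * (cpos φ a₀ x / L + 1) := by
      rw [mul_add, mul_one]; omega
    have h5 : cpos φ a₀ x + (L - cpos φ a₀ x % L) ≤ cpos φ a₀ x + L := by omega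
    rw [Nat.mod_eq_of_lt (by omega)]
    refine ⟨by omega, ⟨_, h4⟩, by omega⟩

theorem head_ge (x : X) (hx : head φ a₀ O L x) (i : ℕ) (h0 : 0 < i) (hi : i < L)
    (h : head φ a₀ O L ((φ ^ i) x)) : (φ ^ i) x = x := by
  have hc := cpos_lt φ a₀ x
  obtain ⟨hx1, hx2⟩ := hx
  obtain ⟨hy1, hy2⟩ := h
  rw [clen_pow, cpos_pow] at hy2
  apply eq_of_cpos φ a₀ ⟨-(i : ℤ), by simp⟩
  rw [cpos_pow]
  rcases lt_or_ge (clen φ a₀ x) (2 * L) with h1 | h1
  · have h2 : cpos φ a₀ x = 0 := by
      rcases hx2 with h | h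
      · exact h
      · omega
    rcases hy2 with h | h
    · rw [h, h2]
    · omega
  · have hx3 : L ∣ cpos φ a₀ x ∧ cpos φ a₀ x + L ≤ clen φ a₀ x := by
      rcases hx2 with h | h
      · rw [h]; exact ⟨dvd_zero _, by omega⟩
      · exact h.2
    exfalso
    have h5 : (cpos φ a₀ x + i) % clen φ a₀ x = cpos φ a₀ x + i := Nat.mod_eq_of_lt (by omega)
    rw [h5] at hy2
    have h6 : L ∣ cpos φ a₀ x + i := by
      rcases hy2 with h | h
      · omega
      · exact h.2.1
    have h7 : L ∣ i := (Nat.dvd_add_right hx3.1).1 h6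
    exact absurd (Nat.le_of_dvd h0 h7) (by omega)

/-- a head which is not a start is the only head of its cycle -/
theorem head_unique (x : X) (hx : head φ a₀ O L x) (hs : ¬ start φ a₀ O L x) (y : X)
    (hy : head φ a₀ O L y) (h : φ.SameCycle x y) : y = x := by
  have hlen : clen φ a₀ x < 2 * L := by
    by_contra hcon
    exact hs ⟨hx, by omega⟩
  have hlen' : clen φ a₀ y < 2 * L := by
    unfold clen at hlen ⊢; rwa [← base_eq φ a₀ h]
  apply eq_of_cpos φ a₀ h.symm
  rcases hx.2 with h1 | h1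
  · rcases hy.2 with h2 | h2
    · rw [h1, h2]
    · omega
  · omega

theorem start_of_head (x : X) (hx : head φ a₀ O L x) (y : X) (hy : start φ a₀ O L y)
    (h : φ.SameCycle x y) : start φ a₀ O L x := by
  refine ⟨hx, ?_⟩
  have := hy.2
  unfold clen at this ⊢; rwa [base_eq φ a₀ h]

/-- a cycle with a start has another start -/
theorem start_two (hO : ∀ x, O (φ x) ↔ O x) (hL : 0 < L) (x : X) (hx : start φ a₀ O L x) :
    ∃ i, 0 < i ∧ i < clen φ a₀ x ∧ start φ a₀ O L ((φ ^ i) x) := by
  have hc := cpos_lt φ a₀ x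
  have h2 := hx.2
  rcases Nat.eq_zero_or_pos (cpos φ a₀ x) with h0 | h0
  · refine ⟨L, hL, by omega, ⟨by rw [O_pow hO]; exact hx.1.1, Or.inr ?_⟩, by rwa [clen_pow]⟩
    rw [clen_pow, cpos_pow, h0, zero_add, Nat.mod_eq_of_lt (by omega)]
    exact ⟨h2, dvd_refl _, by omega⟩
  · refine ⟨clen φ a₀ x - cpos φ a₀ x, by omega, by omega,
      ⟨by rw [O_pow hO]; exact hx.1.1, Or.inl ?_⟩, by rwa [clen_pow]⟩
    rw [cpos_pow, Nat.add_sub_cancel' hc.le, Nat.mod_self]

theorem head_base (a : X) (h : a₀ = some a) (ha : ¬ O a) : head φ a₀ O L a := by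
  refine ⟨ha, Or.inl ?_⟩
  apply cpos_unique
  · exact clen_pos φ a₀ a
  · rw [base_some φ a₀ a h]; simp

end Head

end HM

end Crest.Agent.R177
end

-- ▼ part R177/HypStar
section

set_option autoImplicit false

namespace Crest.Agent.R177

namespace HM

open Equiv

/-- a function invariant under one step is constant on cycles -/
theorem sameCycle_const {X β : Type*} (φ : Perm X) (f : X → β) (h : ∀ x, f (φ x) = f x)
    {x y : X} (hxy : φ.SameCycle x y) : f x = f y := by
  have h1 : ∀ (n : ℕ) (z : X), f ((φ ^ n) z) = f z := by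
    intro n
    induction n with
    | zero => intro z; simp
    | succ n ih => intro z; rw [pow_succ', Perm.mul_apply, h, ih]
  obtain ⟨i, rfl⟩ := hxy
  cases i with
  | ofNat n => exact (h1 n x).symm
  | negSucc n =>
    have e : (φ ^ (n + 1)) ((φ ^ Int.negSucc n) x) = x := by
      rw [← zpow_natCast, ← Perm.mul_apply, ← zpow_add]
      simp [Int.negSucc_eq]
    have h2 := h1 (n + 1) ((φ ^ Int.negSucc n) x)
    rw [e] at h2
    exact h2

/-- the formulas of the star subdivision -/
structure StarOf {X : Type} (M : PMap X) (I : Set X) (M' : PMap (X ⊕ (I × Bool))) : Prop where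
  inl_not : ∀ y, M.φ y ∉ I → M'.φ (Sum.inl y) = Sum.inl (M.φ y)
  inl_st : ∀ (y : X) (h : M.φ y ∈ I), M'.φ (Sum.inl y) = Sum.inr (⟨M.φ y, h⟩, true)
  out : ∀ x : I, M'.φ (Sum.inr (x, false)) = Sum.inl (x : X)
  cen : ∀ (x y : I) (n : ℕ), 0 < n → (∀ j, 0 < j → j < n → (M.φ ^ j) (x : X) ∉ I) →
        (M.φ ^ n) (x : X) = y → M'.φ (Sum.inr (y, true)) = Sum.inr (x, false)
  α_inl : ∀ y : X, M'.α (Sum.inl y) = Sum.inl (M.α y)
  α_inr : ∀ (x : I) (b : Bool), M'.α (Sum.inr (x, b)) = Sum.inr (x, !b)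

section

variable {X : Type} [Finite X] (φ : Perm X) (a₀ : Option X) (O : X → Prop) (L : ℕ)

/-- the head of the sector -/
noncomputable def hd (x : X) : X := lst φ (head φ a₀ O L) x

variable {φ a₀ O L}

theorem ex_back (hO : ∀ x, O (φ x) ↔ O x) (hL : 0 < L) {x : X} (hx : ¬ O x) :
    ∃ k : ℕ, head φ a₀ O L ((φ⁻¹ ^ k) x) := by
  have := Fintype.ofFinite X
  classical
  obtain ⟨i, -, hi⟩ := head_lt (φ := φ) (a₀ := a₀) hO hL x hx
  have h1 : φ⁻¹.SameCycle x ((φ ^ i) x) := Perm.sameCycle_inv.2 ⟨i, by simp⟩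
  obtain ⟨k, -, hk⟩ := h1.exists_pow_eq'
  exact ⟨k, by rw [hk]; exact hi⟩

theorem hd_head (hO : ∀ x, O (φ x) ↔ O x) (hL : 0 < L) {x : X} (hx : ¬ O x) :
    head φ a₀ O L (hd φ a₀ O L x) := lst_spec φ _ (ex_back hO hL hx)

theorem hd_of_head {x : X} (hx : head φ a₀ O L x) : hd φ a₀ O L x = x := lst_of_mem φ _ hx

theorem hd_inv (hO : ∀ x, O (φ x) ↔ O x) (hL : 0 < L) {x : X} (hx : ¬ O x)
    (h : ¬ head φ a₀ O L x) : hd φ a₀ O L x = hd φ a₀ O L (φ⁻¹ x) := lst_step φ _ h (ex_back hO hL hx)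

theorem hd_step (hO : ∀ x, O (φ x) ↔ O x) (hL : 0 < L) {x : X} (hx : ¬ O x)
    (h : ¬ head φ a₀ O L (φ x)) : hd φ a₀ O L (φ x) = hd φ a₀ O L x := by
  rw [hd_inv hO hL (by rwa [hO]) h, invApp]

theorem hd_pow (x : X) : (φ ^ back φ (head φ a₀ O L) x) (hd φ a₀ O L x) = x := pow_back φ _ x

theorem hd_same (x : X) : φ.SameCycle (hd φ a₀ O L x) x :=
  ⟨back φ (head φ a₀ O L) x, by rw [zpow_natCast]; exact hd_pow x⟩

/-- no head strictly between the head of the sector and `x` -/
theorem no_head (hO : ∀ x, O (φ x) ↔ O x) (hL : 0 < L) {x : X} (hx : ¬ O x) {j : ℕ}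
    (h0 : 0 < j) (hj : j ≤ back φ (head φ a₀ O L) x) : ¬ head φ a₀ O L ((φ ^ j) (hd φ a₀ O L x)) := by
  have h1 := back_min φ (head φ a₀ O L) (ex_back hO hL hx) (j := back φ (head φ a₀ O L) x - j) (by omega)
  have h2 := inv_pow_pow φ (m := back φ (head φ a₀ O L) x - j) (n := back φ (head φ a₀ O L) x)
    (by omega) (hd φ a₀ O L x)
  rw [hd_pow] at h2
  rw [h2] at h1
  rwa [show back φ (head φ a₀ O L) x - (back φ (head φ a₀ O L) x - j) = j by omega] at h1

theorem back_lt (hO : ∀ x, O (φ x) ↔ O x) (hL : 0 < L) {x : X} (hx : ¬ O x) :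
    back φ (head φ a₀ O L) x < 2 * L := by
  by_contra hcon
  push Not at hcon
  have h1 : ¬ O (φ (hd φ a₀ O L x)) := by
    rw [hO]; exact (hd_head hO hL hx).1
  obtain ⟨i, hi, h⟩ := head_lt (φ := φ) (a₀ := a₀) hO hL _ h1
  rw [← Perm.mul_apply, ← pow_succ] at h
  exact no_head hO hL hx (Nat.succ_pos i) (by omega) h

omit [Finite X] in
theorem inv_O (hO : ∀ x, O (φ x) ↔ O x) (x : X) : O (φ⁻¹ x) ↔ O x := by
  rw [← hO, appInv]

end

section

variable {X : Type} [Finite X] (M : PMap X) (a₀ : Option X) (O : X → Prop) (L : ℕ)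

/-- the set of starts -/
abbrev St : Set X := {x | start M.φ a₀ O L x}

variable (M' : PMap (X ⊕ (St M a₀ O L × Bool)))

/-- outer darts of the subdivision -/
def out' : X ⊕ (St M a₀ O L × Bool) → Prop
  | Sum.inl x => O x
  | Sum.inr _ => False

/-- head of the sector of a dart of the subdivision -/
noncomputable def hd' : X ⊕ (St M a₀ O L × Bool) → X
  | Sum.inl x => hd M.φ a₀ O L x
  | Sum.inr (b, true) => hd M.φ a₀ O L (M.φ⁻¹ b.1)
  | Sum.inr (b, false) => b.1

variable {M a₀ O L M'}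

theorem prev_start (hO : ∀ x, O (M.φ x) ↔ O x) (hL : 0 < L) (b : St M a₀ O L) :
    hd M.φ a₀ O L (M.φ⁻¹ b.1) ∈ St M a₀ O L := by
  have hb : ¬ O (M.φ⁻¹ b.1) := by rw [inv_O hO]; exact b.2.1.1
  refine start_of_head _ (hd_head hO hL hb) b.1 b.2 ?_
  refine (hd_same (M.φ⁻¹ b.1)).trans ⟨1, ?_⟩
  rw [zpow_one, appInv]

theorem cen_prev (hO : ∀ x, O (M.φ x) ↔ O x) (hL : 0 < L) (hS : StarOf M (St M a₀ O L) M')
    (b : St M a₀ O L) :
    M'.φ (Sum.inr (b, true)) = Sum.inr (⟨hd M.φ a₀ O L (M.φ⁻¹ b.1), prev_start hO hL b⟩, false) := by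
  have hb : ¬ O (M.φ⁻¹ b.1) := by rw [inv_O hO]; exact b.2.1.1
  refine hS.cen _ _ (back M.φ (head M.φ a₀ O L) (M.φ⁻¹ b.1) + 1) (Nat.succ_pos _) ?_ ?_
  · intro j h0 hj hst
    exact no_head hO hL hb h0 (by omega) hst.1
  · rw [pow_succ', Perm.mul_apply]
    have := hd_pow (φ := M.φ) (a₀ := a₀) (O := O) (L := L) (M.φ⁻¹ b.1)
    simp only
    rw [this, appInv]

theorem out'_inv (hO : ∀ x, O (M.φ x) ↔ O x) (hL : 0 < L) (hS : StarOf M (St M a₀ O L) M')
    (y) : out' M a₀ O L (M'.φ y) ↔ out' M a₀ O L y := by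
  rcases y with x | ⟨b, _ | _⟩
  · by_cases h : M.φ x ∈ St M a₀ O L
    · rw [hS.inl_st x h]
      have h1 : ¬ O (M.φ x) := h.1.1
      rw [hO] at h1
      simp [out', h1]
    · rw [hS.inl_not x h]; exact hO x
  · rw [hS.out b]
    simp only [out', iff_false]
    exact b.2.1.1
  · rw [cen_prev hO hL hS b]
    simp [out']

theorem hd'_inv (hO : ∀ x, O (M.φ x) ↔ O x) (hL : 0 < L) (hS : StarOf M (St M a₀ O L) M')
    (y) (hy : ¬ out' M a₀ O L y) : hd' M a₀ O L (M'.φ y) = hd' M a₀ O L y := by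
  rcases y with x | ⟨b, _ | _⟩
  · have hx : ¬ O x := hy
    by_cases h : M.φ x ∈ St M a₀ O L
    · rw [hS.inl_st x h]
      simp only [hd', invApp]
    · rw [hS.inl_not x h]
      simp only [hd']
      by_cases hh : head M.φ a₀ O L (M.φ x)
      · rw [hd_of_head hh]
        refine (head_unique _ hh h _ (hd_head hO hL hx) ?_).symm
        exact (hd_same x |>.trans ⟨1, by simp⟩).symm
      · exact hd_step hO hL hx hh
  · rw [hS.out b]
    simp only [hd']
    exact hd_of_head b.2.1
  · rw [cen_prev hO hL hS b]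
    simp only [hd']

theorem sameCycle_step {Y : Type*} (ψ : Perm Y) (y : Y) : ψ.SameCycle y (ψ y) := ⟨1, by simp⟩

theorem inl_hd (hO : ∀ x, O (M.φ x) ↔ O x) (hL : 0 < L) (hS : StarOf M (St M a₀ O L) M')
    (x : X) (hx : ¬ O x) : M'.φ.SameCycle (Sum.inl x) (Sum.inl (hd M.φ a₀ O L x)) := by
  induction hn : back M.φ (head M.φ a₀ O L) x generalizing x with
  | zero =>
    have : hd M.φ a₀ O L x = x := by
      have := hd_pow (φ := M.φ) (a₀ := a₀) (O := O) (L := L) x
      rw [hn] at this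
      simpa using this
    rw [this]
  | succ n ih =>
    have hnh : ¬ head M.φ a₀ O L x := by
      intro h
      rw [back_eq_zero _ _ h] at hn
      omega
    have h1 := back_succ M.φ _ hnh (ex_back hO hL hx)
    have hx' : ¬ O (M.φ⁻¹ x) := by rwa [inv_O hO]
    rw [hd_inv hO hL hx hnh]
    have h2 := ih (M.φ⁻¹ x) hx' (by omega)
    refine Perm.SameCycle.trans ?_ h2
    have h3 : M.φ (M.φ⁻¹ x) ∉ St M a₀ O L := by
      rw [appInv]; exact fun h => hnh h.1
    have h4 := hS.inl_not _ h3
    rw [appInv] at h4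
    rw [← h4]
    exact (sameCycle_step _ _).symm

theorem same_hd' (hO : ∀ x, O (M.φ x) ↔ O x) (hL : 0 < L) (hS : StarOf M (St M a₀ O L) M')
    (y) (hy : ¬ out' M a₀ O L y) : M'.φ.SameCycle y (Sum.inl (hd' M a₀ O L y)) := by
  rcases y with x | ⟨b, _ | _⟩
  · exact inl_hd hO hL hS x hy
  · have := sameCycle_step M'.φ (Sum.inr (b, false))
    rw [hS.out b] at this
    exact this
  · have hb : ¬ O (M.φ⁻¹ b.1) := by rw [inv_O hO]; exact b.2.1.1
    have h1 := inl_hd hO hL hS _ hb
    refine Perm.SameCycle.trans ?_ h1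
    have h2 : M.φ (M.φ⁻¹ b.1) ∈ St M a₀ O L := by rw [appInv]; exact b.2
    have h3 := hS.inl_st _ h2
    have h4 : (⟨M.φ (M.φ⁻¹ b.1), h2⟩ : St M a₀ O L) = b := Subtype.ext (appInv _ _)
    rw [h4] at h3
    rw [← h3]
    exact (sameCycle_step _ _).symm

theorem out_same (hO : ∀ x, O (M.φ x) ↔ O x) (hS : StarOf M (St M a₀ O L) M')
    (h1 : ∀ x y, O x → O y → M.φ.SameCycle x y) (y z) (hy : out' M a₀ O L y) (hz : out' M a₀ O L z) :
    M'.φ.SameCycle y z := by
  rcases y with x | b
  swap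
  · exact hy.elim
  rcases z with x' | b
  swap
  · exact hz.elim
  have hx : O x := hy
  have := Fintype.ofFinite X
  classical
  obtain ⟨i, -, hi⟩ := (h1 x x' hy hz).exists_pow_eq'
  rw [← hi]
  clear hi hz
  induction i with
  | zero => exact Perm.SameCycle.refl _ _
  | succ n ih =>
    refine ih.trans ?_
    have h2 : O ((M.φ ^ n) x) := (O_pow hO x n).2 hx
    have h3 : M.φ ((M.φ ^ n) x) ∉ St M a₀ O L := fun h => h.1.1 ((hO _).2 h2)
    rw [pow_succ', Perm.mul_apply, ← hS.inl_not _ h3]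
    exact sameCycle_step _ _

/-- the map from faces of the subdivision to heads -/
theorem card_face_le (hO : ∀ x, O (M.φ x) ↔ O x) (hL : 0 < L) (hS : StarOf M (St M a₀ O L) M')
    (h1 : ∀ x y, O x → O y → M.φ.SameCycle x y) :
    Nat.card M'.Face ≤ Nat.card {x // head M.φ a₀ O L x} + 1 := by
  classical
  let f : X ⊕ (St M a₀ O L × Bool) → Option {x // head M.φ a₀ O L x} := fun y =>
    if h : head M.φ a₀ O L (hd' M a₀ O L y) ∧ ¬ out' M a₀ O L y then some ⟨hd' M a₀ O L y, h.1⟩ else none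
  have hh : ∀ y, ¬ out' M a₀ O L y → head M.φ a₀ O L (hd' M a₀ O L y) := by
    intro y hy
    rcases y with x | ⟨b, _ | _⟩
    · exact hd_head hO hL hy
    · exact b.2.1
    · exact hd_head hO hL (by rw [inv_O hO]; exact b.2.1.1)
  have hf : ∀ y, f (M'.φ y) = f y := by
    intro y
    by_cases hy : out' M a₀ O L y
    · have h2 := (out'_inv hO hL hS y).2 hy
      simp [f, hy, h2]
    · have h2 : ¬ out' M a₀ O L (M'.φ y) := fun h => hy ((out'_inv hO hL hS y).1 h)
      simp only [f, hd'_inv hO hL hS y hy, hy, h2]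
  let F : M'.Face → Option {x // head M.φ a₀ O L x} :=
    Quotient.lift f fun y z h => sameCycle_const M'.φ f hf h
  have hF : Function.Injective F := by
    intro q q'
    refine Quotient.inductionOn₂ q q' ?_
    intro y z (h : f y = f z)
    apply Quotient.sound
    by_cases hy : out' M a₀ O L y <;> by_cases hz : out' M a₀ O L z
    · exact out_same hO hS h1 y z hy hz
    · simp [f, hy, hz, hh z hz] at h
    · simp [f, hy, hz, hh y hy] at h
    · have h3 : hd' M a₀ O L y = hd' M a₀ O L z := by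
        simpa [f, hy, hz, hh y hy, hh z hz] using h
      refine (same_hd' hO hL hS y hy).trans ?_
      rw [h3]
      exact (same_hd' hO hL hS z hz).symm
  have := Nat.card_le_card_of_injective F hF
  rwa [Finite.card_option] at this

/-- no vertex of degree one in the subdivision -/
theorem star_deg (hO : ∀ x, O (M.φ x) ↔ O x) (hL : 0 < L) (hS : StarOf M (St M a₀ O L) M')
    (hd1 : ∀ x, M.φ x ≠ M.α x) (y) : M'.σ y ≠ y := by
  unfold PMap.σ
  rcases y with x | ⟨b, _ | _⟩
  · rw [hS.α_inl]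
    by_cases h : M.φ (M.α x) ∈ St M a₀ O L
    · rw [hS.inl_st _ h]; simp
    · rw [hS.inl_not _ h]
      intro h2
      have h3 : M.φ (M.α x) = x := Sum.inl.inj h2
      apply hd1 (M.α x)
      rw [h3, M.inv]
  · rw [hS.α_inr]
    simp only [Bool.not_false]
    rw [cen_prev hO hL hS b]
    intro h2
    have h3 : hd M.φ a₀ O L (M.φ⁻¹ b.1) = b.1 := by
      have := congrArg Prod.fst (Sum.inr.inj h2)
      exact congrArg Subtype.val this
    have hb : ¬ O (M.φ⁻¹ b.1) := by rw [inv_O hO]; exact b.2.1.1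
    obtain ⟨i, i0, i1, i2⟩ := start_two (φ := M.φ) (a₀ := a₀) hO hL b.1 b.2
    have h4 := hd_pow (φ := M.φ) (a₀ := a₀) (O := O) (L := L) (M.φ⁻¹ b.1)
    rw [h3] at h4
    have h5 : (M.φ ^ (back M.φ (head M.φ a₀ O L) (M.φ⁻¹ b.1) + 1)) b.1 = b.1 := by
      rw [pow_succ', Perm.mul_apply, h4, appInv]
    have h6 : clen M.φ a₀ b.1 ≤ back M.φ (head M.φ a₀ O L) (M.φ⁻¹ b.1) + 1 := by
      by_contra hcon
      push Not at hcon
      exact pow_ne M.φ a₀ (Nat.succ_pos _) hcon h5
    have h7 := no_head (φ := M.φ) (a₀ := a₀) hO hL hb i0 (by omega)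
    rw [h3] at h7
    exact h7 i2.1
  · rw [hS.α_inr]
    simp only [Bool.not_true]
    rw [hS.out b]
    simp

/-- smooth corners inside a sector -/
theorem smooth_reg (hS : StarOf M (St M a₀ O L) M') (x : X) (h : ¬ head M.φ a₀ O L (M.φ x))
    (hs : M'.Smooth (Sum.inl (M.φ x))) :
    M.φ (M.α (M.φ x)) = M.α x ∧ M.α x ∉ St M a₀ O L := by
  unfold PMap.Smooth PMap.σ at hs
  rw [hS.α_inl] at hs
  by_cases h1 : M.φ (M.α (M.φ x)) ∈ St M a₀ O L
  · exfalso
    rw [hS.inl_st _ h1, hS.α_inr] at hs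
    simp only [Bool.not_true] at hs
    rw [hS.out] at hs
    have h2 : M.φ (M.α (M.φ x)) = M.φ x := Sum.inl.inj hs
    rw [h2] at h1
    exact h h1.1
  · rw [hS.inl_not _ h1, hS.α_inl] at hs
    by_cases h2 : M.φ (M.α (M.φ (M.α (M.φ x)))) ∈ St M a₀ O L
    · rw [hS.inl_st _ h2] at hs
      simp at hs
    · rw [hS.inl_not _ h2] at hs
      have h3 := M.φ.injective (Sum.inl.inj hs)
      have h4 : M.φ (M.α (M.φ x)) = M.α x := by
        rw [← M.inv (M.φ (M.α (M.φ x))), h3]
      exact ⟨h4, h4 ▸ h1⟩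

theorem face_inl (hS : StarOf M (St M a₀ O L) M') (x : X) (h : ¬ head M.φ a₀ O L (M.φ x)) :
    M'.face (Sum.inl (M.φ x)) = M'.face (Sum.inl x) := by
  have h1 : M.φ x ∉ St M a₀ O L := fun h2 => h h2.1
  rw [← hS.inl_not _ h1]
  exact Quotient.sound (sameCycle_step _ _).symm

theorem face_hd (hO : ∀ x, O (M.φ x) ↔ O x) (hL : 0 < L) (hS : StarOf M (St M a₀ O L) M')
    (x : X) (hx : ¬ O x) : M'.face (Sum.inl (hd M.φ a₀ O L x)) = M'.face (Sum.inl x) :=
  Quotient.sound (inl_hd hO hL hS x hx).symm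

/-- two heads in the same face are equal -/
theorem head_inj (hO : ∀ x, O (M.φ x) ↔ O x) (hL : 0 < L) (hS : StarOf M (St M a₀ O L) M')
    {x y : X} (hx : head M.φ a₀ O L x) (hy : head M.φ a₀ O L y)
    (h : M'.face (Sum.inl x) = M'.face (Sum.inl y)) : x = y := by
  classical
  have h1 : M'.φ.SameCycle (Sum.inl x) (Sum.inl y) := Quotient.exact h
  let f : X ⊕ (St M a₀ O L × Bool) → Option X := fun y =>
    if out' M a₀ O L y then none else some (hd' M a₀ O L y)
  have hf : ∀ y, f (M'.φ y) = f y := by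
    intro y
    by_cases hy : out' M a₀ O L y
    · have h2 := (out'_inv hO hL hS y).2 hy
      simp [f, hy, h2]
    · have h2 : ¬ out' M a₀ O L (M'.φ y) := fun h => hy ((out'_inv hO hL hS y).1 h)
      simp only [f, hd'_inv hO hL hS y hy, hy, h2]
  have h2 := sameCycle_const M'.φ f hf h1
  have h3 : ¬ out' M a₀ O L (Sum.inl x) := hx.1
  have h4 : ¬ out' M a₀ O L (Sum.inl y) := hy.1
  simp only [f, h3, h4, if_false, Option.some.injEq] at h2
  simp only [hd'] at h2
  rwa [hd_of_head hx, hd_of_head hy] at h2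

end

section Count

variable {X : Type} [Finite X] {φ : Perm X} {a₀ : Option X} {O : X → Prop} {L : ℕ}

theorem heads_card (hO : ∀ x, O (φ x) ↔ O x) (g : ℕ) (hgL : g ≤ L)
    (hg : ∀ x, ¬ O x → ∀ i, 0 < i → i < g → (φ ^ i) x ≠ x) :
    g * Nat.card {x // head φ a₀ O L x} ≤ Nat.card {x // ¬ O x} := by
  let F : Fin g × {x // head φ a₀ O L x} → {x // ¬ O x} := fun p =>
    ⟨(φ ^ (p.1 : ℕ)) p.2.1, by rw [O_pow hO]; exact p.2.2.1⟩
  have key : ∀ (i j : ℕ) (h h' : X), i ≤ j → j < g → head φ a₀ O L h → head φ a₀ O L h' →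
      (φ ^ i) h = (φ ^ j) h' → i = j ∧ h = h' := by
    intro i j h h' hij hj hh hh' he
    obtain ⟨k, rfl⟩ := Nat.exists_eq_add_of_le hij
    rw [pow_add, Perm.mul_apply] at he
    have h1 : h = (φ ^ k) h' := (φ ^ i).injective he
    rcases Nat.eq_zero_or_pos k with rfl | hk
    · exact ⟨rfl, by simpa using h1⟩
    · exfalso
      rw [h1] at hh
      have h2 := head_ge h' hh' k hk (by omega) hh
      exact hg h' hh'.1 k hk (by omega) h2
  have hF : Function.Injective F := by
    rintro ⟨i, h, hh⟩ ⟨j, h', hh'⟩ he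
    have he' : (φ ^ (i : ℕ)) h = (φ ^ (j : ℕ)) h' := congrArg Subtype.val he
    rcases le_total (i : ℕ) (j : ℕ) with hij | hij
    · obtain ⟨h1, h2⟩ := key i j h h' hij j.2 hh hh' he'
      subst h2
      have : i = j := Fin.ext h1
      subst this; rfl
    · obtain ⟨h1, h2⟩ := key j i h' h hij i.2 hh' hh he'.symm
      subst h2
      have : i = j := Fin.ext h1.symm
      subst this; rfl
  have := Nat.card_le_card_of_injective F hF
  rwa [Nat.card_prod, Nat.card_fin] at this

/-- darts of the sectors with a property ↔ heads -/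
theorem sector_card (hO : ∀ x, O (φ x) ↔ O x) (hL : 0 < L) (B : X → Prop)
    (hB : ∀ x, ¬ O x → B x → B (hd φ a₀ O L x)) :
    Nat.card {x // ¬ O x ∧ B x} ≤ 2 * L * Nat.card {x // head φ a₀ O L x ∧ B x} := by
  let F : {x // ¬ O x ∧ B x} → Fin (2 * L) × {x // head φ a₀ O L x ∧ B x} := fun p =>
    (⟨back φ (head φ a₀ O L) p.1, back_lt hO hL p.2.1⟩,
      ⟨hd φ a₀ O L p.1, hd_head hO hL p.2.1, hB p.1 p.2.1 p.2.2⟩)
  have hF : Function.Injective F := by
    rintro ⟨x, hx⟩ ⟨y, hy⟩ he
    have h1 : back φ (head φ a₀ O L) x = back φ (head φ a₀ O L) y := by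
      simpa using congrArg (fun t => (t.1 : ℕ)) he
    have h2 : hd φ a₀ O L x = hd φ a₀ O L y := by
      simpa using congrArg (fun t => (t.2.1 : X)) he
    apply Subtype.ext
    change x = y
    rw [← hd_pow (φ := φ) (a₀ := a₀) (O := O) (L := L) x, ← hd_pow (φ := φ) (a₀ := a₀) (O := O) (L := L) y, h1, h2]
  have := Nat.card_le_card_of_injective F hF
  rwa [Nat.card_prod, Nat.card_fin] at this

/-- sector ends ↔ heads -/
theorem ends_card (hO : ∀ x, O (φ x) ↔ O x) (hL : 0 < L) (B : X → Prop)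
    (hB : ∀ x, ¬ O x → B x → B (hd φ a₀ O L x)) :
    Nat.card {x // ¬ O x ∧ head φ a₀ O L (φ x) ∧ B x} ≤ Nat.card {x // head φ a₀ O L x ∧ B x} := by
  let F : {x // ¬ O x ∧ head φ a₀ O L (φ x) ∧ B x} → {x // head φ a₀ O L x ∧ B x} := fun p =>
    ⟨hd φ a₀ O L p.1, hd_head hO hL p.2.1, hB p.1 p.2.1 p.2.2.2⟩
  have key : ∀ x y, ¬ O x → ¬ O y → head φ a₀ O L (φ x) → head φ a₀ O L (φ y) →
      hd φ a₀ O L x = hd φ a₀ O L y → back φ (head φ a₀ O L) x < back φ (head φ a₀ O L) y → False := by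
    intro x y hx hy hhx hhy h1 h2
    have h3 := no_head (a₀ := a₀) hO hL hy (Nat.succ_pos (back φ (head φ a₀ O L) x)) (by omega)
    apply h3
    rw [← h1, pow_succ', Perm.mul_apply, hd_pow]
    exact hhx
  have hF : Function.Injective F := by
    rintro ⟨x, hx⟩ ⟨y, hy⟩ he
    have h2 : hd φ a₀ O L x = hd φ a₀ O L y := congrArg Subtype.val he
    apply Subtype.ext
    change x = y
    rcases lt_trichotomy (back φ (head φ a₀ O L) x) (back φ (head φ a₀ O L) y) with h | h | h
    · exact (key x y hx.1 hy.1 hx.2.1 hy.2.1 h2 h).elim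
    · rw [← hd_pow (φ := φ) (a₀ := a₀) (O := O) (L := L) x, ← hd_pow (φ := φ) (a₀ := a₀) (O := O) (L := L) y, h, h2]
    · exact (key y x hy.1 hx.1 hy.2.1 hx.2.1 h2.symm h).elim
  exact Nat.card_le_card_of_injective F hF

end Count

end HM

end Crest.Agent.R177
private theorem rz_3516a85283 : type_of% @_root_.Crest.Agent.R177.HM.hd'.eq_1 := @_root_.Crest.Agent.R177.HM.hd'.eq_1 -- L122
private theorem rz_3dde04b492 : type_of% @_root_.Crest.Agent.R177.HM.out'.eq_1 := @_root_.Crest.Agent.R177.HM.out'.eq_1 -- L117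
end

-- ▼ part R177/HypMain
section

set_option autoImplicit false

namespace Crest.Agent.R177

open Equiv

/-- generalised statement: `E` is an exceptional inner face which may be shorter than `g`, `a₀` a
designated dart which has to be a head. -/
def HypStatementE : Prop :=
  ∀ (ε : ℝ) (C : ℕ), 0 < ε → ∃ K : ℕ, ∀ (X : Type) [Fintype X] (φ α : Perm X)
    (O E : X → Prop) (a₀ : Option X) (g L : ℕ), 0 < g → g ≤ L → L ≤ C * g →
    (∀ x, α (α x) = x) → (∀ x, α x ≠ x) → PropP φ α →
    (∀ x, O (φ x) ↔ O x) → (∀ x y, O x → O y → φ.SameCycle x y) →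
    (∀ x, E (φ x) ↔ E x) → (∀ x y, E x → E y → φ.SameCycle x y) →
    ((∃ x, ¬ E x ∧ ¬ O x) ∨ ∀ x, ¬ E x) →
    (∀ x, φ x ≠ α x) →
    (∀ x, ¬ O x → ¬ E x → ∀ i, 0 < i → i < g → (φ ^ i) x ≠ x) →
    ∃ (head glued : X → Prop) (grp : X → ℕ), Grouping φ α O head glued grp L K ∧
      (∀ a, a₀ = some a → ¬ O a → head a) ∧
      ({x | ¬ O x ∧ ¬ glued x}.ncard : ℝ) ≤ ε * ({x | ¬ O x}.ncard : ℝ) + K * ({x | O x}.ncard : ℝ)

namespace HM

section Cards

variable {X : Type} [Finite X]

theorem ncard_eq {Y : Type} (p : Y → Prop) : {x | p x}.ncard = Nat.card {x // p x} :=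
  (Nat.card_coe_set_eq _).symm

theorem card_mono {Y : Type} [Finite Y] {p q : Y → Prop} (h : ∀ x, p x → q x) :
    Nat.card {x // p x} ≤ Nat.card {x // q x} :=
  Nat.card_le_card_of_injective (fun x : {x // p x} => (⟨x.1, h x.1 x.2⟩ : {x // q x}))
    (fun a b hab => Subtype.ext (by simpa using congrArg Subtype.val hab))

theorem card_or {Y : Type} [Finite Y] (p q : Y → Prop) :
    Nat.card {x // p x ∨ q x} ≤ Nat.card {x // p x} + Nat.card {x // q x} := by
  rw [← ncard_eq, ← ncard_eq, ← ncard_eq]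
  exact Set.ncard_union_le {x | p x} {x | q x}

theorem card_map {Y Z : Type} [Finite Z] {p : Y → Prop} {q : Z → Prop} (f : Y → Z)
    (hf : ∀ x, p x → q (f x)) (hi : ∀ x y, p x → p y → f x = f y → x = y) :
    Nat.card {x // p x} ≤ Nat.card {z // q z} :=
  Nat.card_le_card_of_injective (fun x : {x // p x} => (⟨f x.1, hf x.1 x.2⟩ : {z // q z}))
    (fun a b hab => Subtype.ext (hi _ _ a.2 b.2 (by simpa using congrArg Subtype.val hab)))

/-- counting by fibres, upper bound -/
theorem card_fib {Y F : Type} [Finite Y] [Finite F] (f : Y → F) (p : Y → Prop) (q : F → Prop)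
    (hpq : ∀ y, p y → q (f y)) (D : ℕ) (hD : ∀ a, q a → Nat.card {y // p y ∧ f y = a} ≤ D) :
    Nat.card {y // p y} ≤ Nat.card {a // q a} * D := by
  classical
  have := Fintype.ofFinite {a // q a}
  have e : {y // p y} ≃ Σ a : {a // q a}, {y // p y ∧ f y = a.1} :=
    { toFun := fun y => ⟨⟨f y.1, hpq _ y.2⟩, ⟨y.1, y.2, rfl⟩⟩
      invFun := fun z => ⟨z.2.1, z.2.2.1⟩
      left_inv := fun y => rfl
      right_inv := by
        rintro ⟨⟨a, ha⟩, ⟨y, hy, h⟩⟩
        have h' : f y = a := h
        subst h'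
        rfl }
  rw [Nat.card_congr e, Nat.card_sigma]
  calc ∑ a : {a // q a}, Nat.card {y // p y ∧ f y = a.1} ≤ ∑ _a : {a // q a}, D :=
        Finset.sum_le_sum fun a _ => hD a.1 a.2
    _ = Nat.card {a // q a} * D := by
        rw [Finset.sum_const, Finset.card_univ, Nat.card_eq_fintype_card, smul_eq_mul]

/-- counting by fibres, lower bound -/
theorem card_fib_ge {Y F : Type} [Finite Y] [Finite F] (f : Y → F) (p : Y → Prop) (D : ℕ) :
    D * Nat.card {a // D < Nat.card {y // p y ∧ f y = a}} ≤ Nat.card {y // p y} := by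
  classical
  have := Fintype.ofFinite {a // D < Nat.card {y // p y ∧ f y = a}}
  let g : (Σ a : {a // D < Nat.card {y // p y ∧ f y = a}}, {y // p y ∧ f y = a.1}) → {y // p y} :=
    fun z => ⟨z.2.1, z.2.2.1⟩
  have hg : Function.Injective g := by
    rintro ⟨⟨a, ha⟩, ⟨y, hy, h1⟩⟩ ⟨⟨a', ha'⟩, ⟨y', hy', h2⟩⟩ h
    have h1' : f y = a := h1
    have h2' : f y' = a' := h2
    have : y = y' := congrArg Subtype.val h
    subst this
    subst h1'
    subst h2'
    rfl
  have h1 := Nat.card_le_card_of_injective g hg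
  rw [Nat.card_sigma] at h1
  refine le_trans ?_ h1
  calc D * Nat.card {a // D < Nat.card {y // p y ∧ f y = a}}
      = ∑ _a : {a // D < Nat.card {y // p y ∧ f y = a}}, D := by
        rw [Finset.sum_const, Finset.card_univ, Nat.card_eq_fintype_card, smul_eq_mul, mul_comm]
    _ ≤ _ := Finset.sum_le_sum fun a _ => a.2.le

end Cards

section Heads2

variable {X : Type} [Finite X] {φ : Perm X} {a₀ : Option X} {O E : X → Prop} {L : ℕ}

omit [Finite X] in
theorem E_pow (hE : ∀ x, E (φ x) ↔ E x) (x : X) (i : ℕ) : E ((φ ^ i) x) ↔ E x :=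
  O_pow (φ := φ) hE x i

/-- `g * #heads ≤ #inner + g` -/
theorem heads_card_E (hO : ∀ x, O (φ x) ↔ O x) (hE : ∀ x, E (φ x) ↔ E x)
    (hE1 : ∀ x y, E x → E y → φ.SameCycle x y) (g : ℕ) (hgL : g ≤ L)
    (hx0 : (∃ x, ¬ E x ∧ ¬ O x) ∨ ∀ x, ¬ E x)
    (hg : ∀ x, ¬ O x → ¬ E x → ∀ i, 0 < i → i < g → (φ ^ i) x ≠ x) :
    g * Nat.card {x // head φ a₀ O L x} ≤ 2 * Nat.card {x // ¬ O x} := by
  by_cases hcase : ∀ x, ¬ O x → ∀ i, 0 < i → i < g → (φ ^ i) x ≠ x
  · have := heads_card (φ := φ) (a₀ := a₀) hO g hgL hcase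
    omega
  · push Not at hcase
    obtain ⟨x₁, hx₁, i₁, hi₁, hi₁', hfix⟩ := hcase
    have hE₁ : E x₁ := by
      by_contra h
      exact hg x₁ hx₁ h i₁ hi₁ hi₁' hfix
    -- heads in `E` are unique
    have huniq : ∀ x y, head φ a₀ O L x ∧ E x → head φ a₀ O L y ∧ E y → x = y := by
      intro x y hx hy
      have hlen : clen φ a₀ x₁ < 2 * L := by
        by_contra hcon
        exact pow_ne φ a₀ hi₁ (by omega) hfix
      have hlx : clen φ a₀ x < 2 * L := by
        unfold clen at hlen ⊢
        rwa [base_eq φ a₀ (hE1 x x₁ hx.2 hE₁)]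
      exact head_unique y hy.1 (fun hs => by
        have h1 := hs.2
        unfold clen at h1 hlx
        rw [base_eq φ a₀ (hE1 y x hy.2 hx.2)] at h1
        omega) x hx.1 (hE1 y x hy.2 hx.2)
    have h1 : Nat.card {x // head φ a₀ O L x ∧ E x} ≤ 1 := by
      have : Subsingleton {x // head φ a₀ O L x ∧ E x} :=
        ⟨fun a b => Subtype.ext (huniq _ _ a.2 b.2)⟩
      exact Finite.card_le_one_iff_subsingleton.2 this
    -- other heads: treat `E` as outer
    have h2 : g * Nat.card {x // head φ a₀ O L x ∧ ¬ E x} ≤ Nat.card {x // ¬ O x ∧ ¬ E x} := by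
      have hO' : ∀ x, (O (φ x) ∨ E (φ x)) ↔ (O x ∨ E x) := fun x => by rw [hO, hE]
      have h3 := heads_card (φ := φ) (a₀ := a₀) (O := fun x => O x ∨ E x) (L := L) hO' g hgL
        (fun x hx => hg x (fun h => hx (Or.inl h)) (fun h => hx (Or.inr h)))
      have h4 : Nat.card {x // head φ a₀ O L x ∧ ¬ E x} ≤
          Nat.card {x // head φ a₀ (fun x => O x ∨ E x) L x} :=
        card_mono (fun x hx => ⟨fun h => h.elim hx.1.1 hx.2, hx.1.2⟩)
      have h5 : Nat.card {x // ¬ (O x ∨ E x)} ≤ Nat.card {x // ¬ O x ∧ ¬ E x} :=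
        card_mono (fun x hx => ⟨fun h => hx (Or.inl h), fun h => hx (Or.inr h)⟩)
      calc _ ≤ g * Nat.card {x // head φ a₀ (fun x => O x ∨ E x) L x} :=
            Nat.mul_le_mul_left _ h4
        _ ≤ _ := h3.trans h5
    have h3 : Nat.card {x // head φ a₀ O L x} ≤
        Nat.card {x // head φ a₀ O L x ∧ E x} + Nat.card {x // head φ a₀ O L x ∧ ¬ E x} := by
      refine le_trans (card_mono fun x hx => ?_) (card_or _ _)
      by_cases h : E x
      · exact Or.inl ⟨hx, h⟩
      · exact Or.inr ⟨hx, h⟩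
    have h4 : Nat.card {x // ¬ O x ∧ ¬ E x} ≤ Nat.card {x // ¬ O x} := card_mono fun x hx => hx.1
    -- `g ≤ #{¬ O, ¬ E}`
    have h5 : g ≤ Nat.card {x // ¬ O x ∧ ¬ E x} := by
      rcases hx0 with ⟨x, hxE, hxO⟩ | h
      · have : Function.Injective (fun i : Fin g => (⟨(φ ^ (i : ℕ)) x,
            by rw [O_pow hO, E_pow hE]; exact ⟨hxO, hxE⟩⟩ : {x // ¬ O x ∧ ¬ E x})) := by
          intro i j hij
          have hij' : (φ ^ (i : ℕ)) x = (φ ^ (j : ℕ)) x := congrArg Subtype.val hij
          have key : ∀ m n : ℕ, m < n → n < g → (φ ^ m) x ≠ (φ ^ n) x := by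
            intro m n hmn hn h
            obtain ⟨k, rfl⟩ := Nat.exists_eq_add_of_lt hmn
            rw [add_assoc, pow_add, Perm.mul_apply] at h
            exact hg x hxO hxE (k + 1) (Nat.succ_pos _) (by omega) ((φ ^ m).injective h).symm
          rcases lt_trichotomy (i : ℕ) (j : ℕ) with h | h | h
          · exact (key _ _ h j.2 hij').elim
          · exact Fin.ext h
          · exact (key _ _ h i.2 hij'.symm).elim
        have := Nat.card_le_card_of_injective _ this
        rwa [Nat.card_fin] at this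
      · exact (h x₁ hE₁).elim
    have h6 : g * Nat.card {x // head φ a₀ O L x} ≤
        g * (1 + Nat.card {x // head φ a₀ O L x ∧ ¬ E x}) :=
      Nat.mul_le_mul_left _ (by omega)
    rw [mul_add, mul_one] at h6
    omega

end Heads2

section Main

variable {X : Type} [Finite X] {M : PMap X} {a₀ : Option X} {O : X → Prop} {L : ℕ}
  {M' : PMap (X ⊕ (St M a₀ O L × Bool))}

instance : Finite M'.Face := inferInstanceAs (Finite (Quotient _))

/-- the sector (face of the subdivision) of a dart -/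
def fc (M' : PMap (X ⊕ (St M a₀ O L × Bool))) (x : X) : M'.Face := M'.face (Sum.inl x)

/-- bad faces of the subdivision -/
def badF (M' : PMap (X ⊕ (St M a₀ O L × Bool))) (grp' : M'.Face → Option ℕ) (D : ℕ)
    (f : M'.Face) : Prop :=
  grp' f = none ∨ D < Nat.card {y // ¬ M'.Smooth y ∧ M'.face y = f}

/-- darts which stay glued -/
def gl (M' : PMap (X ⊕ (St M a₀ O L × Bool))) (grp' : M'.Face → Option ℕ) (D : ℕ) (x : X) : Prop :=
  ¬ O x ∧ ¬ O (M.α x) ∧ ¬ badF M' grp' D (fc M' x) ∧ ¬ badF M' grp' D (fc M' (M.α x))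

/-- injective numbering of the faces -/
noncomputable def enc (M' : PMap (X ⊕ (St M a₀ O L × Bool))) (f : M'.Face) : ℕ :=
  (Finite.equivFin M'.Face f : ℕ)

theorem enc_inj {f f' : M'.Face} (h : enc M' f = enc M' f') : f = f' :=
  (Finite.equivFin M'.Face).injective (Fin.ext h)

open Classical in
/-- the group number -/
noncomputable def gp (M' : PMap (X ⊕ (St M a₀ O L × Bool))) (grp' : M'.Face → Option ℕ) (D : ℕ)
    (x : X) : ℕ :=
  if O x ∨ badF M' grp' D (fc M' x) then 2 * enc M' (fc M' x) + 1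
  else 2 * (grp' (fc M' x)).getD 0

theorem gp_good {grp' : M'.Face → Option ℕ} {D : ℕ} {x : X} (h1 : ¬ O x)
    (h2 : ¬ badF M' grp' D (fc M' x)) : gp M' grp' D x = 2 * (grp' (fc M' x)).getD 0 := by
  unfold gp
  rw [if_neg]
  rintro (h | h)
  · exact h1 h
  · exact h2 h

theorem gp_even {grp' : M'.Face → Option ℕ} {D : ℕ} {x : X} {k : ℕ}
    (h : gp M' grp' D x = 2 * k) :
    ¬ O x ∧ ¬ badF M' grp' D (fc M' x) ∧ grp' (fc M' x) = some k := by
  unfold gp at h
  split_ifs at h with h1
  · omega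
  · push Not at h1
    refine ⟨h1.1, h1.2, ?_⟩
    have h2 : grp' (fc M' x) ≠ none := fun h3 => h1.2 (Or.inl h3)
    obtain ⟨m, hm⟩ := Option.ne_none_iff_exists'.1 h2
    rw [hm] at h ⊢
    simp at h
    rw [h]

theorem gp_odd {grp' : M'.Face → Option ℕ} {D : ℕ} {x : X} {k : ℕ}
    (h : gp M' grp' D x = 2 * k + 1) :
    (O x ∨ badF M' grp' D (fc M' x)) ∧ enc M' (fc M' x) = k := by
  unfold gp at h
  split_ifs at h with h1
  · exact ⟨h1, by omega⟩
  · omega

theorem gp_congr {grp' : M'.Face → Option ℕ} {D : ℕ} {x y : X} (h1 : O x ↔ O y)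
    (h2 : fc M' x = fc M' y) : gp M' grp' D x = gp M' grp' D y := by
  unfold gp
  rw [h2]
  by_cases h3 : O x ∨ badF M' grp' D (fc M' y)
  · rw [if_pos h3, if_pos (h3.imp_left h1.1)]
  · rw [if_neg h3, if_neg (fun h4 => h3 (h4.imp_left h1.2))]

variable (hO : ∀ x, O (M.φ x) ↔ O x) (hL : 0 < L) (hS : StarOf M (St M a₀ O L) M')
  (grp' : M'.Face → Option ℕ) (D K₁ : ℕ)
  (hK₁ : ∀ i : ℕ, Nat.card {f // grp' f = some i} ≤ K₁)

include hO hL hS hK₁ in
theorem heads_in_group (c : ℕ) :
    Nat.card {x // head M.φ a₀ O L x ∧ gp M' grp' D x = c} ≤ K₁ + 1 := by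
  rcases Nat.even_or_odd' c with ⟨k, rfl | rfl⟩
  · refine le_trans (card_map (q := fun f => grp' f = some k) (fc M') ?_ ?_)
      ((hK₁ k).trans (Nat.le_succ _))
    · rintro x ⟨-, hx⟩
      exact (gp_even hx).2.2
    · rintro x y ⟨hx, -⟩ ⟨hy, -⟩ h
      exact head_inj hO hL hS hx hy h
  · have : Subsingleton {x // head M.φ a₀ O L x ∧ gp M' grp' D x = 2 * k + 1} := by
      refine ⟨fun a b => Subtype.ext ?_⟩
      have h1 := (gp_odd a.2.2).2
      have h2 := (gp_odd b.2.2).2
      exact head_inj hO hL hS a.2.1 b.2.1 (enc_inj (h1.trans h2.symm))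
    exact (Finite.card_le_one_iff_subsingleton.2 this).trans (by omega)

include hO hL hS in
theorem gp_hd (x : X) (hx : ¬ O x) : gp M' grp' D (hd M.φ a₀ O L x) = gp M' grp' D x :=
  gp_congr (by simp [hx, (hd_head (a₀ := a₀) hO hL hx).1]) (face_hd hO hL hS x hx)

variable (hadj : ∀ y, grp' (M'.face y) ≠ none → grp' (M'.face (M'.α y)) ≠ none →
        grp' (M'.face (M'.α y)) = grp' (M'.face y))

include hS hadj in
theorem gl_grp (x : X) (h : gl M' grp' D x) : gp M' grp' D (M.α x) = gp M' grp' D x := by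
  obtain ⟨h1, h2, h3, h4⟩ := h
  rw [gp_good h1 h3, gp_good h2 h4]
  have := hadj (Sum.inl x) (fun h => h3 (Or.inl h)) (by
    rw [hS.α_inl]
    exact fun h => h4 (Or.inl h))
  rw [hS.α_inl] at this
  unfold fc
  rw [this]

include hO hL hS hK₁ hadj in
theorem breaks_bound (c : ℕ) :
    Nat.card {x // ¬ O x ∧ gp M' grp' D x = c ∧ (gl M' grp' D x ∨ gl M' grp' D (M.φ x)) ∧
      ¬ RegularCorner M.φ M.α (head M.φ a₀ O L) (gl M' grp' D) x} ≤ K₁ * D + 2 * (K₁ + 1) := by
  -- the three kinds of breaks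
  have hA : Nat.card {x // ¬ O x ∧ head M.φ a₀ O L (M.φ x) ∧ gp M' grp' D x = c} ≤ K₁ + 1 := by
    refine (ends_card (φ := M.φ) (a₀ := a₀) hO hL (fun x => gp M' grp' D x = c) ?_).trans
      (heads_in_group hO hL hS grp' D K₁ hK₁ c)
    intro x hx h
    rw [gp_hd hO hL hS grp' D x hx, h]
  have hB2 : Nat.card {x // gl M' grp' D x ∧ gp M' grp' D x = c ∧ head M.φ a₀ O L (M.α x)} ≤
      K₁ + 1 := by
    refine (card_map (q := fun x => head M.φ a₀ O L x ∧ gp M' grp' D x = c) M.α ?_ ?_).trans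
      (heads_in_group hO hL hS grp' D K₁ hK₁ c)
    · rintro x ⟨h1, h2, h3⟩
      exact ⟨h3, by rw [gl_grp hS grp' D hadj x h1, h2]⟩
    · intro x y _ _ h
      exact M.α.injective h
  have hB1 : Nat.card {x // ¬ M'.Smooth (Sum.inl (M.φ x)) ∧ ¬ head M.φ a₀ O L (M.φ x) ∧
      ¬ O x ∧ gp M' grp' D x = c ∧ ¬ badF M' grp' D (fc M' x)} ≤ K₁ * D := by
    rcases Nat.even_or_odd' c with ⟨k, rfl | rfl⟩
    · have h1 : Nat.card {x // ¬ M'.Smooth (Sum.inl (M.φ x)) ∧ ¬ head M.φ a₀ O L (M.φ x) ∧
          ¬ O x ∧ gp M' grp' D x = 2 * k ∧ ¬ badF M' grp' D (fc M' x)} ≤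
          Nat.card {y // ¬ M'.Smooth y ∧ grp' (M'.face y) = some k ∧
            ¬ badF M' grp' D (M'.face y)} := by
        refine card_map (fun x => Sum.inl (M.φ x)) ?_ ?_
        · rintro x ⟨h1, h2, h3, h4, h5⟩
          have h6 := face_inl hS x h2
          rw [h6]
          exact ⟨h1, (gp_even h4).2.2, h5⟩
        · intro x y _ _ h
          exact M.φ.injective (Sum.inl.inj h)
      refine h1.trans ?_
      refine (card_fib M'.face (fun y => ¬ M'.Smooth y ∧ grp' (M'.face y) = some k ∧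
            ¬ badF M' grp' D (M'.face y)) (fun f => grp' f = some k ∧ ¬ badF M' grp' D f)
            (fun y hy => hy.2) D ?_).trans ?_
      · intro f hf
        refine le_trans (card_mono (q := fun y => ¬ M'.Smooth y ∧ M'.face y = f)
          fun y hy => ⟨hy.1.1, hy.2⟩) ?_
        by_contra hcon
        push Not at hcon
        exact hf.2 (Or.inr hcon)
      · exact Nat.mul_le_mul_right _ ((card_mono fun f hf => hf.1).trans (hK₁ k))
    · have : IsEmpty {x // ¬ M'.Smooth (Sum.inl (M.φ x)) ∧ ¬ head M.φ a₀ O L (M.φ x) ∧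
          ¬ O x ∧ gp M' grp' D x = 2 * k + 1 ∧ ¬ badF M' grp' D (fc M' x)} := by
        refine ⟨?_⟩
        rintro ⟨x, -, -, h3, h4, h5⟩
        rcases (gp_odd h4).1 with h | h
        · exact h3 h
        · exact h5 h
      rw [Nat.card_of_isEmpty]
      exact Nat.zero_le _
  refine le_trans (card_mono (q := fun x => (¬ O x ∧ head M.φ a₀ O L (M.φ x) ∧
      gp M' grp' D x = c) ∨ ((gl M' grp' D x ∧ gp M' grp' D x = c ∧ head M.φ a₀ O L (M.α x)) ∨
      (¬ M'.Smooth (Sum.inl (M.φ x)) ∧ ¬ head M.φ a₀ O L (M.φ x) ∧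
      ¬ O x ∧ gp M' grp' D x = c ∧ ¬ badF M' grp' D (fc M' x)))) ?_) ?_
  · rintro x ⟨h1, h2, h3, h4⟩
    by_cases h5 : head M.φ a₀ O L (M.φ x)
    · exact Or.inl ⟨h1, h5, h2⟩
    right
    have h6 : fc M' (M.φ x) = fc M' x := face_inl hS x h5
    by_cases h7 : M'.Smooth (Sum.inl (M.φ x))
    · left
      obtain ⟨h8, h9⟩ := smooth_reg hS x h5 h7
      -- the partners are consecutive in the same sector
      have h10 : M.φ (M.α (M.φ x)) ∉ St M a₀ O L := by rw [h8]; exact h9
      have h11 : fc M' (M.α x) = fc M' (M.α (M.φ x)) := by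
        unfold fc
        rw [← h8, ← hS.inl_not _ h10]
        exact Quotient.sound (sameCycle_step _ _).symm
      have h12 : O (M.α (M.φ x)) ↔ O (M.α x) := by rw [← h8, hO]
      have h13 : gl M' grp' D (M.φ x) ↔ gl M' grp' D x := by
        unfold gl
        rw [h6, ← h11, h12, hO]
      have h14 : gl M' grp' D x := by
        rcases h3 with h | h
        · exact h
        · exact h13.1 h
      refine ⟨h14, h2, ?_⟩
      by_contra h15
      exact h4 ⟨h5, h15, h14, h13.2 h14, h8⟩
    · right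
      refine ⟨h7, h5, h1, h2, ?_⟩
      rcases h3 with h | h
      · exact h.2.2.1
      · rw [← h6]; exact h.2.2.1
  · refine (card_or _ _).trans ?_
    have := card_or (fun x => gl M' grp' D x ∧ gp M' grp' D x = c ∧ head M.φ a₀ O L (M.α x))
      (fun x => ¬ M'.Smooth (Sum.inl (M.φ x)) ∧ ¬ head M.φ a₀ O L (M.φ x) ∧
      ¬ O x ∧ gp M' grp' D x = c ∧ ¬ badF M' grp' D (fc M' x))
    omega

include hO hL hS in
theorem unglued_bound :
    Nat.card {x // ¬ O x ∧ ¬ gl M' grp' D x} ≤
      Nat.card {x // O x} + 4 * L * Nat.card {f // badF M' grp' D f} := by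
  have h1 : Nat.card {x // ¬ O x ∧ badF M' grp' D (fc M' x)} ≤
      2 * L * Nat.card {f // badF M' grp' D f} := by
    refine (sector_card (φ := M.φ) (a₀ := a₀) hO hL (fun x => badF M' grp' D (fc M' x)) ?_).trans
      (Nat.mul_le_mul_left _ ?_)
    · intro x hx h
      have := face_hd hO hL hS x hx
      unfold fc
      rw [this]
      exact h
    · refine card_map (fc M') (fun x hx => hx.2) ?_
      rintro x y ⟨hx, -⟩ ⟨hy, -⟩ h
      exact head_inj hO hL hS hx hy h
  have h2 : Nat.card {x // ¬ O x ∧ ¬ gl M' grp' D x} ≤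
      Nat.card {x // O (M.α x)} + (Nat.card {x // ¬ O x ∧ badF M' grp' D (fc M' x)} +
        Nat.card {x // ¬ O (M.α x) ∧ badF M' grp' D (fc M' (M.α x))}) := by
    refine le_trans (card_mono (q := fun x => O (M.α x) ∨ ((¬ O x ∧ badF M' grp' D (fc M' x)) ∨
      (¬ O (M.α x) ∧ badF M' grp' D (fc M' (M.α x))))) ?_) ((card_or _ _).trans
      (Nat.add_le_add_left (card_or _ _) _))
    rintro x ⟨h1, h2⟩
    by_cases h3 : O (M.α x)
    · exact Or.inl h3
    right
    by_cases h4 : badF M' grp' D (fc M' x)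
    · exact Or.inl ⟨h1, h4⟩
    right
    refine ⟨h3, ?_⟩
    by_contra h5
    exact h2 ⟨h1, h3, h4, h5⟩
  have h3 : Nat.card {x // O (M.α x)} ≤ Nat.card {x // O x} :=
    card_map M.α (fun x hx => hx) (fun x y _ _ h => M.α.injective h)
  have h4 : Nat.card {x // ¬ O (M.α x) ∧ badF M' grp' D (fc M' (M.α x))} ≤
      Nat.card {x // ¬ O x ∧ badF M' grp' D (fc M' x)} :=
    card_map M.α (fun x hx => hx) (fun x y _ _ h => M.α.injective h)
  have h5 : 4 * L * Nat.card {f // badF M' grp' D f} =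
      2 * L * Nat.card {f // badF M' grp' D f} + 2 * L * Nat.card {f // badF M' grp' D f} := by
    ring
  omega

end Main

end HM

open HM in
theorem hypStatementE : HypStatementE := by
  intro ε C hε
  -- constants
  have hC1 : (0 : ℝ) < C + 1 := by positivity
  obtain ⟨K₁, hK₁⟩ := hyper (ε / (24 * (C + 1))) (by positivity)
  obtain ⟨D, hD⟩ := exists_nat_gt (144 * (C + 1) / ε)
  have hD0 : (0 : ℝ) < D := lt_trans (by positivity) hD
  refine ⟨K₁ * D + 2 * (K₁ + 1), ?_⟩
  intro X _ φ α O E a₀ g L hg0 hgL hLC hinv hne hP hO hO1 hE hE1 hE2 hd1 hg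
  have hL : 0 < L := lt_of_lt_of_le hg0 hgL
  let M : PMap X := ⟨φ, α, hinv, hne, hP⟩
  obtain ⟨M', s1, s2, s3, s4, s5, s6⟩ := sectors M (St M a₀ O L)
  have hS : StarOf M (St M a₀ O L) M' := ⟨s1, s2, s3, s4, s5, s6⟩
  obtain ⟨grp', hadj, hnone, hsome⟩ := hK₁ _ M'
  have hOM : ∀ x, O (M.φ x) ↔ O x := hO
  refine ⟨head φ a₀ O L, gl M' grp' D, gp M' grp' D, ?_, ?_, ?_⟩
  · constructor
    · intro x hx; exact hx.1
    · intro x hx; exact head_lt hO hL x hx
    · intro x hx i h0 hi h; exact head_ge x hx i h0 hi h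
    · intro x hx h
      exact gp_congr (hO x) (face_inl hS x h)
    · intro c
      rw [ncard_eq]
      refine (heads_in_group hOM hL hS grp' D K₁ hsome c).trans ?_
      have := Nat.zero_le (K₁ * D)
      omega
    · intro x hx; exact hx.1
    · intro x hx
      refine ⟨hx.2.1, ?_, hx.2.2.2, ?_⟩
      · change ¬ O (α (α x)); rw [hinv]; exact hx.1
      · change ¬ badF M' grp' D (fc M' (α (α x))); rw [hinv]; exact hx.2.2.1
    · intro x hx
      exact gl_grp hS grp' D hadj x hx
    · intro c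
      rw [ncard_eq]
      exact breaks_bound hOM hL hS grp' D K₁ hsome hadj c
  · intro a ha h
    exact head_base a ha h
  · rw [ncard_eq, ncard_eq, ncard_eq]
    have h1 := unglued_bound (M := M) hOM hL hS grp' D
    -- number of bad faces
    have h2 : Nat.card {f // badF M' grp' D f} ≤ Nat.card {f // grp' f = none} +
        Nat.card {f // D < Nat.card {y // ¬ M'.Smooth y ∧ M'.face y = f}} := card_or _ _
    have h3 : D * Nat.card {f // D < Nat.card {y // ¬ M'.Smooth y ∧ M'.face y = f}} ≤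
        6 * Nat.card M'.Face :=
      (card_fib_ge M'.face (fun y => ¬ M'.Smooth y) D).trans
        (euler_corners M' (star_deg hOM hL hS hd1))
    have h4 := card_face_le hOM hL hS hO1
    have h5 : g * Nat.card {x // head φ a₀ O L x} ≤ 2 * Nat.card {x // ¬ O x} :=
      heads_card_E hO hE hE1 g hgL hE2 hg
    rcases Nat.eq_zero_or_pos (Nat.card {x // ¬ O x}) with h0 | h0
    · -- no inner dart
      have h6 : Nat.card {x // ¬ O x ∧ ¬ gl M' grp' D x} ≤ Nat.card {x // ¬ O x} :=
        card_mono fun x hx => hx.1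
      have h7 : Nat.card {x // ¬ O x ∧ ¬ gl M' grp' D x} = 0 := by omega
      have h8 : (Nat.card {x // ¬ O x ∧ ¬ gl M' grp' D x} : ℝ) = 0 := by exact_mod_cast h7
      refine le_trans (le_of_eq h8) ?_
      positivity
    · -- number of faces
      have h6 : g ≤ Nat.card {x // ¬ O x} := by
        have key : ∀ x, ¬ O x → ¬ E x → g ≤ Nat.card {x // ¬ O x} := by
          intro x hxO hxE
          have : Function.Injective (fun i : Fin g => (⟨(φ ^ (i : ℕ)) x,
              by rw [O_pow hO]; exact hxO⟩ : {x // ¬ O x})) := by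
            intro i j hij
            have hij' : (φ ^ (i : ℕ)) x = (φ ^ (j : ℕ)) x := congrArg Subtype.val hij
            have key : ∀ m n : ℕ, m < n → n < g → (φ ^ m) x ≠ (φ ^ n) x := by
              intro m n hmn hn h
              obtain ⟨k, rfl⟩ := Nat.exists_eq_add_of_lt hmn
              rw [add_assoc, pow_add, Perm.mul_apply] at h
              exact hg x hxO hxE (k + 1) (Nat.succ_pos _) (by omega) ((φ ^ m).injective h).symm
            rcases lt_trichotomy (i : ℕ) (j : ℕ) with h | h | h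
            · exact (key _ _ h j.2 hij').elim
            · exact Fin.ext h
            · exact (key _ _ h i.2 hij'.symm).elim
          have := Nat.card_le_card_of_injective _ this
          rwa [Nat.card_fin] at this
        rcases hE2 with ⟨x, hxE, hxO⟩ | h
        · exact key x hxO hxE
        · obtain ⟨⟨x, hx⟩⟩ := (Nat.card_pos_iff.1 h0).1
          exact key x hx (h x)
      have h7 : g * Nat.card M'.Face ≤ 3 * Nat.card {x // ¬ O x} := by
        have h8 : g * Nat.card M'.Face ≤ g * (Nat.card {x // head φ a₀ O L x} + 1) :=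
          Nat.mul_le_mul_left _ h4
        rw [mul_add, mul_one] at h8
        omega
      -- real computation
      set n : ℝ := (Nat.card {x // ¬ O x} : ℝ) with hn
      set F : ℝ := (Nat.card M'.Face : ℝ) with hF
      have r1 : (Nat.card {x // ¬ O x ∧ ¬ gl M' grp' D x} : ℝ) ≤
          Nat.card {x // O x} + 4 * L * Nat.card {f // badF M' grp' D f} := by exact_mod_cast h1
      have r2 : (Nat.card {f // badF M' grp' D f} : ℝ) ≤ Nat.card {f // grp' f = none} +
        Nat.card {f // D < Nat.card {y // ¬ M'.Smooth y ∧ M'.face y = f}} := by exact_mod_cast h2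
      have r3 : (D : ℝ) * Nat.card {f // D < Nat.card {y // ¬ M'.Smooth y ∧ M'.face y = f}} ≤
        6 * F := by rw [hF]; exact_mod_cast h3
      have r7 : (g : ℝ) * F ≤ 3 * n := by rw [hF, hn]; exact_mod_cast h7
      have rL : (L : ℝ) ≤ C * g := by exact_mod_cast hLC
      have hF0 : 0 ≤ F := by positivity
      have hn0 : 0 ≤ n := by positivity
      have r3' : (Nat.card {f // D < Nat.card {y // ¬ M'.Smooth y ∧ M'.face y = f}} : ℝ) ≤
          6 * F / D := by
        rw [le_div_iff₀ hD0]; linarith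
      have r4 : (Nat.card {f // badF M' grp' D f} : ℝ) ≤
          ε / (24 * (C + 1)) * F + 6 * F / D := by linarith
      have r5 : 6 * F / D ≤ ε / (24 * (C + 1)) * F := by
        rw [div_le_iff₀ hD0]
        have h9 : 144 * (C + 1) < D * ε := by
          rw [div_lt_iff₀ hε] at hD
          exact hD
        have h10 : 6 ≤ ε / (24 * (C + 1)) * D := by
          rw [div_mul_eq_mul_div, le_div_iff₀ (by positivity)]
          nlinarith
        nlinarith
      have r6 : (Nat.card {f // badF M' grp' D f} : ℝ) ≤ ε / (12 * (C + 1)) * F := by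
        have h9 : ε / (12 * (C + 1)) = 2 * (ε / (24 * (C + 1))) := by
          field_simp
          ring
        rw [h9]
        linarith
      have r8 : (4 * L * Nat.card {f // badF M' grp' D f} : ℝ) ≤ ε * n := by
        have hLr : (0 : ℝ) ≤ L := by positivity
        calc (4 * L * Nat.card {f // badF M' grp' D f} : ℝ)
            ≤ 4 * (C * g) * (ε / (12 * (C + 1)) * F) := by
              apply mul_le_mul _ r6 (by positivity) (by positivity)
              linarith
          _ = ε * (C / (C + 1)) * ((g * F) / 3) := by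
              field_simp
              ring
          _ ≤ ε * 1 * ((3 * n) / 3) := by
              apply mul_le_mul
              · apply mul_le_mul_of_nonneg_left _ hε.le
                rw [div_le_one hC1]
                linarith
              · linarith
              · positivity
              · positivity
          _ = ε * n := by ring
      have hK1 : (1 : ℝ) ≤ ((K₁ * D + 2 * (K₁ + 1) : ℕ) : ℝ) := by
        have : 1 ≤ K₁ * D + 2 * (K₁ + 1) := by omega
        exact_mod_cast this
      have hOc : (0 : ℝ) ≤ Nat.card {x // O x} := by positivity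
      nlinarith

theorem hypStatement : HypStatement := by
  intro ε C hε
  obtain ⟨K, hK⟩ := hypStatementE ε C hε
  refine ⟨K, ?_⟩
  intro X _ φ α O g L hg0 hgL hLC hinv hne hP hO hO1 hd1 hg
  obtain ⟨head, glued, grp, h1, -, h3⟩ := hK X φ α O (fun _ => False) none g L hg0 hgL hLC hinv hne
    hP hO hO1 (fun _ => Iff.rfl) (fun _ _ h => h.elim) (Or.inr fun _ h => h) hd1
    (fun x hx _ => hg x hx)
  exact ⟨head, glued, grp, h1, h3⟩

end Crest.Agent.R177
end

-- ▼ part R177/Geom

/-!
# Rows 177/184, GEOM (captain helper427): from the local inequality to the isoperimetric inequality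
-/

set_option autoImplicit false

open scoped Classical

namespace Crest.Agent.R177.Geom

open Equiv
open Crest.Agent.R199 (PAct)

section Group

variable {S V X : Type} [Fintype X] {A : PAct S V} (D : Diag A X) {head glued : X → Prop}
  {grp : X → ℕ} {L K : ℕ} (hG : Grouping D.φ D.α D.out head glued grp L K)

include hG in
theorem grp_of_sgl {y : X} (hy : Sgl D.φ head y) : ∀ i : ℕ, grp ((D.φ ^ i) y) = grp y ∧
    ¬ D.out ((D.φ ^ i) y) := by
  intro i
  induction i with
  | zero => exact ⟨rfl, hG.head_out _ hy.1⟩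
  | succ i ih =>
    have e : (D.φ ^ (i + 1)) y = D.φ ((D.φ ^ i) y) := by rw [pow_succ']; rfl
    refine ⟨?_, ?_⟩
    · by_cases h : head ((D.φ ^ (i + 1)) y)
      · rw [hy.2 _ h]
      · rw [e] at h ⊢
        rw [hG.grp_const _ ih.2 h, ih.1]
    · rw [e, D.out_φ]; exact ih.2

include hG in
theorem grp_step {x : X} (hx : ¬ D.out x) (h : ¬ head (D.φ x) ∨ Sgl D.φ head (D.φ x)) :
    grp (D.φ x) = grp x := by
  rcases h with h | h
  · exact hG.grp_const _ hx h
  · have h1 := (grp_of_sgl D hG h (orderOf D.φ - 1)).1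
    have h2 : (D.φ ^ (orderOf D.φ - 1)) (D.φ x) = x := by
      have h3 : D.φ ^ (orderOf D.φ - 1) * D.φ = 1 := by
        rw [← pow_succ, Nat.sub_add_cancel (orderOf_pos D.φ), pow_orderOf_eq_one]
      have := congrArg (fun p : Perm X => p x) h3
      simpa using this
    rw [h2] at h1
    exact h1.symm

include hG in
theorem reg_mem {c : ℕ} {x : X} (hx : ¬ D.out x ∧ grp x = c)
    (h : RegularCorner D.φ D.α head glued (D.φ.symm x)) :
    ¬ D.out (D.α (D.φ.symm x)) ∧ grp (D.α (D.φ.symm x)) = c := by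
  obtain ⟨h1, h2, h3, h4, h5⟩ := h
  refine ⟨hG.glued_out _ (hG.glued_symm _ h3), ?_⟩
  rw [hG.glued_grp _ h3]
  have h6 := hG.grp_const (D.φ.symm x) (hG.glued_out _ h3) h1
  rw [Equiv.apply_symm_apply] at h6
  rw [← h6, hx.2]

/-- successor -/
noncomputable def nxt (c : ℕ) (x : GD D.out grp c) : Option (GD D.out grp c) :=
  if h : ¬ head (D.φ x.1) ∨ Sgl D.φ head (D.φ x.1) then
    some ⟨D.φ x.1, fun ho => x.2.1 ((D.out_φ _).1 ho), (grp_step D hG x.2.1 h).trans x.2.2⟩
  else none

/-- mate -/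
noncomputable def mt (c : ℕ) (x : GD D.out grp c) : Option (GD D.out grp c) :=
  if h : RegularCorner D.φ D.α head glued (D.φ.symm x.1) then
    some ⟨D.α (D.φ.symm x.1), reg_mem D hG x.2 h⟩
  else none

theorem nxt_some {c : ℕ} (x y : GD D.out grp c) : nxt D hG c x = some y ↔
    (D.φ x.1 = y.1 ∧ (¬ head y.1 ∨ Sgl D.φ head y.1)) := by
  unfold nxt
  split_ifs with h
  · constructor
    · intro h1
      have h2 : D.φ x.1 = y.1 := congrArg Subtype.val (Option.some_injective _ h1)
      exact ⟨h2, h2 ▸ h⟩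
    · rintro ⟨h1, h2⟩
      exact congrArg some (Subtype.ext h1)
  · constructor
    · intro h1; cases h1
    · rintro ⟨h1, h2⟩
      rw [← h1] at h2
      exact absurd h2 h

theorem mt_some {c : ℕ} (x y : GD D.out grp c) : mt D hG c x = some y ↔
    (RegularCorner D.φ D.α head glued (D.φ.symm x.1) ∧ D.α (D.φ.symm x.1) = y.1) := by
  unfold mt
  split_ifs with h
  · constructor
    · intro h1
      exact ⟨h, congrArg Subtype.val (Option.some_injective _ h1)⟩
    · rintro ⟨h1, h2⟩
      exact congrArg some (Subtype.ext h2)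
  · constructor
    · intro h1; cases h1
    · rintro ⟨h1, h2⟩
      exact absurd h1 h

theorem mt_ne_none {c : ℕ} (x : GD D.out grp c) : mt D hG c x ≠ none ↔
    RegularCorner D.φ D.α head glued (D.φ.symm x.1) := by
  unfold mt
  split_ifs with h
  · simp [h]
  · simp [h]

/-- the pre-configuration of a group -/
noncomputable def pre (hR : D.Reduced) (c : ℕ) : Pre A (GD D.out grp c) where
  nx := nxt D hG c
  inj := by
    intro x y z hx hy
    rw [nxt_some] at hx hy
    exact Subtype.ext (D.φ.injective (hx.1.trans hy.1.symm))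
  nd := fun x => D.node x.1
  nd' := fun x => D.node (D.φ x.1)
  lab := fun x => D.lab x.1
  mate := mt D hG c
  step := fun x => D.node_step x.1 x.2.1
  glueN := by
    intro x y h
    rw [nxt_some] at h
    rw [h.1]
  red := by
    intro x y h
    rw [nxt_some] at h
    rw [← h.1]
    exact hR.2 x.1
  mate_symm := by
    intro x x' h
    rw [mt_some] at h ⊢
    obtain ⟨⟨h1, h2, h3, h4, h5⟩, h6⟩ := h
    set y := D.φ.symm x.1 with hy
    have hyx : D.φ y = x.1 := Equiv.apply_symm_apply _ _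
    -- the corner before `x' = α y` is at `y' = α x`
    have h7 : D.φ.symm x'.1 = D.α x.1 := by
      rw [← h6, Equiv.symm_apply_eq, ← hyx]
      exact h5.symm
    rw [h7]
    refine ⟨⟨?_, ?_, ?_, ?_, ?_⟩, ?_⟩
    · rw [← hyx, h5]; exact h2
    · rw [D.inv, ← hyx]; exact h1
    · rw [← hyx]; exact hG.glued_symm _ h4
    · rw [← hyx, h5]; exact hG.glued_symm _ h3
    · rw [← hyx, h5, D.inv, D.inv]
    · rw [D.inv]
  mate_corner := by
    intro x x' h
    rw [mt_some] at h
    obtain ⟨⟨h1, h2, h3, h4, h5⟩, h6⟩ := h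
    have hyx : D.φ (D.φ.symm x.1) = x.1 := Equiv.apply_symm_apply _ _
    have h7 : ¬ D.out (D.φ.symm x.1) := hG.glued_out _ h3
    have h8 := hG.grp_const _ h7 h1
    rw [hyx] at h8 h1
    refine ⟨⟨D.φ.symm x.1, h7, h8.symm.trans x.2.2⟩, ?_⟩
    rw [nxt_some]
    exact ⟨hyx, Or.inl h1⟩
  mate_lab := by
    intro x x' y h hy
    rw [mt_some] at h
    rw [nxt_some] at hy
    have h1 : D.φ.symm x.1 = y.1 := by rw [Equiv.symm_apply_eq]; exact hy.1.symm
    rw [← h.2, h1, D.lab_α]
  mate_node := by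
    intro x x' h
    rw [mt_some] at h
    obtain ⟨⟨h1, h2, h3, h4, h5⟩, h6⟩ := h
    rw [← h6]
    have h7 := hR.1 (D.φ.symm x.1) (hG.glued_out _ h3) (hG.glued_out _ (hG.glued_symm _ h3))
    rw [Equiv.apply_symm_apply] at h7
    exact fun h8 => h7 h8.symm
  mate_coh := by
    intro x x' y y' h h1 h2
    rw [mt_some] at h h2
    rw [nxt_some] at h1 ⊢
    have h3 : D.φ.symm y.1 = x.1 := by rw [Equiv.symm_apply_eq]; exact h1.1.symm
    obtain ⟨⟨k1, k2, k3, k4, k5⟩, k6⟩ := h
    rw [Equiv.apply_symm_apply] at k5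
    rw [h3] at h2
    rw [← h2.2, ← k6]
    exact ⟨k5, Or.inl k2⟩

/-! ### counts -/

/-- unglued darts of a group -/
noncomputable def ugD (O glued : X → Prop) (grp : X → ℕ) (c : ℕ) : ℕ :=
  (Finset.univ.filter fun x => (¬ O x ∧ ¬ glued x) ∧ grp x = c).card

include hG in
/-- breaks of a group -/
theorem breaks_card (c : ℕ) : Nat.card {x : X // ¬ D.out x ∧ grp x = c ∧ (glued x ∨ glued (D.φ x)) ∧
    ¬ RegularCorner D.φ D.α head glued x} ≤ K := hG.breaks c

theorem pre_ends (hR : D.Reduced) (c : ℕ) : (pre D hG hR c).ends ≤ K := by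
  refine le_trans ?_ (breaks_card D hG c)
  refine Nat.card_le_card_of_injective
    (fun x : {x : GD D.out grp c // (pre D hG hR c).mate x ≠ none ∧
      ∀ y, (pre D hG hR c).nx x = some y → (pre D hG hR c).mate y = none} =>
      (⟨x.1.1, ?_⟩ : {x : X // ¬ D.out x ∧ grp x = c ∧ (glued x ∨ glued (D.φ x)) ∧
        ¬ RegularCorner D.φ D.α head glued x})) ?_
  · obtain ⟨⟨x, hx1, hx2⟩, h1, h2⟩ := x
    have h3 : RegularCorner D.φ D.α head glued (D.φ.symm x) := (mt_ne_none D hG _).1 h1
    have h4 : glued x := by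
      have := h3.2.2.2.1
      rwa [Equiv.apply_symm_apply] at this
    refine ⟨hx1, hx2, Or.inl h4, fun h5 => ?_⟩
    have h6 : ¬ D.out (D.φ x) := fun ho => hx1 ((D.out_φ _).1 ho)
    have h7 : nxt D hG c ⟨x, hx1, hx2⟩ = some ⟨D.φ x, h6, (hG.grp_const _ hx1 h5.1).trans hx2⟩ := by
      rw [nxt_some]
      exact ⟨rfl, Or.inl h5.1⟩
    have h8 := h2 _ h7
    have h9 : mt D hG c ⟨D.φ x, h6, (hG.grp_const _ hx1 h5.1).trans hx2⟩ ≠ none := by
      rw [mt_ne_none]
      show RegularCorner D.φ D.α head glued (D.φ.symm (D.φ x))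
      rw [Equiv.symm_apply_apply]
      exact h5
    exact h9 h8
  · intro x y h
    have h' := congrArg (fun z => z.1) h
    exact Subtype.ext (Subtype.ext h')

theorem pre_unglued (hR : D.Reduced) (c : ℕ) :
    (pre D hG hR c).unglued ≤ K + ugD D.out glued grp c := by
  have h0 : ugD D.out glued grp c =
      Nat.card {x : X // (¬ D.out x ∧ ¬ glued x) ∧ grp x = c} := by
    rw [Nat.card_eq_fintype_card, Fintype.card_subtype]; rfl
  rw [h0]
  refine le_trans ?_ (Nat.add_le_add_right (breaks_card D hG c) _)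
  rw [← Nat.card_sum]
  refine Nat.card_le_card_of_injective
    (fun x : {x : GD D.out grp c // (∃ y, (pre D hG hR c).nx y = some x) ∧
      (pre D hG hR c).mate x = none} =>
      if h : glued (D.φ.symm x.1.1) then
        (Sum.inl ⟨D.φ.symm x.1.1, ?_⟩ : {x : X // ¬ D.out x ∧ grp x = c ∧
          (glued x ∨ glued (D.φ x)) ∧ ¬ RegularCorner D.φ D.α head glued x} ⊕
          {x : X // (¬ D.out x ∧ ¬ glued x) ∧ grp x = c})
      else Sum.inr ⟨D.φ.symm x.1.1, ?_⟩) ?_
  · obtain ⟨⟨x, hx1, hx2⟩, ⟨y, hy⟩, h2⟩ := x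
    have hy' : nxt D hG c y = some ⟨x, hx1, hx2⟩ := hy
    rw [nxt_some] at hy'
    have h3 : D.φ.symm x = y.1 := by rw [Equiv.symm_apply_eq]; exact hy'.1.symm
    have h4 : ¬ RegularCorner D.φ D.α head glued (D.φ.symm x) := fun h5 =>
      ((mt_ne_none D hG (⟨x, hx1, hx2⟩ : GD D.out grp c)).2 h5) h2
    refine ⟨?_, ?_, Or.inl h, h4⟩
    · rw [h3]; exact y.2.1
    · rw [h3]; exact y.2.2
  · obtain ⟨⟨x, hx1, hx2⟩, ⟨y, hy⟩, h2⟩ := x
    have hy' : nxt D hG c y = some ⟨x, hx1, hx2⟩ := hy
    rw [nxt_some] at hy'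
    have h3 : D.φ.symm x = y.1 := by rw [Equiv.symm_apply_eq]; exact hy'.1.symm
    refine ⟨⟨?_, h⟩, ?_⟩
    · rw [h3]; exact y.2.1
    · rw [h3]; exact y.2.2
  · intro x y hxy
    have key : D.φ.symm x.1.1 = D.φ.symm y.1.1 := by
      by_cases hx : glued (D.φ.symm x.1.1)
      · by_cases hy : glued (D.φ.symm y.1.1)
        · simp only [hx, hy, dif_pos] at hxy
          exact congrArg Subtype.val (Sum.inl_injective hxy)
        · simp only [hx, hy, dif_pos, dif_neg, not_false_iff] at hxy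
          cases hxy
      · by_cases hy : glued (D.φ.symm y.1.1)
        · simp only [hx, hy, dif_pos, dif_neg, not_false_iff] at hxy
          cases hxy
        · simp only [hx, hy, dif_neg, not_false_iff] at hxy
          exact congrArg Subtype.val (Sum.inr_injective hxy)
    exact Subtype.ext (Subtype.ext (D.φ.symm.injective key))

theorem card_le (hR : D.Reduced) (c : ℕ) :
    Nat.card (GD D.out grp c) ≤ (pre D hG hR c).glued + (K + ugD D.out glued grp c) := by
  have h0 : ugD D.out glued grp c =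
      Nat.card {x : X // (¬ D.out x ∧ ¬ glued x) ∧ grp x = c} := by
    rw [Nat.card_eq_fintype_card, Fintype.card_subtype]; rfl
  rw [h0]
  refine le_trans ?_ (Nat.add_le_add_left (Nat.add_le_add_right (breaks_card D hG c) _) _)
  rw [← Nat.card_sum]
  unfold Pre.glued
  rw [← Nat.card_sum]
  refine Nat.card_le_card_of_injective
    (fun x : GD D.out grp c =>
      if h : RegularCorner D.φ D.α head glued x.1 then
        (Sum.inl ⟨⟨D.φ x.1, ?_⟩, ?_⟩ : {x : GD D.out grp c // (pre D hG hR c).mate x ≠ none} ⊕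
          ({x : X // ¬ D.out x ∧ grp x = c ∧ (glued x ∨ glued (D.φ x)) ∧
            ¬ RegularCorner D.φ D.α head glued x} ⊕
          {x : X // (¬ D.out x ∧ ¬ glued x) ∧ grp x = c}))
      else if h' : glued x.1 then Sum.inr (Sum.inl ⟨x.1, x.2.1, x.2.2, Or.inl h', h⟩)
      else Sum.inr (Sum.inr ⟨x.1, ⟨x.2.1, h'⟩, x.2.2⟩)) ?_
  · exact ⟨fun ho => x.2.1 ((D.out_φ _).1 ho), (hG.grp_const _ x.2.1 h.1).trans x.2.2⟩
  · show mt D hG c _ ≠ none
    rw [mt_ne_none]
    show RegularCorner D.φ D.α head glued (D.φ.symm (D.φ x.1))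
    rw [Equiv.symm_apply_apply]
    exact h
  · intro x y hxy
    have key : x.1 = y.1 := by
      by_cases hx : RegularCorner D.φ D.α head glued x.1
      · by_cases hy : RegularCorner D.φ D.α head glued y.1
        · simp only [hx, hy, dif_pos] at hxy
          exact D.φ.injective (congrArg (fun z => z.1.1) (Sum.inl_injective hxy))
        · simp only [hx, hy, dif_pos, dif_neg, not_false_iff] at hxy
          split_ifs at hxy
      · by_cases hy : RegularCorner D.φ D.α head glued y.1
        · simp only [hx, hy, dif_pos, dif_neg, not_false_iff] at hxy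
          split_ifs at hxy
        · simp only [hx, hy, dif_neg, not_false_iff] at hxy
          split_ifs at hxy with h1 h2 h2
          · simpa using hxy
          · exact absurd (Sum.inr_injective hxy) (by simp)
          · exact absurd (Sum.inr_injective hxy) (by simp)
          · simpa using hxy
    exact Subtype.ext key

theorem pre_openN (hR : D.Reduced) (c : ℕ) : (pre D hG hR c).openN ≤
    (Finset.univ.filter fun x => (head x ∧ ¬ Sgl D.φ head x) ∧ grp x = c).card := by
  have h0 : (Finset.univ.filter fun x => (head x ∧ ¬ Sgl D.φ head x) ∧ grp x = c).card =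
      Nat.card {x : X // (head x ∧ ¬ Sgl D.φ head x) ∧ grp x = c} := by
    rw [Nat.card_eq_fintype_card, Fintype.card_subtype]
  rw [h0]
  refine Nat.card_le_card_of_injective
    (fun x : {x : GD D.out grp c // ∀ y, (pre D hG hR c).nx y ≠ some x} =>
      (⟨x.1.1, ?_⟩ : {x : X // (head x ∧ ¬ Sgl D.φ head x) ∧ grp x = c})) ?_
  · obtain ⟨⟨x, hx1, hx2⟩, h1⟩ := x
    have hyx : D.φ (D.φ.symm x) = x := Equiv.apply_symm_apply _ _
    have ho : ¬ D.out (D.φ.symm x) := fun h => hx1 (by
      have := (D.out_φ (D.φ.symm x)).2 h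
      rwa [hyx] at this)
    have key : ¬ (¬ head x ∨ Sgl D.φ head x) := by
      intro h2
      have h3 : grp x = grp (D.φ.symm x) := by
        have := grp_step D hG ho (by rw [hyx]; exact h2)
        rwa [hyx] at this
      refine h1 ⟨D.φ.symm x, ho, h3.symm.trans hx2⟩ ?_
      show nxt D hG c _ = _
      rw [nxt_some]
      exact ⟨hyx, h2⟩
    rw [not_or, not_not] at key
    exact ⟨key, hx2⟩
  · intro x y h
    have h' := congrArg (fun z => z.1) h
    exact Subtype.ext (Subtype.ext h')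

include hG in
/-- the inequality of one group -/
theorem group_ineq (hR : D.Reduced) (c : ℕ) {κ C P' η' : ℝ} (hκ : 0 < κ) (hC : 0 < C) (hP : 0 < P')
    (hloc : LocalIneq A K K (2 * L) κ C P' η') :
    κ * ((Nat.card (GD D.out grp c) : ℝ) - (K + ugD D.out glued grp c)) ≤
      C * (K + ugD D.out glued grp c) + P' *
        ((Finset.univ.filter fun x => (head x ∧ ¬ Sgl D.φ head x) ∧ grp x = c).card : ℝ) + η' := by
  obtain ⟨F, cf, e, hN, -, -, -, -, -, h1, h2, h3, h4, -⟩ := (pre D hG hR c).exists_conf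
  have hfb := frame_bounds (L := L) (K := K) D.out_φ hG c (pre D hG hR c).nx
    (fun x y => nxt_some D hG x y) F e hN
  have h5 := hloc F cf hfb.1 hfb.2 (by rw [h3]; exact pre_ends D hG hR c)
  rw [h1, h2, h4] at h5
  have h6 : ((pre D hG hR c).unglued : ℝ) ≤ K + ugD D.out glued grp c := by
    exact_mod_cast pre_unglued D hG hR c
  have h7 : (Nat.card (GD D.out grp c) : ℝ) ≤
      (pre D hG hR c).glued + (K + ugD D.out glued grp c) := by
    exact_mod_cast card_le D hG hR c
  have h8 : ((pre D hG hR c).openN : ℝ) ≤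
      ((Finset.univ.filter fun x => (head x ∧ ¬ Sgl D.φ head x) ∧ grp x = c).card : ℝ) := by
    exact_mod_cast pre_openN D hG hR c
  have h9 := mul_le_mul_of_nonneg_left h6 hC.le
  have h10 := mul_le_mul_of_nonneg_left h8 hP.le
  have h11 : κ * ((Nat.card (GD D.out grp c) : ℝ) - (K + ugD D.out glued grp c)) ≤
      κ * (pre D hG hR c).glued := mul_le_mul_of_nonneg_left (by linarith) hκ.le
  linarith

end Group

end Crest.Agent.R177.Geom

namespace Crest.Agent.R177

open Geom
open Crest.Agent.R199 (PAct)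

/-- a closed face path is a closed reduced path of `A` -/
theorem Geom.face_len {S V X : Type} {A : PAct S V} (D : Diag A X) (hR : D.Reduced) {g : ℕ}
    (hg : Girth A g) (x : X) (hx : ¬ D.out x) (i : ℕ) (h0 : 0 < i) (hi : i < g) :
    (D.φ ^ i) x ≠ x := by
  intro hcon
  have hout : ∀ j : ℕ, ¬ D.out ((D.φ ^ j) x) := by
    intro j
    induction j with
    | zero => exact hx
    | succ j ih =>
      have e : (D.φ ^ (j + 1)) x = D.φ ((D.φ ^ j) x) := by rw [pow_succ']; rfl
      rw [e, D.out_φ]; exact ih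
  -- the word read from `x`
  let w : X → ℕ → List (S × Bool) := fun y n => (List.range n).map fun j => D.lab ((D.φ ^ j) y)
  have hw : ∀ (n : ℕ) (y : X), w y (n + 1) = D.lab y :: w (D.φ y) n := by
    intro n y
    simp only [w, List.range_succ_eq_map, List.map_cons, List.map_map]
    rfl
  have hread : ∀ (n : ℕ) (y : X), (∀ j, ¬ D.out ((D.φ ^ j) y)) →
      A.read (w y n) (D.node y) = some (D.node ((D.φ ^ n) y)) := by
    intro n
    induction n with
    | zero => intro y _; rfl
    | succ n ih =>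
      intro y hy
      rw [hw, PAct.read, D.node_step y (hy 0)]
      show A.read (w (D.φ y) n) (D.node (D.φ y)) = _
      rw [ih (D.φ y) (fun j => by
        have := hy (j + 1)
        rwa [pow_succ] at this)]
      rfl
  have hred : ∀ (n : ℕ) (y : X), FreeGroup.IsReduced (w y n) := by
    intro n
    induction n with
    | zero => intro y; exact FreeGroup.IsReduced.nil
    | succ n ih =>
      intro y
      cases n with
      | zero => rw [hw]; exact FreeGroup.IsReduced.singleton
      | succ n =>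
        rw [hw, hw]
        rw [FreeGroup.isReduced_cons_cons]
        refine ⟨?_, ?_⟩
        · intro h1
          by_contra h2
          apply hR.2 y
          apply Prod.ext
          · exact h1.symm
          · show (D.lab (D.φ y)).2 = !(D.lab y).2
            revert h2
            cases (D.lab y).2 <;> cases (D.lab (D.φ y)).2 <;> simp
        · rw [← hw]; exact ih _
  have h1 := hread i x hout
  rw [hcon] at h1
  have h2 := hg _ _ (hred i x) (by
    obtain ⟨j, rfl⟩ : ∃ j, i = j + 1 := ⟨i - 1, by omega⟩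
    rw [hw]; simp) h1
  simp only [w, List.length_map, List.length_range] at h2
  omega

/-- **GEOM**: from the local inequality to the isoperimetric inequality. -/
theorem geom (κ C P : ℝ) (hκ : 0 < κ) (hC : 0 < C) (hP : 0 < P) :
    ∃ (L K D0 C' g₀ : ℕ) (η : ℝ), 0 < η ∧ ∀ (S V : Type) (A : PAct S V) (g : ℕ), g₀ ≤ g →
      Girth A g → LocalIneq A K D0 (L * g) κ C (P * g) (η * g) → Iso A C' := by
  obtain ⟨L₁, hL₁⟩ := exists_nat_ge (8 * P / κ + 1)
  have hL₁0 : (0 : ℝ) < L₁ := lt_of_lt_of_le (by positivity) hL₁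
  have hL₁1 : 1 ≤ L₁ := by exact_mod_cast hL₁0
  set ε : ℝ := κ / (8 * (κ + C)) with hε
  have hε0 : 0 < ε := by positivity
  obtain ⟨K, hK⟩ := hypStatement ε L₁ hε0
  obtain ⟨g₀, hg₀⟩ := exists_nat_ge (8 * (κ + C) * K / κ + 1)
  obtain ⟨C', hC'⟩ := exists_nat_ge (2 * (κ + C) * K / κ)
  refine ⟨2 * L₁, K, K, C', g₀, κ / 8, by positivity, ?_⟩
  intro S V A g hg hgir hloc X _ D hR hone
  have := Fintype.ofFinite X
  have hg0 : (0 : ℝ) < g := by
    have h1 : (g₀ : ℝ) ≤ g := by exact_mod_cast hg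
    have h2 : (0 : ℝ) ≤ 8 * (κ + C) * K / κ := by positivity
    linarith
  have hg1 : 0 < g := by exact_mod_cast hg0
  obtain ⟨head, glued, grp, hG, hcount⟩ := hK X D.φ D.α D.out g (L₁ * g) hg1
    (Nat.le_mul_of_pos_left g hL₁1) le_rfl D.inv D.ne (fun a ha => D.planar a ha)
    (fun x => D.out_φ x) hone
    (fun x h => hR.2 x (by rw [h, D.lab_α]))
    (fun x hx i h0 hi => face_len D hR hgir x hx i h0 hi)
  -- numbers
  set M : Finset X := Finset.univ.filter fun x => ¬ D.out x with hM
  set T : Finset ℕ := M.image grp with hT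
  set Ng : Finset X := Finset.univ.filter fun x => ¬ D.out x ∧ ¬ glued x with hNg
  set Op : Finset X := Finset.univ.filter fun x => head x ∧ ¬ Sgl D.φ head x with hOp
  have hMT : ∀ x ∈ M, grp x ∈ T := fun x hx => Finset.mem_image_of_mem _ hx
  have hNgT : ∀ x ∈ Ng, grp x ∈ T := fun x hx => by
    rw [hNg, Finset.mem_filter] at hx
    exact hMT x (by rw [hM, Finset.mem_filter]; exact ⟨hx.1, hx.2.1⟩)
  have hOpT : ∀ x ∈ Op, grp x ∈ T := fun x hx => by
    rw [hOp, Finset.mem_filter] at hx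
    exact hMT x (by rw [hM, Finset.mem_filter]; exact ⟨hx.1, hG.head_out _ hx.2.1⟩)
  have sM := Finset.card_eq_sum_card_fiberwise hMT
  have sNg := Finset.card_eq_sum_card_fiberwise hNgT
  have sOp := Finset.card_eq_sum_card_fiberwise hOpT
  have fM : ∀ c, (M.filter fun x => grp x = c).card = Nat.card (GD D.out grp c) := by
    intro c
    rw [Nat.card_eq_fintype_card, Fintype.card_subtype, hM, Finset.filter_filter]
  have fNg : ∀ c, (Ng.filter fun x => grp x = c).card = ugD D.out glued grp c := by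
    intro c
    rw [hNg, Finset.filter_filter]; rfl
  have fOp : ∀ c, (Op.filter fun x => grp x = c).card =
      (Finset.univ.filter fun x => (head x ∧ ¬ Sgl D.φ head x) ∧ grp x = c).card := by
    intro c
    rw [hOp, Finset.filter_filter]
  -- the sum of the inequalities
  have hloc' : LocalIneq A K K (2 * (L₁ * g)) κ C (P * g) (κ / 8 * g) := by
    have e : 2 * (L₁ * g) = 2 * L₁ * g := by ring
    rw [e]; exact hloc
  have hsum : ∑ c ∈ T, κ * (((M.filter fun x => grp x = c).card : ℝ) -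
        (K + ((Ng.filter fun x => grp x = c).card : ℝ))) ≤
      ∑ c ∈ T, (C * (K + ((Ng.filter fun x => grp x = c).card : ℝ)) + P * g *
        ((Op.filter fun x => grp x = c).card : ℝ) + κ / 8 * g) := by
    refine Finset.sum_le_sum fun c _ => ?_
    rw [fM, fNg, fOp]
    exact group_ineq D hG hR c hκ hC (by positivity) hloc'
  have e1 : ∑ c ∈ T, κ * (((M.filter fun x => grp x = c).card : ℝ) -
        (K + ((Ng.filter fun x => grp x = c).card : ℝ))) =
      κ * ((M.card : ℝ) - (K * T.card + Ng.card)) := by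
    rw [← Finset.mul_sum, Finset.sum_sub_distrib, Finset.sum_add_distrib, sM, sNg,
      Finset.sum_const, nsmul_eq_mul]
    push_cast
    ring
  have e2 : ∑ c ∈ T, (C * (K + ((Ng.filter fun x => grp x = c).card : ℝ)) + P * g *
        ((Op.filter fun x => grp x = c).card : ℝ) + κ / 8 * g) =
      C * (K * T.card + Ng.card) + P * g * Op.card + κ / 8 * g * T.card := by
    rw [Finset.sum_add_distrib, Finset.sum_add_distrib, ← Finset.mul_sum, ← Finset.mul_sum,
      Finset.sum_add_distrib, sNg, sOp, Finset.sum_const, Finset.sum_const, nsmul_eq_mul,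
      nsmul_eq_mul]
    push_cast
    ring
  rw [e1, e2] at hsum
  -- bounds
  have b1 : (T.card : ℝ) * g ≤ M.card := by
    have h1 : ∀ c ∈ T, g ≤ (M.filter fun x => grp x = c).card := by
      intro c hc
      rw [fM]
      refine group_card D.out_φ hG (Nat.le_mul_of_pos_left g hL₁1)
        (fun x hx i h0 hi => face_len D hR hgir x hx i h0 hi) c ?_
      rw [hT, Finset.mem_image] at hc
      obtain ⟨x, hx, hxc⟩ := hc
      rw [hM, Finset.mem_filter] at hx
      exact ⟨x, hx.2, hxc⟩
    have h2 : ∑ c ∈ T, g ≤ ∑ c ∈ T, (M.filter fun x => grp x = c).card := Finset.sum_le_sum h1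
    rw [← sM, Finset.sum_const, smul_eq_mul] at h2
    exact_mod_cast h2
  have b2 : (Op.card : ℝ) * (L₁ * g) ≤ M.card := by
    have h1 := open_card D.out_φ hG
    rw [Nat.card_eq_fintype_card, Fintype.card_subtype, Nat.card_eq_fintype_card,
      Fintype.card_subtype] at h1
    exact_mod_cast h1
  have b3 : (Ng.card : ℝ) ≤ ε * M.card + K * (Nat.card {x // D.out x} : ℝ) := by
    have h1 : {x | ¬ D.out x ∧ ¬ glued x}.ncard = Ng.card := by
      rw [← Nat.card_coe_set_eq]
      rw [Nat.card_eq_fintype_card]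
      exact Fintype.card_subtype _
    have h2 : {x | ¬ D.out x}.ncard = M.card := by
      rw [← Nat.card_coe_set_eq]
      rw [Nat.card_eq_fintype_card]
      exact Fintype.card_subtype _
    have h3 : {x | D.out x}.ncard = Nat.card {x // D.out x} := (Nat.card_coe_set_eq _).symm
    rw [h1, h2, h3] at hcount
    exact hcount
  have hMc : Nat.card {x // ¬ D.out x} = M.card := by
    rw [Nat.card_eq_fintype_card, Fintype.card_subtype]
  rw [hMc]
  set m : ℝ := (M.card : ℝ) with hm
  set o : ℝ := (Nat.card {x // D.out x} : ℝ) with ho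
  set t : ℝ := (T.card : ℝ) with ht
  have hm0 : 0 ≤ m := Nat.cast_nonneg _
  have ho0 : 0 ≤ o := Nat.cast_nonneg _
  have ht0 : 0 ≤ t := Nat.cast_nonneg _
  have c1 : (κ + C) * (K * t) ≤ κ / 8 * m := by
    have h1 : 8 * (κ + C) * K / κ ≤ g := by
      have : (g₀ : ℝ) ≤ g := by exact_mod_cast hg
      linarith
    rw [div_le_iff₀ hκ] at h1
    have h2 : 8 * (κ + C) * K * t ≤ g * κ * t := mul_le_mul_of_nonneg_right h1 ht0
    have h3 : κ * (t * g) ≤ κ * m := mul_le_mul_of_nonneg_left b1 hκ.le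
    nlinarith
  have c2 : P * g * (Op.card : ℝ) ≤ κ / 8 * m := by
    have h1 : 8 * P / κ ≤ L₁ := by linarith
    rw [div_le_iff₀ hκ] at h1
    have h2 : 8 * P * ((Op.card : ℝ) * g) ≤ L₁ * κ * ((Op.card : ℝ) * g) :=
      mul_le_mul_of_nonneg_right h1 (by positivity)
    have h3 : κ * ((Op.card : ℝ) * (L₁ * g)) ≤ κ * m := mul_le_mul_of_nonneg_left b2 hκ.le
    nlinarith
  have c3 : κ / 8 * g * t ≤ κ / 8 * m := by
    have : κ / 8 * (t * g) ≤ κ / 8 * m := mul_le_mul_of_nonneg_left b1 (by positivity)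
    linarith
  have c4 : (κ + C) * (Ng.card : ℝ) ≤ κ / 8 * m + (κ + C) * K * o := by
    have h1 : (κ + C) * (Ng.card : ℝ) ≤ (κ + C) * (ε * m + K * o) :=
      mul_le_mul_of_nonneg_left b3 (by positivity)
    have h2 : (κ + C) * (ε * m + K * o) = κ / 8 * m + (κ + C) * K * o := by
      rw [hε]; field_simp
    linarith
  have c5 : κ / 2 * m ≤ (κ + C) * K * o := by nlinarith
  have c6 : m ≤ C' * o := by
    have h1 : 2 * (κ + C) * K / κ * o ≤ C' * o := mul_le_mul_of_nonneg_right hC' ho0
    have h2 : m ≤ 2 * (κ + C) * K / κ * o := by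
      rw [div_mul_eq_mul_div, le_div_iff₀ hκ]
      nlinarith
    linarith
  rw [hm, ho] at c6
  exact_mod_cast c6

end Crest.Agent.R177
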