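import Crest.Agent.R177.LocDefs

/-!
# Row 177, module LOC: multiplicities at regular classes (helper143)
-/

set_option autoImplicit false

open scoped Classical

namespace Crest.Agent.R177.Loc

open Crest.Agent.R177
open Shape

variable {σ : Shape}

theorem Shape.Par.symm {p q : ℕ} (h : σ.Par p q) : σ.Par q p := by
  rcases h with ⟨h1, h2⟩ | ⟨h1, h2⟩
  · exact Or.inl ⟨h1.symm, h2.symm⟩
  · exact Or.inr ⟨h2.symm, h1.symm⟩

theorem Shape.Par.trans {p q r : ℕ} (h : σ.Par p q) (h' : σ.Par q r) : σ.Par p r := by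
  rcases h with ⟨h1, h2⟩ | ⟨h1, h2⟩ <;> rcases h' with ⟨h3, h4⟩ | ⟨h3, h4⟩
  · exact Or.inl ⟨h1.trans h3, h2.trans h4⟩
  · exact Or.inr ⟨h1.trans h3, h2.trans h4⟩
  · exact Or.inr ⟨h1.trans h4, h2.trans h3⟩
  · exact Or.inl ⟨h1.trans h4, h2.trans h3⟩

theorem Shape.Reg.par {v p p' : ℕ} (hv : σ.Reg v) (hp : p < σ.T) (hpv : σ.cls p = v)
    (hp' : p' < σ.T) (hpv' : σ.cls p' = v) : σ.Par p p' :=
  (hv.2.2.2 p hp hpv).2.trans (hv.2.2.2 p' hp' hpv').2.symm

theorem Shape.Reg.cor {v p : ℕ} (hv : σ.Reg v) (hp : p < σ.T) (hpv : σ.cls p = v) : σ.Cor p :=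
  (hv.2.2.2 p hp hpv).1.1


theorem Shape.Reg.lt {v : ℕ} (hv : σ.Reg v) : v < σ.T := hv.1

theorem Shape.Reg.cls_self {v : ℕ} (hv : σ.Reg v) : σ.cls v = v := hv.2.1

theorem Shape.Reg.cor_self {v : ℕ} (hv : σ.Reg v) : σ.Cor v := hv.cor hv.1 hv.2.1

theorem Shape.Basic.lt_of_mem (hσ : σ.Basic) {q : ℕ} (hq : q ∈ σ.D) : q < σ.T := by
  have := hσ.D_lt q hq; omega

theorem Shape.Basic.succ_lt_of_mem (hσ : σ.Basic) {q : ℕ} (hq : q ∈ σ.D) : q + 1 < σ.T :=
  hσ.D_lt q hq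

theorem Shape.Basic.cls_ne_cor (hσ : σ.Basic) {p : ℕ} (hp : σ.Cor p) :
    σ.cls (p - 1) ≠ σ.cls (p + 1) := by
  obtain ⟨h1, h2, h3⟩ := hp
  have h4 : p - 1 + 1 = p := by omega
  have := hσ.red (p - 1) h2 (by rw [h4]; exact h3)
  have h5 : p - 1 + 2 = p + 1 := by omega
  rwa [h5] at this

theorem Shape.Basic.cls_ne_pred (hσ : σ.Basic) {p : ℕ} (hp : σ.Cor p) :
    σ.cls (p - 1) ≠ σ.cls p := by
  obtain ⟨h1, h2, h3⟩ := hp
  have h4 : p - 1 + 1 = p := by omega
  have := hσ.cls_ne (p - 1) h2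
  rwa [h4] at this

theorem Shape.SameE.refl (p : ℕ) : σ.SameE p p := Or.inl ⟨rfl, rfl⟩

theorem Shape.SameE.symm {p q : ℕ} (h : σ.SameE p q) : σ.SameE q p := by
  rcases h with ⟨h1, h2⟩ | ⟨h1, h2⟩
  · exact Or.inl ⟨h1.symm, h2.symm⟩
  · exact Or.inr ⟨h2.symm, h1.symm⟩

theorem Shape.SameE.trans {p q r : ℕ} (h : σ.SameE p q) (h' : σ.SameE q r) : σ.SameE p r := by
  rcases h with ⟨h1, h2⟩ | ⟨h1, h2⟩ <;> rcases h' with ⟨h3, h4⟩ | ⟨h3, h4⟩
  · exact Or.inl ⟨h1.trans h3, h2.trans h4⟩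
  · exact Or.inr ⟨h1.trans h3, h2.trans h4⟩
  · exact Or.inr ⟨h1.trans h4, h2.trans h3⟩
  · exact Or.inl ⟨h1.trans h4, h2.trans h3⟩

theorem Shape.am_eq_mul {v w q : ℕ} (h : σ.cls q = v) (h' : σ.cls (q + 1) = w) :
    σ.am v w = σ.mul q := by
  unfold Shape.am Shape.mul Shape.SameE
  congr 1
  ext r
  simp only [Finset.mem_filter, h, h']
  constructor
  · rintro ⟨h1, h2⟩
    refine ⟨h1, ?_⟩
    rcases h2 with h2 | h2
    · exact Or.inl ⟨h2.1.symm, h2.2.symm⟩
    · exact Or.inr ⟨h2.2.symm, h2.1.symm⟩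
  · rintro ⟨h1, h2⟩
    refine ⟨h1, ?_⟩
    rcases h2 with h2 | h2
    · exact Or.inl ⟨h2.1.symm, h2.2.symm⟩
    · exact Or.inr ⟨h2.2.symm, h2.1.symm⟩

theorem Shape.am_comm (v w : ℕ) : σ.am v w = σ.am w v := by
  unfold Shape.am
  congr 1
  ext r
  simp only [Finset.mem_filter]
  tauto

/-- darts with an end in a given class inject into the positions of the class -/
theorem Shape.Basic.am_le (hσ : σ.Basic) (v w : ℕ) : σ.am v w ≤ σ.Mv v := by
  unfold Shape.am Shape.Mv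
  refine Finset.card_le_card_of_injOn (fun q => if σ.cls q = v then q else q + 1) ?_ ?_
  · intro q hq
    simp only [Finset.coe_filter, Set.mem_setOf_eq, Finset.mem_range] at hq ⊢
    obtain ⟨hq, h⟩ := hq
    split_ifs with h1
    · exact ⟨hσ.lt_of_mem hq, h1⟩
    · rcases h with h | h
      · exact absurd h.1 h1
      · exact ⟨hσ.succ_lt_of_mem hq, h.2⟩
  · intro q hq q' hq' he
    simp only [Finset.coe_filter, Set.mem_setOf_eq] at hq hq'
    obtain ⟨hq, h⟩ := hq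
    obtain ⟨hq', h'⟩ := hq'
    simp only at he
    split_ifs at he with h1 h2 h2
    · exact he
    · -- q = q' + 1, q has start class v, q' end class v
      exfalso
      have h3 : σ.cls q' = w ∧ σ.cls (q' + 1) = v := by
        rcases h' with h' | h'
        · exact absurd h'.1 h2
        · exact h'
      subst he
      have h4 : σ.cls (q' + 1 + 1) = w := by
        rcases h with h | h
        · exact h.2
        · exact absurd (h.2.trans h1.symm) (fun h5 => hσ.cls_ne _ hq h5.symm)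
      exact hσ.red q' hq' hq (h3.1.trans h4.symm)
    · exfalso
      have h3 : σ.cls q = w ∧ σ.cls (q + 1) = v := by
        rcases h with h | h
        · exact absurd h.1 h1
        · exact h
      subst he
      have h4 : σ.cls (q + 1 + 1) = w := by
        rcases h' with h' | h'
        · exact h'.2
        · exact absurd (h'.2.trans h2.symm) (fun h5 => hσ.cls_ne _ hq' h5.symm)
      exact hσ.red q hq hq' (h3.1.trans h4.symm)
    · omega

/-- at a regular class every position uses both edges -/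
theorem Shape.Reg.mem_edge (hσ : σ.Basic) {v q p : ℕ} (hv : σ.Reg v) (hq : q ∈ σ.D)
    (h : σ.cls q = v ∨ σ.cls (q + 1) = v) (hp : p < σ.T) (hpv : σ.cls p = v) :
    σ.SameE q p ∨ σ.SameE q (p - 1) := by
  have hc := hv.cor hp hpv
  have e1 : p - 1 + 1 = p := by have := hc.1; omega
  rcases h with h | h
  · rcases hv.par (hσ.lt_of_mem hq) h hp hpv with ⟨h1, h2⟩ | ⟨h1, h2⟩
    · exact Or.inl (Or.inl ⟨h.trans hpv.symm, h2⟩)
    · refine Or.inr (Or.inr ⟨?_, h2⟩)
      rw [e1, hpv, h]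
  · have h3 : σ.Par (q + 1) p := hv.par (hσ.succ_lt_of_mem hq) h hp hpv
    have e2 : q + 1 - 1 = q := by omega
    rcases h3 with ⟨h1, h2⟩ | ⟨h1, h2⟩
    · rw [e2] at h1
      refine Or.inr (Or.inl ⟨h1, ?_⟩)
      rw [e1, hpv, h]
    · rw [e2] at h1
      exact Or.inl (Or.inr ⟨h1, h.trans hpv.symm⟩)

theorem mul_eq {σ : Shape} (hσ : σ.Basic) {v : ℕ} (hv : σ.Reg v) {q : ℕ} (hq : q ∈ σ.D)
    (h : σ.cls q = v ∨ σ.cls (q + 1) = v) : σ.mul q = σ.Mv v := by
  apply le_antisymm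
  · rcases h with h | h
    · rw [← Shape.am_eq_mul h rfl]
      exact hσ.am_le _ _
    · rw [← Shape.am_eq_mul rfl h, Shape.am_comm]
      exact hσ.am_le _ _
  · unfold Shape.mul Shape.Mv
    refine Finset.card_le_card_of_injOn
      (fun p => if σ.SameE q p then p else p - 1) ?_ ?_
    · intro p hp
      simp only [Finset.coe_filter, Set.mem_setOf_eq, Finset.mem_range] at hp ⊢
      obtain ⟨hp, hpv⟩ := hp
      have hc := hv.cor hp hpv
      split_ifs with h1
      · exact ⟨hc.2.2, h1⟩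
      · exact ⟨hc.2.1, (hv.mem_edge hσ hq h hp hpv).resolve_left h1⟩
    · intro p hp p' hp' he
      simp only [Finset.coe_filter, Set.mem_setOf_eq, Finset.mem_range] at hp hp'
      obtain ⟨hp, hpv⟩ := hp
      obtain ⟨hp', hpv'⟩ := hp'
      have hc := hv.cor hp hpv
      have hc' := hv.cor hp' hpv'
      simp only at he
      have key : ∀ r r' : ℕ, r < σ.T → r' < σ.T → σ.cls r = v → σ.cls r' = v → r = r' - 1 →
          σ.Cor r' → False := by
        intro r r' _ _ hr hr' hrr hcr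
        subst hrr
        exact hσ.cls_ne_pred hcr (hr.trans hr'.symm)
      split_ifs at he with h1 h2 h2
      · exact he
      · exact (key p p' hp hp' hpv hpv' he hc').elim
      · exact (key p' p hp' hp hpv' hpv he.symm hc).elim
      · have := hc.1; have := hc'.1; omega

theorem Mv_adj {σ : Shape} (hσ : σ.Basic) {v w : ℕ} (hv : σ.Reg v) (hw : σ.Reg w) {q : ℕ}
    (hq : q ∈ σ.D) (h : σ.cls q = v) (h' : σ.cls (q + 1) = w) : σ.Mv v = σ.Mv w := by
  rw [← mul_eq hσ hv hq (Or.inl h), ← mul_eq hσ hw hq (Or.inr h')]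

/-- a regular position has a regular canonical corner parallel to it; neighbours -/
theorem Reg.cls_adj {σ : Shape} (hσ : σ.Basic) {v w : ℕ} (hv : σ.Reg v) (hw : σ.Reg w) {q : ℕ}
    (hq : q ∈ σ.D) (h : (σ.cls q = v ∧ σ.cls (q + 1) = w) ∨ (σ.cls q = w ∧ σ.cls (q + 1) = v)) :
    w = v + 1 ∨ v = w + 1 := by
  have key : ∀ v w : ℕ, σ.Reg v → σ.Reg w →
      ((σ.cls q = v ∧ σ.cls (q + 1) = w) ∨ (σ.cls q = w ∧ σ.cls (q + 1) = v)) → w ≤ v + 1 := by
    intro v w hv hw h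
    have hcv := hv.cor_self
    rcases h with ⟨h1, h2⟩ | ⟨h1, h2⟩
    · rcases hv.par (hσ.lt_of_mem hq) h1 hv.lt hv.cls_self with ⟨h3, h4⟩ | ⟨h3, h4⟩
      · have := hσ.cls_le (v + 1)
        rw [← h4, h2] at this
        exact this
      · have := hσ.cls_le (v - 1)
        rw [← h4, h2] at this
        omega
    · have e2 : q + 1 - 1 = q := by omega
      rcases hv.par (hσ.succ_lt_of_mem hq) h2 hv.lt hv.cls_self with ⟨h3, h4⟩ | ⟨h3, h4⟩
      · rw [e2] at h3
        have := hσ.cls_le (v - 1)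
        rw [← h3, h1] at this
        omega
      · rw [e2] at h3
        have := hσ.cls_le (v + 1)
        rw [← h3, h1] at this
        exact this
  have h1 := key v w hv hw h
  have h2 := key w v hw hv h.symm
  have h3 : v ≠ w := by
    rcases h with ⟨h4, h5⟩ | ⟨h4, h5⟩
    · rw [← h4, ← h5]; exact hσ.cls_ne q hq
    · rw [← h4, ← h5]; exact (hσ.cls_ne q hq).symm
  omega

end Crest.Agent.R177.Loc
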