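import Crest.Agent.R177.Defs
import Crest.Agent.R199.Torsion

-- ▼ part R177/FinPres
section

/-!
# Row 177: the group of a finite folded graph is finitely presented (helper209)
-/

set_option autoImplicit false

namespace Crest.Agent.R177

open Crest.Agent.R199 (PAct)

variable {S V : Type}

namespace FinPres

theorem read_append (A : PAct S V) (u w : List (S × Bool)) (x : V) :
    A.read (u ++ w) x = (A.read u x).bind (A.read w) := by
  induction u generalizing x with
  | nil => simp [PAct.read]
  | cons a u ih =>
    simp only [List.cons_append, PAct.read]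
    cases A.st a x with
    | none => rfl
    | some y => simpa using ih y

theorem read_singleton (A : PAct S V) (a : S × Bool) (x : V) : A.read [a] x = A.st a x := by
  simp only [PAct.read]
  cases A.st a x <;> rfl

theorem read_invRev (A : PAct S V) (w : List (S × Bool)) (x y : V) (h : A.read w x = some y) :
    A.read (FreeGroup.invRev w) y = some x := by
  induction w generalizing x with
  | nil =>
    simp only [PAct.read, Option.some.injEq] at h
    simp [FreeGroup.invRev, PAct.read, h]
  | cons a w ih =>
    simp only [PAct.read] at h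
    cases hz : A.st a x with
    | none => rw [hz] at h; simp at h
    | some z =>
      rw [hz] at h
      have h1 := ih z h
      have e : FreeGroup.invRev (a :: w) = FreeGroup.invRev w ++ [(a.1, !a.2)] := by
        simp [FreeGroup.invRev]
      rw [e, read_append, h1]
      simp only [Option.bind_some, read_singleton]
      exact A.symm a x z hz

end FinPres

open FinPres in
/-- FP -/
theorem finitelyPresented (A : PAct S V) [Finite S] [Finite V] :
    Group.IsFinitelyPresented (Grp A) := by
  classical
  -- chosen words
  let P : V → V → List (S × Bool) := fun v x =>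
    if h : ∃ w, A.read w v = some x then h.choose else []
  have hP : ∀ v x w, A.read w v = some x → A.read (P v x) v = some x := by
    intro v x w hw
    have h : ∃ w, A.read w v = some x := ⟨w, hw⟩
    simp only [P, dif_pos h]
    exact h.choose_spec
  let f : V × V × V × (S × Bool) → FreeGroup S := fun t =>
    if A.st t.2.2.2 t.2.1 = some t.2.2.1 ∧ ∃ w, A.read w t.1 = some t.2.1 then
      FreeGroup.mk (P t.1 t.2.1) * FreeGroup.mk [t.2.2.2] * (FreeGroup.mk (P t.1 t.2.2.1))⁻¹
    else 1
  let R : Set (FreeGroup S) := Set.range f ∪ Set.range fun v : V => FreeGroup.mk (P v v)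
  have hRfin : R.Finite := (Set.finite_range f).union (Set.finite_range _)
  have key : ∀ (v : V) (w : List (S × Bool)) (x : V), A.read w v = some x →
      FreeGroup.mk w * (FreeGroup.mk (P v x))⁻¹ ∈ Subgroup.normalClosure R := by
    intro v w
    induction w using List.reverseRecOn with
    | nil =>
      intro x hx
      simp only [PAct.read, Option.some.injEq] at hx
      subst hx
      have : (FreeGroup.mk (P v v))⁻¹ ∈ Subgroup.normalClosure R :=
        inv_mem (Subgroup.subset_normalClosure (Or.inr ⟨v, rfl⟩))
      simpa [← FreeGroup.one_eq_mk] using this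
    | append_singleton w a ih =>
      intro y hy
      rw [read_append] at hy
      cases hx : A.read w v with
      | none => rw [hx] at hy; simp at hy
      | some x =>
        rw [hx] at hy
        simp only [Option.bind_some, read_singleton] at hy
        have h1 := ih x hx
        have h2 : f (v, x, y, a) ∈ Subgroup.normalClosure R :=
          Subgroup.subset_normalClosure (Or.inl ⟨_, rfl⟩)
        have h3 : f (v, x, y, a) = FreeGroup.mk (P v x) * FreeGroup.mk [a] *
            (FreeGroup.mk (P v y))⁻¹ := if_pos ⟨hy, w, hx⟩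
        rw [h3] at h2
        have h4 := mul_mem h1 h2
        convert h4 using 1
        rw [← FreeGroup.mul_mk]
        group
  have hle : rels A ⊆ Subgroup.normalClosure R := by
    rintro r ⟨x, w, hw, rfl⟩
    have h1 := key x w x hw
    have h2 : FreeGroup.mk (P x x) ∈ Subgroup.normalClosure R :=
      Subgroup.subset_normalClosure (Or.inr ⟨x, rfl⟩)
    have h3 := mul_mem h1 h2
    rwa [inv_mul_cancel_right] at h3
  have hRle : R ⊆ Subgroup.normalClosure (rels A) := by
    rintro r (⟨⟨v, x, y, a⟩, rfl⟩ | ⟨v, rfl⟩)
    · by_cases h : A.st a x = some y ∧ ∃ w, A.read w v = some x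
      · have h3 : f (v, x, y, a) = FreeGroup.mk (P v x) * FreeGroup.mk [a] *
            (FreeGroup.mk (P v y))⁻¹ := if_pos h
        rw [h3]
        obtain ⟨h1, w, hw⟩ := h
        have hx := hP v x w hw
        have hy : A.read (P v x ++ [a]) v = some y := by
          rw [read_append, hx]; simpa [read_singleton] using h1
        have hy' := hP v y _ hy
        have hc : A.read (P v x ++ [a] ++ FreeGroup.invRev (P v y)) v = some v := by
          rw [read_append, hy]
          exact read_invRev A _ _ _ hy'
        refine Subgroup.subset_normalClosure ⟨v, _, hc, ?_⟩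
        rw [← FreeGroup.mul_mk, ← FreeGroup.mul_mk, FreeGroup.inv_mk]
      · have h3 : f (v, x, y, a) = 1 := if_neg h
        rw [h3]; exact one_mem _
    · by_cases h : ∃ w, A.read w v = some v
      · obtain ⟨w, hw⟩ := h
        exact Subgroup.subset_normalClosure ⟨v, _, hP v v w hw, rfl⟩
      · exact absurd ⟨[], rfl⟩ h
  have heq : Subgroup.normalClosure (rels A) = Subgroup.normalClosure R :=
    le_antisymm (Subgroup.normalClosure_le_normal hle) (Subgroup.normalClosure_le_normal hRle)
  exact Group.IsFinitelyPresented.of_surjective (PresentedGroup.mk (rels A))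
    (PresentedGroup.mk_surjective (rels A))
    ⟨R, hRfin, heq.symm.trans (QuotientGroup.ker_mk' (Subgroup.normalClosure (rels A))).symm⟩

end Crest.Agent.R177
end

-- ▼ part R177/TorsionFree

/-!
# Row 177: torsion-freeness from asphericity (helper209)
-/

set_option autoImplicit false

namespace Crest.Agent.R177

open Crest.Agent.R199 (PAct)
open Crest.Agent.R199.Tor Crest.Agent.R199.Exact

variable {S V : Type}

namespace TF

variable (A : PAct S V)

/-- the projection -/
abbrev pr : FreeGroup S →* Grp A := PresentedGroup.mk (rels A)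

/-- the labelled graph -/
abbrev gr : Crest.Agent.R199.Exact.LG S := lg (ofPAct A)

/-- developing map -/
noncomputable abbrev dv : (gr A).P → Grp A := dev (ofPAct A) (pr A)

theorem dv_tgt (e : (gr A).Ed) :
    dv A ((gr A).tgt e) = dv A ((gr A).src e) * pr A (FreeGroup.of ((gr A).lab e)) := by
  have h : (ofPAct A).W ((gr A).src e) [((gr A).lab e, true)] ((gr A).tgt e) :=
    ((ofPAct A).W_single).2 e.2
  refine dev_W (ofPAct A) (pr A) ?_ h
  intro p w h
  apply (QuotientGroup.eq_one_iff (FreeGroup.mk w)).2
  exact Subgroup.subset_normalClosure ⟨p, w, (ofPAct_W A).1 h, rfl⟩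

/-- end points as nodes -/
def srcV (e : (gr A).Ed) : V := e.1.1
def tgtV (e : (gr A).Ed) : V := e.1.2.2

/-- nodes at a position -/
noncomputable def jj (g : Grp A) (p : (gr A).P) : Grp A × V := (g * dv A p, p)

theorem st_src (e : (gr A).Ed) : A.st ((gr A).lab e, true) (srcV A e) = some (tgtV A e) :=
  e.2

/-- position of an edge -/
noncomputable def iota (g : Grp A) (e : (gr A).Ed) : Grp A × V × S :=
  (g * dv A ((gr A).src e), srcV A e, (gr A).lab e)

theorem iota_inj {g g' : Grp A} {e e' : (gr A).Ed} (h : iota A g e = iota A g' e') :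
    g = g' ∧ e = e' := by
  simp only [iota, Prod.mk.injEq] at h
  obtain ⟨h1, h2, h3⟩ := h
  have h4 : tgtV A e = tgtV A e' := by
    have e1 := st_src A e
    have e2 := st_src A e'
    have h3' : (gr A).lab e = (gr A).lab e' := h3
    rw [h2, h3', e2] at e1
    exact (Option.some.inj e1).symm
  have h5 : e = e' := by
    apply Subtype.ext
    exact Prod.ext h2 (Prod.ext h3 h4)
  subst h5
  exact ⟨mul_right_cancel h1, rfl⟩

/-- the chain in `Grp A × edges` -/
noncomputable def Phi1 (g : Grp A) : ((gr A).Ed →₀ ℤ) →+ ((Grp A × V × S) →₀ ℤ) :=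
  Finsupp.mapDomain.addMonoidHom (iota A g)

noncomputable def Phi : (Grp A →₀ (gr A).Z1) →+ ((Grp A × V × S) →₀ ℤ) :=
  Finsupp.liftAddHom fun g => (Phi1 A g).comp (gr A).Z1.subtype

theorem Phi_single (g : Grp A) (z : (gr A).Z1) :
    Phi A (Finsupp.single g z) = Phi1 A g (z : (gr A).Ed →₀ ℤ) := by
  simp [Phi]

theorem Phi1_single (g : Grp A) (e : (gr A).Ed) (n : ℤ) :
    Phi1 A g (Finsupp.single e n) = Finsupp.single (iota A g e) n := by
  simp [Phi1]

theorem cbd_single (p : Grp A) (v v' : V) (s : S) (n : ℤ) (h : A.st (s, true) v = some v') :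
    cbd A (Finsupp.single (p, v, s) n) =
      Finsupp.single (p * gw A [(s, true)], v') n - Finsupp.single (p, v) n := by
  simp only [cbd, Finsupp.liftAddHom_apply_single]
  rw [h]
  simp

theorem cbd_Phi1 (g : Grp A) (z : (gr A).Ed →₀ ℤ) :
    cbd A (Phi1 A g z) =
      Finsupp.mapDomain (jj A g) ((gr A).bdry z) := by
  induction z using Finsupp.induction_linear with
  | zero => simp
  | add a b ha hb => rw [map_add, map_add, map_add, Finsupp.mapDomain_add, ha, hb]
  | single e n =>
    rw [Phi1_single, iota, cbd_single A _ _ _ _ _ (st_src A e), LG.bdry_single]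
    have hs : ∀ a b : (gr A).P →₀ ℤ, Finsupp.mapDomain (jj A g) (a - b) =
        Finsupp.mapDomain (jj A g) a - Finsupp.mapDomain (jj A g) b := by
      intro a b
      exact map_sub (Finsupp.mapDomain.addMonoidHom (M := ℤ) (jj A g)) a b
    rw [hs, Finsupp.mapDomain_single, Finsupp.mapDomain_single]
    have h1 : jj A g ((gr A).tgt e) = (g * dv A ((gr A).src e) * gw A [((gr A).lab e, true)],
        tgtV A e) := by
      unfold jj
      rw [dv_tgt A e, ← mul_assoc]
      rfl
    rw [h1]
    rfl

theorem cbd_Phi (b : Grp A →₀ (gr A).Z1) : cbd A (Phi A b) = 0 := by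
  induction b using Finsupp.induction_linear with
  | zero => simp
  | add a b ha hb => rw [map_add, map_add, ha, hb, add_zero]
  | single g z =>
    have hz : (gr A).bdry (z : (gr A).Ed →₀ ℤ) = 0 := z.2
    rw [Phi_single, cbd_Phi1, hz, Finsupp.mapDomain_zero]

/-- uncurry -/
noncomputable def unc : (Grp A →₀ (S →₀ ℤ)) →+ ((Grp A × S) →₀ ℤ) :=
  Finsupp.liftAddHom fun g => Finsupp.liftAddHom fun s => Finsupp.singleAddHom (g, s)

theorem unc_E (g : Grp A) (s : S) (n : ℤ) : unc A (E g s n) = Finsupp.single (g, s) n := by
  unfold unc E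
  rw [Finsupp.liftAddHom_apply_single, Finsupp.liftAddHom_apply_single]
  rfl

theorem push_Phi1 (g : Grp A) (z : (gr A).Ed →₀ ℤ) :
    push A (Phi1 A g z) = unc A (d2' (dv A) g z) := by
  induction z using Finsupp.induction_linear with
  | zero => simp
  | add a b ha hb => rw [map_add, map_add, map_add, map_add, ha, hb]
  | single e n =>
    rw [Phi1_single, d2'_single, unc_E, iota]
    simp [push]

theorem push_Phi (b : Grp A →₀ (gr A).Z1) : push A (Phi A b) = unc A (d2 (dv A) b) := by
  induction b using Finsupp.induction_linear with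
  | zero => simp
  | add a b ha hb => rw [map_add, map_add, map_add, map_add, ha, hb]
  | single g z => rw [Phi_single, push_Phi1, d2_single]

theorem Phi_apply (b : Grp A →₀ (gr A).Z1) (g : Grp A) (e : (gr A).Ed) :
    Phi A b (iota A g e) = ((b g : (gr A).Z1) : (gr A).Ed →₀ ℤ) e := by
  classical
  induction b using Finsupp.induction_linear with
  | zero => simp
  | add a b ha hb => rw [map_add, Finsupp.add_apply, ha, hb]; rfl
  | single g' z =>
    rw [Phi_single]
    by_cases hg : g' = g
    · subst hg
      rw [Finsupp.single_eq_same]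
      exact Finsupp.mapDomain_apply (fun e e' h => (iota_inj A h).2) _ _
    · rw [Finsupp.single_eq_of_ne (Ne.symm hg)]
      simp only [Phi1, Finsupp.mapDomain.addMonoidHom_apply, ZeroMemClass.coe_zero,
        Finsupp.coe_zero, Pi.zero_apply]
      apply Finsupp.mapDomain_of_notMem_range
      rintro ⟨e', he'⟩
      exact hg (iota_inj A he').1

theorem Phi_notin (b : Grp A →₀ (gr A).Z1) (x : Grp A × V × S)
    (hx : ¬ (A.st (x.2.2, true) x.2.1).isSome) : Phi A b x = 0 := by
  induction b using Finsupp.induction_linear with
  | zero => simp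
  | add a b ha hb => rw [map_add, Finsupp.add_apply, ha, hb, add_zero]
  | single g' z =>
    rw [Phi_single]
    simp only [Phi1, Finsupp.mapDomain.addMonoidHom_apply]
    apply Finsupp.mapDomain_of_notMem_range
    rintro ⟨e', he'⟩
    apply hx
    rw [← he']
    simp only [iota]
    rw [st_src A e']
    rfl

theorem inj (h : Aspherical A) (b : Grp A →₀ (gr A).Z1) (hb : d2 (dv A) b = 0) : b = 0 := by
  have h1 : Phi A b = 0 := by
    apply h
    · intro e he
      by_contra hx
      exact Finsupp.mem_support_iff.1 he (Phi_notin A b e hx)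
    · exact cbd_Phi A b
    · rw [push_Phi, hb, map_zero]
  apply Finsupp.ext
  intro g
  apply Subtype.ext
  apply Finsupp.ext
  intro e
  rw [← Phi_apply, h1]
  rfl

end TF

/-- TF -/
theorem torsionFree_of_aspherical (A : PAct S V) (h : Aspherical A) (g : Grp A)
    (hg : IsOfFinOrder g) : g = 1 := by
  have free : ∀ (g x : Grp A), g • x = x → g = 1 := by
    intro g x h
    exact mul_eq_right.1 h
  have hπ : Function.Surjective (TF.pr A) := PresentedGroup.mk_surjective (rels A)
  have hγ := TF.dv_tgt A
  have hker : (TF.pr A).ker ≤ Subgroup.normalClosure (TF.gr A).rels := by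
    intro x hx
    have h1 : x ∈ Subgroup.normalClosure (rels A) := (QuotientGroup.eq_one_iff x).1 hx
    refine Subgroup.normalClosure_mono ?_ h1
    rintro r ⟨x, w, h, rfl⟩
    obtain ⟨l, h1, h2⟩ := exists_isWalk (ofPAct A) ((ofPAct_W A).2 h)
    exact ⟨x, l, h1, by rw [h2]⟩
  exact Crest.Agent.R199.Chase.torsionFree_of_exact free free free (d2 (TF.dv A)) (d1 (TF.pr A)) eps
    (d2_gact (TF.dv A)) (d1_gact (TF.pr A)) eps_gact
    (TF.inj A h) (dd (TF.pr A) (TF.dv A) hγ) (de (TF.pr A))
    (exact1 (TF.pr A) (TF.dv A) hπ hγ hker)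
    (exact0 (TF.pr A) hπ) ⟨Finsupp.single 1 1, eps_single 1 1⟩ g hg

end Crest.Agent.R177
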