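import Crest.Agent.R177.Defs
import Crest.Agent.R177.Dev
import Crest.Agent.R177.Asph
import Crest.Agent.R177.TorsionFree_Mg
import Crest.Agent.R177.Geom_Mg

-- ▼ part R177/Design67
section

/-!
# Row 177 (S0267): the explicit type system and its Perron certificate (helper891)

Node types (multiplicity times `2 m + 1`): `a`-nodes 15, positions `{0,k}`: 4 each, `{1,2,3}`: 2,
`{0}`: 3, `{k}`: 9 each, and for every pair of the six letters `y` 5 nodes with these two incoming
letters.  Certificate: `ρ = 249/250`, `δ = 2/3, 6/11, 5/11`, `u = 11/10, 1, 5/6` on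
`τ_0, τ_k, y`.
-/

set_option autoImplicit false

open scoped Classical

namespace Crest.Agent.R177

open Crest.Agent.R199 (PAct)

/-- letters: `inl k = τ_k`, `inr (Q, j) = y_(Q,j)` -/
abbrev L67 : Type := Fin 4 ⊕ (Fin 3 × Fin 2)

/-- the three triangles `{0,1,2}, {0,1,3}, {0,2,3}`: `Q` misses `3 - Q` -/
def inc (Q : Fin 3) (k : Fin 4) : Prop := k.val ≠ 3 - Q.val

/-- the combinatorial properties giving `α * β = 0` -/
structure Typed67 {V : Type} (A : PAct L67 V) : Prop where
  tau : ∀ v k l, (A.st (Sum.inl k, true) v).isSome → (A.st (Sum.inl l, true) v).isSome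
  odd_a : Odd (Nat.card {v // (A.st (Sum.inl 0, true) v).isSome})
  y_out : ∀ p Q j, (A.st (Sum.inr (Q, j), true) p).isSome ↔
    Odd (Nat.card {k : Fin 4 // inc Q k ∧ (A.st (Sum.inl k, false) p).isSome})
  z_in : ∀ z, Even (Nat.card {y : Fin 3 × Fin 2 // (A.st (Sum.inr y, false) z).isSome})

namespace D67

/-- incoming `τ`-letters of a type -/
def ps : Fin 24 → List (Fin 4) :=
  ![[], [0, 1], [0, 2], [0, 3], [1, 2, 3], [0], [1], [2], [3],
    [], [], [], [], [], [], [], [], [], [], [], [], [], [], []]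

/-- incoming `y`-letters of a type -/
def pr : Fin 24 → List (Fin 3 × Fin 2) :=
  ![[], [], [], [], [], [], [], [], [],
    [(0, 0), (0, 1)], [(0, 0), (1, 0)], [(0, 0), (1, 1)], [(0, 0), (2, 0)], [(0, 0), (2, 1)],
    [(0, 1), (1, 0)], [(0, 1), (1, 1)], [(0, 1), (2, 0)], [(0, 1), (2, 1)],
    [(1, 0), (1, 1)], [(1, 0), (2, 0)], [(1, 0), (2, 1)],
    [(1, 1), (2, 0)], [(1, 1), (2, 1)],
    [(2, 0), (2, 1)]]

/-- multiplicities -/
def mult : Fin 24 → ℕ :=
  ![15, 4, 4, 4, 2, 3, 9, 9, 9, 5, 5, 5, 5, 5, 5, 5, 5, 5, 5, 5, 5, 5, 5, 5]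

/-- the half-edges of a type -/
def hasT (t : Fin 24) : L67 × Bool → Bool
  | (Sum.inl _, true) => decide (t = 0)
  | (Sum.inl k, false) => decide (k ∈ ps t)
  | (Sum.inr (Q, _), true) =>
      decide (((ps t).filter fun k => decide (k.val ≠ 3 - Q.val)).length % 2 = 1)
  | (Sum.inr y, false) => decide (y ∈ pr t)

/-- number of nodes with two given half-edges (in units of `2 m + 1`) -/
def cnt (h h' : L67 × Bool) : ℕ := ∑ t : Fin 24, if hasT t h = true ∧ hasT t h' = true then mult t else 0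

/-- number of nodes with a given half-edge -/
def cnt1 (h : L67 × Bool) : ℕ := ∑ t : Fin 24, if hasT t h = true then mult t else 0

def NQ : L67 → ℚ
  | Sum.inl _ => 15
  | Sum.inr _ => 25

def dQ : L67 → ℚ
  | Sum.inl k => if k = 0 then 2 / 3 else 6 / 11
  | Sum.inr _ => 5 / 11

def uQ : L67 × Bool → ℚ
  | (Sum.inl k, _) => if k = 0 then 11 / 10 else 1
  | (Sum.inr _, _) => 5 / 6

def qQ (h h' : L67 × Bool) : ℚ :=
  (cnt h h' : ℚ) ^ 2 / (NQ h.1 * NQ h'.1) * (if h.2 then dQ h.1 else (dQ h.1)⁻¹) *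
    (if h'.2 then dQ h'.1 else (dQ h'.1)⁻¹) / (249 / 250)

theorem cnt1_eq : ∀ h : L67 × Bool, (cnt1 h : ℚ) = NQ h.1 := by
  decide +kernel

theorem qQ_le : ∀ h h' : L67 × Bool, h ≠ h' → qQ h h' ≤ 1 := by
  decide +kernel

theorem sub : ∀ h : L67 × Bool,
    (∑ h' ∈ Finset.univ.filter (fun h' : L67 × Bool => h' ≠ (h.1, !h.2)),
      (cnt (h.1, !h.2) h' : ℚ) ^ 2 / (NQ h.1 * NQ h'.1) * (if h.2 then (dQ h.1)⁻¹ else dQ h.1) *
      (if h'.2 then dQ h'.1 else (dQ h'.1)⁻¹) / (249 / 250) * uQ h') ≤ uQ h := by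
  decide +kernel

/-- nodes of the model -/
abbrev VT (m : ℕ) : Type := Σ t : Fin 24, Fin (mult t * (2 * m + 1))

theorem card_VT (m : ℕ) (P : Fin 24 → Prop) [DecidablePred P] :
    Nat.card {v : VT m // P v.1} = (∑ t : Fin 24, if P t then mult t else 0) * (2 * m + 1) := by
  rw [Nat.card_eq_fintype_card, Fintype.card_subtype, Finset.card_filter, Fintype.sum_sigma,
    Finset.sum_mul]
  refine Finset.sum_congr rfl fun t _ => ?_
  by_cases h : P t
  · simp [h]
  · simp [h]

theorem card_V (m : ℕ) : Nat.card (VT m) = (∑ t : Fin 24, mult t) * (2 * m + 1) := by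
  rw [Nat.card_eq_fintype_card, Fintype.card_sigma, Finset.sum_mul]
  simp

theorem card_has (m : ℕ) (h : L67 × Bool) :
    Nat.card {v : VT m // hasT v.1 h = true} = cnt1 h * (2 * m + 1) := by
  rw [card_VT m fun t => hasT t h = true]; rfl

theorem card_has2 (m : ℕ) (h h' : L67 × Bool) :
    Nat.card {v : VT m // hasT v.1 h = true ∧ hasT v.1 h' = true} = cnt h h' * (2 * m + 1) := by
  rw [card_VT m fun t => hasT t h = true ∧ hasT t h' = true]; rfl

theorem cnt1_real (h : L67 × Bool) : (cnt1 h : ℝ) = ((NQ h.1 : ℚ) : ℝ) := by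
  rw [← cnt1_eq h]; push_cast; rfl

theorem cnt_symm (h h' : L67 × Bool) : cnt h h' = cnt h' h := by
  unfold cnt
  refine Finset.sum_congr rfl fun t _ => ?_
  simp [and_comm]

theorem NQ_pos (s : L67) : 0 < NQ s := by
  cases s <;> simp [NQ]

theorem dQ_pos (s : L67) : 0 < dQ s := by
  rcases s with k | y
  · simp only [dQ]; split_ifs <;> norm_num
  · simp only [dQ]; norm_num

theorem uQ_pos (h : L67 × Bool) : 0 < uQ h := by
  rcases h with ⟨k | y, b⟩
  · simp only [uQ]; split_ifs <;> norm_num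
  · simp only [uQ]; norm_num

theorem bal1 (s : L67) : cnt1 (s, true) = cnt1 (s, false) := by
  have h1 := cnt1_eq (s, true)
  have h2 := cnt1_eq (s, false)
  have : (cnt1 (s, true) : ℚ) = cnt1 (s, false) := by rw [h1, h2]
  exact_mod_cast this

theorem filter_inst {α : Type} [Fintype α] (p : α → Prop) (i j : DecidablePred p) :
    @Finset.filter α p i Finset.univ = @Finset.filter α p j Finset.univ := by
  rw [Subsingleton.elim i j]

/-- the model -/
noncomputable def model : Model L67 where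
  V := VT
  fin m := inferInstance
  sz m := 2 * m + 1
  sz_large B := ⟨B, by omega⟩
  has m v h := hasT v.1 h = true
  bal m s := by rw [card_has, card_has, bal1]
  tot := ((∑ t : Fin 24, mult t : ℕ) : ℝ)
  tot_le m := by rw [card_V]; push_cast; rfl
  N s := ((NQ s : ℚ) : ℝ)
  N_pos s := by exact_mod_cast NQ_pos s
  N_le m s := by rw [card_has]; push_cast; rw [cnt1_real]
  n h h' := (cnt h h' : ℝ)
  n_symm h h' := by rw [cnt_symm]
  n_nonneg h h' := Nat.cast_nonneg _
  n_le m h h' _ := by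
    have := card_has2 m h h'
    rw [this]; push_cast; rfl
  δ s := ((dQ s : ℚ) : ℝ)
  δ_pos s := by exact_mod_cast dQ_pos s
  u h := ((uQ h : ℚ) : ℝ)
  u_pos h := by exact_mod_cast uQ_pos h
  ρ := 249 / 250
  ρ_pos := by norm_num
  ρ_lt := by norm_num
  q_le_one h h' hne := by
    have := qQ_le h h' hne
    unfold qQ at this
    have h2 : (((cnt h h' : ℚ) ^ 2 / (NQ h.1 * NQ h'.1) * (if h.2 then dQ h.1 else (dQ h.1)⁻¹) *
      (if h'.2 then dQ h'.1 else (dQ h'.1)⁻¹) / (249 / 250) : ℚ) : ℝ) ≤ ((1 : ℚ) : ℝ) := by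
      exact_mod_cast this
    simp only [Rat.cast_mul, Rat.cast_div, Rat.cast_pow, Rat.cast_natCast, Rat.cast_one,
      Rat.cast_ofNat, apply_ite (Rat.cast : ℚ → ℝ), Rat.cast_inv] at h2
    exact h2
  sub h := by
    have := sub h
    have h2 : ((∑ h' ∈ Finset.univ.filter (fun h' : L67 × Bool => h' ≠ (h.1, !h.2)),
      (cnt (h.1, !h.2) h' : ℚ) ^ 2 / (NQ h.1 * NQ h'.1) * (if h.2 then (dQ h.1)⁻¹ else dQ h.1) *
      (if h'.2 then dQ h'.1 else (dQ h'.1)⁻¹) / (249 / 250) * uQ h' : ℚ) : ℝ) ≤
        ((uQ h : ℚ) : ℝ) := by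
      exact_mod_cast this
    simp only [Rat.cast_mul, Rat.cast_div, Rat.cast_pow, Rat.cast_natCast,
      Rat.cast_sum, Rat.cast_ofNat, apply_ite (Rat.cast : ℚ → ℝ), Rat.cast_inv] at h2
    exact le_trans (le_of_eq (Finset.sum_congr (filter_inst _ _ _) fun x _ => rfl)) h2

theorem ztyp : ∀ t : Fin 24,
    (Finset.univ.filter fun y : Fin 3 × Fin 2 => hasT t (Sum.inr y, false) = true).card % 2 = 0 := by
  decide +kernel

theorem ytyp : ∀ (t : Fin 24) (Q : Fin 3) (j : Fin 2), (hasT t (Sum.inr (Q, j), true) = true) ↔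
    (Finset.univ.filter fun k : Fin 4 => k.val ≠ 3 - Q.val ∧
      hasT t (Sum.inl k, false) = true).card % 2 = 1 := by
  decide +kernel

theorem ttyp : ∀ (t : Fin 24) (k l : Fin 4), hasT t (Sum.inl k, true) = true →
    hasT t (Sum.inl l, true) = true := by
  decide +kernel

theorem c15 : cnt1 (Sum.inl 0, true) = 15 := by decide +kernel

end D67

open D67 in
/-- DESIGN -/
theorem design67 : ∃ M : Model L67, ∀ m (A : PAct L67 (M.V m)), M.Adm m A → Typed67 A := by
  refine ⟨model, fun m A hA => ?_⟩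
  have hA' : ∀ (v : VT m) h, (A.st h v).isSome ↔ hasT v.1 h = true := fun v h => hA v h
  refine ⟨fun v k l hk => (hA' v _).2 (ttyp _ _ _ ((hA' v _).1 hk)), ?_, fun p Q j => ?_,
    fun z => ?_⟩
  · have : Nat.card {v // (A.st (Sum.inl 0, true) v).isSome} =
        Nat.card {v : VT m // hasT v.1 (Sum.inl 0, true) = true} :=
      Nat.card_congr (Equiv.subtypeEquivRight fun v => hA' v _)
    rw [this, card_has, c15]
    exact Odd.mul (by decide) ⟨m, rfl⟩
  · rw [hA' p, ytyp, Nat.odd_iff]
    have : Nat.card {k : Fin 4 // inc Q k ∧ (A.st (Sum.inl k, false) p).isSome} =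
        (Finset.univ.filter fun k : Fin 4 => k.val ≠ 3 - Q.val ∧
          hasT p.1 (Sum.inl k, false) = true).card := by
      rw [Nat.card_congr (Equiv.subtypeEquivRight (q := fun k : Fin 4 => k.val ≠ 3 - Q.val ∧
          hasT p.1 (Sum.inl k, false) = true) fun k => by rw [hA' p]; rfl),
        Nat.card_eq_fintype_card, Fintype.card_subtype]
    rw [this]
  · have : Nat.card {y : Fin 3 × Fin 2 // (A.st (Sum.inr y, false) z).isSome} =
        (Finset.univ.filter fun y : Fin 3 × Fin 2 => hasT z.1 (Sum.inr y, false) = true).card := by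
      rw [Nat.card_congr (Equiv.subtypeEquivRight (q := fun y : Fin 3 × Fin 2 =>
          hasT z.1 (Sum.inr y, false) = true) fun y => hA' z _),
        Nat.card_eq_fintype_card, Fintype.card_subtype]
    rw [this, Nat.even_iff]
    convert ztyp z.1

end Crest.Agent.R177
private theorem rz_29867b1302 : type_of% @_root_.Crest.Agent.R177.D67.NQ.eq_1 := @_root_.Crest.Agent.R177.D67.NQ.eq_1 -- L68
private theorem rz_df6a8ff3d7 : type_of% @_root_.Crest.Agent.R177.D67.dQ.eq_1 := @_root_.Crest.Agent.R177.D67.dQ.eq_1 -- L72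
private theorem rz_b66f0d64ff : type_of% @_root_.Crest.Agent.R177.D67.uQ.eq_1 := @_root_.Crest.Agent.R177.D67.uQ.eq_1 -- L76
end

-- ▼ part R177/ZeroDiv
section

/-!
# Row 177 (S0267): the zero divisor (helper891)
-/

set_option autoImplicit false

open scoped Classical

namespace Crest.Agent.R177

open Crest.Agent.R199 (PAct)

namespace ZD

variable {V : Type} (A : PAct L67 V)

/-- letters as group elements -/
noncomputable def t (k : Fin 4) : Grp A := gw A [(Sum.inl k, true)]

noncomputable def y (q : Fin 3 × Fin 2) : Grp A := gw A [(Sum.inr q, true)]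

/-- distinct products -/
theorem ty_inj (hshort : ∀ w : List (L67 × Bool), w ≠ [] → FreeGroup.IsReduced w → w.length ≤ 4 →
      gw A w ≠ 1) (k k' : Fin 4) (q q' : Fin 3 × Fin 2) (h : t A k * y A q = t A k' * y A q') :
    k = k' ∧ q = q' := by
  by_cases hq : q = q'
  · subst hq
    refine ⟨?_, rfl⟩
    by_contra hk
    have h1 : t A k * (t A k')⁻¹ = 1 := by
      rw [mul_inv_eq_one]; exact mul_right_cancel h
    have h2 : gw A [((Sum.inl k : L67), true), (Sum.inl k', false)] ≠ 1 := by
      refine hshort _ (by simp) ?_ (by simp)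
      simp [FreeGroup.IsReduced, hk]
    apply h2
    rw [Dev.gw_cons]
    have : gw A [((Sum.inl k' : L67), false)] = (t A k')⁻¹ := Dev.gw_hinv A (Sum.inl k', true)
    rw [this]; exact h1
  · exfalso
    have h1 : t A k * (y A q * ((y A q')⁻¹ * (t A k')⁻¹)) = 1 := by
      rw [← mul_inv_rev, ← h]
      group
    have h2 : gw A [((Sum.inl k : L67), true), (Sum.inr q, true), (Sum.inr q', false),
        (Sum.inl k', false)] ≠ 1 := by
      refine hshort _ (by simp) ?_ (by simp)
      simp [FreeGroup.IsReduced, hq]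
    apply h2
    rw [Dev.gw_cons, Dev.gw_cons A (Sum.inr q, true), Dev.gw_cons A (Sum.inr q', false)]
    have e1 : gw A [((Sum.inl k' : L67), false)] = (t A k')⁻¹ := Dev.gw_hinv A (Sum.inl k', true)
    have e2 : gw A [((Sum.inr q' : L67), false)] = (y A q')⁻¹ := Dev.gw_hinv A (Sum.inr q', true)
    rw [e1, e2]; exact h1

theorem natCast_two (n : ℕ) : (n : ZMod 2) = if Odd n then 1 else 0 := by
  split_ifs with h
  · exact (ZMod.natCast_eq_one_iff_odd).2 h
  · exact (ZMod.natCast_eq_zero_iff_even).2 (Nat.not_odd_iff_even.1 h)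

end ZD

open ZD in
/-- ZD -/
theorem zero_divisor {V : Type} [Finite V] (A : PAct L67 V) (hT : Typed67 A)
    (hshort : ∀ w : List (L67 × Bool), w ≠ [] → FreeGroup.IsReduced w → w.length ≤ 4 →
      gw A w ≠ 1) :
    ∃ a b : MonoidAlgebra (ZMod 2) (Grp A), a ≠ 0 ∧ b ≠ 0 ∧ a * b = 0 := by
  have : Fintype V := Fintype.ofFinite V
  obtain ⟨γ, hγ, -, -⟩ := Dev.exists_dev A (fun _ => False) (fun _ _ h => h.elim)
  set sg : Grp A → MonoidAlgebra (ZMod 2) (Grp A) := fun g => MonoidAlgebra.single g 1 with hsg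
  have hmul : ∀ g h, sg g * sg h = sg (g * h) := fun g h => by simp [hsg]
  refine ⟨∑ v, if (A.st (Sum.inl 0, true) v).isSome then sg (γ v) else 0,
    ∑ q : Fin 3 × Fin 2, ∑ k : Fin 4, if inc q.1 k then sg (t A k * y A q) else 0, ?_, ?_, ?_⟩
  · intro h0
    have h1 := congrArg (MonoidAlgebra.lift (ZMod 2) (ZMod 2) (Grp A) 1) h0
    rw [map_sum, map_zero] at h1
    have h2 : ∀ v : V, (MonoidAlgebra.lift (ZMod 2) (ZMod 2) (Grp A) 1)
        (if (A.st (Sum.inl 0, true) v).isSome then sg (γ v) else 0) =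
        if (A.st (Sum.inl 0, true) v).isSome then 1 else 0 := by
      intro v
      split_ifs
      · simp [hsg]
      · simp
    rw [Finset.sum_congr rfl fun v _ => h2 v, Finset.sum_boole, ← Fintype.card_subtype,
      ← Nat.card_eq_fintype_card, natCast_two, if_pos hT.odd_a] at h1
    exact one_ne_zero h1
  · intro h0
    have h1 := congrArg (fun x => x.coeff (t A 0 * y A (0, 0))) h0
    simp only [MonoidAlgebra.coeff_sum, MonoidAlgebra.coeff_zero, Finsupp.coe_finsetSum,
      Finset.sum_apply, Finsupp.coe_zero, Pi.zero_apply] at h1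
    rw [Finset.sum_eq_single ((0, 0) : Fin 3 × Fin 2), Finset.sum_eq_single (0 : Fin 4),
      if_pos (by simp [inc]), MonoidAlgebra.coeff_single, Finsupp.single_eq_same] at h1
    · exact one_ne_zero h1
    · intro k _ hk
      split_ifs
      · rw [MonoidAlgebra.coeff_single, Finsupp.single_apply, if_neg]
        intro h
        exact hk (ty_inj A hshort _ _ _ _ h).1
      · simp
    · simp
    · intro q _ hq
      refine Finset.sum_eq_zero fun k _ => ?_
      split_ifs
      · rw [MonoidAlgebra.coeff_single, Finsupp.single_apply, if_neg]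
        intro h
        exact hq (ty_inj A hshort _ _ _ _ h).2
      · simp
    · simp
  · -- product
    have htau : ∀ v k, (A.st (Sum.inl 0, true) v).isSome ↔ (A.st (Sum.inl k, true) v).isSome :=
      fun v k => ⟨hT.tau v 0 k, hT.tau v k 0⟩
    rw [Finset.mul_sum]
    have h1 : ∀ q : Fin 3 × Fin 2,
        (∑ v, if (A.st (Sum.inl 0, true) v).isSome then sg (γ v) else 0) *
          (∑ k : Fin 4, if inc q.1 k then sg (t A k * y A q) else 0) =
        ∑ v, if (A.st (Sum.inr q, false) v).isSome then sg (γ v) else 0 := by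
      intro q
      rw [Finset.mul_sum]
      have h2 : ∀ k : Fin 4, (∑ v, if (A.st (Sum.inl 0, true) v).isSome then sg (γ v) else 0) *
          (if inc q.1 k then sg (t A k * y A q) else 0) =
          ∑ v, if inc q.1 k ∧ (A.st (Sum.inl k, false) v).isSome then sg (γ v * y A q) else 0 := by
        intro k
        by_cases hk : inc q.1 k
        · rw [if_pos hk, Finset.sum_mul]
          have h3 := Dev.sum_edges A γ hγ (Sum.inl k) (fun g => sg (g * y A q))
          simp only [hk, true_and]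
          rw [← h3]
          refine Finset.sum_congr rfl fun v _ => ?_
          by_cases hv : (A.st (Sum.inl 0, true) v).isSome
          · rw [if_pos hv, if_pos ((htau v k).1 hv), hmul, ← mul_assoc]; rfl
          · rw [if_neg hv, if_neg (fun h => hv ((htau v k).2 h)), zero_mul]
        · simp [hk]
      rw [Finset.sum_congr rfl fun k _ => h2 k, Finset.sum_comm,
        ← Dev.sum_edges A γ hγ (Sum.inr q) sg]
      refine Finset.sum_congr rfl fun v _ => ?_
      have h4 : (∑ k : Fin 4, if inc q.1 k ∧ (A.st (Sum.inl k, false) v).isSome then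
          sg (γ v * y A q) else 0) = ((Nat.card {k : Fin 4 // inc q.1 k ∧
            (A.st (Sum.inl k, false) v).isSome} : ℕ) : ZMod 2) • sg (γ v * y A q) := by
        rw [← Finset.sum_filter, Finset.sum_const, Nat.card_eq_fintype_card,
          Fintype.card_subtype, Nat.cast_smul_eq_nsmul]
      rw [h4, natCast_two]
      have h5 := hT.y_out v q.1 q.2
      by_cases hv : (A.st (Sum.inr q, true) v).isSome
      · rw [if_pos hv, if_pos (h5.1 hv), one_smul]; rfl
      · rw [if_neg hv, if_neg (fun h => hv (h5.2 h)), zero_smul]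
    rw [Finset.sum_congr rfl fun q _ => h1 q, Finset.sum_comm]
    refine Finset.sum_eq_zero fun v _ => ?_
    have h4 : (∑ q : Fin 3 × Fin 2, if (A.st (Sum.inr q, false) v).isSome then
        sg (γ v) else 0) = ((Nat.card {q : Fin 3 × Fin 2 //
          (A.st (Sum.inr q, false) v).isSome} : ℕ) : ZMod 2) • sg (γ v) := by
      rw [← Finset.sum_filter, Finset.sum_const, Nat.card_eq_fintype_card,
        Fintype.card_subtype, Nat.cast_smul_eq_nsmul]
    rw [h4, natCast_two, if_neg (Nat.not_odd_iff_even.2 (hT.z_in v)), zero_smul]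

end Crest.Agent.R177
end

-- ▼ part R177/Main67

/-!
# Row 177 (S0267): assembly
-/

set_option autoImplicit false

open scoped Classical

namespace Crest.Agent.R177

open Crest.Agent.R199 (PAct)

/-- MAIN -/
theorem main67 : ∃ (G : Type) (_ : Group G), Group.IsFinitelyPresented G ∧
    (∀ g : G, IsOfFinOrder g → g = 1) ∧
      Crest.Topology.HasFiniteClassifyingComplex G 2 ∧
      ∃ a b : MonoidAlgebra (ZMod 2) G, a ≠ 0 ∧ b ≠ 0 ∧ a * b = 0 := by
  obtain ⟨M, hM⟩ := design67
  obtain ⟨κ, C, P, hκ, hC, hP, hL⟩ := local_lemma M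
  obtain ⟨L, K, D0, C', g₀, η, hη, hG⟩ := geom κ C P hκ hC hP
  obtain ⟨g, hg, m, A, hA, hgir, hloc⟩ := hL L K D0 η hη (max g₀ (C' * 4 + 1))
  have hiso : Iso A C' := hG _ _ A g (le_trans (le_max_left _ _) hg) hgir hloc
  have hgir' : Girth A (C' * 4 + 1) := fun x w h1 h2 h3 =>
    le_trans (le_trans (le_max_right _ _) hg) (hgir x w h1 h2 h3)
  have : Finite (M.V m) := M.fin m
  have hasph := aspherical_of_iso A C' hiso
  exact ⟨Grp A, inferInstance, finitelyPresented A, torsionFree_of_aspherical A hasph,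
    classifying_of_aspherical A hasph,
    zero_divisor A (hM m A hA) fun w hw hr hl => short_of_iso A C' 4 hiso hgir' w hw hr hl⟩

end Crest.Agent.R177
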