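import Crest.Agent.R177.MkConf
import Crest.Agent.R177.Pieces
import Crest.Agent.R177.DefsO
import Crest.Agent.R177.Asph
import Crest.Agent.R177.Dev
import Crest.Agent.R177.Defs74
import Crest.Agent.R177.TorsionFree_Mg
import Crest.Agent.R177.Geom_Mg
import Crest.Agent.R177.Design74

-- ▼ part R177/Cut
section

/-!
# Row 184 (S0274), module CUT (helper132)

A configuration over `aug A v o` (one additional edge `ζ : v → o`) is cut at its `ζ`-darts; this
gives a configuration over `A`.
-/

set_option autoImplicit false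

open scoped Classical

namespace Crest.Agent.R177

open Crest.Agent.R199 (PAct)

namespace CutM

open Loc (IsPath word word_length)

variable {S V : Type}

/-- embedding of the letters -/
def emb (a : S × Bool) : Option S × Bool := (some a.1, a.2)

theorem emb_inj {a b : S × Bool} (h : emb a = emb b) : a = b := by
  obtain ⟨s, x⟩ := a
  obtain ⟨t, y⟩ := b
  simpa [emb] using h

theorem emb_hinv (a : S × Bool) : emb (hinv a) = hinv (emb a) := rfl

theorem st_emb (A : PAct S V) (v o : V) (a : S × Bool) (x : V) :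
    (aug A v o).st (emb a) x = A.st a x := by
  obtain ⟨s, _ | _⟩ := a <;> rfl

/-- the letter of `A` of a letter which is not `ζ` -/
noncomputable def unemb (a : Option S × Bool) (h : a.1 ≠ none) : S × Bool :=
  (a.1.get (Option.isSome_iff_ne_none.2 h), a.2)

theorem emb_unemb (a : Option S × Bool) (h : a.1 ≠ none) : emb (unemb a h) = a := by
  unfold emb unemb
  simp

/-- the partial function of a functional relation -/
noncomputable def ofRel {D E : Type} (R : D → E → Prop) (x : D) : Option E :=
  if h : ∃ y, R x y then some h.choose else none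

theorem ofRel_iff {D E : Type} {R : D → E → Prop} (hR : ∀ x y y', R x y → R x y' → y = y')
    (x : D) (y : E) : ofRel R x = some y ↔ R x y := by
  unfold ofRel
  constructor
  · intro h
    by_cases h1 : ∃ y, R x y
    · rw [dif_pos h1] at h
      rw [← Option.some.inj h]
      exact h1.choose_spec
    · rw [dif_neg h1] at h
      cases h
  · intro h
    have h1 : ∃ y, R x y := ⟨y, h⟩
    rw [dif_pos h1]
    exact congrArg some (hR _ _ _ h1.choose_spec h)

theorem ofRel_none {D E : Type} {R : D → E → Prop} (x : D) :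
    ofRel R x = none ↔ ∀ y, ¬ R x y := by
  unfold ofRel
  by_cases h1 : ∃ y, R x y
  · rw [dif_pos h1]
    simp only [reduceCtorEq, false_iff, not_forall, not_not]
    exact h1
  · rw [dif_neg h1]
    simp only [true_iff]
    exact fun y hy => h1 ⟨y, hy⟩

/-! ### The relation `Next` -/

theorem next_fun {F : Frame} {x y y' : F.Dart} (h : F.Next x y) (h' : F.Next x y') : y = y' := by
  obtain ⟨i, j⟩ := x
  obtain ⟨i1, j1⟩ := y
  obtain ⟨i2, j2⟩ := y'
  obtain ⟨rfl, h⟩ := h
  obtain ⟨h0, h'⟩ := h'
  simp only at h0 h h'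
  subst h0
  have e1 : j1.val < F.len i := j1.isLt
  have e2 : j2.val < F.len i := j2.isLt
  have : j1.val = j2.val := by
    rcases h with h | ⟨h, h1, -⟩ <;> rcases h' with h' | ⟨h', h1', -⟩ <;> omega
  rw [Fin.ext this]

theorem next_inj {F : Frame} {x x' y : F.Dart} (h : F.Next x y) (h' : F.Next x' y) : x = x' := by
  obtain ⟨i, j⟩ := x
  obtain ⟨i1, j1⟩ := x'
  obtain ⟨i2, j2⟩ := y
  obtain ⟨rfl, h⟩ := h
  obtain ⟨h0, h'⟩ := h'
  simp only at h0 h h'
  subst h0
  have e1 := j.isLt
  have e2 := j1.isLt
  have : j.val = j1.val := by omega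
  rw [Fin.ext this]

variable {A : PAct S V} {v o : V} {F : Frame}

/-- consecutive darts meet -/
theorem node_next {T : Type} {B : PAct T V} (c : Conf B F) {x y : F.Dart} (h : F.Next x y) :
    c.node (F.stop x) = c.node (F.start y) := by
  obtain ⟨i, j⟩ := x
  obtain ⟨i1, j1⟩ := y
  obtain ⟨rfl, h⟩ := h
  simp only at h
  rcases h with h | ⟨h1, h2, h3⟩
  · have : F.stop ⟨i, j⟩ = F.start ⟨i, j1⟩ := by
      show (⟨i, j.succ⟩ : F.Pos) = ⟨i, j1.castSucc⟩
      have : j.succ = j1.castSucc := Fin.ext (by simp [h])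
      rw [this]
    rw [this]
  · have e1 : F.stop ⟨i, j⟩ = ⟨i, Fin.last _⟩ := by
      show (⟨i, j.succ⟩ : F.Pos) = ⟨i, Fin.last _⟩
      have : j.succ = Fin.last _ := Fin.ext h2
      rw [this]
    have e2 : F.start ⟨i, j1⟩ = ⟨i, 0⟩ := by
      show (⟨i, j1.castSucc⟩ : F.Pos) = ⟨i, 0⟩
      have : j1.castSucc = 0 := Fin.ext (by simp [h1])
      rw [this]
    rw [e1, e2]
    exact c.closed i h3

/-! ### The `ζ`-darts -/

variable (c : Conf (aug A v o) F)

/-- the nodes of a `ζ`-dart -/
theorem zeta_nodes {x : F.Dart} (hx : (c.lab x).1 = none) :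
    ((c.lab x).2 = true ∧ c.node (F.start x) = v ∧ c.node (F.stop x) = o) ∨
    ((c.lab x).2 = false ∧ c.node (F.start x) = o ∧ c.node (F.stop x) = v) := by
  have h := c.step x
  rcases hl : c.lab x with ⟨a, b⟩
  rw [hl] at hx h
  simp only at hx
  subst hx
  cases b with
  | true =>
    left
    have h' : (if c.node (F.start x) = v then some o else none) = some (c.node (F.stop x)) := h
    by_cases h1 : c.node (F.start x) = v
    · rw [if_pos h1] at h'
      exact ⟨rfl, h1, (Option.some.inj h').symm⟩
    · rw [if_neg h1] at h'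
      cases h'
  | false =>
    right
    have h' : (if c.node (F.start x) = o then some v else none) = some (c.node (F.stop x)) := h
    by_cases h1 : c.node (F.start x) = o
    · rw [if_pos h1] at h'
      exact ⟨rfl, h1, (Option.some.inj h').symm⟩
    · rw [if_neg h1] at h'
      cases h'

/-- a `ζ`-dart is not matched -/
theorem mate_zeta {x x' : F.Dart} (h : c.mate x = some x') : (c.lab x).1 ≠ none := by
  intro hx
  obtain ⟨y', hy'⟩ := c.mate_corner _ _ (c.mate_symm _ _ h)
  have h1 := c.mate_lab _ _ _ (c.mate_symm _ _ h) hy'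
  have h2 := c.mate_node _ _ h
  -- `y'` is the inverse `ζ`-dart and ends where `x` starts
  have h3 : (c.lab y').1 = none := by
    rw [h1] at hx
    exact hx
  have h4 : (c.lab x).2 = !(c.lab y').2 := by rw [h1]; rfl
  rw [← node_next c hy'] at h2
  rcases zeta_nodes c hx with ⟨b1, n1, -⟩ | ⟨b1, n1, -⟩ <;>
    rcases zeta_nodes c h3 with ⟨b2, -, n2⟩ | ⟨b2, -, n2⟩
  · rw [b1, b2] at h4
    cases h4
  · exact h2 (n1.trans n2.symm)
  · exact h2 (n1.trans n2.symm)
  · rw [b1, b2] at h4
    cases h4

theorem mate_zeta' {x x' : F.Dart} (h : c.mate x = some x') : (c.lab x').1 ≠ none :=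
  mate_zeta c (c.mate_symm _ _ h)

/-- the dart before a matched corner is not a `ζ`-dart -/
theorem mate_zeta_pred {x x' y : F.Dart} (h : c.mate x = some x') (hy : F.Next y x) :
    (c.lab y).1 ≠ none := by
  have h1 := c.mate_lab _ _ _ h hy
  have h2 := mate_zeta' c h
  rw [h1] at h2
  exact h2

/-- two consecutive darts are not both `ζ`-darts -/
theorem zeta_next (hvo : v ≠ o) {x y : F.Dart} (h : F.Next x y) (hx : (c.lab x).1 = none) :
    (c.lab y).1 ≠ none := by
  intro hy
  have h1 := node_next c h
  have h2 := c.red _ _ h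
  have h3 : ∀ b b', c.lab x = (none, b) → c.lab y = (none, b') → b ≠ !b' := by
    intro b b' e1 e2 e3
    rw [e1, e2, e3] at h2
    exact h2 (by simp [hinv])
  have ex : c.lab x = (none, (c.lab x).2) := by rw [← hx]
  have ey : c.lab y = (none, (c.lab y).2) := by rw [← hy]
  have h4 := h3 _ _ ex ey
  rcases zeta_nodes c hx with ⟨b1, -, n1⟩ | ⟨b1, -, n1⟩ <;>
    rcases zeta_nodes c hy with ⟨b2, n2, -⟩ | ⟨b2, n2, -⟩
  · exact hvo ((n2.symm.trans h1.symm).trans n1)
  · rw [b1, b2] at h4
    exact h4 rfl
  · rw [b1, b2] at h4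
    exact h4 rfl
  · exact hvo ((n1.symm.trans h1).trans n2)

/-- the nodes of the path `i` -/
noncomputable def ndN (i : Fin F.K) (k : ℕ) : V :=
  if h : k < F.len i + 1 then c.node ⟨i, ⟨k, h⟩⟩ else v

/-- the letters of the path `i` -/
noncomputable def lbN (i : Fin F.K) (k : ℕ) : Option S × Bool :=
  if h : k < F.len i then c.lab ⟨i, ⟨k, h⟩⟩ else (none, true)

theorem ndN_eq (i : Fin F.K) {k : ℕ} (h : k < F.len i + 1) : ndN c i k = c.node ⟨i, ⟨k, h⟩⟩ :=
  dif_pos h

theorem lbN_eq (i : Fin F.K) {k : ℕ} (h : k < F.len i) : lbN c i k = c.lab ⟨i, ⟨k, h⟩⟩ :=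
  dif_pos h

/-- the paths of `c` as paths indexed by natural numbers -/
theorem isPath (i : Fin F.K) : IsPath (aug A v o) (F.len i) (ndN c i) (lbN c i) := by
  refine ⟨?_, ?_⟩
  · intro k hk
    rw [lbN_eq c i hk, ndN_eq c i (by omega), ndN_eq c i (by omega)]
    exact c.step ⟨i, ⟨k, hk⟩⟩
  · intro k hk
    rw [lbN_eq c i hk, lbN_eq c i (by omega)]
    exact c.red _ _ ⟨rfl, Or.inl rfl⟩

/-- `ζ`-darts of one path are far apart -/
theorem zeta_far {g' : ℕ} (hgir : Girth (aug A v o) g') (hvo : v ≠ o) {i : Fin F.K}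
    {p q : Fin (F.len i)} (hpq : p < q) (hp : (c.lab ⟨i, p⟩).1 = none)
    (hq : (c.lab ⟨i, q⟩).1 = none) : p.val + g' ≤ q.val := by
  have hP := isPath c i
  have hlt : p.val < q.val := hpq
  have hql := q.isLt
  have es : ndN c i p.val = c.node (F.start ⟨i, p⟩) := ndN_eq c i (by omega)
  have ep : ndN c i (p.val + 1) = c.node (F.stop ⟨i, p⟩) := ndN_eq c i (by omega)
  have eq : ndN c i q.val = c.node (F.start ⟨i, q⟩) := ndN_eq c i (by omega)
  -- a closed subpath starting at `p`
  have same : c.node (F.start ⟨i, p⟩) = c.node (F.start ⟨i, q⟩) → p.val + g' ≤ q.val := by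
    intro h
    have h1 := hP.read p.val (q.val - p.val) (by omega)
    have h2 := hP.red p.val (q.val - p.val) (by omega)
    rw [show p.val + (q.val - p.val) = q.val by omega, es, eq, ← h] at h1
    have h3 := hgir _ _ h2 (by
      intro e
      have := congrArg List.length e
      simp only [word_length, List.length_nil] at this
      omega) h1
    rw [word_length] at h3
    omega
  -- a closed subpath starting at `p + 1`
  have opp : c.node (F.stop ⟨i, p⟩) = c.node (F.start ⟨i, q⟩) → p.val + g' ≤ q.val := by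
    intro h
    by_cases h0 : q.val = p.val + 1
    · exact absurd hq (zeta_next c hvo (x := ⟨i, p⟩) (y := ⟨i, q⟩) ⟨rfl, Or.inl h0⟩ hp)
    · have h1 := hP.read (p.val + 1) (q.val - (p.val + 1)) (by omega)
      have h2 := hP.red (p.val + 1) (q.val - (p.val + 1)) (by omega)
      rw [show p.val + 1 + (q.val - (p.val + 1)) = q.val by omega, ep, eq, ← h] at h1
      have h3 := hgir _ _ h2 (by
        intro e
        have := congrArg List.length e
        simp only [word_length, List.length_nil] at this
        omega) h1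
      rw [word_length] at h3
      omega
  rcases zeta_nodes c hp with ⟨-, n1, m1⟩ | ⟨-, n1, m1⟩ <;>
    rcases zeta_nodes c hq with ⟨-, n2, m2⟩ | ⟨-, n2, m2⟩
  · exact same (n1.trans n2.symm)
  · exact opp (m1.trans n2.symm)
  · exact opp (m1.trans n2.symm)
  · exact same (n1.trans n2.symm)

/-- the number of `ζ`-darts -/
theorem card_zeta {g' L : ℕ} (hg : 0 < g') (hgir : Girth (aug A v o) g') (hvo : v ≠ o)
    (hL : ∀ i, F.len i ≤ L) :
    Nat.card {x : F.Dart // (c.lab x).1 = none} ≤ F.K * (L / g' + 1) := by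
  have hlt : ∀ x : F.Dart, x.2.val / g' < L / g' + 1 := by
    intro x
    have h1 := x.2.isLt
    have h2 := hL x.1
    exact Nat.lt_succ_of_le (Nat.div_le_div_right (by omega))
  let f : {x : F.Dart // (c.lab x).1 = none} → Fin F.K × Fin (L / g' + 1) :=
    fun x => (x.1.1, ⟨x.1.2.val / g', hlt x.1⟩)
  have hf : Function.Injective f := by
    rintro ⟨⟨i, p⟩, hp⟩ ⟨⟨j, q⟩, hq⟩ h
    have h1 : i = j := congrArg Prod.fst h
    subst h1
    have h2 : p.val / g' = q.val / g' := congrArg Fin.val (congrArg Prod.snd h)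
    have key : ∀ a b : Fin (F.len i), (c.lab ⟨i, a⟩).1 = none → (c.lab ⟨i, b⟩).1 = none →
        a.val / g' = b.val / g' → ¬ a < b := by
      intro a b ha hb hab hlt
      have h3 := zeta_far c hgir hvo hlt ha hb
      have h4 : a.val / g' + 1 ≤ b.val / g' := by
        rw [← Nat.add_div_right _ hg]
        exact Nat.div_le_div_right h3
      omega
    have h3 : p = q := le_antisymm (not_lt.1 (key q p hq hp h2.symm)) (not_lt.1 (key p q hp hq h2))
    subst h3
    rfl
  have h1 := Nat.card_le_card_of_injective f hf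
  have h2 : Nat.card (Fin F.K × Fin (L / g' + 1)) = F.K * (L / g' + 1) := by simp
  rwa [h2] at h1

/-! ### The cut configuration -/

/-- the darts which are not `ζ`-darts -/
abbrev DD : Type := {x : F.Dart // (c.lab x).1 ≠ none}

theorem nx_iff (x y : DD c) : ofRel (fun x y : DD c => F.Next x.1 y.1) x = some y ↔
    F.Next x.1 y.1 :=
  ofRel_iff (fun _ _ _ h h' => Subtype.ext (next_fun h h')) x y

theorem mt_iff (x y : DD c) : ofRel (fun x y : DD c => c.mate x.1 = some y.1) x = some y ↔
    c.mate x.1 = some y.1 :=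
  ofRel_iff (fun _ _ _ h h' => Subtype.ext (Option.some.inj (h.symm.trans h'))) x y

/-- the pre-configuration over `A` -/
noncomputable def pre : Pre A (DD c) where
  nx := ofRel fun x y : DD c => F.Next x.1 y.1
  inj x y z hx hy := Subtype.ext (next_inj ((nx_iff c x z).1 hx) ((nx_iff c y z).1 hy))
  nd x := c.node (F.start x.1)
  nd' x := c.node (F.stop x.1)
  lab x := unemb (c.lab x.1) x.2
  mate := ofRel fun x y : DD c => c.mate x.1 = some y.1
  step x := by
    rw [← st_emb A v o, emb_unemb]
    exact c.step x.1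
  glueN x y h := node_next c ((nx_iff c x y).1 h)
  red x y h := by
    intro e
    refine c.red _ _ ((nx_iff c x y).1 h) ?_
    have := congrArg emb e
    rwa [emb_unemb, emb_hinv, emb_unemb] at this
  mate_symm x x' h := (mt_iff c x' x).2 (c.mate_symm _ _ ((mt_iff c x x').1 h))
  mate_corner x x' h := by
    have h1 := (mt_iff c x x').1 h
    obtain ⟨y, hy⟩ := c.mate_corner _ _ h1
    exact ⟨⟨y, mate_zeta_pred c h1 hy⟩, (nx_iff c _ _).2 hy⟩
  mate_lab x x' y h hy := by
    have h1 := (mt_iff c x x').1 h
    have h2 := c.mate_lab _ _ _ h1 ((nx_iff c y x).1 hy)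
    apply emb_inj
    rw [emb_hinv, emb_unemb, emb_unemb]
    exact h2
  mate_node x x' h := c.mate_node _ _ ((mt_iff c x x').1 h)
  mate_coh x x' y y' h h1 h2 := (nx_iff c y' x').2
    (c.mate_coh _ _ _ _ ((mt_iff c x x').1 h) ((nx_iff c x y).1 h1) ((mt_iff c y y').1 h2))

theorem mate_ne (x : DD c) : (pre c).mate x ≠ none ↔ c.mate x.1 ≠ none := by
  constructor
  · intro h
    obtain ⟨y, hy⟩ := Option.ne_none_iff_exists'.1 h
    rw [(mt_iff c x y).1 hy]
    simp
  · intro h
    obtain ⟨y, hy⟩ := Option.ne_none_iff_exists'.1 h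
    have h1 : (pre c).mate x = some ⟨y, mate_zeta' c hy⟩ := (mt_iff c x _).2 hy
    rw [h1]
    simp

theorem glued_le : c.glued ≤ (pre c).glued := by
  refine Nat.card_le_card_of_injective
    (fun x : {x : F.Dart // c.mate x ≠ none} =>
      (⟨⟨x.1, by
          obtain ⟨y, hy⟩ := Option.ne_none_iff_exists'.1 x.2
          exact mate_zeta c hy⟩, (mate_ne c _).2 x.2⟩ : {x : DD c // (pre c).mate x ≠ none})) ?_
  intro x y h
  exact Subtype.ext (congrArg (fun z : {x : DD c // (pre c).mate x ≠ none} => z.1.1) h)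

theorem unglued_le : (pre c).unglued ≤ c.unglued := by
  refine Nat.card_le_card_of_injective
    (fun x : {x : DD c // (∃ y, (pre c).nx y = some x) ∧ (pre c).mate x = none} =>
      (⟨x.1.1, by
          obtain ⟨y, hy⟩ := x.2.1
          exact ⟨y.1, (nx_iff c y x.1).1 hy⟩, by
          by_contra h
          exact (mate_ne c x.1).2 h x.2.2⟩ : {x : F.Dart // F.IsCorner x ∧ c.mate x = none})) ?_
  intro x y h
  exact Subtype.ext (Subtype.ext
    (congrArg (fun z : {x : F.Dart // F.IsCorner x ∧ c.mate x = none} => z.1) h))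

theorem ends_le : (pre c).ends ≤ c.ends := by
  refine Nat.card_le_card_of_injective
    (fun x : {x : DD c // (pre c).mate x ≠ none ∧
        ∀ y, (pre c).nx x = some y → (pre c).mate y = none} =>
      (⟨x.1.1, (mate_ne c x.1).1 x.2.1, by
          intro y hy
          by_contra h
          obtain ⟨y', hy'⟩ := Option.ne_none_iff_exists'.1 h
          have h1 : (pre c).nx x.1 = some ⟨y, mate_zeta c hy'⟩ := (nx_iff c _ _).2 hy
          exact (mate_ne c ⟨y, mate_zeta c hy'⟩).2 h (x.2.2 _ h1)⟩ :
        {x : F.Dart // c.mate x ≠ none ∧ ∀ y, F.Next x y → c.mate y = none})) ?_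
  intro x y h
  exact Subtype.ext (Subtype.ext (congrArg (fun z : {x : F.Dart // c.mate x ≠ none ∧
    ∀ y, F.Next x y → c.mate y = none} => z.1) h))

/-- first darts of open paths -/
theorem card_first : Nat.card {x : F.Dart // ∀ y, ¬ F.Next y x} ≤ F.openN := by
  have key : ∀ x : F.Dart, (∀ y, ¬ F.Next y x) → F.cl x.1 = false ∧ x.2.val = 0 := by
    rintro ⟨i, j⟩ h
    have h0 : j.val = 0 := by
      by_contra hne
      exact h ⟨i, ⟨j.val - 1, by have := j.isLt; omega⟩⟩ ⟨rfl, Or.inl (by
        show j.val = j.val - 1 + 1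
        omega)⟩
    refine ⟨?_, h0⟩
    by_contra hcl
    have hcl' : F.cl i = true := by simpa using hcl
    refine h ⟨i, ⟨F.len i - 1, by have := F.len_pos i; omega⟩⟩ ⟨rfl, Or.inr ⟨h0, ?_, hcl'⟩⟩
    show F.len i - 1 + 1 = F.len i
    have := F.len_pos i
    omega
  refine Nat.card_le_card_of_injective
    (fun x : {x : F.Dart // ∀ y, ¬ F.Next y x} =>
      (⟨x.1.1, (key x.1 x.2).1⟩ : {i : Fin F.K // F.cl i = false})) ?_
  rintro ⟨⟨i, p⟩, hx⟩ ⟨⟨j, q⟩, hy⟩ h
  have h1 : i = j := congrArg Subtype.val h
  subst h1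
  have h2 := (key _ hx).2
  have h3 := (key _ hy).2
  simp only at h2 h3
  have : p = q := Fin.ext (h2.trans h3.symm)
  subst this
  rfl

/-- an injection given by a relation -/
theorem card_le_of_rel {U T : Type} [Finite T] (R : U → T → Prop) (h1 : ∀ u, ∃ t, R u t)
    (h2 : ∀ u u' t, R u t → R u' t → u = u') : Nat.card U ≤ Nat.card T := by
  choose f hf using h1
  exact Nat.card_le_card_of_injective f fun u u' h => h2 u u' (f u) (hf u) (h ▸ hf u')

theorem openN_le (hvo : v ≠ o) : (pre c).openN ≤ F.openN + (pre c).endsAt o := by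
  refine le_trans ?_ (Nat.add_le_add_right card_first _)
  unfold Pre.openN Pre.endsAt
  rw [← Nat.card_sum, ← Nat.card_sum]
  refine card_le_of_rel (fun (x : {x : DD c // ∀ y, (pre c).nx y ≠ some x})
    (t : {x : F.Dart // ∀ y, ¬ F.Next y x} ⊕
      ({x : DD c // (∀ y, (pre c).nx y ≠ some x) ∧ (pre c).nd x = o} ⊕
        {x : DD c // (pre c).nx x = none ∧ (pre c).nd' x = o})) =>
    match t with
    | Sum.inl a => (a.1 = x.1.1) ∨ ((c.lab a.1).1 = none ∧ F.Next a.1 x.1.1)
    | Sum.inr (Sum.inl y) => y.1 = x.1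
    | Sum.inr (Sum.inr y) => ∃ z : F.Dart, F.Next y.1.1 z ∧ F.Next z x.1.1) ?_ ?_
  · rintro ⟨x, hx⟩
    by_cases h1 : ∃ z, F.Next z x.1
    · obtain ⟨z, hz⟩ := h1
      have hzl : (c.lab z).1 = none := by
        by_contra h
        exact hx ⟨z, h⟩ ((nx_iff c _ _).2 hz)
      rcases zeta_nodes c hzl with ⟨-, -, n1⟩ | ⟨-, n1, -⟩
      · refine ⟨Sum.inr (Sum.inl ⟨x, hx, ?_⟩), rfl⟩
        show c.node (F.start x.1) = o
        rw [← node_next c hz, n1]
      · by_cases h2 : ∃ w, F.Next w z
        · obtain ⟨w, hw⟩ := h2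
          have hwl : (c.lab w).1 ≠ none := fun h => zeta_next c hvo hw h hzl
          refine ⟨Sum.inr (Sum.inr ⟨⟨w, hwl⟩, ?_, ?_⟩), z, hw, hz⟩
          · show ofRel (fun x y : DD c => F.Next x.1 y.1) _ = none
            refine (ofRel_none (R := fun x y : DD c => F.Next x.1 y.1) _).2 ?_
            intro y hy
            have := next_fun hy hw
            exact y.2 (this ▸ hzl)
          · show c.node (F.stop w) = o
            rw [node_next c hw, n1]
        · refine ⟨Sum.inl ⟨z, fun w hw => h2 ⟨w, hw⟩⟩, Or.inr ⟨hzl, hz⟩⟩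
    · exact ⟨Sum.inl ⟨x.1, fun w hw => h1 ⟨w, hw⟩⟩, Or.inl rfl⟩
  · rintro ⟨x, hx⟩ ⟨x', hx'⟩ (a | a | a) h h'
    · apply Subtype.ext
      apply Subtype.ext
      rcases h with h | ⟨h, g⟩ <;> rcases h' with h' | ⟨h', g'⟩
      · exact h.symm.trans h'
      · exact absurd h' (h ▸ x.2)
      · exact absurd h (h' ▸ x'.2)
      · exact next_fun g g'
    · exact Subtype.ext (h.symm.trans h')
    · obtain ⟨z, hz, hz1⟩ := h
      obtain ⟨z', hz', hz1'⟩ := h'
      have := next_fun hz hz'
      subst this
      exact Subtype.ext (Subtype.ext (next_fun hz1 hz1'))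

/-- the number of paths of the cut configuration -/
theorem card_paths {F' : Frame} (e : DD c ≃ F'.Dart)
    (hN : ∀ x y, F'.Next (e x) (e y) ↔ (pre c).nx x = some y) :
    F'.K ≤ F.K + Nat.card {x : F.Dart // (c.lab x).1 = none} := by
  have h0 : F'.K = Nat.card (Fin F'.K) := by simp
  have h1 : F.K = Nat.card (Fin F.K) := by simp
  rw [h0, h1, ← Nat.card_sum]
  refine card_le_of_rel (fun (i : Fin F'.K) (t : Fin F.K ⊕ {x : F.Dart // (c.lab x).1 = none}) =>
    match t with
    | Sum.inl j => ∃ hj : (c.lab ⟨j, ⟨0, F.len_pos j⟩⟩).1 ≠ none,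
        (e ⟨⟨j, ⟨0, F.len_pos j⟩⟩, hj⟩).1 = i
    | Sum.inr z => ∃ x : DD c, F.Next z.1 x.1 ∧ (e x).1 = i) ?_ ?_
  · intro i
    by_cases hz : ∃ z : {x : F.Dart // (c.lab x).1 = none}, ∃ x : DD c,
        F.Next z.1 x.1 ∧ (e x).1 = i
    · obtain ⟨z, hz⟩ := hz
      exact ⟨Sum.inr z, hz⟩
    · -- go back to the first dart
      have back : ∀ (j : Fin F.K) (n : ℕ) (hn : n < F.len j)
          (hl : (c.lab ⟨j, ⟨n, hn⟩⟩).1 ≠ none), (e ⟨⟨j, ⟨n, hn⟩⟩, hl⟩).1 = i →
          ∃ hj : (c.lab ⟨j, ⟨0, F.len_pos j⟩⟩).1 ≠ none,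
            (e ⟨⟨j, ⟨0, F.len_pos j⟩⟩, hj⟩).1 = i := by
        intro j n
        induction n with
        | zero => intro hn hl h; exact ⟨hl, h⟩
        | succ n ih =>
          intro hn hl h
          have hnext : F.Next ⟨j, ⟨n, by omega⟩⟩ ⟨j, ⟨n + 1, hn⟩⟩ := ⟨rfl, Or.inl rfl⟩
          have hl' : (c.lab ⟨j, ⟨n, by omega⟩⟩).1 ≠ none := by
            intro h'
            exact hz ⟨⟨_, h'⟩, ⟨_, hl⟩, hnext, h⟩
          refine ih (by omega) hl' ?_
          have h2 : F'.Next (e ⟨⟨j, ⟨n, by omega⟩⟩, hl'⟩) (e ⟨⟨j, ⟨n + 1, hn⟩⟩, hl⟩) :=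
            (hN _ _).2 ((nx_iff c _ _).2 hnext)
          exact h2.1.trans h
      let a : DD c := e.symm ⟨i, ⟨0, F'.len_pos i⟩⟩
      have ha : (e a).1 = i := by
        show (e (e.symm ⟨i, ⟨0, F'.len_pos i⟩⟩)).1 = i
        rw [Equiv.apply_symm_apply]
      obtain ⟨⟨⟨j, ⟨n, hn⟩⟩, hl⟩, hdef⟩ : ∃ b : DD c, b = a := ⟨a, rfl⟩
      exact ⟨Sum.inl j, back j n hn hl (by rw [hdef]; exact ha)⟩
  · rintro i i' (j | z) h h'
    · obtain ⟨_, h⟩ := h
      obtain ⟨_, h'⟩ := h'
      exact h.symm.trans h'
    · obtain ⟨x, hx, h⟩ := h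
      obtain ⟨x', hx', h'⟩ := h'
      have : x = x' := Subtype.ext (next_fun hx hx')
      subst this
      exact h.symm.trans h'

end CutM

open CutM in
/-- CUT: cut all paths at their `ζ`-darts. -/
theorem cut {S V : Type} (A : PAct S V) (v o : V) (g' K K' D0 L : ℕ) (κ C P η : ℝ)
    (hg : 2 ≤ g') (hgir : Girth (aug A v o) g') (hκ : 0 ≤ κ) (hC : 0 ≤ C) (hP : 0 ≤ P)
    (hK : K * (L / g' + 2) ≤ K') (h : LocalIneqO A o K' D0 L κ C P η) :
    LocalIneq (aug A v o) K D0 L κ C P η := by
  have hvo : v ≠ o := by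
    rintro rfl
    have h1 := hgir v [(none, true)] FreeGroup.IsReduced.singleton (by simp) (by
      show ((aug A v v).st (none, true) v).bind ((aug A v v).read []) = some v
      have : (aug A v v).st (none, true) v = some v := by
        show (if v = v then some v else none) = some v
        rw [if_pos rfl]
      rw [this]
      rfl)
    simp only [List.length_singleton] at h1
    omega
  intro F c hFK hFL hends
  obtain ⟨F', c', e, hN, -, -, -, -, -, hgl, hug, hen, hop, hat⟩ := (pre c).exists_conf
  have hK' : F'.K ≤ K' := by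
    have h1 := card_paths c e hN
    have h2 := card_zeta c (by omega : 0 < g') hgir hvo hFL
    calc F'.K ≤ F.K + F.K * (L / g' + 1) := by omega
      _ = F.K * (L / g' + 2) := by ring
      _ ≤ K * (L / g' + 2) := Nat.mul_le_mul_right _ hFK
      _ ≤ K' := hK
  have hL' : ∀ i, F'.len i ≤ L := by
    refine Frame.len_le_of e hN (fun x : DD c => x.1.1) ?_ L ?_
    · intro x y hxy
      exact ((nx_iff c x y).1 hxy).1
    · intro j
      refine le_trans ?_ (hFL j)
      have h1 : Nat.card (Fin (F.len j)) = F.len j := by simp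
      rw [← h1]
      refine card_le_of_rel (fun (x : {x : DD c // x.1.1 = j}) (t : Fin (F.len j)) =>
        x.1.1 = ⟨j, t⟩) ?_ ?_
      · rintro ⟨⟨⟨i, p⟩, hx⟩, hxj⟩
        simp only at hxj
        subst hxj
        exact ⟨p, rfl⟩
      · rintro x x' t hx hx'
        exact Subtype.ext (Subtype.ext (hx.trans hx'.symm))
  have h1 := h F' c' hK' hL' (by rw [hen]; exact (ends_le c).trans hends)
  rw [hgl, hug, hop, hat] at h1
  have g1 : (c.glued : ℝ) ≤ (pre c).glued := by exact_mod_cast glued_le c
  have g2 : ((pre c).unglued : ℝ) ≤ c.unglued := by exact_mod_cast unglued_le c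
  have g3 : ((pre c).openN : ℝ) ≤ F.openN + (pre c).endsAt o := by
    exact_mod_cast openN_le c hvo
  have k1 := mul_le_mul_of_nonneg_left g1 hκ
  have k2 := mul_le_mul_of_nonneg_left g2 hC
  have k3 : P * (((pre c).openN : ℝ) - ((pre c).endsAt o : ℝ)) ≤ P * F.openN :=
    mul_le_mul_of_nonneg_left (by linarith) hP
  linarith


end Crest.Agent.R177
end

-- ▼ part R177/Far
section

/-!
# Row 184 (S0274): the fresh letter (helper323)

`geomO`: the local inequality with a marked node gives the isoperimetric inequality of `A` and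
controls short words closing a path from the marked node `o`. The geometry is applied to
`aug A v o` (one more letter with one edge `v → o`).
-/

set_option autoImplicit false

open scoped Classical

namespace Crest.Agent.R177

open Crest.Agent.R199 (PAct)
open FreeGroup (IsReduced invRev)

namespace Far

variable {S V : Type} (A : PAct S V) (v o : V)

/-- words of `A` as words of `aug A v o` -/
def up (w : List (S × Bool)) : List (Option S × Bool) := w.map fun a => (some a.1, a.2)

@[simp] theorem up_nil : up ([] : List (S × Bool)) = [] := rfl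

@[simp] theorem up_cons (a : S × Bool) (w : List (S × Bool)) :
    up (a :: w) = (some a.1, a.2) :: up w := rfl

theorem up_append (u w : List (S × Bool)) : up (u ++ w) = up u ++ up w := List.map_append

@[simp] theorem up_length (w : List (S × Bool)) : (up w).length = w.length := List.length_map _

theorem up_invRev (w : List (S × Bool)) : up (invRev w) = invRev (up w) := by
  simp [up, invRev, Function.comp_def]


theorem mk_up (w : List (S × Bool)) : FreeGroup.mk (up w) = FreeGroup.map some (FreeGroup.mk w) :=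
  (FreeGroup.map.mk).symm

theorem invRev_isReduced {T : Type} {w : List (T × Bool)} (h : IsReduced w) :
    IsReduced (invRev w) := by
  rw [FreeGroup.isReduced_iff_reduce_eq] at h ⊢
  rw [FreeGroup.reduce_invRev, h]

theorem up_isReduced {w : List (S × Bool)} : IsReduced (up w) ↔ IsReduced w := by
  unfold up FreeGroup.IsReduced
  rw [List.isChain_map]
  constructor
  · exact fun h => h.imp (fun a b h1 h2 => h1 (congrArg some h2))
  · exact fun h => h.imp (fun a b h1 h2 => h1 (Option.some.inj h2))


/-- split at the first `ζ` -/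
theorem split (w : List (Option S × Bool)) :
    (∃ u, w = up u) ∨ ∃ u b w', w = up u ++ (none, b) :: w' := by
  induction w with
  | nil => exact Or.inl ⟨[], rfl⟩
  | cons a w ih =>
    obtain ⟨_ | s, b⟩ := a
    · exact Or.inr ⟨[], b, w, rfl⟩
    · rcases ih with ⟨u, rfl⟩ | ⟨u, b', w', rfl⟩
      · exact Or.inl ⟨(s, b) :: u, rfl⟩
      · exact Or.inr ⟨(s, b) :: u, b', w', rfl⟩

theorem read_up (w : List (S × Bool)) (x : V) : (aug A v o).read (up w) x = A.read w x := by
  induction w generalizing x with
  | nil => rfl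
  | cons a w ih =>
    rw [up_cons, PAct.read_cons, PAct.read_cons]
    have : (aug A v o).st (some a.1, a.2) x = A.st a x := rfl
    rw [this]
    congr 1
    funext y
    exact ih y

theorem st_true {x y : V} (h : (aug A v o).st (none, true) x = some y) : x = v ∧ y = o := by
  have h' : (if x = v then some o else none) = some y := h
  split_ifs at h' with h1
  exact ⟨h1, (Option.some.inj h').symm⟩

theorem st_false {x y : V} (h : (aug A v o).st (none, false) x = some y) : x = o ∧ y = v := by
  have h' : (if x = o then some v else none) = some y := h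
  split_ifs at h' with h1
  exact ⟨h1, (Option.some.inj h').symm⟩

/-- relations of `A` hold in `aug A v o` -/
theorem gw_up {w : List (S × Bool)} (h : gw A w = 1) : gw (aug A v o) (up w) = 1 := by
  rw [GS.gw_eq, GS.piA_eq_one_iff] at h ⊢
  rw [mk_up]
  have : rels A ⊆ ((Subgroup.normalClosure (rels (aug A v o))).comap (FreeGroup.map some) :
      Subgroup (FreeGroup S)) := by
    rintro r ⟨x, u, hu, rfl⟩
    show FreeGroup.map some (FreeGroup.mk u) ∈ Subgroup.normalClosure (rels (aug A v o))
    rw [← mk_up]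
    exact Subgroup.subset_normalClosure ⟨x, up u, by rw [read_up]; exact hu, rfl⟩
  exact Subgroup.normalClosure_le_normal this h

theorem girth_aug (g' : ℕ) (hg : Girth A g')
    (hfar : ∀ q, IsReduced q → A.read q o = some v → g' ≤ q.length) : Girth (aug A v o) g' := by
  intro x w hred hne hr
  have hfar' : ∀ q : List (S × Bool), A.read q o = some v → g' ≤ q.length := by
    intro q hq
    obtain ⟨q', h1, -, -, h2, h3⟩ := A.exists_reduced hq
    exact (hfar q' h1 h3).trans h2
  have hfar2 : ∀ q : List (S × Bool), A.read q v = some o → g' ≤ q.length := by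
    intro q hq
    have := hfar' _ (A.read_invRev hq)
    simpa [invRev] using this
  rcases split w with ⟨u, rfl⟩ | ⟨u, b, w', rfl⟩
  · rw [read_up] at hr
    have := hg x u (up_isReduced.1 hred) (fun h => hne (by rw [h]; rfl)) hr
    simpa using this
  rw [PAct.read_append_some] at hr
  obtain ⟨y, hy, hr⟩ := hr
  rw [read_up] at hy
  rw [PAct.read_cons] at hr
  obtain ⟨z, hz, hr⟩ := Option.bind_eq_some_iff.1 hr
  have hlen : (up u ++ (none, b) :: w').length = u.length + (w'.length + 1) := by simp
  rw [hlen]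
  rcases split w' with ⟨u', rfl⟩ | ⟨u', b', w'', rfl⟩
  · rw [read_up] at hr
    rw [up_length]
    have hru : A.read (u' ++ u) z = some y := PAct.read_append_some _ |>.2 ⟨x, hr, hy⟩
    cases b
    · obtain ⟨rfl, rfl⟩ := st_false A v o hz
      have := hfar2 _ hru
      simp only [List.length_append] at this
      omega
    · obtain ⟨rfl, rfl⟩ := st_true A v o hz
      have := hfar' _ hru
      simp only [List.length_append] at this
      omega
  · rw [PAct.read_append_some] at hr
    obtain ⟨z', hz', hr⟩ := hr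
    rw [read_up] at hz'
    rw [PAct.read_cons] at hr
    obtain ⟨z'', hz'', -⟩ := Option.bind_eq_some_iff.1 hr
    have hlen' : (up u' ++ (none, b') :: w'').length = u'.length + (w''.length + 1) := by simp
    rw [hlen']
    have hred' : IsReduced ((none, b) :: up u' ++ (none, b') :: w'') := by
      have := hred.infix (L₁ := (none, b) :: (up u' ++ (none, b') :: w''))
        (List.suffix_append (up u) _).isInfix
      simpa using this
    have hu' : IsReduced u' := by
      apply up_isReduced.1
      exact hred'.infix ⟨[(none, b)], (none, b') :: w'', by simp⟩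
    have hne' : b ≠ b' → u' ≠ [] := by
      rintro hb rfl
      have h1 : IsReduced ((none, b) :: (none, b') :: w'') := by simpa using hred'
      have h2 := (List.isChain_cons_cons.1 h1).1 rfl
      exact hb h2
    have key : g' ≤ u'.length := by
      cases b <;> cases b'
      · have h1 := (st_false A v o hz).2
        have h2 := (st_false A v o hz'').1
        rw [h1, h2] at hz'
        exact hfar2 _ hz'
      · have h1 := (st_false A v o hz).2
        have h2 := (st_true A v o hz'').1
        rw [h1, h2] at hz'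
        exact hg _ _ hu' (hne' (by simp)) hz'
      · have h1 := (st_true A v o hz).2
        have h2 := (st_false A v o hz'').1
        rw [h1, h2] at hz'
        exact hg _ _ hu' (hne' (by simp)) hz'
      · have h1 := (st_true A v o hz).2
        have h2 := (st_true A v o hz'').1
        rw [h1, h2] at hz'
        exact hfar' _ hz'
    omega

/-- the far case -/
theorem far_contra {C n : ℕ} (h : Iso (aug A v o) C) (hg : Girth (aug A v o) (C * (n + 1) + 1))
    {c p : List (S × Bool)} (hc : IsReduced c) (hl : c.length ≤ n)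
    (hp : A.read p o = some v) (hw : gw A (c ++ p) = 1) : False := by
  have h1 : gw (aug A v o) (up c) * gw (aug A v o) (up p) = 1 := by
    rw [← GS.gw_append, ← up_append]
    exact gw_up A v o hw
  have h2 : gw (aug A v o) (up p) * gw (aug A v o) [(none, true)] = 1 := by
    rw [← GS.gw_append]
    apply GS.gw_closed _ (v := o)
    rw [PAct.read_append_some]
    refine ⟨v, by rw [read_up]; exact hp, ?_⟩
    rw [PAct.read_singleton]
    show (if v = v then some o else none) = some o
    simp
  have hinv : gw (aug A v o) (invRev (up c)) = (gw (aug A v o) (up c))⁻¹ := by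
    rw [GS.gw_eq, GS.gw_eq, ← map_inv, FreeGroup.inv_mk]
  refine short_of_iso (aug A v o) C (n + 1) h hg (invRev (up c) ++ [(none, true)]) (by simp) ?_
    (by simp [invRev]; omega) ?_
  · rw [← up_invRev]
    have hc' : IsReduced (up (invRev c)) := up_isReduced.2 (invRev_isReduced hc)
    unfold FreeGroup.IsReduced at hc' ⊢
    rw [List.isChain_append]
    refine ⟨hc', List.isChain_singleton _, ?_⟩
    intro a ha b hb
    have hb' : b = (none, true) := by simpa using hb.symm
    have ha' : a ∈ up (invRev c) := List.mem_of_getLast? ha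
    obtain ⟨a', -, rfl⟩ := List.mem_map.1 ha'
    intro h
    rw [hb'] at h
    exact absurd h (by simp)
  · rw [GS.gw_append, hinv]
    have h3 : gw (aug A v o) (up p) = (gw (aug A v o) (up c))⁻¹ := eq_inv_of_mul_eq_one_right h1
    rw [← h3]
    exact h2

/-- the near case -/
theorem near {C n m : ℕ} (h : Iso A C) (hg : Girth A (C * (n + m) + 1))
    {c p q : List (S × Bool)} (hc : IsReduced c) (hl : c.length ≤ n)
    (hp : A.read p o = some v) (hw : gw A (c ++ p) = 1) (hq : IsReduced q)
    (hq' : A.read q o = some v) (hql : q.length ≤ m) : A.read (invRev c) o = some v := by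
  have hpq : gw A p = gw A q := by
    have h1 : gw A (p ++ invRev q) = 1 :=
      GS.gw_closed A (v := o) ((PAct.read_append_some _).2 ⟨v, hp, A.read_invRev hq'⟩)
    have hinv : gw A (invRev q) = (gw A q)⁻¹ := by
      rw [GS.gw_eq, GS.gw_eq, ← map_inv, FreeGroup.inv_mk]
    rw [GS.gw_append, hinv] at h1
    exact mul_inv_eq_one.1 h1
  have h2 : gw A (c ++ q) = 1 := by
    rw [GS.gw_append, ← hpq, ← GS.gw_append]
    exact hw
  have h3 : FreeGroup.reduce (c ++ q) = [] := by
    by_contra hne
    refine short_of_iso A C (n + m) h hg _ hne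
      (FreeGroup.isReduced_iff_reduce_eq.mpr (by simp)) ?_ ?_
    · have := (FreeGroup.Red.sublist (FreeGroup.reduce.red (L := c ++ q))).length_le
      simp only [List.length_append] at this
      omega
    · rw [GS.gw_eq, FreeGroup.reduce.self, ← GS.gw_eq]
      exact h2
  have h4 : (FreeGroup.mk q : FreeGroup S) = FreeGroup.mk (invRev c) := by
    have h5 : (FreeGroup.mk (c ++ q) : FreeGroup S) = 1 := by
      rw [← FreeGroup.reduce.self (L := c ++ q), h3]
      rfl
    rw [← FreeGroup.mul_mk] at h5
    rw [← FreeGroup.inv_mk]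
    exact eq_inv_of_mul_eq_one_right h5
  rw [← PAct.reduced_eq hq (invRev_isReduced hc) h4]
  exact hq'

/-- the statement of `geom` -/
abbrev GeomStmt : Prop := ∀ (κ C P : ℝ), 0 < κ → 0 < C → 0 < P →
    ∃ (L K D0 C' g₀ : ℕ) (η : ℝ), 0 < η ∧ ∀ (S V : Type) (A : PAct S V) (g : ℕ), g₀ ≤ g →
      Girth A g → LocalIneq A K D0 (L * g) κ C (P * g) (η * g) → Iso A C'

/-- the statement of `cut` -/
abbrev CutStmt : Prop := ∀ {S V : Type} (A : PAct S V) (v o : V) (g' K K' D0 L : ℕ)
    (κ C P η : ℝ), 2 ≤ g' → Girth (aug A v o) g' → 0 ≤ κ → 0 ≤ C → 0 ≤ P →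
    K * (L / g' + 2) ≤ K' → LocalIneqO A o K' D0 L κ C P η →
    LocalIneq (aug A v o) K D0 L κ C P η

theorem geomO_of (hgeom : GeomStmt) (hcut : CutStmt) (κ C P : ℝ) (n : ℕ) (hκ : 0 < κ) (hC : 0 < C)
    (hP : 0 < P) :
    ∃ (L K D0 C' g₀ : ℕ) (η : ℝ), 0 < η ∧ ∀ (S V : Type) (A : PAct S V) (o : V) (g : ℕ), g₀ ≤ g →
      Girth A g → LocalIneqO A o K D0 (L * g) κ C (P * g) (η * g) → Iso A C' ∧
        (∀ w : List (S × Bool), w ≠ [] → FreeGroup.IsReduced w → w.length ≤ n → gw A w ≠ 1) ∧
        ∀ (c p : List (S × Bool)) (v : V), FreeGroup.IsReduced c → c.length ≤ n →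
          A.read p o = some v → gw A (c ++ p) = 1 → A.read (FreeGroup.invRev c) o = some v := by
  obtain ⟨L₁, K₁, D₁, C₁, g₁, η₁, hη₁, h₁⟩ := hgeom κ C P hκ hC hP
  obtain ⟨m, hm⟩ : ∃ m, m = C₁ + 1 := ⟨_, rfl⟩
  have hmpos : 0 < m := by omega
  have hmR : (0 : ℝ) < 4 * m := by positivity
  obtain ⟨L₂, K₂, D₂, C₂, g₂, η₂, hη₂, h₂⟩ := hgeom κ C (P * (4 * m)) hκ hC (by positivity)
  refine ⟨max L₁ L₂, max K₁ (K₂ * (L₂ + 2)), max D₁ D₂, C₁,
    g₁ + 2 * m * (g₂ + 2 + (C₂ * (n + 1) + 1)) + 2 * (m * n + 1), min η₁ (η₂ / (4 * m)),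
    lt_min hη₁ (by positivity), ?_⟩
  intro S V A o g hg hgir hloc
  obtain ⟨g', hg'⟩ : ∃ g', g' = g / (2 * m) := ⟨_, rfl⟩
  have hg'1 : g₂ + 2 + (C₂ * (n + 1) + 1) ≤ g' := by
    rw [hg', Nat.le_div_iff_mul_le (by omega)]
    have : (g₂ + 2 + (C₂ * (n + 1) + 1)) * (2 * m) = 2 * m * (g₂ + 2 + (C₂ * (n + 1) + 1)) := by
      ring
    omega
  have hg'2 : 2 * m * g' ≤ g := by
    rw [hg']
    exact Nat.mul_div_le _ _
  have hg'3 : g ≤ 4 * m * g' := by
    have h3 : g < 2 * m * (g' + 1) := by
      rw [hg']
      exact Nat.lt_mul_div_succ _ (by omega)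
    have h4 : 2 * m * (g' + 1) ≤ 4 * m * g' := by
      have : 2 * m * (g' + 1) ≤ 2 * m * (g' + g') := Nat.mul_le_mul_left _ (by omega)
      calc _ ≤ _ := this
        _ = _ := by ring
    omega
  have hg'4 : g' ≤ g := by
    rw [hg']
    exact Nat.div_le_self _ _
  have hgR : (g : ℝ) ≤ 4 * m * g' := by exact_mod_cast hg'3
  have hg0 : (0 : ℝ) ≤ g := Nat.cast_nonneg _
  have hgir' : ∀ k, k ≤ g → Girth A k := fun k hk x w a b c => hk.trans (hgir x w a b c)
  have hiso : Iso A C₁ := by
    refine h₁ S V A g (by omega) hgir (LocalIneqO.toLocal (o := o) (by positivity) ?_)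
    exact hloc.mono (le_max_left _ _) (le_max_left _ _) (Nat.mul_le_mul_right _ (le_max_left _ _))
      (mul_le_mul_of_nonneg_right (min_le_left _ _) hg0)
  have hnear : C₁ * (n + g') + 1 ≤ g := by
    have h5 : C₁ * (n + g') ≤ m * (n + g') := Nat.mul_le_mul_right _ (by omega)
    have h6 : m * (n + g') = m * n + m * g' := by ring
    have h7 : 2 * m * g' = m * g' + m * g' := by ring
    omega
  refine ⟨hiso, ?_, ?_⟩
  · intro w hw hwr hwl
    refine short_of_iso A C₁ n hiso (hgir' _ ?_) w hw hwr hwl
    have : C₁ * n ≤ C₁ * (n + g') := Nat.mul_le_mul_left _ (by omega)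
    omega
  intro c p v hc hl hp hw
  by_cases hfar : ∀ q, IsReduced q → A.read q o = some v → g' ≤ q.length
  · exfalso
    have hga : Girth (aug A v o) g' := girth_aug A v o g' (hgir' _ hg'4) hfar
    have hloc' : LocalIneq (aug A v o) K₂ D₂ (L₂ * g') κ C (P * g) (η₂ * g') := by
      refine hcut A v o g' K₂ (K₂ * (L₂ + 2)) D₂ (L₂ * g') κ C (P * g) (η₂ * g') (by omega) hga
        hκ.le hC.le (by positivity) ?_ ?_
      · rw [Nat.mul_div_cancel _ (by omega)]
      · refine hloc.mono (le_max_right _ _) (le_max_right _ _)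
          (Nat.mul_le_mul (le_max_right _ _) hg'4) ?_
        calc min η₁ (η₂ / (4 * m)) * g ≤ (η₂ / (4 * m)) * g :=
              mul_le_mul_of_nonneg_right (min_le_right _ _) hg0
          _ ≤ (η₂ / (4 * m)) * (4 * m * g') :=
              mul_le_mul_of_nonneg_left hgR (by positivity)
          _ = η₂ * g' := by field_simp
    have hiso2 : Iso (aug A v o) C₂ := by
      refine h₂ (Option S) V (aug A v o) g' (by omega) hga ?_
      intro F cc hF1 hF2 hF3
      have h8 := hloc' F cc hF1 hF2 hF3
      have h9 : P * g * F.openN ≤ P * (4 * m) * g' * F.openN := by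
        have : P * g ≤ P * (4 * m) * g' := by
          calc P * (g : ℝ) ≤ P * (4 * m * g') := mul_le_mul_of_nonneg_left hgR hP.le
            _ = _ := by ring
        exact mul_le_mul_of_nonneg_right this (Nat.cast_nonneg _)
      linarith
    exact far_contra A v o hiso2 (fun x w a b d => (by omega : C₂ * (n + 1) + 1 ≤ g').trans
      (hga x w a b d)) hc hl hp hw
  · push Not at hfar
    obtain ⟨q, hq, hq', hql⟩ := hfar
    exact near A v o hiso (hgir' _ hnear) hc hl hp hw hq hq' hql.le

end Far

end Crest.Agent.R177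
end

-- ▼ part R177/OneSided
section

/-!
# Row 184 (S0274): the one-sided inverse (helper455)
-/

set_option autoImplicit false

open scoped Classical

namespace Crest.Agent.R177

open Crest.Agent.R199 (PAct)

namespace OS

variable {V : Type} (A : PAct L74 V)

/-- letters as group elements -/
noncomputable def t (k : Fin 4) : Grp A := gw A [(Sum.inl k, true)]

noncomputable def y (q : Fin 3) : Grp A := gw A [(Sum.inr q, true)]

theorem natCast_two (n : ℕ) : (n : ZMod 2) = if Odd n then 1 else 0 := by
  split_ifs with h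
  · exact (ZMod.natCast_eq_one_iff_odd).2 h
  · exact (ZMod.natCast_eq_zero_iff_even).2 (Nat.not_odd_iff_even.1 h)

/-- summation over the edges labelled `s`, grouped by the end node -/
theorem sum_edges {S V : Type} [Fintype V] (A : PAct S V) {M : Type*} [AddCommMonoid M] (s : S)
    (G : V → M) (F : V → M) (h : ∀ v v', A.st (s, true) v = some v' → G v = F v') :
    (∑ v, if (A.st (s, true) v).isSome then G v else 0) =
      ∑ v, if (A.st (s, false) v).isSome then F v else 0 := by
  rw [← Finset.sum_filter, ← Finset.sum_filter]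
  refine Finset.sum_bij' (fun v _ => (A.st (s, true) v).getD v)
    (fun v _ => (A.st (s, false) v).getD v) ?_ ?_ ?_ ?_ ?_
  · intro v hv
    rw [Finset.mem_filter] at hv ⊢
    obtain ⟨x, hx⟩ := Option.isSome_iff_exists.1 hv.2
    have := A.symm _ _ _ hx
    simp only [hx, Option.getD_some]
    refine ⟨Finset.mem_univ _, ?_⟩
    simp only [Bool.not_true] at this
    rw [this]; rfl
  · intro v hv
    rw [Finset.mem_filter] at hv ⊢
    obtain ⟨x, hx⟩ := Option.isSome_iff_exists.1 hv.2
    have := A.symm _ _ _ hx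
    simp only [hx, Option.getD_some]
    refine ⟨Finset.mem_univ _, ?_⟩
    simp only [Bool.not_false] at this
    rw [this]; rfl
  · intro v hv
    rw [Finset.mem_filter] at hv
    obtain ⟨x, hx⟩ := Option.isSome_iff_exists.1 hv.2
    have := A.symm _ _ _ hx
    simp only [Bool.not_true] at this
    simp only [hx, Option.getD_some, this]
  · intro v hv
    rw [Finset.mem_filter] at hv
    obtain ⟨x, hx⟩ := Option.isSome_iff_exists.1 hv.2
    have := A.symm _ _ _ hx
    simp only [Bool.not_false] at this
    simp only [hx, Option.getD_some, this]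
  · intro v hv
    rw [Finset.mem_filter] at hv
    obtain ⟨x, hx⟩ := Option.isSome_iff_exists.1 hv.2
    simp only [hx, Option.getD_some]
    exact h _ _ hx

/-- the solutions of `t k * y q * γ v = t 2 * (t h)⁻¹` -/
theorem solve (o : V) (hT : Typed74 A o)
    (hms : ∀ (c p : List (L74 × Bool)) (v : V), FreeGroup.IsReduced c → c.length ≤ 5 →
      A.read p o = some v → gw A (c ++ p) = 1 → A.read (FreeGroup.invRev c) o = some v)
    (h k : Fin 4) (q : Fin 3) (hh : h ≠ 2) (hq : inc74 q k) (p : List (L74 × Bool)) (v : V)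
    (hp : A.read p o = some v)
    (he : t A k * y A q * ((y A 0)⁻¹ * gw A p) = t A 2 * (t A h)⁻¹) :
    q = 0 ∧ ((k = 2 ∧ h = 1 ∧ A.read [(Sum.inl h, false)] o = some v) ∨
      (k = 1 ∧ A.read [(Sum.inl 1, false), (Sum.inl 2, true), (Sum.inl h, false)] o = some v)) := by
  have e1 : ∀ k : Fin 4, gw A [((Sum.inl k : L74), false)] = (t A k)⁻¹ :=
    fun k => Dev.gw_hinv A (Sum.inl k, true)
  have e2 : ∀ q : Fin 3, gw A [((Sum.inr q : L74), false)] = (y A q)⁻¹ :=
    fun q => Dev.gw_hinv A (Sum.inr q, true)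
  have ht : ∀ k, gw A [((Sum.inl k : L74), true)] = t A k := fun k => rfl
  have hy : ∀ q, gw A [((Sum.inr q : L74), true)] = y A q := fun q => rfl
  -- the relation
  have hrel : t A h * (t A 2)⁻¹ * t A k * y A q * (y A 0)⁻¹ * gw A p = 1 := by
    have : t A k * y A q * (y A 0)⁻¹ * gw A p = t A 2 * (t A h)⁻¹ := by
      rw [← he]; group
    calc t A h * (t A 2)⁻¹ * t A k * y A q * (y A 0)⁻¹ * gw A p
        = t A h * (t A 2)⁻¹ * (t A k * y A q * (y A 0)⁻¹ * gw A p) := by group
      _ = 1 := by rw [this]; group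
  have hno : A.st ((Sum.inr 0 : L74), true) o = none := by
    have := (hT.o_y 0)
    rw [← Option.not_isSome_iff_eq_none, this]; decide
  by_cases hq0 : q = 0
  · subst hq0
    refine ⟨rfl, ?_⟩
    by_cases hk : k = 2
    · subst hk
      left
      have h1 := hms [(Sum.inl h, true)] p v (by simp [FreeGroup.IsReduced]) (by simp) hp (by
        rw [Dev.gw_append, ht, ← hrel]; group)
      have h2 : FreeGroup.invRev [((Sum.inl h : L74), true)] = [(Sum.inl h, false)] := by
        simp [FreeGroup.invRev]
      rw [h2] at h1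
      refine ⟨rfl, ?_, h1⟩
      rw [Dev.read_single] at h1
      exact (hT.o_tau h).1 (by rw [h1]; rfl)
    · right
      have h1 := hms [(Sum.inl h, true), (Sum.inl 2, false), (Sum.inl k, true)] p v
        (by simp [FreeGroup.IsReduced, Ne.symm hk, hh]) (by simp) hp (by
        rw [Dev.gw_append, Dev.gw_cons, Dev.gw_cons A (Sum.inl 2, false), ht, ht, e1, ← hrel]
        group)
      have h2 : FreeGroup.invRev [((Sum.inl h : L74), true), (Sum.inl 2, false), (Sum.inl k, true)]
          = [(Sum.inl k, false), (Sum.inl 2, true), (Sum.inl h, false)] := by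
        simp [FreeGroup.invRev]
      rw [h2] at h1
      have h3 : k = 1 := by
        refine (hT.o_tau k).1 ?_
        simp only [PAct.read] at h1
        cases hx : A.st (Sum.inl k, false) o with
        | none => rw [hx] at h1; simp at h1
        | some z => rfl
      subst h3
      exact ⟨rfl, h1⟩
  · exfalso
    by_cases hk : k = 2
    · subst hk
      have h1 := hms [(Sum.inl h, true), (Sum.inr q, true), (Sum.inr 0, false)] p v
        (by simp [FreeGroup.IsReduced, hq0]) (by simp) hp (by
        rw [Dev.gw_append, Dev.gw_cons, Dev.gw_cons A (Sum.inr q, true), ht, hy, e2, ← hrel]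
        group)
      have h2 : FreeGroup.invRev [((Sum.inl h : L74), true), (Sum.inr q, true), (Sum.inr 0, false)]
          = [(Sum.inr 0, true), (Sum.inr q, false), (Sum.inl h, false)] := by
        simp [FreeGroup.invRev]
      rw [h2] at h1
      simp only [PAct.read, hno] at h1
      simp at h1
    · have h1 := hms [(Sum.inl h, true), (Sum.inl 2, false), (Sum.inl k, true), (Sum.inr q, true),
        (Sum.inr 0, false)] p v
        (by simp [FreeGroup.IsReduced, Ne.symm hk, hh, hq0]) (by simp) hp (by
        rw [Dev.gw_append, Dev.gw_cons, Dev.gw_cons A (Sum.inl 2, false),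
          Dev.gw_cons A (Sum.inl k, true), Dev.gw_cons A (Sum.inr q, true), ht, ht, hy, e1, e2,
          ← hrel]
        group)
      have h2 : FreeGroup.invRev [((Sum.inl h : L74), true), (Sum.inl 2, false), (Sum.inl k, true),
          (Sum.inr q, true), (Sum.inr 0, false)]
          = [(Sum.inr 0, true), (Sum.inr q, false), (Sum.inl k, false), (Sum.inl 2, true),
            (Sum.inl h, false)] := by
        simp [FreeGroup.invRev]
      rw [h2] at h1
      simp only [PAct.read, hno] at h1
      simp at h1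

end OS

open OS in
/-- ONE-SIDED -/
theorem one_sided {V : Type} [Finite V] (A : PAct L74 V) (o : V) (hT : Typed74 A o)
    (hshort : ∀ w : List (L74 × Bool), w ≠ [] → FreeGroup.IsReduced w → w.length ≤ 2 →
      gw A w ≠ 1)
    (hms : ∀ (c p : List (L74 × Bool)) (v : V), FreeGroup.IsReduced c → c.length ≤ 5 →
      A.read p o = some v → gw A (c ++ p) = 1 → A.read (FreeGroup.invRev c) o = some v) :
    ∃ a b : MonoidAlgebra (ZMod 2) (Grp A), a * b = 1 ∧ b * a ≠ 1 := by
  have : Fintype V := Fintype.ofFinite V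
  obtain ⟨γ, hγ, hγw, hγo⟩ := Dev.exists_dev A (fun x => x = o) (fun _ _ h h' => h.trans h'.symm)
  set sg : Grp A → MonoidAlgebra (ZMod 2) (Grp A) := fun g => MonoidAlgebra.single g 1 with hsg
  have hmul : ∀ g h, sg g * sg h = sg (g * h) := fun g h => by simp [hsg]
  set cn : V → Prop := fun v => ∃ p, A.read p o = some v with hcn
  have hcn1 : ∀ a v v', A.st a v = some v' → cn v → cn v' := by
    rintro a v v' h ⟨p, hp⟩
    exact ⟨p ++ [a], by rw [Dev.read_append A _ _ _ _ hp, Dev.read_single, h]⟩
  have hcn2 : ∀ a v v', A.st a v = some v' → (cn v ↔ cn v') := fun a v v' h =>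
    ⟨hcn1 a v v' h, hcn1 _ _ _ (A.symm _ _ _ h)⟩
  -- normalised development
  set γ' : V → Grp A := fun v => (y A 0)⁻¹ * γ v with hγ'
  have hγ's : ∀ a v v', A.st a v = some v' → γ' v' = γ' v * gw A [a] := by
    intro a v v' h
    simp only [hγ', hγ a v v' h, mul_assoc]
  have htau : ∀ v k, (A.st (Sum.inl 0, true) v).isSome ↔ (A.st (Sum.inl k, true) v).isSome :=
    fun v k => ⟨hT.tau v 0 k, hT.tau v k 0⟩
  refine ⟨∑ v, if (A.st (Sum.inl 0, true) v).isSome ∧ cn v then sg (γ' v) else 0,
    ∑ q : Fin 3, ∑ k : Fin 4, if inc74 q k then sg (t A k * y A q) else 0, ?_, ?_⟩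
  · -- α β = 1
    rw [Finset.mul_sum]
    have h1 : ∀ q : Fin 3,
        (∑ v, if (A.st (Sum.inl 0, true) v).isSome ∧ cn v then sg (γ' v) else 0) *
          (∑ k : Fin 4, if inc74 q k then sg (t A k * y A q) else 0) =
        (∑ v, if (A.st (Sum.inr q, false) v).isSome then (if cn v then sg (γ' v) else 0) else 0) +
          if q = 0 then 1 else 0 := by
      intro q
      rw [Finset.mul_sum]
      have h2 : ∀ k : Fin 4,
          (∑ v, if (A.st (Sum.inl 0, true) v).isSome ∧ cn v then sg (γ' v) else 0) *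
          (if inc74 q k then sg (t A k * y A q) else 0) =
          ∑ v, if inc74 q k ∧ (A.st (Sum.inl k, false) v).isSome then
            (if cn v then sg (γ' v * y A q) else 0) else 0 := by
        intro k
        by_cases hk : inc74 q k
        · rw [if_pos hk, Finset.sum_mul]
          have h3 := sum_edges A (Sum.inl k)
            (fun v => if cn v then sg (γ' v * (t A k * y A q)) else 0)
            (fun v => if cn v then sg (γ' v * y A q) else 0) (by
              intro v v' h
              simp only [hcn2 _ _ _ h, hγ's _ _ _ h, t, mul_assoc])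
          simp only [hk, true_and]
          rw [← h3]
          refine Finset.sum_congr rfl fun v _ => ?_
          by_cases hv : (A.st (Sum.inl 0, true) v).isSome
          · rw [if_pos ((htau v k).1 hv)]
            by_cases hc : cn v
            · rw [if_pos ⟨hv, hc⟩, if_pos hc, hmul]
            · rw [if_neg (fun h => hc h.2), if_neg hc, zero_mul]
          · rw [if_neg (fun h => hv h.1), if_neg (fun h => hv ((htau v k).2 h)), zero_mul]
        · simp [hk]
      rw [Finset.sum_congr rfl fun k _ => h2 k, Finset.sum_comm]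
      have h4 : ∀ v : V, (∑ k : Fin 4, if inc74 q k ∧ (A.st (Sum.inl k, false) v).isSome then
            (if cn v then sg (γ' v * y A q) else 0) else 0) =
          if Odd (Nat.card {k : Fin 4 // inc74 q k ∧ (A.st (Sum.inl k, false) v).isSome}) then
            (if cn v then sg (γ' v * y A q) else 0) else 0 := by
        intro v
        have h5 : (∑ k : Fin 4, if inc74 q k ∧ (A.st (Sum.inl k, false) v).isSome then
            (if cn v then sg (γ' v * y A q) else 0) else 0) =
            ((Nat.card {k : Fin 4 // inc74 q k ∧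
              (A.st (Sum.inl k, false) v).isSome} : ℕ) : ZMod 2) •
              (if cn v then sg (γ' v * y A q) else 0) := by
          rw [← Finset.sum_filter, Finset.sum_const, Nat.card_eq_fintype_card,
            Fintype.card_subtype, Nat.cast_smul_eq_nsmul]
        rw [h5, natCast_two]
        split_ifs <;> simp
      rw [Finset.sum_congr rfl fun v _ => h4 v,
        ← sum_edges A (Sum.inr q) (fun v => if cn v then sg (γ' v * y A q) else 0)
          (fun v => if cn v then sg (γ' v) else 0) (by
            intro v v' h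
            simp only [hcn2 _ _ _ h, hγ's _ _ _ h, y])]
      rw [← Finset.add_sum_erase _ _ (Finset.mem_univ o),
        ← Finset.add_sum_erase Finset.univ (fun v => if (A.st (Sum.inr q, true) v).isSome then
          (if cn v then sg (γ' v * y A q) else 0) else 0) (Finset.mem_univ o)]
      have h6 : (∑ v ∈ Finset.univ.erase o,
          if Odd (Nat.card {k : Fin 4 // inc74 q k ∧ (A.st (Sum.inl k, false) v).isSome}) then
            (if cn v then sg (γ' v * y A q) else 0) else 0) =
          ∑ v ∈ Finset.univ.erase o, if (A.st (Sum.inr q, true) v).isSome then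
            (if cn v then sg (γ' v * y A q) else 0) else 0 := by
        refine Finset.sum_congr rfl fun v hv => ?_
        have := hT.y_out v (Finset.ne_of_mem_erase hv) q
        by_cases hv : (A.st (Sum.inr q, true) v).isSome
        · rw [if_pos hv, if_pos (this.1 hv)]
        · rw [if_neg hv, if_neg (fun h => hv (this.2 h))]
      have hco : cn o := ⟨[], rfl⟩
      have h7 : Nat.card {k : Fin 4 // inc74 q k ∧ (A.st (Sum.inl k, false) o).isSome} =
          if inc74 q 1 then 1 else 0 := by
        simp only [hT.o_tau]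
        split_ifs with hi
        · rw [Nat.card_eq_one_iff_exists]
          exact ⟨⟨1, hi, rfl⟩, fun b => Subtype.ext b.2.2⟩
        · rw [Nat.card_eq_zero]
          left
          exact ⟨fun b => hi (b.2.2 ▸ b.2.1)⟩
      rw [h6, h7]
      have h8 : (if Odd (if inc74 q 1 then 1 else 0 : ℕ) then
            (if cn o then sg (γ' o * y A q) else 0) else 0) =
          (if (A.st (Sum.inr q, true) o).isSome then
            (if cn o then sg (γ' o * y A q) else 0) else 0) + if q = 0 then 1 else 0 := by
        simp only [hT.o_y, if_pos hco]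
        fin_cases q
        · have : γ' o * y A 0 = 1 := by simp [hγ', hγo o rfl]
          simp only [Fin.zero_eta, this]
          simp [inc74, hsg, MonoidAlgebra.one_def]
        · simp [inc74]
        · simp [inc74]
      rw [h8]
      abel
    rw [Finset.sum_congr rfl fun q _ => h1 q, Finset.sum_add_distrib, Finset.sum_comm]
    have h9 : (∑ v, ∑ q : Fin 3, if (A.st (Sum.inr q, false) v).isSome then
        (if cn v then sg (γ' v) else 0) else 0) = 0 := by
      refine Finset.sum_eq_zero fun v _ => ?_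
      have h4 : (∑ q : Fin 3, if (A.st (Sum.inr q, false) v).isSome then
          (if cn v then sg (γ' v) else 0) else 0) = ((Nat.card {q : Fin 3 //
            (A.st (Sum.inr q, false) v).isSome} : ℕ) : ZMod 2) •
              (if cn v then sg (γ' v) else 0) := by
        rw [← Finset.sum_filter, Finset.sum_const, Nat.card_eq_fintype_card,
          Fintype.card_subtype, Nat.cast_smul_eq_nsmul]
      rw [h4, natCast_two, if_neg (Nat.not_odd_iff_even.2 (hT.z_in v)), zero_smul]
    rw [h9, zero_add]
    simp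
  · -- β α ≠ 1
    intro hba
    -- the product as a triple sum
    have hprod : (∑ q : Fin 3, ∑ k : Fin 4, if inc74 q k then sg (t A k * y A q) else 0) *
        (∑ v, if (A.st (Sum.inl 0, true) v).isSome ∧ cn v then sg (γ' v) else 0) =
        ∑ q : Fin 3, ∑ k : Fin 4, ∑ v, if inc74 q k ∧ (A.st (Sum.inl 0, true) v).isSome ∧ cn v then
          sg (t A k * y A q * γ' v) else 0 := by
      rw [Finset.sum_mul]
      refine Finset.sum_congr rfl fun q _ => ?_
      rw [Finset.sum_mul]
      refine Finset.sum_congr rfl fun k _ => ?_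
      rw [Finset.mul_sum]
      refine Finset.sum_congr rfl fun v _ => ?_
      by_cases hk : inc74 q k
      · by_cases hv : (A.st (Sum.inl 0, true) v).isSome ∧ cn v
        · rw [if_pos hk, if_pos hv, if_pos ⟨hk, hv⟩, hmul]
        · rw [if_pos hk, if_neg hv, mul_zero, if_neg (fun h : _ ∧ _ => hv h.2)]
      · rw [if_neg hk, zero_mul, if_neg (fun h : _ ∧ _ => hk h.1)]
    -- local structure at `o`
    obtain ⟨a0, ha0⟩ := Option.isSome_iff_exists.1 ((hT.o_tau 1).2 rfl)
    have ha0' : A.st (Sum.inl 1, true) a0 = some o := A.symm _ _ _ ha0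
    have hhub0 : (A.st (Sum.inl 0, true) a0).isSome := (htau a0 1).2 (by rw [ha0']; rfl)
    obtain ⟨p1, hp1⟩ := Option.isSome_iff_exists.1 ((htau a0 2).1 hhub0)
    have hp1' : A.st (Sum.inl 2, false) p1 = some a0 := A.symm _ _ _ hp1
    have hcn0 : cn a0 := hcn1 _ _ _ ha0 ⟨[], rfl⟩
    -- key: a nontrivial element with coefficient one
    have key : ∀ (h : Fin 4) (hh : h ≠ 2) (k0 : Fin 4) (hk0 : inc74 0 k0) (v0 : V)
        (hv0 : (A.st (Sum.inl 0, true) v0).isSome) (hc0 : cn v0)
        (he0 : t A k0 * y A 0 * γ' v0 = t A 2 * (t A h)⁻¹)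
        (huni : ∀ q k v p, inc74 q k → A.read p o = some v →
          t A k * y A q * ((y A 0)⁻¹ * gw A p) = t A 2 * (t A h)⁻¹ → q = 0 ∧ k = k0 ∧ v = v0),
        False := by
      intro h hh k0 hk0 v0 hv0 hc0 he0 huni
      have h1 := congrArg (fun x => x.coeff (t A 2 * (t A h)⁻¹)) hba
      simp only [hprod] at h1
      simp only [MonoidAlgebra.coeff_sum, Finsupp.coe_finsetSum, Finset.sum_apply] at h1
      have hu' : ∀ q k v, inc74 q k → cn v → t A k * y A q * γ' v = t A 2 * (t A h)⁻¹ →
          q = 0 ∧ k = k0 ∧ v = v0 := by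
        rintro q k v hi ⟨p, hp⟩ he
        refine huni q k v p hi hp ?_
        rw [← he]
        simp only [hγ', hγw _ _ _ hp, hγo o rfl, one_mul]
      rw [Finset.sum_eq_single (0 : Fin 3), Finset.sum_eq_single k0, Finset.sum_eq_single v0,
        if_pos ⟨hk0, hv0, hc0⟩, he0] at h1
      · rw [hsg] at h1
        simp only [MonoidAlgebra.coeff_single, Finsupp.single_eq_same, MonoidAlgebra.one_def] at h1
        rw [Finsupp.single_apply, if_neg] at h1
        · exact one_ne_zero h1
        · intro h2
          refine hshort [(Sum.inl 2, true), (Sum.inl h, false)] (by simp)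
            (by simp [FreeGroup.IsReduced, Ne.symm hh]) (by simp) ?_
          rw [Dev.gw_cons]
          have : gw A [((Sum.inl h : L74), false)] = (t A h)⁻¹ := Dev.gw_hinv A (Sum.inl h, true)
          rw [this]; exact h2.symm
      · intro v _ hv
        split_ifs with hc
        · rw [hsg, MonoidAlgebra.coeff_single, Finsupp.single_apply, if_neg]
          intro he
          exact hv (hu' 0 k0 v hc.1 hc.2.2 he).2.2
        · simp
      · simp
      · intro k _ hk
        refine Finset.sum_eq_zero fun v _ => ?_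
        split_ifs with hc
        · rw [hsg, MonoidAlgebra.coeff_single, Finsupp.single_apply, if_neg]
          intro he
          exact hk (hu' 0 k v hc.1 hc.2.2 he).2.1
        · simp
      · simp
      · intro q _ hq
        refine Finset.sum_eq_zero fun k _ => Finset.sum_eq_zero fun v _ => ?_
        split_ifs with hc
        · rw [hsg, MonoidAlgebra.coeff_single, Finsupp.single_apply, if_neg]
          intro he
          exact hq (hu' q k v hc.1 hc.2.2 he).1
        · simp
      · simp
    have e1 : ∀ k : Fin 4, gw A [((Sum.inl k : L74), false)] = (t A k)⁻¹ :=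
      fun k => Dev.gw_hinv A (Sum.inl k, true)
    by_cases hc : (A.st (Sum.inl 1, false) p1).isSome
    · -- `{1,2,3}`: use `h = 3`
      obtain ⟨v1, hv1⟩ := Option.isSome_iff_exists.1 (hT.t123 p1 hc (by rw [hp1']; rfl))
      have hv1' : A.st (Sum.inl 3, true) v1 = some p1 := A.symm _ _ _ hv1
      have hr : A.read [((Sum.inl 1 : L74), false), (Sum.inl 2, true), (Sum.inl 3, false)] o =
          some v1 := by
        simp only [PAct.read, ha0, Option.bind_some, hp1, hv1]
      refine key 3 (by decide) 1 (by simp [inc74]) v1 ((htau v1 3).2 (by rw [hv1']; rfl))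
        ⟨_, hr⟩ ?_ ?_
      · have h1 : γ' v1 = (y A 0)⁻¹ * ((t A 1)⁻¹ * t A 2 * (t A 3)⁻¹) := by
          simp only [hγ', hγw _ _ _ hr, hγo o rfl, one_mul]
          rw [Dev.gw_cons, Dev.gw_cons A (Sum.inl 2, true), e1, e1, ← mul_assoc]; rfl
        rw [h1]; group
      · intro q k v p hi hp he
        obtain ⟨hq, h2 | h2⟩ := solve A o hT hms 3 k q (by decide) hi p v hp he
        · exact absurd h2.2.1 (by decide)
        · refine ⟨hq, h2.1, ?_⟩
          have := h2.2
          rw [hr] at this
          exact (Option.some_inj.1 this).symm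
    · -- `1 ∉ type (p1)`: use `h = 1`
      have hr : A.read [((Sum.inl 1 : L74), false)] o = some a0 := by
        rw [Dev.read_single, ha0]
      refine key 1 (by decide) 2 (by simp [inc74]) a0 hhub0 hcn0 ?_ ?_
      · have h1 : γ' a0 = (y A 0)⁻¹ * (t A 1)⁻¹ := by
          simp only [hγ', hγw _ _ _ hr, hγo o rfl, one_mul, e1]
        rw [h1]; group
      · intro q k v p hi hp he
        obtain ⟨hq, h2 | h2⟩ := solve A o hT hms 1 k q (by decide) hi p v hp he
        · refine ⟨hq, h2.1, ?_⟩
          have := h2.2.2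
          rw [hr] at this
          exact (Option.some_inj.1 this).symm
        · exfalso
          have h3 := h2.2
          simp only [PAct.read, ha0, Option.bind_some, hp1] at h3
          apply hc
          cases hx : A.st (Sum.inl 1, false) p1 with
          | none => rw [hx] at h3; simp at h3
          | some z => rfl

end Crest.Agent.R177
end

-- ▼ part R177/Main74

/-!
# Row 184 (S0274): assembly (helper455)
-/

set_option autoImplicit false

open scoped Classical

namespace Crest.Agent.R177

open Crest.Agent.R199 (PAct)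

theorem geomO (κ C P : ℝ) (n : ℕ) (hκ : 0 < κ) (hC : 0 < C) (hP : 0 < P) :
    ∃ (L K D0 C' g₀ : ℕ) (η : ℝ), 0 < η ∧ ∀ (S V : Type) (A : PAct S V) (o : V) (g : ℕ), g₀ ≤ g →
      Girth A g → LocalIneqO A o K D0 (L * g) κ C (P * g) (η * g) → Iso A C' ∧
        (∀ w : List (S × Bool), w ≠ [] → FreeGroup.IsReduced w → w.length ≤ n → gw A w ≠ 1) ∧
        ∀ (c p : List (S × Bool)) (v : V), FreeGroup.IsReduced c → c.length ≤ n →
          A.read p o = some v → gw A (c ++ p) = 1 → A.read (FreeGroup.invRev c) o = some v :=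
  Far.geomO_of geom
    (fun A v o g' K K' D0 L κ C P η a b c d e f h => cut A v o g' K K' D0 L κ C P η a b c d e f h)
    κ C P n hκ hC hP

/-- MAIN -/
theorem main74 : ∃ (G : Type) (_ : Group G), Group.IsFinitelyPresented G ∧
    (∀ g : G, IsOfFinOrder g → g = 1) ∧
      Crest.Topology.HasFiniteClassifyingComplex G 2 ∧
      ∃ a b : MonoidAlgebra (ZMod 2) G, a * b = 1 ∧ b * a ≠ 1 := by
  obtain ⟨M, o, hM⟩ := design74
  obtain ⟨κ, C, P, hκ, hC, hP, hL⟩ := local_lemmaO M o
  obtain ⟨L, K, D0, C', g₀, η, hη, hG⟩ := geomO κ C P 5 hκ hC hP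
  obtain ⟨g, hg, m, A, hA, hgir, hloc⟩ := hL L K D0 η hη g₀
  obtain ⟨hiso, hshort, hms⟩ := hG L74 (M.V m) A (o m) g hg hgir hloc
  have : Finite (M.V m) := M.fin m
  have hasph := aspherical_of_iso A C' hiso
  exact ⟨Grp A, inferInstance, finitelyPresented A, torsionFree_of_aspherical A hasph,
    classifying_of_aspherical A hasph,
    one_sided A (o m) (hM m A hA)
      (fun w hw hr hl => hshort w hw hr (hl.trans (by norm_num))) hms⟩

end Crest.Agent.R177
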