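import Mathlib

-- ▼ part R177/PMap
section

/-!
# Planar maps through `H¹(·; F₂) = 0`

A (spherical) map is a finite type `X` of darts with two permutations `φ` (next dart in the face)
and `α` (the opposite dart, an involution without fixed points).  Planarity is expressed by the
property `PropP`: every `F₂`-valued function on the corners which satisfies the four corner
condition at all edges is the sum of a function of the vertex and a function of the face.

* `skip`, `op`: removal of points from a permutation;
* `op_transfer`: how labels are transported;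
* `exists_remove`: removal of a pair `x, x'` with `x' = α x` or `x' = φ x` keeps `PropP`.
-/

namespace Crest.Agent.R177.PM681

open Equiv

/-- planarity of the map `(φ, α)` -/
def PropP {X : Type*} (φ α : Perm X) : Prop :=
  ∀ a : X → ZMod 2, (∀ x, a x + a (φ x) + a (α x) + a (φ (α x)) = 0) →
    ∃ b h : X → ZMod 2, (∀ x, b (φ (α x)) = b x) ∧ (∀ x, h (φ x) = h x) ∧ ∀ x, a x = b x + h x

section skip

variable {X : Type*} [DecidableEq X]

/-- remove the point `x` from the permutation `ψ` (it becomes a fixed point) -/
def skip (x : X) (ψ : Perm X) : Perm X := swap x (ψ x) * ψ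

@[simp] lemma skip_self (x : X) (ψ : Perm X) : skip x ψ x = x := by simp [skip]

lemma skip_ne {x : X} {ψ : Perm X} {z : X} (hz : z ≠ x) (h : ψ z ≠ x) : skip x ψ z = ψ z := by
  simp only [skip, Perm.mul_apply]
  exact swap_apply_of_ne_of_ne h (fun h' => hz (ψ.injective h'))

lemma skip_eq {x : X} {ψ : Perm X} {z : X} (h : ψ z = x) : skip x ψ z = ψ x := by
  simp [skip, h]

/-- functions see no difference between `ψ` and `skip x ψ` if they agree at `x` and `ψ x` -/
lemma skip_fun {T : Type*} (s : X → T) {x : X} {ψ : Perm X} (hs : s (ψ x) = s x) {z : X}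
    (hz : z ≠ x) : s (skip x ψ z) = s (ψ z) := by
  by_cases h : ψ z = x
  · rw [skip_eq h, hs, h]
  · rw [skip_ne hz h]

/-- the operation `Op(x, x')` on a permutation: remove `x` and `x'` from `ψ * swap x x'` -/
def op (x x' : X) (ψ : Perm X) : Perm X := skip x' (skip x (ψ * swap x x'))

lemma op_left {x x' : X} (ψ : Perm X) (h : x ≠ x') : op x x' ψ x = x := by
  unfold op
  rw [skip_ne h]
  · simp
  · simpa using h

lemma op_right {x x' : X} (ψ : Perm X) : op x x' ψ x' = x' := by
  unfold op
  simp

lemma op_aux {T : Type*} {x x' : X} (hne : x ≠ x') {ψ : Perm X} (s : X → T)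
    (h1 : s (ψ x') = s x) (h2 : s (ψ x) = s x') {y : X} (hy : y ≠ x) (hy' : y ≠ x') :
    s (op x x' ψ y) = s (ψ y) := by
  have e1 : s ((ψ * swap x x') x) = s x := by simpa using h1
  have e2 : s ((ψ * swap x x') x') = s x' := by simpa using h2
  unfold op
  rw [skip_fun s (ψ := skip x (ψ * swap x x')) _ hy', skip_fun s e1 hy]
  · simp [swap_apply_of_ne_of_ne hy hy']
  · rw [skip_fun s e1 hne.symm]
    simpa using h2

/-- transport of labels: if `s ∘ ψ = e` and the values of `s`, `e` at `x'` are those of `e`, `s`
at `x`, then `s ∘ ψ' = e` for the reduced permutation. -/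
lemma op_transfer {T : Type*} {x x' : X} (hne : x ≠ x') {ψ : Perm X} (s e : X → T)
    (h : ∀ y, s (ψ y) = e y) (h1 : s x' = e x) (h2 : e x' = s x) {y : X} (hy : y ≠ x)
    (hy' : y ≠ x') : s (op x x' ψ y) = e y := by
  rw [op_aux hne s _ _ hy hy', h]
  · rw [h, h2]
  · rw [h, h1]

/-- extension of a function to the removed points, so that it is invariant there -/
lemma ext_fun {T : Type*} (ψ : Perm X) {x x' : X} (hne : x ≠ x') (a0 : X → T) (t0 : T) :
    ∃ a : X → T, (∀ y, y ≠ x → y ≠ x' → a y = a0 y) ∧ a (ψ x') = a x ∧ a (ψ x) = a x' := by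
  classical
  set ψ1 : Perm X := ψ * swap x x' with hψ1
  have e1 : ψ1 x = ψ x' := by simp [hψ1]
  have e2 : ψ1 x' = ψ x := by simp [hψ1]
  set ψ2 : Perm X := skip x ψ1 with hψ2
  -- value at x'
  set t1 : T := if ψ2 x' = x' then t0 else a0 (ψ2 x') with ht1
  set a1 : X → T := Function.update a0 x' t1 with ha1
  set t2 : T := if ψ1 x = x then t0 else a1 (ψ1 x) with ht2
  set a2 : X → T := Function.update a1 x t2 with ha2
  have hψ2x : ψ2 x = x := by simp [hψ2]
  have hψ2x' : ψ2 x' ≠ x := by
    intro h
    apply hne
    apply ψ2.injective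
    rw [hψ2x, h]
  have k1 : a2 (ψ1 x) = a2 x := by
    by_cases h : ψ1 x = x
    · rw [h]
    · simp only [ha2, Function.update_self, Function.update_of_ne h, ht2, if_neg h]
  have k2 : a2 (ψ2 x') = a2 x' := by
    by_cases h : ψ2 x' = x'
    · rw [h]
    · rw [ha2, Function.update_of_ne hψ2x', Function.update_of_ne hne.symm, ha1,
        Function.update_of_ne h, Function.update_self, ht1, if_neg h]
  have k3 : a2 (ψ1 x') = a2 x' := by
    rw [← k2, hψ2, skip_fun a2 k1 hne.symm]
  refine ⟨a2, ?_, ?_, ?_⟩
  · intro y hy hy'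
    rw [ha2, Function.update_of_ne hy, ha1, Function.update_of_ne hy']
  · rw [← e1, k1]
  · rw [← e2, k3]

end skip

section remove

variable {X : Type*} [DecidableEq X]

/-- the darts which are left -/
abbrev Rem (x x' : X) : Type _ := {y : X // y ≠ x ∧ y ≠ x'}

lemma op_mem {x x' : X} (hne : x ≠ x') (ψ : Perm X) (y : X) :
    (op x x' ψ y ≠ x ∧ op x x' ψ y ≠ x') ↔ (y ≠ x ∧ y ≠ x') := by
  have h1 := op_left ψ hne
  have h2 := op_right (x := x) (x' := x') ψ
  constructor
  · rintro ⟨h, h'⟩
    refine ⟨?_, ?_⟩
    · rintro rfl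
      exact h h1
    · rintro rfl
      exact h' h2
  · rintro ⟨h, h'⟩
    refine ⟨fun h3 => h ?_, fun h3 => h' ?_⟩
    · exact (op x x' ψ).injective (h3.trans h1.symm)
    · exact (op x x' ψ).injective (h3.trans h2.symm)

/-- the reduced permutation on the remaining darts -/
def rem {x x' : X} (hne : x ≠ x') (ψ : Perm X) : Perm (Rem x x') :=
  (op x x' ψ).subtypePerm (op_mem hne ψ)

@[simp] lemma rem_coe {x x' : X} (hne : x ≠ x') (ψ : Perm X) (y : Rem x x') :
    ((rem hne ψ y : Rem x x') : X) = op x x' ψ y := rfl

lemma rem_transfer {T : Type*} {x x' : X} (hne : x ≠ x') {ψ : Perm X} (s e : X → T)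
    (h : ∀ y, s (ψ y) = e y) (h1 : s x' = e x) (h2 : e x' = s x) (y : Rem x x') :
    s (rem hne ψ y) = e y :=
  op_transfer hne s e h h1 h2 y.2.1 y.2.2

variable {φ α : Perm X}

lemma op_alpha_A (h2 : ∀ x, α (α x) = x) {x x' : X} (hx' : x' = α x) {y : X} (hy : y ≠ x)
    (hy' : y ≠ x') : op x x' α y = α y := by
  have e1 : α y ≠ x := fun h => hy' (by rw [hx', ← h, h2])
  have e2 : α y ≠ x' := fun h => hy (α.injective (by rw [h, hx']))
  have e3 : (α * swap x x') y = α y := by simp [swap_apply_of_ne_of_ne hy hy']
  unfold op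
  have e4 : skip x (α * swap x x') y = α y := by
    rw [skip_ne hy (by rw [e3]; exact e1), e3]
  rw [skip_ne hy' (by rw [e4]; exact e2), e4]

/-- removing an edge keeps `PropP` -/
theorem propP_rem_alpha (h2 : ∀ x, α (α x) = x) (hP : PropP φ α) {x x' : X} (hne : x ≠ x')
    (hx' : x' = α x) : PropP (rem hne φ) (rem hne α) := by
  intro a' ha'
  have hαx' : α x' = x := by rw [hx', h2]
  obtain ⟨a, ha0, ha1, ha2⟩ := ext_fun φ hne
    (fun y => if h : y ≠ x ∧ y ≠ x' then a' ⟨y, h⟩ else 0) 0
  have hav : ∀ y : Rem x x', a y = a' y := by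
    intro y
    rw [ha0 y y.2.1 y.2.2]
    rw [dif_pos y.2]
  have hα : ∀ y : Rem x x', ((rem hne α y : Rem x x') : X) = α y := fun y =>
    op_alpha_A h2 hx' y.2.1 y.2.2
  have hφ : ∀ y : Rem x x', a (rem hne φ y) = a (φ y) := fun y =>
    op_aux hne a ha1 ha2 y.2.1 y.2.2
  have hcond : ∀ y, a y + a (φ y) + a (α y) + a (φ (α y)) = 0 := by
    intro y
    by_cases hy : y = x
    · rw [hy, ← hx', ha1, ha2]
      have : ∀ s t : ZMod 2, s + t + t + s = 0 := by decide
      exact this _ _
    by_cases hy' : y = x'
    · rw [hy', hαx', ha1, ha2]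
      have : ∀ s t : ZMod 2, s + t + t + s = 0 := by decide
      exact this _ _
    · have := ha' ⟨y, hy, hy'⟩
      rw [← hav, ← hav, ← hav, ← hav, hφ, hφ, hα] at this
      exact this
  obtain ⟨b, h, hb, hh, hab⟩ := hP a hcond
  have hbx : b (φ x') = b x := by rw [hx']; exact hb x
  have hbx' : b (φ x) = b x' := by rw [← hb x', hαx']
  have hhx : h x = h x' := by
    have e1 := hab x
    have e2 := hab (φ x')
    rw [ha1, e1, hbx, hh] at e2
    exact add_left_cancel e2
  refine ⟨fun y => b y, fun y => h y, ?_, ?_, ?_⟩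
  · intro y
    show b (rem hne φ (rem hne α y)) = b y
    rw [rem_coe hne φ, op_aux hne b hbx hbx' (rem hne α y).2.1 (rem hne α y).2.2, hα, hb]
  · intro y
    exact rem_transfer hne h h hh hhx.symm hhx.symm y
  · intro y
    rw [← hav, hab]

lemma op_alpha_B (h2 : ∀ x, α (α x) = x) (h1 : ∀ x, α x ≠ x) {x x' : X} (hne : x ≠ x')
    (hα : x' ≠ α x) : (∀ y, y ≠ x → y ≠ x' → y ≠ α x → y ≠ α x' → op x x' α y = α y) ∧
      op x x' α (α x) = α x' ∧ op x x' α (α x') = α x := by
  have hα' : x ≠ α x' := fun h => hα (by rw [h, h2])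
  have n1 : α x ≠ x := h1 x
  have n2 : α x' ≠ x' := h1 x'
  have n3 : α x ≠ α x' := fun h => hne (α.injective h)
  refine ⟨?_, ?_, ?_⟩
  · intro y hy hy' hy1 hy2
    have e1 : α y ≠ x := fun h => hy1 (by rw [← h, h2])
    have e2 : α y ≠ x' := fun h => hy2 (by rw [← h, h2])
    have e3 : (α * swap x x') y = α y := by simp [swap_apply_of_ne_of_ne hy hy']
    have e4 : skip x (α * swap x x') y = α y := by
      rw [skip_ne hy (by rw [e3]; exact e1), e3]
    unfold op
    rw [skip_ne hy' (by rw [e4]; exact e2), e4]
  · have e3 : (α * swap x x') (α x) = x := by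
      rw [Perm.mul_apply, swap_apply_of_ne_of_ne n1 hα.symm, h2]
    have e4 : skip x (α * swap x x') (α x) = α x' := by
      rw [skip_eq e3]; simp
    unfold op
    rw [skip_ne hα.symm (by rw [e4]; exact n2), e4]
  · have e3 : (α * swap x x') (α x') = x' := by
      rw [Perm.mul_apply, swap_apply_of_ne_of_ne hα'.symm n2, h2]
    have e4 : skip x (α * swap x x') (α x') = x' := by
      rw [skip_ne hα'.symm (by rw [e3]; exact hne.symm), e3]
    unfold op
    rw [skip_eq e4]
    have e5 : (α * swap x x') x' = α x := by simp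
    rw [skip_ne hne.symm (by rw [e5]; exact n1), e5]

/-- folding a backtrack keeps `PropP` -/
theorem propP_rem_phi (h2 : ∀ x, α (α x) = x) (h1 : ∀ x, α x ≠ x) (hP : PropP φ α) {x x' : X}
    (hne : x ≠ x') (hx' : x' = φ x) (hαφ : x' ≠ α x) : PropP (rem hne φ) (rem hne α) := by
  intro a' ha'
  obtain ⟨hα0, hαp, hαq⟩ := op_alpha_B h2 h1 hne hαφ
  have hαφ' : x ≠ α x' := fun h => hαφ (by rw [h, h2])
  have n1 : α x ≠ x := h1 x
  have n2 : α x' ≠ x' := h1 x'
  have n3 : α x ≠ α x' := fun h => hne (α.injective h)
  obtain ⟨a, ha0, ha1, ha2⟩ := ext_fun φ hne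
    (fun y => if h : y ≠ x ∧ y ≠ x' then a' ⟨y, h⟩ else 0) 0
  have hav : ∀ y : Rem x x', a y = a' y := by
    intro y
    rw [ha0 y y.2.1 y.2.2]
    rw [dif_pos y.2]
  have hφ : ∀ y : Rem x x', a (rem hne φ y) = a (φ y) := fun y =>
    op_aux hne a ha1 ha2 y.2.1 y.2.2
  -- the corrected value at `x'`
  set a2 : X → ZMod 2 := Function.update a x' (a x + a (α x) + a (φ (α x))) with ha2def
  have hu : ∀ y, y ≠ x' → a2 y = a y := fun y hy => Function.update_of_ne hy _ _
  have hu' : a2 x' = a x + a (α x) + a (φ (α x)) := Function.update_self _ _ _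
  have hφne : ∀ y, y ≠ x → φ y ≠ x' := fun y hy h => hy (φ.injective (h.trans hx'))
  -- the condition at the glued edge
  have hpq : a (α x) + a (φ (α x)) + a (α x') + a (φ (α x')) = 0 := by
    have := ha' ⟨α x, n1, hαφ.symm⟩
    have e : rem hne α ⟨α x, n1, hαφ.symm⟩ = ⟨α x', hαφ'.symm, n2⟩ := Subtype.ext hαp
    rw [← hav, ← hav, ← hav, ← hav, hφ, hφ, e] at this
    exact this
  have hcx : a2 x + a2 (φ x) + a2 (α x) + a2 (φ (α x)) = 0 := by
    rw [← hx', hu', hu x hne, hu _ hαφ.symm, hu _ (hφne _ n1)]
    have : ∀ s t u : ZMod 2, s + (s + t + u) + t + u = 0 := by decide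
    exact this _ _ _
  have hcx' : a2 x' + a2 (φ x') + a2 (α x') + a2 (φ (α x')) = 0 := by
    rw [hu', hu _ (hφne _ hne.symm), hu _ n2, hu _ (hφne _ hαφ'.symm), ha1]
    have : ∀ s t u v w : ZMod 2, t + u + v + w = 0 → (s + t + u) + s + v + w = 0 := by decide
    exact this _ _ _ _ _ hpq
  have hcond : ∀ y, a2 y + a2 (φ y) + a2 (α y) + a2 (φ (α y)) = 0 := by
    have hperm : ∀ s t u v : ZMod 2, s + t + u + v = 0 → u + v + s + t = 0 := by decide
    intro y
    by_cases hy : y = x
    · rw [hy]; exact hcx
    by_cases hy' : y = x'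
    · rw [hy']; exact hcx'
    by_cases hy1 : y = α x
    · rw [hy1, h2]
      exact hperm _ _ _ _ hcx
    by_cases hy2 : y = α x'
    · rw [hy2, h2]
      exact hperm _ _ _ _ hcx'
    · have e1 : α y ≠ x := fun h => hy1 (by rw [← h, h2])
      have e2 : α y ≠ x' := fun h => hy2 (by rw [← h, h2])
      have := ha' ⟨y, hy, hy'⟩
      have e : rem hne α ⟨y, hy, hy'⟩ = ⟨α y, e1, e2⟩ := Subtype.ext (hα0 y hy hy' hy1 hy2)
      rw [← hav, ← hav, ← hav, ← hav, hφ, hφ, e] at this
      rw [hu _ hy', hu _ (hφne _ hy), hu _ e2, hu _ (hφne _ e1)]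
      exact this
  obtain ⟨b, h, hb, hh, hab⟩ := hP a2 hcond
  have hbx : b (φ x') = b x := by
    have k1 := hab (φ x')
    have k2 := hab x
    rw [hu _ (hφne _ hne.symm), ha1] at k1
    rw [hu _ hne] at k2
    have k3 : h (φ x') = h x := by rw [hh, hx', hh]
    rw [k1, k3] at k2
    exact add_right_cancel k2
  have hbx' : b (φ x) = b x' := by rw [hx']
  have hhx : h x = h x' := by rw [hx', hh]
  have hbt : ∀ y : Rem x x', b (rem hne φ y) = b (φ y) := fun y =>
    op_aux hne b hbx hbx' y.2.1 y.2.2
  refine ⟨fun y => b y, fun y => h y, ?_, ?_, ?_⟩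
  · intro y
    show b (rem hne φ (rem hne α y)) = b y
    rw [hbt]
    by_cases hy1 : (y : X) = α x
    · have e : ((rem hne α y : Rem x x') : X) = α x' := by rw [rem_coe, hy1]; exact hαp
      rw [e, hy1, hb, ← hb (α x), h2, hbx']
    by_cases hy2 : (y : X) = α x'
    · have e : ((rem hne α y : Rem x x') : X) = α x := by rw [rem_coe, hy2]; exact hαq
      rw [e, hy2, hb, ← hb (α x'), h2, hbx]
    · have e : ((rem hne α y : Rem x x') : X) = α y := hα0 y y.2.1 y.2.2 hy1 hy2
      rw [e, hb]
  · intro y
    exact rem_transfer hne h h hh hhx.symm hhx.symm y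
  · intro y
    rw [← hav, ← hu _ y.2.2, hab]

lemma rem_invol (h2 : ∀ x, α (α x) = x) (h1 : ∀ x, α x ≠ x) {x x' : X} (hne : x ≠ x') :
    (∀ y, rem hne α (rem hne α y) = y) ∧ ∀ y, rem hne α y ≠ y := by
  by_cases hα : x' = α x
  · have e : ∀ y : Rem x x', ((rem hne α y : Rem x x') : X) = α y := fun y =>
      op_alpha_A h2 hα y.2.1 y.2.2
    refine ⟨fun y => Subtype.ext ?_, fun y hy => h1 y ?_⟩
    · rw [e, e, h2]
    · rw [← e, hy]
  · obtain ⟨hα0, hαp, hαq⟩ := op_alpha_B h2 h1 hne hα
    have n3 : α x ≠ α x' := fun h => hne (α.injective h)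
    have e0 : ∀ y : Rem x x', (y : X) ≠ α x → (y : X) ≠ α x' →
        ((rem hne α y : Rem x x') : X) = α y := fun y h h' => hα0 y y.2.1 y.2.2 h h'
    have ep : ∀ y : Rem x x', (y : X) = α x → ((rem hne α y : Rem x x') : X) = α x' := by
      intro y hy
      rw [rem_coe, hy]; exact hαp
    have eq : ∀ y : Rem x x', (y : X) = α x' → ((rem hne α y : Rem x x') : X) = α x := by
      intro y hy
      rw [rem_coe, hy]; exact hαq
    refine ⟨fun y => Subtype.ext ?_, fun y hy => ?_⟩
    · by_cases hy1 : (y : X) = α x
      · rw [eq _ (ep y hy1), hy1]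
      by_cases hy2 : (y : X) = α x'
      · rw [ep _ (eq y hy2), hy2]
      · have k := e0 y hy1 hy2
        rw [e0 _ _ _, k, h2]
        · rw [k]; exact fun h => y.2.1 (α.injective h)
        · rw [k]; exact fun h => y.2.2 (α.injective h)
    · by_cases hy1 : (y : X) = α x
      · have := ep y hy1
        rw [hy, hy1] at this
        exact n3 this
      by_cases hy2 : (y : X) = α x'
      · have := eq y hy2
        rw [hy, hy2] at this
        exact n3 this.symm
      · have := e0 y hy1 hy2
        rw [hy] at this
        exact h1 y this.symm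

/-- both kinds of removals at once -/
theorem propP_rem (h2 : ∀ x, α (α x) = x) (h1 : ∀ x, α x ≠ x) (hP : PropP φ α) {x x' : X}
    (hne : x ≠ x') (hx : x' = α x ∨ x' = φ x) : PropP (rem hne φ) (rem hne α) := by
  by_cases hα : x' = α x
  · exact propP_rem_alpha h2 hP hne hα
  · rcases hx with hx | hx
    · exact absurd hx hα
    · exact propP_rem_phi h2 h1 hP hne hx hα

end remove

end Crest.Agent.R177.PM681
end

-- ▼ part R177/NC

/-!
# The initial diagram of a free identity

A word `w` in the letters `Λ` (oriented edges of a graph) which is a product of conjugates of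
closed chains ("cells") carries a non-crossing structure `φ` (cells become faces, conjugating
letters become bigons); if `w` is freely trivial it also carries a non-crossing matching `α`.
The two together are a spherical map, see `exists_map`.
-/

namespace Crest.Agent.R177.PM681

open Equiv

/-- closed chain of the relation `R` -/
def ClosedChain {Λ : Type*} (R : Λ → Λ → Prop) (l : List Λ) : Prop :=
  ∀ i (h : i < l.length), R l[i] (l[(i + 1) % l.length]'(Nat.mod_lt _ (by omega)))

/-- words with a non-crossing structure: products of conjugates (by letters with `B`) of the words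
with `C` -/
inductive NCw {Λ : Type*} (inv : Λ → Λ) (B : Λ → Prop) (C : List Λ → Prop) : List Λ → Prop
  | nil : NCw inv B C []
  | append {v w : List Λ} : NCw inv B C v → NCw inv B C w → NCw inv B C (v ++ w)
  | conj (e : Λ) {w : List Λ} : B e → NCw inv B C w → NCw inv B C (e :: (w ++ [inv e]))
  | cell {ρ : List Λ} : C ρ → NCw inv B C ρ

section before

variable {Y A : Type*} [DecidableEq Y] [Monoid A]

/-- product of the values of `E` before the entry `y` of the list -/
def before (E : Y → A) : List Y → Y → A
  | [], _ => 1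
  | z :: l, y => if y = z then 1 else E z * before E l y

lemma before_append_left (E : Y → A) {l m : List Y} {y : Y} (hy : y ∈ l) :
    before E (l ++ m) y = before E l y := by
  induction l with
  | nil => simp at hy
  | cons z l ih =>
    simp only [List.cons_append, before]
    by_cases h : y = z
    · simp [h]
    · rw [if_neg h, if_neg h, ih]
      simpa [h] using hy

lemma before_append_right (E : Y → A) {l m : List Y} {y : Y} (hy : y ∉ l) :
    before E (l ++ m) y = (l.map E).prod * before E m y := by
  induction l with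
  | nil => simp
  | cons z l ih =>
    simp only [List.mem_cons, not_or] at hy
    simp only [List.cons_append, before, List.map_cons, List.prod_cons]
    rw [if_neg hy.1, ih hy.2, mul_assoc]

lemma before_getElem (E : Y → A) {l : List Y} (hl : l.Nodup) (i : ℕ) (h : i < l.length) :
    before E l l[i] = ((l.take i).map E).prod := by
  induction l generalizing i with
  | nil => simp at h
  | cons z l ih =>
    rw [List.nodup_cons] at hl
    cases i with
    | zero => simp [before]
    | succ i =>
      simp only [List.getElem_cons_succ, before, List.take_succ_cons, List.map_cons,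
        List.prod_cons]
      rw [if_neg, ih hl.2]
      intro h'
      exact hl.1 (h' ▸ List.getElem_mem _)

end before

section perm

variable {Y Λ : Type} [DecidableEq Y]

/-- the non-crossing permutation of a word with non-crossing structure -/
theorem exists_perm (lab : Y → Λ) {inv : Λ → Λ} {B : Λ → Prop} {C : List Λ → Prop}
    {R : Λ → Λ → Prop} (hC : ∀ ρ, C ρ → ClosedChain R ρ) (hR : ∀ e, B e → R e (inv e))
    (hR' : ∀ e, B e → R (inv e) e) {w : List Λ} (hw : NCw inv B C w) : ∀ l : List Y, l.Nodup → l.map lab = w →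
    ∃ ψ : Perm Y, (∀ y, y ∉ l → ψ y = y) ∧ (∀ y ∈ l, ψ y ∈ l) ∧
      (∀ y ∈ l, R (lab y) (lab (ψ y))) ∧
      ((∀ ρ, ¬ C ρ) → ∀ y ∈ l, ψ (ψ y) = y ∧ ψ y ≠ y) ∧
      ∀ (A : Type) [Group A] (E : Y → A) (K : Y → Y → Prop),
        (∀ p q, B (lab p) → lab q = inv (lab p) → K p q → K q p → E p * E q = 1) →
        (∀ ρ : List Y, C (ρ.map lab) → ClosedChain K ρ → (ρ.map E).prod = 1) →
        (∀ y ∈ l, K y (ψ y)) →
        (l.map E).prod = 1 ∧ ∀ y ∈ l, before E l (ψ y) = before E l y * E y := by
  induction hw with
  | nil =>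
    intro l hl hlw
    have hl0 : l = [] := by simpa using hlw
    subst hl0
    exact ⟨1, fun y _ => rfl, by simp, by simp, by simp, fun A _ E K _ _ _ => by simp⟩
  | @append v w _ _ ih1 ih2 =>
    intro l hl hlw
    obtain ⟨l1, l2, rfl, h1, h2⟩ := List.map_eq_append_iff.1 hlw
    rw [List.nodup_append] at hl
    obtain ⟨hl1, hl2, hdis⟩ := hl
    have hd1 : ∀ y ∈ l1, y ∉ l2 := fun y hy hy' => hdis y hy y hy' rfl
    have hd2 : ∀ y ∈ l2, y ∉ l1 := fun y hy hy' => hdis y hy' y hy rfl
    obtain ⟨ψ1, a1, b1, c1, d1, e1⟩ := ih1 l1 hl1 h1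
    obtain ⟨ψ2, a2, b2, c2, d2, e2⟩ := ih2 l2 hl2 h2
    have k1 : ∀ y ∈ l1, (ψ1 * ψ2) y = ψ1 y := fun y hy => by
      rw [Perm.mul_apply, a2 y (hd1 y hy)]
    have k2 : ∀ y ∈ l2, (ψ1 * ψ2) y = ψ2 y := fun y hy => by
      rw [Perm.mul_apply, a1 _ (hd2 _ (b2 y hy))]
    refine ⟨ψ1 * ψ2, ?_, ?_, ?_, ?_, ?_⟩
    · intro y hy
      rw [List.mem_append, not_or] at hy
      rw [Perm.mul_apply, a2 y hy.2, a1 y hy.1]
    · intro y hy
      rw [List.mem_append] at hy ⊢
      rcases hy with hy | hy
      · rw [k1 y hy]; exact Or.inl (b1 y hy)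
      · rw [k2 y hy]; exact Or.inr (b2 y hy)
    · intro y hy
      rw [List.mem_append] at hy
      rcases hy with hy | hy
      · rw [k1 y hy]; exact c1 y hy
      · rw [k2 y hy]; exact c2 y hy
    · intro hC' y hy
      rw [List.mem_append] at hy
      rcases hy with hy | hy
      · rw [k1 y hy, k1 _ (b1 y hy)]; exact d1 hC' y hy
      · rw [k2 y hy, k2 _ (b2 y hy)]; exact d2 hC' y hy
    · intro A _ E K hK1 hK2 hK
      obtain ⟨p1, q1⟩ := e1 A E K hK1 hK2 (fun y hy => by
        have := hK y (List.mem_append_left _ hy); rwa [k1 y hy] at this)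
      obtain ⟨p2, q2⟩ := e2 A E K hK1 hK2 (fun y hy => by
        have := hK y (List.mem_append_right _ hy); rwa [k2 y hy] at this)
      refine ⟨by rw [List.map_append, List.prod_append, p1, p2, one_mul], ?_⟩
      intro y hy
      rw [List.mem_append] at hy
      rcases hy with hy | hy
      · rw [k1 y hy, before_append_left E (b1 y hy), before_append_left E hy, q1 y hy]
      · rw [k2 y hy, before_append_right E (hd2 _ (b2 y hy)), before_append_right E (hd2 y hy),
          q2 y hy, mul_assoc]
  | @conj e w hBe _ ih =>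
    intro l hl hlw
    obtain ⟨p, l', rfl, hp, hl'⟩ := List.map_eq_cons_iff.1 hlw
    obtain ⟨m, l2, rfl, hm, hq0⟩ := List.map_eq_append_iff.1 hl'
    obtain ⟨q, l3, rfl, hq, hl3⟩ := List.map_eq_cons_iff.1 hq0
    have : l3 = [] := by simpa using hl3
    subst this
    have hnd := hl
    rw [List.nodup_cons, List.nodup_append] at hl
    obtain ⟨hpm, hm1, -, hdis⟩ := hl
    have hpm' : p ∉ m := fun h => hpm (List.mem_append_left _ h)
    have hpq : p ≠ q := fun h => hpm (List.mem_append_right _ (by simp [h]))
    have hqm : q ∉ m := fun h => hdis q h q (by simp) rfl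
    obtain ⟨ψ, a1, b1, c1, d1, e1⟩ := ih m hm1 hm
    have kp : (ψ * swap p q) p = q := by
      rw [Perm.mul_apply, swap_apply_left, a1 q hqm]
    have kq : (ψ * swap p q) q = p := by
      rw [Perm.mul_apply, swap_apply_right, a1 p hpm']
    have km : ∀ y ∈ m, (ψ * swap p q) y = ψ y := fun y hy => by
      rw [Perm.mul_apply, swap_apply_of_ne_of_ne]
      · rintro rfl; exact hpm' hy
      · rintro rfl; exact hqm hy
    have hmem : ∀ y, y ∈ p :: (m ++ [q]) ↔ y = p ∨ y ∈ m ∨ y = q := by
      intro y; simp
    refine ⟨ψ * swap p q, ?_, ?_, ?_, ?_, ?_⟩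
    · intro y hy
      rw [hmem, not_or, not_or] at hy
      rw [Perm.mul_apply, swap_apply_of_ne_of_ne hy.1 hy.2.2, a1 y hy.2.1]
    · intro y hy
      rw [hmem] at hy ⊢
      rcases hy with rfl | hy | rfl
      · right; right; exact kp
      · rw [km y hy]; right; left; exact b1 y hy
      · left; exact kq
    · intro y hy
      rw [hmem] at hy
      rcases hy with rfl | hy | rfl
      · rw [kp, hq, hp]; exact hR e hBe
      · rw [km y hy]; exact c1 y hy
      · rw [kq, hq, hp]; exact hR' e hBe
    · intro hC' y hy
      rw [hmem] at hy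
      rcases hy with rfl | hy | rfl
      · rw [kp, kq]; exact ⟨rfl, hpq.symm⟩
      · rw [km y hy, km _ (b1 y hy)]; exact d1 hC' y hy
      · rw [kq, kp]; exact ⟨rfl, hpq⟩
    · intro A _ E K hK1 hK2 hK
      obtain ⟨p1, q1⟩ := e1 A E K hK1 hK2 (fun y hy => by
        have := hK y ((hmem y).2 (Or.inr (Or.inl hy))); rwa [km y hy] at this)
      have hKp := hK p ((hmem p).2 (Or.inl rfl))
      have hKq := hK q ((hmem q).2 (Or.inr (Or.inr rfl)))
      rw [kp] at hKp
      rw [kq] at hKq
      have hEpq : E p * E q = 1 := hK1 p q (by rw [hp]; exact hBe) (by rw [hq, hp]) hKp hKq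
      refine ⟨?_, ?_⟩
      · rw [List.map_cons, List.map_append, List.prod_cons, List.prod_append, p1]
        simpa using hEpq
      · have bp : before E (p :: (m ++ [q])) p = 1 := by simp [before]
        have bq : before E (p :: (m ++ [q])) q = E p := by
          simp only [before, if_neg hpq.symm]
          rw [before_append_right E hqm, p1]
          simp [before]
        have bm : ∀ y ∈ m, before E (p :: (m ++ [q])) y = E p * before E m y := by
          intro y hy
          simp only [before]
          rw [if_neg (by rintro rfl; exact hpm' hy), before_append_left E hy]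
        intro y hy
        rw [hmem] at hy
        rcases hy with rfl | hy | rfl
        · rw [kp, bq, bp, one_mul]
        · rw [km y hy, bm _ (b1 y hy), bm y hy, q1 y hy, mul_assoc]
        · rw [kq, bq, bp, hEpq]
  | @cell ρ hρ =>
    intro l hl hlw
    have hlen : ρ.length = l.length := by rw [← hlw, List.length_map]
    have hform := List.formPerm_apply_getElem l hl
    refine ⟨l.formPerm, ?_, ?_, ?_, ?_, ?_⟩
    · intro y hy
      exact List.formPerm_apply_of_notMem hy
    · intro y hy
      exact List.formPerm_apply_mem_of_mem hy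
    · intro y hy
      obtain ⟨i, hi, rfl⟩ := List.getElem_of_mem hy
      rw [hform i hi]
      have := hC ρ hρ
      rw [← hlw] at this
      have := this i (by simpa using hi)
      simpa using this
    · intro hC'
      exact absurd hρ (hC' ρ)
    · intro A _ E K _ hK2 hK
      have hprod : (l.map E).prod = 1 := by
        apply hK2 l (by rw [hlw]; exact hρ)
        intro i hi
        have := hK l[i] (List.getElem_mem hi)
        rwa [hform i hi] at this
      refine ⟨hprod, ?_⟩
      intro y hy
      obtain ⟨i, hi, rfl⟩ := List.getElem_of_mem hy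
      rw [hform i hi, before_getElem E hl, before_getElem E hl]
      by_cases h : i + 1 < l.length
      · rw [Nat.mod_eq_of_lt h]
        have := List.prod_take_succ (l.map E) i (by simpa using hi)
        rw [List.map_take, List.map_take, this]
        simp
      · have h' : i + 1 = l.length := by omega
        have e1 : (i + 1) % l.length = 0 := by rw [h', Nat.mod_self]
        have e2 : ((l.take (i + 1)).map E).prod = 1 := by
          rw [h', List.take_length, hprod]
        have := List.prod_take_succ (l.map E) i (by simpa using hi)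
        rw [← List.map_take, e2, List.getElem_map, ← List.map_take] at this
        rw [← this]
        simp [e1]

end perm

section trivial

variable {S : Type}

/-- inverse letter -/
def linv (s : S × Bool) : S × Bool := (s.1, !s.2)

@[simp] lemma linv_linv (s : S × Bool) : linv (linv s) = s := by simp [linv]

/-- a non-crossing matching survives the insertion of a pair of inverse letters -/
lemma ncw_insert (s : S × Bool) {w : List (S × Bool)} (hw : NCw linv (fun _ => True) (fun _ => False) w) :
    ∀ L1 L2, w = L1 ++ L2 → NCw linv (fun _ => True) (fun _ => False) (L1 ++ s :: linv s :: L2) := by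
  induction hw with
  | nil =>
    intro L1 L2 h
    have h := h.symm
    rw [List.append_eq_nil_iff] at h
    rw [h.1, h.2]
    exact NCw.conj s trivial NCw.nil
  | @append v w hv hw ih1 ih2 =>
    intro L1 L2 h
    rcases List.append_eq_append_iff.1 h with ⟨as, h1, h2⟩ | ⟨bs, h1, h2⟩
    · have := NCw.append hv (ih2 as L2 h2)
      rw [h1]
      simpa using this
    · have := NCw.append (ih1 L1 bs h1) hw
      rw [h2]
      simpa using this
  | @conj e w _ hw ih =>
    intro L1 L2 h
    cases L1 with
    | nil =>
      simp only [List.nil_append] at h ⊢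
      rw [← h]
      have := NCw.append (NCw.conj s trivial NCw.nil) (NCw.conj e trivial hw)
      simpa using this
    | cons f L1 =>
      rw [List.cons_append, List.cons.injEq] at h
      obtain ⟨rfl, h⟩ := h
      rcases List.eq_nil_or_concat L2 with rfl | ⟨L3, g, rfl⟩
      · have := NCw.append (NCw.conj e trivial hw) (NCw.conj s trivial NCw.nil)
        rw [List.append_nil] at h
        rw [← h]
        simpa using this
      · rw [List.concat_eq_append, ← List.append_assoc] at h
        obtain ⟨h1, h2⟩ := List.append_inj' h (by simp)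
        have := NCw.conj e trivial (ih L1 L3 h1)
        rw [h2] at this
        simpa using this
  | cell h => exact absurd h (by simp)

/-- freely trivial words have a non-crossing matching -/
lemma ncw_of_mk_eq_one {w : List (S × Bool)} (h : FreeGroup.mk w = 1) :
    NCw linv (fun _ => True) (fun _ => False) w := by
  rw [FreeGroup.one_eq_mk, FreeGroup.Red.exact] at h
  obtain ⟨v, h1, h2⟩ := h
  rw [FreeGroup.Red.nil_iff] at h2
  subst h2
  induction h1 using Relation.ReflTransGen.head_induction_on with
  | refl => exact NCw.nil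
  | head hstep _ ih =>
    cases hstep with
    | not => exact ncw_insert _ ih _ _ rfl

end trivial

section main

variable {Λ S : Type}

lemma prod_closedChain_of_telescope {Y A : Type} [Group A] (E a : Y → A) :
    ∀ (ρ : List Y), ClosedChain (fun y z => E y = (a y)⁻¹ * a z) ρ → (ρ.map E).prod = 1 := by
  have key : ∀ (ρ : List Y) (p : Y) (z : Y),
      (∀ i (h : i < (p :: ρ).length), E (p :: ρ)[i] = (a (p :: ρ)[i])⁻¹ *
        a (((p :: ρ) ++ [z])[i + 1]'(by simp only [List.length_append, List.length_singleton]; omega)))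
        → ((p :: ρ).map E).prod = (a p)⁻¹ * a z := by
    intro ρ
    induction ρ with
    | nil =>
      intro p z h
      have := h 0 (by simp)
      simpa using this
    | cons q ρ ih =>
      intro p z h
      rw [List.map_cons, List.prod_cons, ih q z]
      · have := h 0 (by simp)
        simp only [List.getElem_cons_zero, List.cons_append, Nat.zero_add,
          List.getElem_cons_succ] at this
        rw [this]
        group
      · intro i hi
        have := h (i + 1) (by simpa using hi)
        simpa using this
  intro ρ hρ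
  cases ρ with
  | nil => simp
  | cons p ρ =>
    rw [key ρ p p, inv_mul_cancel]
    intro i hi
    rw [hρ i hi]
    congr 2
    by_cases h : i + 1 < (p :: ρ).length
    · simp only [Nat.mod_eq_of_lt h]
      rw [List.getElem_append_left h]
    · have h' : i + 1 = (p :: ρ).length := by omega
      simp only [h', Nat.mod_self]
      rw [List.getElem_append_right (le_refl _)]
      simp

lemma before_finRange {A : Type} [Group A] (w : List Λ) (F : Λ → A) (x : Fin w.length) :
    before (fun y => F (w.get y)) (List.finRange w.length) x = ((w.take x).map F).prod := by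
  have h1 : (List.finRange w.length)[(x : ℕ)]'(by simp) = x := by simp
  have h2 := before_getElem (fun y => F (w.get y)) (List.nodup_finRange w.length) x (by simp)
  rw [h1] at h2
  rw [h2]
  congr 1
  have h3 : (List.finRange w.length).map w.get = w := List.map_get_finRange w
  have h4 : w.take x = ((List.finRange w.length).take x).map w.get := by
    rw [List.map_take, h3]
  rw [h4, List.map_map]
  rfl

/-- **The initial diagram.**  `w` is a word in the oriented edges `Λ` (with `inv`), which is a
product of conjugates of cells (`NCw`), and whose word in the letters is freely trivial.  Then there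
is a spherical map on the positions of `w`, and the group valued function "product of the letters
before the position" is compatible with it. -/
theorem exists_map (letter : Λ → S × Bool) {inv : Λ → Λ} {B : Λ → Prop} {C : List Λ → Prop}
    {R : Λ → Λ → Prop}
    (hC : ∀ ρ, C ρ → ClosedChain R ρ) (hR : ∀ e, B e → R e (inv e)) (hR' : ∀ e, B e → R (inv e) e)
    (hletter : ∀ e, letter (inv e) = linv (letter e))
    {w : List Λ} (hw : NCw inv B C w) (hw1 : FreeGroup.mk (w.map letter) = 1) :
    ∃ φ α : Perm (Fin w.length), (∀ x, α (α x) = x) ∧ (∀ x, α x ≠ x) ∧ PropP φ α ∧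
      (∀ x, R (w.get x) (w.get (φ x))) ∧
      (∀ x, letter (w.get (α x)) = linv (letter (w.get x))) ∧
      (∀ (A : Type) [Group A] (ev : S × Bool → A), (∀ s, ev (linv s) = (ev s)⁻¹) →
        (∀ ρ, C ρ → (ρ.map (fun e => ev (letter e))).prod = 1) →
        ∀ x : Fin w.length,
          (((w.take (φ x)).map (fun e => ev (letter e))).prod =
            ((w.take x).map (fun e => ev (letter e))).prod * ev (letter (w.get x))) ∧
          (((w.take (α x)).map (fun e => ev (letter e))).prod =
            ((w.take x).map (fun e => ev (letter e))).prod * ev (letter (w.get x)))) := by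
  classical
  have hnd : (List.finRange w.length).Nodup := List.nodup_finRange _
  have hmap : (List.finRange w.length).map w.get = w := List.map_get_finRange w
  have hmem : ∀ x, x ∈ List.finRange w.length := List.mem_finRange
  obtain ⟨φ, -, -, f1, -, f2⟩ := exists_perm w.get hC hR hR' hw (List.finRange w.length) hnd hmap
  have hw2 := ncw_of_mk_eq_one hw1
  obtain ⟨α, -, -, g1, g0, g2⟩ := exists_perm (fun x => letter (w.get x)) (R := fun s t => t = linv s)
    (C := fun _ => False) (by simp) (fun _ _ => rfl) (fun e _ => (linv_linv e).symm) hw2 (List.finRange w.length) hnd (by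
      conv_rhs => rw [← hmap]
      rw [List.map_map]; rfl)
  refine ⟨φ, α, fun x => (g0 (by simp) x (hmem x)).1, fun x => (g0 (by simp) x (hmem x)).2, ?_,
    fun x => f1 x (hmem x), fun x => g1 x (hmem x), ?_⟩
  · intro a ha
    have hneg : ∀ t : ZMod 2, -t = t := by decide
    set E : Fin w.length → Multiplicative (ZMod 2) :=
      fun x => Multiplicative.ofAdd (a x + a (φ x)) with hE
    have hEφ : ∀ x y, E x = (Multiplicative.ofAdd (a x))⁻¹ * Multiplicative.ofAdd (a y) ↔
        a x + a (φ x) = a x + a y := by
      intro x y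
      rw [← ofAdd_neg, ← ofAdd_add, hneg]
      exact Multiplicative.ofAdd.injective.eq_iff
    have F := (f2 (Multiplicative (ZMod 2)) E
      (fun x y => E x = (Multiplicative.ofAdd (a x))⁻¹ * Multiplicative.ofAdd (a y)) (by
        intro p q _ _ h1 h2
        rw [h1, h2]; group) (by
        intro ρ _ hρ
        exact prod_closedChain_of_telescope E (fun x => Multiplicative.ofAdd (a x)) ρ hρ) (by
        intro y _
        rw [hEφ])).2
    have hEα : ∀ y, E (α y) = (E y)⁻¹ := by
      intro y
      rw [hE]
      simp only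
      rw [← ofAdd_neg, hneg]
      congr 1
      have := ha y
      have h4 : ∀ s t u v : ZMod 2, s + t + u + v = 0 → u + v = s + t := by decide
      exact h4 _ _ _ _ this
    have G := (g2 (Multiplicative (ZMod 2)) E (fun x y => E y = (E x)⁻¹) (by
        intro p q _ _ h1 _
        rw [h1, mul_inv_cancel]) (by
        intro ρ h; exact absurd h (by simp)) (fun y _ => hEα y)).2
    set b : Fin w.length → ZMod 2 :=
      fun x => Multiplicative.toAdd (before E (List.finRange w.length) x) with hb
    have Fb : ∀ x, b (φ x) = b x + (a x + a (φ x)) := by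
      intro x
      rw [hb]
      simp only
      rw [F x (hmem x), toAdd_mul]
      rfl
    have Gb : ∀ x, b (α x) = b x + (a x + a (φ x)) := by
      intro x
      rw [hb]
      simp only
      rw [G x (hmem x), toAdd_mul]
      rfl
    refine ⟨b, fun x => a x + b x, ?_, ?_, ?_⟩
    · intro x
      rw [Fb, Gb]
      have := ha x
      have h4 : ∀ s t u v c : ZMod 2, s + t + u + v = 0 → c + (s + t) + (u + v) = c := by decide
      exact h4 _ _ _ _ _ this
    · intro x
      simp only
      rw [Fb]
      have h4 : ∀ s t c : ZMod 2, t + (c + (s + t)) = s + c := by decide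
      exact h4 _ _ _
    · intro x
      have h4 : ∀ s c : ZMod 2, s = c + (s + c) := by decide
      exact h4 _ _
  · intro A _ ev hev hCev x
    have F := (f2 A (fun x => ev (letter (w.get x))) (fun _ _ => True) (by
        intro p q _ h _ _
        show ev (letter (w.get p)) * ev (letter (w.get q)) = 1
        rw [h, hletter, hev, mul_inv_cancel]) (by
        intro ρ h _
        have := hCev _ h
        rwa [List.map_map] at this) (by simp)).2 x (hmem x)
    have G := (g2 A (fun x => ev (letter (w.get x))) (fun _ _ => True) (by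
        intro p q _ h _ _
        show ev (letter (w.get p)) * ev (letter (w.get q)) = 1
        rw [h, hev, mul_inv_cancel]) (by
        intro ρ h; exact absurd h (by simp)) (by simp)).2 x (hmem x)
    rw [before_finRange w (fun e => ev (letter e)), before_finRange w (fun e => ev (letter e))] at F G
    exact ⟨F, G⟩

end main

end Crest.Agent.R177.PM681
private theorem rz_e3a34fc1e5 : type_of% @_root_.Crest.Agent.R177.PM681.before.eq_def := @_root_.Crest.Agent.R177.PM681.before.eq_def -- L33
private theorem rz_adbaaf438d : type_of% @_root_.Crest.Agent.R177.PM681.before.eq_1 := @_root_.Crest.Agent.R177.PM681.before.eq_1 -- L33
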