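import Crest.Agent.R177.TopDefs
import Crest.Prelude.Def_ClassifyingComplex
import Crest.Agent.R197.TCWBuild
import Crest.Agent.R177.Dev
import Mathlib

-- ▼ part R177/TopReal
section

/-!
# Rows 177 / 184, module TOPOLOGY (8a): realization of a cone complex (helper961)
-/

set_option autoImplicit false

open scoped unitInterval Topology

namespace Crest.Agent.R177.Top

variable {X : Cx}

/-- points of the cells -/
inductive Pre (X : Cx) : Type
  | p (x : X.P)
  | a (x : X.A) (s : I)
  | b (x : X.B) (s : I)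
  | f (x : X.F) (y : I × I)

/-- boundary identifications -/
inductive Rl (X : Cx) : Pre X → Pre X → Prop
  | a0 (x : X.A) : Rl X (.a x 0) (.p (X.asrc x))
  | a1 (x : X.A) : Rl X (.a x 1) (.p (X.atgt x))
  | b0 (x : X.B) : Rl X (.b x 0) (.p (X.bsrc x))
  | b1 (x : X.B) : Rl X (.b x 1) (.p (X.btgt x))
  | bot (x : X.F) (s : I) : Rl X (.f x (s, 0)) (.p (X.fb x))
  | left (x : X.F) (t : I) : Rl X (.f x (0, t)) (.b (X.fl x) t)
  | right (x : X.F) (t : I) : Rl X (.f x (1, t)) (.b (X.fr x) t)
  | top (x : X.F) (s : I) : Rl X (.f x (s, 1)) (.a (X.ft x) s)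

/-- realization -/
def Real (X : Cx) : Type := Quot (Rl X)

namespace Real

/-- vertices -/
def vert (x : X.P) : Real X := Quot.mk _ (.p x)

/-- letter edges -/
def ea' (x : X.A) (s : I) : Real X := Quot.mk _ (.a x s)

/-- cone edges -/
def eb' (x : X.B) (s : I) : Real X := Quot.mk _ (.b x s)

/-- squares -/
def sq' (x : X.F) (y : I × I) : Real X := Quot.mk _ (.f x y)

instance instTop : TopologicalSpace (Real X) :=
  (⨆ x : X.A, TopologicalSpace.coinduced (ea' x) inferInstance) ⊔
  (⨆ x : X.B, TopologicalSpace.coinduced (eb' x) inferInstance) ⊔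
  (⨆ x : X.F, TopologicalSpace.coinduced (sq' x) inferInstance)

theorem continuous_iff {Z : Type*} [TopologicalSpace Z] {g : Real X → Z} :
    Continuous g ↔ (∀ x, Continuous fun s => g (ea' x s)) ∧ (∀ x, Continuous fun s => g (eb' x s)) ∧
      ∀ x, Continuous fun y => g (sq' x y) := by
  exact (continuous_sup_dom.trans (and_congr (continuous_sup_dom.trans (and_congr
    (continuous_iSup_dom.trans (forall_congr' fun _ => continuous_coinduced_dom))
    (continuous_iSup_dom.trans (forall_congr' fun _ => continuous_coinduced_dom))))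
    (continuous_iSup_dom.trans (forall_congr' fun _ => continuous_coinduced_dom)))).trans and_assoc

theorem continuous_ea' (x : X.A) : Continuous (ea' x) :=
  (continuous_iff.mp continuous_id).1 x

theorem continuous_eb' (x : X.B) : Continuous (eb' x) :=
  (continuous_iff.mp continuous_id).2.1 x

theorem continuous_sq' (x : X.F) : Continuous (sq' x) :=
  (continuous_iff.mp continuous_id).2.2 x

/-- lifting a compatible family (function) -/
def liftFun {Z : Type} [TopologicalSpace Z] (h : Fam X Z) : Real X → Z :=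
  Quot.lift (fun y => match y with
    | .p x => h.vert x
    | .a x s => h.ea x s
    | .b x s => h.eb x s
    | .f x y => h.sq x y) (by
      intro y z r
      cases r with
      | a0 x => exact h.ea_zero x
      | a1 x => exact h.ea_one x
      | b0 x => exact h.eb_zero x
      | b1 x => exact h.eb_one x
      | bot x s => exact h.sq_bot x s
      | left x t => exact h.sq_left x t
      | right x t => exact h.sq_right x t
      | top x s => exact h.sq_top x s)

/-- lifting a compatible family -/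
def lift {Z : Type} [TopologicalSpace Z] (h : Fam X Z) : C(Real X, Z) where
  toFun := liftFun h
  continuous_toFun := continuous_iff.mpr
    ⟨fun x => (h.ea x).continuous, fun x => (h.eb x).continuous,
      fun x => (h.sq x).continuous⟩

@[simp] theorem lift_vert {Z : Type} [TopologicalSpace Z] (h : Fam X Z) (x : X.P) :
    lift h (vert x) = h.vert x := rfl

@[simp] theorem lift_ea' {Z : Type} [TopologicalSpace Z] (h : Fam X Z) (x : X.A) (s : I) :
    lift h (ea' x s) = h.ea x s := rfl

@[simp] theorem lift_eb' {Z : Type} [TopologicalSpace Z] (h : Fam X Z) (x : X.B) (s : I) :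
    lift h (eb' x s) = h.eb x s := rfl

@[simp] theorem lift_sq' {Z : Type} [TopologicalSpace Z] (h : Fam X Z) (x : X.F) (y : I × I) :
    lift h (sq' x y) = h.sq x y := rfl

theorem ea'_zero (x : X.A) : ea' x 0 = vert (X.asrc x) := Quot.sound (Rl.a0 x)
theorem ea'_one (x : X.A) : ea' x 1 = vert (X.atgt x) := Quot.sound (Rl.a1 x)
theorem eb'_zero (x : X.B) : eb' x 0 = vert (X.bsrc x) := Quot.sound (Rl.b0 x)
theorem eb'_one (x : X.B) : eb' x 1 = vert (X.btgt x) := Quot.sound (Rl.b1 x)
theorem sq'_bot (x : X.F) (s : I) : sq' x (s, 0) = vert (X.fb x) := Quot.sound (Rl.bot x s)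
theorem sq'_left (x : X.F) (t : I) : sq' x (0, t) = eb' (X.fl x) t := Quot.sound (Rl.left x t)
theorem sq'_right (x : X.F) (t : I) : sq' x (1, t) = eb' (X.fr x) t := Quot.sound (Rl.right x t)
theorem sq'_top (x : X.F) (s : I) : sq' x (s, 1) = ea' (X.ft x) s := Quot.sound (Rl.top x s)

/-- the realization as a `ConeCx` -/
def cone (X : Cx) : ConeCx X (Real X) where
  vert := vert
  ea x := ⟨ea' x, continuous_ea' x⟩
  eb x := ⟨eb' x, continuous_eb' x⟩
  sq x := ⟨sq' x, continuous_sq' x⟩
  ea_zero := ea'_zero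
  ea_one := ea'_one
  eb_zero := eb'_zero
  eb_one := eb'_one
  sq_bot := sq'_bot
  sq_left := sq'_left
  sq_right := sq'_right
  sq_top := sq'_top
  glue _ _ h := ⟨lift h, fun _ => rfl, fun _ _ => rfl, fun _ _ => rfl, fun _ _ => rfl⟩
  cover := by
    intro x
    induction x using Quot.inductionOn with | _ y => ?_
    cases y with
    | p x => exact Or.inl ⟨x, rfl⟩
    | a x s => exact Or.inr (Or.inl ⟨x, s, rfl⟩)
    | b x s => exact Or.inr (Or.inr (Or.inl ⟨x, s, rfl⟩))
    | f x y => exact Or.inr (Or.inr (Or.inr ⟨x, y, rfl⟩))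

theorem I_cases (s : I) : s = 0 ∨ s = 1 ∨ (0 < (s : ℝ) ∧ (s : ℝ) < 1) := by
  rcases eq_or_lt_of_le s.2.1 with h | h
  · exact Or.inl (Subtype.ext h.symm)
  · rcases eq_or_lt_of_le s.2.2 with h' | h'
    · exact Or.inr (Or.inl (Subtype.ext h'))
    · exact Or.inr (Or.inr ⟨h, h'⟩)

/-- interior parameters -/
def Int (s : I) : Prop := 0 < (s : ℝ) ∧ (s : ℝ) < 1

/-- every point lies in an open cell -/
theorem normal (x : Real X) : (∃ p, x = vert p) ∨ (∃ a s, Int s ∧ x = ea' a s) ∨
    (∃ b s, Int s ∧ x = eb' b s) ∨ ∃ f s t, Int s ∧ Int t ∧ x = sq' f (s, t) := by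
  have ha : ∀ a s, (∃ p, (ea' a s : Real X) = vert p) ∨ (∃ a' s', Int s' ∧ ea' a s = ea' a' s') := by
    intro a s
    rcases I_cases s with rfl | rfl | h
    · exact Or.inl ⟨_, ea'_zero a⟩
    · exact Or.inl ⟨_, ea'_one a⟩
    · exact Or.inr ⟨a, s, h, rfl⟩
  have hb : ∀ b s, (∃ p, (eb' b s : Real X) = vert p) ∨ (∃ b' s', Int s' ∧ eb' b s = eb' b' s') := by
    intro b s
    rcases I_cases s with rfl | rfl | h
    · exact Or.inl ⟨_, eb'_zero b⟩
    · exact Or.inl ⟨_, eb'_one b⟩
    · exact Or.inr ⟨b, s, h, rfl⟩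
  induction x using Quot.inductionOn with | _ y => ?_
  cases y with
  | p x => exact Or.inl ⟨x, rfl⟩
  | a x s =>
    rcases ha x s with h | ⟨a', s', hs, h⟩
    · exact Or.inl h
    · exact Or.inr (Or.inl ⟨a', s', hs, h⟩)
  | b x s =>
    rcases hb x s with h | ⟨a', s', hs, h⟩
    · exact Or.inl h
    · exact Or.inr (Or.inr (Or.inl ⟨a', s', hs, h⟩))
  | f x y =>
    obtain ⟨s, t⟩ := y
    change (∃ p, sq' x (s, t) = vert p) ∨ (∃ a s', Int s' ∧ sq' x (s, t) = ea' a s') ∨
      (∃ b s', Int s' ∧ sq' x (s, t) = eb' b s') ∨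
      ∃ f s' t', Int s' ∧ Int t' ∧ sq' x (s, t) = sq' f (s', t')
    rcases I_cases t with rfl | rfl | ht
    · exact Or.inl ⟨_, sq'_bot x s⟩
    · rw [sq'_top]
      rcases ha (X.ft x) s with h | ⟨a', s', hs, h⟩
      · exact Or.inl h
      · exact Or.inr (Or.inl ⟨a', s', hs, h⟩)
    · rcases I_cases s with rfl | rfl | hs
      · rw [sq'_left]
        rcases hb (X.fl x) t with h | ⟨a', s', hs, h⟩
        · exact Or.inl h
        · exact Or.inr (Or.inr (Or.inl ⟨a', s', hs, h⟩))
      · rw [sq'_right]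
        rcases hb (X.fr x) t with h | ⟨a', s', hs, h⟩
        · exact Or.inl h
        · exact Or.inr (Or.inr (Or.inl ⟨a', s', hs, h⟩))
      · exact Or.inr (Or.inr (Or.inr ⟨x, s, t, hs, ht, rfl⟩))

/-! ## Coordinate functions -/

/-- vertex weights -/
noncomputable def famP (w : X.P → ℝ) : Fam X ℝ where
  vert := w
  ea a := ⟨fun s => (1 - (s : ℝ)) * w (X.asrc a) + s * w (X.atgt a), by fun_prop⟩
  eb b := ⟨fun s => (1 - (s : ℝ)) * w (X.bsrc b) + s * w (X.btgt b), by fun_prop⟩
  sq f := ⟨fun y => (1 - (y.2 : ℝ)) * w (X.fb f) +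
    y.2 * ((1 - (y.1 : ℝ)) * w (X.asrc (X.ft f)) + y.1 * w (X.atgt (X.ft f))), by fun_prop⟩
  ea_zero a := by simp
  ea_one a := by simp
  eb_zero a := by simp
  eb_one a := by simp
  sq_bot f s := by simp
  sq_left f t := by simp [X.bsrc_fl, X.btgt_fl]
  sq_right f t := by simp [X.bsrc_fr, X.btgt_fr]
  sq_top f s := by simp

/-- letter edge bumps -/
noncomputable def famA (w : X.A → ℝ) (j : Bool) : Fam X ℝ where
  vert _ := 0
  ea a := ⟨fun s => w a * (s * (1 - (s : ℝ))) * (if j then (s : ℝ) else 1), by split <;> fun_prop⟩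
  eb b := ⟨fun _ => 0, by fun_prop⟩
  sq f := ⟨fun y => y.2 * (w (X.ft f) * (y.1 * (1 - (y.1 : ℝ))) * (if j then (y.1 : ℝ) else 1)),
    by split <;> fun_prop⟩
  ea_zero a := by simp
  ea_one a := by simp
  eb_zero a := by simp
  eb_one a := by simp
  sq_bot f s := by simp
  sq_left f t := by simp
  sq_right f t := by simp
  sq_top f s := by simp

/-- cone edge bumps -/
noncomputable def famB (w : X.B → ℝ) (j : Bool) : Fam X ℝ where
  vert _ := 0
  ea a := ⟨fun _ => 0, by fun_prop⟩
  eb b := ⟨fun s => w b * (s * (1 - (s : ℝ))) * (if j then (s : ℝ) else 1), by split <;> fun_prop⟩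
  sq f := ⟨fun y => ((1 - (y.1 : ℝ)) * w (X.fl f) + y.1 * w (X.fr f)) * (y.2 * (1 - (y.2 : ℝ))) *
    (if j then (y.2 : ℝ) else 1), by split <;> fun_prop⟩
  ea_zero a := by simp
  ea_one a := by simp
  eb_zero a := by simp
  eb_one a := by simp
  sq_bot f s := by simp
  sq_left f t := by simp
  sq_right f t := by simp
  sq_top f s := by simp

/-- square bumps -/
noncomputable def famF (w : X.F → ℝ) (j k : Bool) : Fam X ℝ where
  vert _ := 0
  ea a := ⟨fun _ => 0, by fun_prop⟩
  eb b := ⟨fun s => 0, by fun_prop⟩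
  sq f := ⟨fun y => w f * (y.1 * (1 - (y.1 : ℝ))) * (y.2 * (1 - (y.2 : ℝ))) *
    (if j then (y.1 : ℝ) else 1) * (if k then (y.2 : ℝ) else 1), by
      split <;> split <;> fun_prop⟩
  ea_zero a := by simp
  ea_one a := by simp
  eb_zero a := by simp
  eb_one a := by simp
  sq_bot f s := by simp
  sq_left f t := by simp
  sq_right f t := by simp
  sq_top f s := by simp

end Real

end Crest.Agent.R177.Top
end

-- ▼ part R177/TopCov
section

/-!
# Rows 177 / 184, module TOPOLOGY (8b): free actions on cone complexes (helper961)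
-/

set_option autoImplicit false

open scoped unitInterval Topology

namespace Crest.Agent.R177.Top

/-- A group acting freely on a cone complex, with types of cells = orbits. -/
structure GCx (G : Type) [Group G] (X : Cx) where
  P : G → X.P → X.P
  A : G → X.A → X.A
  B : G → X.B → X.B
  F : G → X.F → X.F
  P_one : ∀ x, P 1 x = x
  A_one : ∀ x, A 1 x = x
  B_one : ∀ x, B 1 x = x
  F_one : ∀ x, F 1 x = x
  P_mul : ∀ g h x, P (g * h) x = P g (P h x)
  A_mul : ∀ g h x, A (g * h) x = A g (A h x)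
  B_mul : ∀ g h x, B (g * h) x = B g (B h x)
  F_mul : ∀ g h x, F (g * h) x = F g (F h x)
  asrc : ∀ g x, X.asrc (A g x) = P g (X.asrc x)
  atgt : ∀ g x, X.atgt (A g x) = P g (X.atgt x)
  bsrc : ∀ g x, X.bsrc (B g x) = P g (X.bsrc x)
  btgt : ∀ g x, X.btgt (B g x) = P g (X.btgt x)
  fb : ∀ g x, X.fb (F g x) = P g (X.fb x)
  fl : ∀ g x, X.fl (F g x) = B g (X.fl x)
  fr : ∀ g x, X.fr (F g x) = B g (X.fr x)
  ft : ∀ g x, X.ft (F g x) = A g (X.ft x)
  freeP : ∀ g x, P g x = x → g = 1
  freeA : ∀ g x, A g x = x → g = 1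
  /-- cone points -/
  cp : X.P → Prop
  cp_asrc : ∀ x, ¬ cp (X.asrc x)
  cp_atgt : ∀ x, ¬ cp (X.atgt x)
  cp_bsrc : ∀ x, cp (X.bsrc x)
  cp_btgt : ∀ x, ¬ cp (X.btgt x)
  cp_inv : ∀ g x, cp (P g x) → cp x
  TP : Type
  TA : Type
  TB : Type
  TF : Type
  tP : X.P → TP
  tA : X.A → TA
  tB : X.B → TB
  tF : X.F → TF
  tP_inv : ∀ g x, tP (P g x) = tP x
  tA_inv : ∀ g x, tA (A g x) = tA x
  tB_inv : ∀ g x, tB (B g x) = tB x
  tF_inv : ∀ g x, tF (F g x) = tF x
  tP_tr : ∀ x y, tP x = tP y → ∃ g, P g x = y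
  tA_tr : ∀ x y, tA x = tA y → ∃ g, A g x = y
  tB_tr : ∀ x y, tB x = tB y → ∃ g, B g x = y
  tF_tr : ∀ x y, tF x = tF y → ∃ g, F g x = y
  tP_sj : Function.Surjective tP
  tA_sj : Function.Surjective tA
  tB_sj : Function.Surjective tB
  tF_sj : Function.Surjective tF

namespace GCx

open Crest.Agent.R177.Top.Real

variable {G : Type} [Group G] {X : Cx} (T : GCx G X)

/-- action of a group element as a compatible family -/
def fam (g : G) : Fam X (Real X) where
  vert p := vert (T.P g p)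
  ea a := ⟨ea' (T.A g a), continuous_ea' _⟩
  eb b := ⟨eb' (T.B g b), continuous_eb' _⟩
  sq f := ⟨sq' (T.F g f), continuous_sq' _⟩
  ea_zero a := (ea'_zero _).trans (by rw [T.asrc])
  ea_one a := (ea'_one _).trans (by rw [T.atgt])
  eb_zero a := (eb'_zero _).trans (by rw [T.bsrc])
  eb_one a := (eb'_one _).trans (by rw [T.btgt])
  sq_bot f s := (sq'_bot _ _).trans (by rw [T.fb])
  sq_left f t := (sq'_left _ _).trans (by rw [T.fl]; rfl)
  sq_right f t := (sq'_right _ _).trans (by rw [T.fr]; rfl)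
  sq_top f s := (sq'_top _ _).trans (by rw [T.ft]; rfl)

/-- the points of the realization, with the action of `G` -/
def Sp (_T : GCx G X) : Type := Real X

instance : TopologicalSpace T.Sp := inferInstanceAs (TopologicalSpace (Real X))

/-- action -/
def act (g : G) (x : T.Sp) : T.Sp := liftFun (T.fam g) x

instance : MulAction G T.Sp where
  smul g x := T.act g x
  one_smul x := by
    change T.act 1 x = x
    induction x using Quot.inductionOn with | _ y => ?_
    cases y with
    | p x => exact congrArg vert (T.P_one x)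
    | a x s => exact congrArg (fun z => ea' z s) (T.A_one x)
    | b x s => exact congrArg (fun z => eb' z s) (T.B_one x)
    | f x y => exact congrArg (fun z => sq' z y) (T.F_one x)
  mul_smul g h x := by
    change T.act (g * h) x = T.act g (T.act h x)
    induction x using Quot.inductionOn with | _ y => ?_
    cases y with
    | p x => exact congrArg vert (T.P_mul g h x)
    | a x s => exact congrArg (fun z => ea' z s) (T.A_mul g h x)
    | b x s => exact congrArg (fun z => eb' z s) (T.B_mul g h x)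
    | f x y => exact congrArg (fun z => sq' z y) (T.F_mul g h x)

/-- vertices -/
def v (p : X.P) : T.Sp := vert p
/-- letter edges -/
def a (x : X.A) (s : I) : T.Sp := ea' x s
/-- cone edges -/
def b (x : X.B) (s : I) : T.Sp := eb' x s
/-- squares -/
def f (x : X.F) (y : I × I) : T.Sp := sq' x y

theorem smul_v (g : G) (p : X.P) : g • T.v p = T.v (T.P g p) := rfl
theorem smul_a (g : G) (x : X.A) (s : I) : g • T.a x s = T.a (T.A g x) s := rfl
theorem smul_b (g : G) (x : X.B) (s : I) : g • T.b x s = T.b (T.B g x) s := rfl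
theorem smul_f (g : G) (x : X.F) (y : I × I) : g • T.f x y = T.f (T.F g x) y := rfl

theorem norm (x : T.Sp) : (∃ p, x = T.v p) ∨ (∃ a s, Int s ∧ x = T.a a s) ∨
    (∃ b s, Int s ∧ x = T.b b s) ∨ ∃ f s t, Int s ∧ Int t ∧ x = T.f f (s, t) :=
  normal x

instance : ContinuousConstSMul G T.Sp where
  continuous_const_smul g := (lift (T.fam g)).continuous

/-- vertex functions -/
noncomputable def fP (w : X.P → ℝ) : C(T.Sp, ℝ) := lift (famP w)
/-- letter edge functions -/
noncomputable def fA (w : X.A → ℝ) (j : Bool) : C(T.Sp, ℝ) := lift (famA w j)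
/-- cone edge functions -/
noncomputable def fB (w : X.B → ℝ) (j : Bool) : C(T.Sp, ℝ) := lift (famB w j)
/-- square functions -/
noncomputable def fF (w : X.F → ℝ) (j k : Bool) : C(T.Sp, ℝ) := lift (famF w j k)

theorem fP_v (w : X.P → ℝ) (p : X.P) : T.fP w (T.v p) = w p := rfl
theorem fP_a (w : X.P → ℝ) (x : X.A) (s : I) :
    T.fP w (T.a x s) = (1 - (s : ℝ)) * w (X.asrc x) + s * w (X.atgt x) := rfl
theorem fP_b (w : X.P → ℝ) (x : X.B) (s : I) :
    T.fP w (T.b x s) = (1 - (s : ℝ)) * w (X.bsrc x) + s * w (X.btgt x) := rfl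
theorem fP_f (w : X.P → ℝ) (x : X.F) (s t : I) :
    T.fP w (T.f x (s, t)) = (1 - (t : ℝ)) * w (X.fb x) +
      t * ((1 - (s : ℝ)) * w (X.asrc (X.ft x)) + s * w (X.atgt (X.ft x))) := rfl
theorem fA_v (w : X.A → ℝ) (j : Bool) (p : X.P) : T.fA w j (T.v p) = 0 := rfl
theorem fA_a (w : X.A → ℝ) (j : Bool) (x : X.A) (s : I) :
    T.fA w j (T.a x s) = w x * (s * (1 - (s : ℝ))) * (if j then (s : ℝ) else 1) := rfl
theorem fA_b (w : X.A → ℝ) (j : Bool) (x : X.B) (s : I) : T.fA w j (T.b x s) = 0 := rfl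
theorem fA_f (w : X.A → ℝ) (j : Bool) (x : X.F) (s t : I) :
    T.fA w j (T.f x (s, t)) = t * (w (X.ft x) * (s * (1 - (s : ℝ))) * (if j then (s : ℝ) else 1)) :=
  rfl
theorem fB_v (w : X.B → ℝ) (j : Bool) (p : X.P) : T.fB w j (T.v p) = 0 := rfl
theorem fB_a (w : X.B → ℝ) (j : Bool) (x : X.A) (s : I) : T.fB w j (T.a x s) = 0 := rfl
theorem fB_b (w : X.B → ℝ) (j : Bool) (x : X.B) (s : I) :
    T.fB w j (T.b x s) = w x * (s * (1 - (s : ℝ))) * (if j then (s : ℝ) else 1) := rfl
theorem fF_v (w : X.F → ℝ) (j k : Bool) (p : X.P) : T.fF w j k (T.v p) = 0 := rfl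
theorem fF_a (w : X.F → ℝ) (j k : Bool) (x : X.A) (s : I) : T.fF w j k (T.a x s) = 0 := rfl
theorem fF_b (w : X.F → ℝ) (j k : Bool) (x : X.B) (s : I) : T.fF w j k (T.b x s) = 0 := rfl
theorem fF_f (w : X.F → ℝ) (j k : Bool) (x : X.F) (s t : I) :
    T.fF w j k (T.f x (s, t)) = w x * (s * (1 - (s : ℝ))) * (t * (1 - (t : ℝ))) *
      (if j then (s : ℝ) else 1) * (if k then (t : ℝ) else 1) := rfl

theorem fP_smul (w : X.P → ℝ) (g : G) (x : T.Sp) :
    T.fP w (g • x) = T.fP (fun p => w (T.P g p)) x := by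
  rcases T.norm x with ⟨p, rfl⟩ | ⟨a, s, -, rfl⟩ | ⟨b, s, -, rfl⟩ | ⟨f, s, t, -, -, rfl⟩
  · rfl
  · rw [smul_a, fP_a, fP_a, T.asrc, T.atgt]
  · rw [smul_b, fP_b, fP_b, T.bsrc, T.btgt]
  · rw [smul_f, fP_f, fP_f, T.fb, T.ft, T.asrc, T.atgt]

theorem fA_smul (w : X.A → ℝ) (j : Bool) (g : G) (x : T.Sp) :
    T.fA w j (g • x) = T.fA (fun p => w (T.A g p)) j x := by
  rcases T.norm x with ⟨p, rfl⟩ | ⟨a, s, -, rfl⟩ | ⟨b, s, -, rfl⟩ | ⟨f, s, t, -, -, rfl⟩
  · rfl
  · rfl
  · rfl
  · rw [smul_f, fA_f, fA_f, T.ft]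

theorem fB_smul (w : X.B → ℝ) (j : Bool) (g : G) (x : T.Sp) :
    T.fB w j (g • x) = T.fB (fun p => w (T.B g p)) j x := by
  rcases T.norm x with ⟨p, rfl⟩ | ⟨a, s, -, rfl⟩ | ⟨b, s, -, rfl⟩ | ⟨f, s, t, -, -, rfl⟩
  · rfl
  · rfl
  · rfl
  · change lift (famB w j) (sq' (T.F g f) (s, t)) = lift (famB _ j) (sq' f (s, t))
    rw [lift_sq', lift_sq']
    change ((1 - (s : ℝ)) * w (X.fl (T.F g f)) + s * w (X.fr (T.F g f))) * _ * _ =
      ((1 - (s : ℝ)) * w (T.B g (X.fl f)) + s * w (T.B g (X.fr f))) * _ * _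
    rw [T.fl, T.fr]

theorem fF_smul (w : X.F → ℝ) (j k : Bool) (g : G) (x : T.Sp) :
    T.fF w j k (g • x) = T.fF (fun p => w (T.F g p)) j k x := by
  rcases T.norm x with ⟨p, rfl⟩ | ⟨a, s, -, rfl⟩ | ⟨b, s, -, rfl⟩ | ⟨f, s, t, -, -, rfl⟩ <;> rfl

theorem fP_add_le (w w' : X.P → ℝ) (h : ∀ p, w p + w' p ≤ 1) (x : T.Sp) :
    T.fP w x + T.fP w' x ≤ 1 := by
  rcases T.norm x with ⟨p, rfl⟩ | ⟨a, s, hs, rfl⟩ | ⟨b, s, hs, rfl⟩ | ⟨f, s, t, hs, ht, rfl⟩
  · exact h p
  · rw [fP_a, fP_a]
    have h1 := h (X.asrc a)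
    have h2 := h (X.atgt a)
    have h3 := hs.1
    have h4 := hs.2
    nlinarith
  · rw [fP_b, fP_b]
    have h1 := h (X.bsrc b)
    have h2 := h (X.btgt b)
    have h3 := hs.1
    have h4 := hs.2
    nlinarith
  · rw [fP_f, fP_f]
    have h1 := h (X.asrc (X.ft f))
    have h2 := h (X.atgt (X.ft f))
    have h0 := h (X.fb f)
    have h3 := hs.1
    have h4 := hs.2
    have h5 := ht.1
    have h6 := ht.2
    have e1 : ((1 - (s : ℝ)) * w (X.asrc (X.ft f)) + s * w (X.atgt (X.ft f))) +
        ((1 - (s : ℝ)) * w' (X.asrc (X.ft f)) + s * w' (X.atgt (X.ft f))) ≤ 1 := by nlinarith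
    nlinarith

open Classical in
/-- indicator function -/
noncomputable def ind {Y : Type} (y : Y) : Y → ℝ := fun z => if z = y then 1 else 0

theorem ind_self {Y : Type} (y : Y) : ind y y = 1 := by simp [ind]

theorem ind_ne {Y : Type} {y z : Y} (h : z ≠ y) : ind y z = 0 := by simp [ind, h]

theorem ind_nonneg {Y : Type} (y z : Y) : 0 ≤ ind y z := by
  unfold ind; split <;> norm_num

theorem eq_of_ind {Y : Type} {y z : Y} (h : ind y z ≠ 0) : z = y := by
  by_contra h'
  exact h (ind_ne h')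

theorem cone_key (c : X.P) (hc : T.cp c) (g : G) (y : T.Sp) (hy : 0 < T.fP (ind c) y)
    (hgy : 0 < T.fP (ind c) (g • y)) : g = 1 := by
  rw [fP_smul] at hgy
  have h0 : ∀ q, ¬ T.cp q → ind c q = 0 := fun q hq => ind_ne fun h => hq (h ▸ hc)
  have h1 : ∀ q, ¬ T.cp q → ind c (T.P g q) = 0 := fun q hq =>
    ind_ne fun h => hq (T.cp_inv g q (h ▸ hc))
  rcases T.norm y with ⟨q, rfl⟩ | ⟨a, s, hs, rfl⟩ | ⟨b, s, hs, rfl⟩ | ⟨f, s, t, hs, ht, rfl⟩
  · rw [fP_v] at hy hgy
    have e1 : q = c := eq_of_ind hy.ne'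
    have e2 : T.P g q = c := eq_of_ind hgy.ne'
    exact T.freeP g c (by rw [← e1, e2, e1])
  · rw [fP_a, h0 _ (T.cp_asrc a), h0 _ (T.cp_atgt a)] at hy
    simp at hy
  · rw [fP_b, h0 _ (T.cp_btgt b)] at hy
    rw [fP_b, h1 _ (T.cp_btgt b)] at hgy
    have e1 : X.bsrc b = c := eq_of_ind fun h => by rw [h] at hy; simp at hy
    have e2 : T.P g (X.bsrc b) = c := eq_of_ind fun h => by rw [h] at hgy; simp at hgy
    exact T.freeP g c (by rw [← e1, e2, e1])
  · rw [fP_f, h0 _ (T.cp_asrc _), h0 _ (T.cp_atgt _)] at hy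
    rw [fP_f, h1 _ (T.cp_asrc _), h1 _ (T.cp_atgt _)] at hgy
    have e1 : X.fb f = c := eq_of_ind fun h => by rw [h] at hy; simp at hy
    have e2 : T.P g (X.fb f) = c := eq_of_ind fun h => by rw [h] at hgy; simp at hgy
    exact T.freeP g c (by rw [← e1, e2, e1])

theorem disj_cone (x : T.Sp) (c : X.P) (hc : T.cp c) (hx : 0 < T.fP (ind c) x) :
    ∃ U ∈ 𝓝 x, ∀ g : G, ((fun w => g • w) '' U ∩ U).Nonempty → g = 1 := by
  refine ⟨{y | 0 < T.fP (ind c) y}, ?_, ?_⟩
  · exact (isOpen_lt continuous_const (T.fP (ind c)).continuous).mem_nhds hx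
  · rintro g ⟨_, ⟨y, hy, rfl⟩, hgy⟩
    exact T.cone_key c hc g y hy hgy

/-- the action is a covering space action -/
theorem disj (x : T.Sp) : ∃ U ∈ 𝓝 x, ∀ g : G, ((fun w => g • w) '' U ∩ U).Nonempty → g = 1 := by
  classical
  rcases T.norm x with ⟨p, rfl⟩ | ⟨a, s, hs, rfl⟩ | ⟨b, s, hs, rfl⟩ | ⟨f, s, t, hs, ht, rfl⟩
  · -- vertices
    refine ⟨{y | 1 / 2 < T.fP (ind p) y}, ?_, ?_⟩
    · refine (isOpen_lt continuous_const (T.fP (ind p)).continuous).mem_nhds ?_
      change (1 / 2 : ℝ) < T.fP (ind p) (T.v p)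
      rw [fP_v, ind_self]; norm_num
    · rintro g ⟨_, ⟨y, hy, rfl⟩, hgy⟩
      by_contra hg
      change (1 / 2 : ℝ) < T.fP (ind p) y at hy
      change (1 / 2 : ℝ) < T.fP (ind p) (g • y) at hgy
      rw [fP_smul] at hgy
      have := T.fP_add_le (ind p) (fun q => ind p (T.P g q)) (fun q => ?_) y
      · linarith
      · by_cases h1 : q = p
        · subst h1
          rw [ind_ne fun h => hg (T.freeP g q h), ind_self]; norm_num
        · rw [ind_ne h1]
          unfold ind
          split <;> norm_num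
  · -- letter edges
    refine ⟨{y | 0 < T.fA (ind a) false y}, ?_, ?_⟩
    · refine (isOpen_lt continuous_const (T.fA (ind a) false).continuous).mem_nhds ?_
      change (0 : ℝ) < T.fA (ind a) false (T.a a s)
      rw [fA_a, ind_self]
      have h3 := hs.1
      have h4 : 0 < 1 - (s : ℝ) := sub_pos.mpr hs.2
      simp only [Bool.false_eq_true, if_false]
      positivity
    · rintro g ⟨_, ⟨y, hy, rfl⟩, hgy⟩
      change (0 : ℝ) < T.fA (ind a) false y at hy
      change (0 : ℝ) < T.fA (ind a) false (g • y) at hgy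
      rw [fA_smul] at hgy
      rcases T.norm y with ⟨p, rfl⟩ | ⟨a', s, hs, rfl⟩ | ⟨b, s, hs, rfl⟩ | ⟨f, s, t, hs, ht, rfl⟩
      · rw [fA_v] at hy; exact absurd hy (lt_irrefl _)
      · rw [fA_a] at hy hgy
        have e1 : a' = a := eq_of_ind fun h => by rw [h] at hy; simp at hy
        have e2 : T.A g a' = a := eq_of_ind fun h => by rw [h] at hgy; simp at hgy
        exact T.freeA g a (by rw [← e1, e2, e1])
      · rw [fA_b] at hy; exact absurd hy (lt_irrefl _)
      · rw [fA_f] at hy hgy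
        have e1 : X.ft f = a := eq_of_ind fun h => by rw [h] at hy; simp at hy
        have e2 : T.A g (X.ft f) = a := eq_of_ind fun h => by rw [h] at hgy; simp at hgy
        exact T.freeA g a (by rw [← e1, e2, e1])
  · exact T.disj_cone _ (X.bsrc b) (T.cp_bsrc b) (by
      rw [fP_b, ind_self]
      have h3 : 0 < 1 - (s : ℝ) := sub_pos.mpr hs.2
      have h4 := mul_nonneg s.2.1 (ind_nonneg (X.bsrc b) (X.btgt b))
      linarith)
  · exact T.disj_cone _ (X.fb f) (by rw [← X.bsrc_fl]; exact T.cp_bsrc _) (by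
      rw [fP_f, ind_self]
      have h3 : 0 < 1 - (t : ℝ) := sub_pos.mpr ht.2
      have h4 := mul_nonneg s.2.1 (ind_nonneg (X.fb f) (X.atgt (X.ft f)))
      have h5 := mul_nonneg (sub_nonneg.mpr s.2.2) (ind_nonneg (X.fb f) (X.asrc (X.ft f)))
      have h6 := mul_nonneg t.2.1 (add_nonneg h5 h4)
      linarith)

/-! ## Invariant functions separate orbits -/

theorem pos_int {s : I} (hs : Int s) : 0 < (s : ℝ) * (1 - (s : ℝ)) :=
  mul_pos hs.1 (sub_pos.mpr hs.2)

/-- all invariant continuous functions agree -/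
def InvEq (x y : T.Sp) : Prop :=
  ∀ u : C(T.Sp, ℝ), (∀ (g : G) (z : T.Sp), u (g • z) = u z) → u x = u y

theorem InvEq.symm {x y : T.Sp} (h : T.InvEq x y) : T.InvEq y x := fun u hu => (h u hu).symm

theorem InvEq.P {x y : T.Sp} (h : T.InvEq x y) (w : T.TP → ℝ) :
    T.fP (fun p => w (T.tP p)) x = T.fP (fun p => w (T.tP p)) y :=
  h _ fun g z => by rw [fP_smul]; simp only [T.tP_inv]

theorem InvEq.A {x y : T.Sp} (h : T.InvEq x y) (w : T.TA → ℝ) (j : Bool) :
    T.fA (fun p => w (T.tA p)) j x = T.fA (fun p => w (T.tA p)) j y :=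
  h _ fun g z => by rw [fA_smul]; simp only [T.tA_inv]

theorem InvEq.B {x y : T.Sp} (h : T.InvEq x y) (w : T.TB → ℝ) (j : Bool) :
    T.fB (fun p => w (T.tB p)) j x = T.fB (fun p => w (T.tB p)) j y :=
  h _ fun g z => by rw [fB_smul]; simp only [T.tB_inv]

theorem InvEq.F {x y : T.Sp} (h : T.InvEq x y) (w : T.TF → ℝ) (j k : Bool) :
    T.fF (fun p => w (T.tF p)) j k x = T.fF (fun p => w (T.tF p)) j k y :=
  h _ fun g z => by rw [fF_smul]; simp only [T.tF_inv]

theorem inv_f {f : X.F} {s t : I} (hs : Int s) (ht : Int t) {y : T.Sp}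
    (h : T.InvEq (T.f f (s, t)) y) : ∃ f', T.tF f' = T.tF f ∧ y = T.f f' (s, t) := by
  have h1 := fun j k => h.F T (ind (T.tF f)) j k
  simp only [fF_f, ind_self] at h1
  have hps := pos_int hs
  have hpt := pos_int ht
  have h00 := h1 false false
  have h10 := h1 true false
  have h01 := h1 false true
  simp only [Bool.false_eq_true, if_false, if_true, mul_one, one_mul] at h00 h10 h01
  rcases T.norm y with ⟨q, rfl⟩ | ⟨a, s', hs', rfl⟩ | ⟨b, s', hs', rfl⟩ | ⟨f', s', t', hs', ht', rfl⟩
  · rw [fF_v] at h00; exact absurd h00 (mul_pos hps hpt).ne'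
  · rw [fF_a] at h00; exact absurd h00 (mul_pos hps hpt).ne'
  · rw [fF_b] at h00; exact absurd h00 (mul_pos hps hpt).ne'
  · rw [fF_f] at h00 h10 h01
    simp only [Bool.false_eq_true, if_false, if_true, mul_one] at h00 h10 h01
    have e1 : T.tF f' = T.tF f := eq_of_ind fun h => by
      rw [h] at h00; simp only [zero_mul] at h00; exact (mul_pos hps hpt).ne' h00
    rw [e1, ind_self, one_mul] at h00 h10 h01
    rw [← h00] at h10 h01
    have e2 : s = s' := Subtype.ext (mul_left_cancel₀ (mul_pos hps hpt).ne' h10)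
    have e3 : t = t' := Subtype.ext (mul_left_cancel₀ (mul_pos hps hpt).ne' h01)
    exact ⟨f', e1, by rw [e2, e3]⟩

theorem inv_a {a : X.A} {s : I} (hs : Int s) {y : T.Sp}
    (h : T.InvEq (T.a a s) y) : ∃ a', T.tA a' = T.tA a ∧ y = T.a a' s := by
  have hps := pos_int hs
  rcases T.norm y with ⟨q, rfl⟩ | ⟨a', s', hs', rfl⟩ | ⟨b, s', hs', rfl⟩ | ⟨f', s', t', hs', ht', rfl⟩
  · have h0 := h.A T (ind (T.tA a)) false
    rw [fA_a, fA_v, ind_self] at h0
    simp only [Bool.false_eq_true, if_false, mul_one, one_mul] at h0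
    exact absurd h0 hps.ne'
  · have h0 := h.A T (ind (T.tA a)) false
    have h1 := h.A T (ind (T.tA a)) true
    rw [fA_a, fA_a, ind_self] at h0 h1
    simp only [Bool.false_eq_true, if_false, if_true, mul_one, one_mul] at h0 h1
    have e1 : T.tA a' = T.tA a := eq_of_ind fun h => by
      rw [h] at h0; simp only [zero_mul] at h0; exact hps.ne' h0
    rw [e1, ind_self, one_mul] at h0 h1
    rw [← h0] at h1
    have e2 : s = s' := Subtype.ext (mul_left_cancel₀ hps.ne' h1)
    exact ⟨a', e1, by rw [e2]⟩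
  · have h0 := h.A T (ind (T.tA a)) false
    rw [fA_a, fA_b, ind_self] at h0
    simp only [Bool.false_eq_true, if_false, mul_one, one_mul] at h0
    exact absurd h0 hps.ne'
  · obtain ⟨f'', -, h2⟩ := T.inv_f hs' ht' h.symm
    have h0 := T.fF (fun _ => 1) false false |> fun u => congrArg u h2
    rw [fF_a, fF_f] at h0
    have := mul_pos (pos_int hs') (pos_int ht')
    simp only [Bool.false_eq_true, if_false, mul_one, one_mul] at h0
    exact absurd h0.symm this.ne'

theorem inv_b {a : X.B} {s : I} (hs : Int s) {y : T.Sp}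
    (h : T.InvEq (T.b a s) y) : ∃ a', T.tB a' = T.tB a ∧ y = T.b a' s := by
  have hps := pos_int hs
  rcases T.norm y with ⟨q, rfl⟩ | ⟨b, s', hs', rfl⟩ | ⟨a', s', hs', rfl⟩ | ⟨f', s', t', hs', ht', rfl⟩
  · have h0 := h.B T (ind (T.tB a)) false
    rw [fB_b, fB_v, ind_self] at h0
    simp only [Bool.false_eq_true, if_false, mul_one, one_mul] at h0
    exact absurd h0 hps.ne'
  · have h0 := h.B T (ind (T.tB a)) false
    rw [fB_b, fB_a, ind_self] at h0
    simp only [Bool.false_eq_true, if_false, mul_one, one_mul] at h0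
    exact absurd h0 hps.ne'
  · have h0 := h.B T (ind (T.tB a)) false
    have h1 := h.B T (ind (T.tB a)) true
    rw [fB_b, fB_b, ind_self] at h0 h1
    simp only [Bool.false_eq_true, if_false, if_true, mul_one, one_mul] at h0 h1
    have e1 : T.tB a' = T.tB a := eq_of_ind fun h => by
      rw [h] at h0; simp only [zero_mul] at h0; exact hps.ne' h0
    rw [e1, ind_self, one_mul] at h0 h1
    rw [← h0] at h1
    have e2 : s = s' := Subtype.ext (mul_left_cancel₀ hps.ne' h1)
    exact ⟨a', e1, by rw [e2]⟩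
  · obtain ⟨f'', -, h2⟩ := T.inv_f hs' ht' h.symm
    have h0 := T.fF (fun _ => 1) false false |> fun u => congrArg u h2
    rw [fF_b, fF_f] at h0
    have := mul_pos (pos_int hs') (pos_int ht')
    simp only [Bool.false_eq_true, if_false, mul_one, one_mul] at h0
    exact absurd h0.symm this.ne'

theorem inv_v {p : X.P} {y : T.Sp}
    (h : T.InvEq (T.v p) y) : ∃ p', T.tP p' = T.tP p ∧ y = T.v p' := by
  rcases T.norm y with ⟨q, rfl⟩ | ⟨a, s', hs', rfl⟩ | ⟨b, s', hs', rfl⟩ | ⟨f', s', t', hs', ht', rfl⟩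
  · have h0 := h.P T (ind (T.tP p))
    rw [fP_v, fP_v, ind_self] at h0
    exact ⟨q, eq_of_ind (by rw [← h0]; exact one_ne_zero), rfl⟩
  · obtain ⟨a', -, h2⟩ := T.inv_a hs' h.symm
    have h0 := T.fA (fun _ => 1) false |> fun u => congrArg u h2
    rw [fA_v, fA_a] at h0
    simp only [Bool.false_eq_true, if_false, mul_one, one_mul] at h0
    exact absurd h0.symm (pos_int hs').ne'
  · obtain ⟨a', -, h2⟩ := T.inv_b hs' h.symm
    have h0 := T.fB (fun _ => 1) false |> fun u => congrArg u h2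
    rw [fB_v, fB_b] at h0
    simp only [Bool.false_eq_true, if_false, mul_one, one_mul] at h0
    exact absurd h0.symm (pos_int hs').ne'
  · obtain ⟨f'', -, h2⟩ := T.inv_f hs' ht' h.symm
    have h0 := T.fF (fun _ => 1) false false |> fun u => congrArg u h2
    rw [fF_v, fF_f] at h0
    have := mul_pos (pos_int hs') (pos_int ht')
    simp only [Bool.false_eq_true, if_false, mul_one, one_mul] at h0
    exact absurd h0.symm this.ne'

theorem orbit_of_invEq {x y : T.Sp} (h : T.InvEq x y) : ∃ g : G, g • x = y := by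
  rcases T.norm x with ⟨q, rfl⟩ | ⟨a, s', hs', rfl⟩ | ⟨b, s', hs', rfl⟩ | ⟨f', s', t', hs', ht', rfl⟩
  · obtain ⟨p', h1, rfl⟩ := T.inv_v h
    obtain ⟨g, hg⟩ := T.tP_tr q p' h1.symm
    exact ⟨g, by rw [smul_v, hg]⟩
  · obtain ⟨p', h1, rfl⟩ := T.inv_a hs' h
    obtain ⟨g, hg⟩ := T.tA_tr a p' h1.symm
    exact ⟨g, by rw [smul_a, hg]⟩
  · obtain ⟨p', h1, rfl⟩ := T.inv_b hs' h
    obtain ⟨g, hg⟩ := T.tB_tr b p' h1.symm
    exact ⟨g, by rw [smul_b, hg]⟩
  · obtain ⟨p', h1, rfl⟩ := T.inv_f hs' ht' h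
    obtain ⟨g, hg⟩ := T.tF_tr f' p' h1.symm
    exact ⟨g, by rw [smul_f, hg]⟩

/-- the quotient -/
abbrev Qt : Type := MulAction.orbitRel.Quotient G T.Sp

/-- projection -/
def pr (x : T.Sp) : T.Qt := Quotient.mk (MulAction.orbitRel G T.Sp) x

theorem pr_smul (g : G) (x : T.Sp) : T.pr (g • x) = T.pr x :=
  Quotient.sound' ⟨g, rfl⟩

theorem pr_eq {x y : T.Sp} (h : T.pr x = T.pr y) : ∃ g : G, g • y = x :=
  Quotient.exact' h

theorem invEq_of_pr {x y : T.Sp} (h : T.pr x = T.pr y) : T.InvEq x y := by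
  obtain ⟨g, rfl⟩ := T.pr_eq h
  exact fun u hu => hu g y

theorem continuous_pr : Continuous T.pr := continuous_quotient_mk'

instance t2 : T2Space T.Qt := by
  refine ⟨fun x y hxy => ?_⟩
  induction x using Quotient.inductionOn' with | _ x => ?_
  induction y using Quotient.inductionOn' with | _ y => ?_
  have h1 : ¬ T.InvEq x y := fun h => hxy (by
    obtain ⟨g, hg⟩ := T.orbit_of_invEq h
    change T.pr x = T.pr y
    rw [← hg, pr_smul])
  unfold InvEq at h1
  push Not at h1
  obtain ⟨u, hu, hne⟩ := h1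
  let u' : T.Qt → ℝ := Quotient.lift u (by
    rintro a b ⟨g, rfl⟩
    exact hu g b)
  have hc : Continuous u' := u.continuous.quotient_lift _
  obtain ⟨U, V, hU, hV, hxU, hyV, hd⟩ := t2_separation hne
  exact ⟨u' ⁻¹' U, u' ⁻¹' V, hU.preimage hc, hV.preimage hc, hxU, hyV, hd.preimage u'⟩

theorem quotientCovering : IsQuotientCoveringMap T.pr G where
  toIsQuotientMap := isQuotientMap_quotient_mk'
  toContinuousConstSMul := inferInstance
  apply_eq_iff_mem_orbit := by
    intro e₁ e₂
    exact Quotient.eq''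
  disjoint e := T.disj e

theorem hasContractibleCover [ContractibleSpace T.Sp] : Crest.Topology.HasContractibleCover T.Qt :=
  ⟨T.Sp, inferInstance, T.pr, inferInstance, T.quotientCovering.isCoveringMap,
    Quotient.mk_surjective⟩

theorem pi1 [ContractibleSpace T.Sp] (z : T.Sp) :
    Nonempty (FundamentalGroup T.Qt (T.pr z) ≃* G) :=
  ⟨(T.quotientCovering.fundamentalGroupEquiv (x := T.pr z) ⟨z, rfl⟩).trans
    (MulEquiv.inv' G).symm⟩

end GCx

end Crest.Agent.R177.Top
end

-- ▼ part R177/TopCW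
section

/-!
# Rows 177 / 184, module TOPOLOGY (8a): the finite CW structure of the quotient (helper961)
-/

set_option autoImplicit false

open scoped unitInterval Topology
open Set Metric

namespace Crest.Agent.R177.Top

namespace GCx

open Crest.Agent.R177.Top.Real

variable {G : Type} [Group G] {X : Cx} (T : GCx G X)

theorem ne_fv {f : X.F} {s t : I} (hs : Int s) (ht : Int t) {q : X.P}
    (h : T.InvEq (T.f f (s, t)) (T.v q)) : False := by
  have h0 := h.F T (fun _ => 1) false false
  rw [fF_f, fF_v] at h0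
  simp only [Bool.false_eq_true, if_false, mul_one, one_mul] at h0
  exact absurd h0 (mul_pos (pos_int hs) (pos_int ht)).ne'

theorem ne_fa {f : X.F} {s t s' : I} (hs : Int s) (ht : Int t) {q : X.A}
    (h : T.InvEq (T.f f (s, t)) (T.a q s')) : False := by
  have h0 := h.F T (fun _ => 1) false false
  rw [fF_f, fF_a] at h0
  simp only [Bool.false_eq_true, if_false, mul_one, one_mul] at h0
  exact absurd h0 (mul_pos (pos_int hs) (pos_int ht)).ne'

theorem ne_fb {f : X.F} {s t s' : I} (hs : Int s) (ht : Int t) {q : X.B}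
    (h : T.InvEq (T.f f (s, t)) (T.b q s')) : False := by
  have h0 := h.F T (fun _ => 1) false false
  rw [fF_f, fF_b] at h0
  simp only [Bool.false_eq_true, if_false, mul_one, one_mul] at h0
  exact absurd h0 (mul_pos (pos_int hs) (pos_int ht)).ne'

theorem eq_ff {f f' : X.F} {s t s' t' : I} (hs : Int s) (ht : Int t)
    (h : T.InvEq (T.f f (s, t)) (T.f f' (s', t'))) : T.tF f' = T.tF f ∧ s = s' ∧ t = t' := by
  have h1 := fun j k => h.F T (ind (T.tF f)) j k
  simp only [fF_f, ind_self] at h1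
  have hps := pos_int hs
  have hpt := pos_int ht
  have h00 := h1 false false
  have h10 := h1 true false
  have h01 := h1 false true
  simp only [Bool.false_eq_true, if_false, if_true, mul_one, one_mul] at h00 h10 h01
  have e1 : T.tF f' = T.tF f := eq_of_ind fun h => by
    rw [h] at h00; simp only [zero_mul] at h00; exact (mul_pos hps hpt).ne' h00
  rw [e1, ind_self, one_mul] at h00 h10 h01
  rw [← h00] at h10 h01
  exact ⟨e1, Subtype.ext (mul_left_cancel₀ (mul_pos hps hpt).ne' h10),
    Subtype.ext (mul_left_cancel₀ (mul_pos hps hpt).ne' h01)⟩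

theorem ne_av {a : X.A} {s : I} (hs : Int s) {q : X.P}
    (h : T.InvEq (T.a a s) (T.v q)) : False := by
  have h0 := h.A T (fun _ => 1) false
  rw [fA_a, fA_v] at h0
  simp only [Bool.false_eq_true, if_false, mul_one, one_mul] at h0
  exact absurd h0 (pos_int hs).ne'

theorem ne_ab {a : X.A} {s s' : I} (hs : Int s) {q : X.B}
    (h : T.InvEq (T.a a s) (T.b q s')) : False := by
  have h0 := h.A T (fun _ => 1) false
  rw [fA_a, fA_b] at h0
  simp only [Bool.false_eq_true, if_false, mul_one, one_mul] at h0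
  exact absurd h0 (pos_int hs).ne'

theorem eq_aa {a a' : X.A} {s s' : I} (hs : Int s)
    (h : T.InvEq (T.a a s) (T.a a' s')) : T.tA a' = T.tA a ∧ s = s' := by
  have hps := pos_int hs
  have h0 := h.A T (ind (T.tA a)) false
  have h1 := h.A T (ind (T.tA a)) true
  rw [fA_a, fA_a, ind_self] at h0 h1
  simp only [Bool.false_eq_true, if_false, if_true, mul_one, one_mul] at h0 h1
  have e1 : T.tA a' = T.tA a := eq_of_ind fun h => by
    rw [h] at h0; simp only [zero_mul] at h0; exact hps.ne' h0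
  rw [e1, ind_self, one_mul] at h0 h1
  rw [← h0] at h1
  exact ⟨e1, Subtype.ext (mul_left_cancel₀ hps.ne' h1)⟩

theorem ne_bv {a : X.B} {s : I} (hs : Int s) {q : X.P}
    (h : T.InvEq (T.b a s) (T.v q)) : False := by
  have h0 := h.B T (fun _ => 1) false
  rw [fB_b, fB_v] at h0
  simp only [Bool.false_eq_true, if_false, mul_one, one_mul] at h0
  exact absurd h0 (pos_int hs).ne'

theorem eq_bb {a a' : X.B} {s s' : I} (hs : Int s)
    (h : T.InvEq (T.b a s) (T.b a' s')) : T.tB a' = T.tB a ∧ s = s' := by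
  have hps := pos_int hs
  have h0 := h.B T (ind (T.tB a)) false
  have h1 := h.B T (ind (T.tB a)) true
  rw [fB_b, fB_b, ind_self] at h0 h1
  simp only [Bool.false_eq_true, if_false, if_true, mul_one, one_mul] at h0 h1
  have e1 : T.tB a' = T.tB a := eq_of_ind fun h => by
    rw [h] at h0; simp only [zero_mul] at h0; exact hps.ne' h0
  rw [e1, ind_self, one_mul] at h0 h1
  rw [← h0] at h1
  exact ⟨e1, Subtype.ext (mul_left_cancel₀ hps.ne' h1)⟩

theorem eq_vv {p q : X.P} (h : T.InvEq (T.v p) (T.v q)) : T.tP q = T.tP p := by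
  have h0 := h.P T (ind (T.tP p))
  rw [fP_v, fP_v, ind_self] at h0
  exact eq_of_ind (by rw [← h0]; exact one_ne_zero)

/-- representatives -/
noncomputable def rP : T.TP → X.P := Function.surjInv T.tP_sj
noncomputable def rA : T.TA → X.A := Function.surjInv T.tA_sj
noncomputable def rB : T.TB → X.B := Function.surjInv T.tB_sj
noncomputable def rF : T.TF → X.F := Function.surjInv T.tF_sj

theorem tP_rP (x : T.TP) : T.tP (T.rP x) = x := Function.surjInv_eq _ x
theorem tA_rA (x : T.TA) : T.tA (T.rA x) = x := Function.surjInv_eq _ x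
theorem tB_rB (x : T.TB) : T.tB (T.rB x) = x := Function.surjInv_eq _ x
theorem tF_rF (x : T.TF) : T.tF (T.rF x) = x := Function.surjInv_eq _ x

theorem pr_v (p : X.P) : T.pr (T.v (T.rP (T.tP p))) = T.pr (T.v p) := by
  obtain ⟨g, hg⟩ := T.tP_tr (T.rP (T.tP p)) p (T.tP_rP _)
  rw [← T.pr_smul g, smul_v, hg]

theorem pr_a (p : X.A) (s : I) : T.pr (T.a (T.rA (T.tA p)) s) = T.pr (T.a p s) := by
  obtain ⟨g, hg⟩ := T.tA_tr (T.rA (T.tA p)) p (T.tA_rA _)
  rw [← T.pr_smul g, smul_a, hg]

theorem pr_b (p : X.B) (s : I) : T.pr (T.b (T.rB (T.tB p)) s) = T.pr (T.b p s) := by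
  obtain ⟨g, hg⟩ := T.tB_tr (T.rB (T.tB p)) p (T.tB_rB _)
  rw [← T.pr_smul g, smul_b, hg]

theorem pr_f (p : X.F) (y : I × I) : T.pr (T.f (T.rF (T.tF p)) y) = T.pr (T.f p y) := by
  obtain ⟨g, hg⟩ := T.tF_tr (T.rF (T.tF p)) p (T.tF_rF _)
  rw [← T.pr_smul g, smul_f, hg]

/-- clamp to the unit interval -/
noncomputable def cl (r : ℝ) : I := projIcc 0 1 zero_le_one ((r + 1) / 2)

theorem continuous_cl : Continuous cl := continuous_projIcc.comp (by fun_prop)

theorem cl_coe {r : ℝ} (h : |r| ≤ 1) : ((cl r : I) : ℝ) = (r + 1) / 2 := by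
  have h' := abs_le.mp h
  unfold cl
  rw [projIcc_of_mem zero_le_one (x := (r + 1) / 2) ⟨by linarith, by linarith⟩]

theorem cl_int {r : ℝ} (h : |r| < 1) : Int (cl r) := by
  have h' := abs_lt.mp h
  unfold Real.Int
  rw [cl_coe h.le]
  constructor <;> linarith

theorem cl_one : cl 1 = 1 := Subtype.ext (by rw [cl_coe (by simp)]; norm_num)
theorem cl_neg_one : cl (-1) = 0 := Subtype.ext (by rw [cl_coe (by simp)]; norm_num)

theorem cl_inj {r r' : ℝ} (h : |r| ≤ 1) (h' : |r'| ≤ 1) (e : cl r = cl r') : r = r' := by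
  have := congrArg Subtype.val e
  rw [cl_coe h, cl_coe h'] at this
  linarith

theorem exists_cl (s : I) : ∃ r : ℝ, |r| ≤ 1 ∧ cl r = s := by
  have h0 := s.2.1
  have h1 := s.2.2
  have h : |2 * (s : ℝ) - 1| ≤ 1 := abs_le.mpr ⟨by linarith, by linarith⟩
  exact ⟨2 * s - 1, h, Subtype.ext (by rw [cl_coe h]; ring)⟩

theorem cl_not_int {r : ℝ} (h : |r| = 1) : cl r = 0 ∨ cl r = 1 := by
  rcases (abs_eq zero_le_one).mp h with rfl | rfl
  · exact Or.inr cl_one
  · exact Or.inl cl_neg_one

/-- cells of the quotient -/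
def Cel : ℕ → Type
  | 0 => T.TP
  | 1 => T.TA ⊕ T.TB
  | 2 => T.TF
  | _ => Empty

/-- characteristic maps -/
noncomputable def Ph : ∀ n, T.Cel n → (Fin n → ℝ) → T.Qt
  | 0, i, _ => T.pr (T.v (T.rP i))
  | 1, Sum.inl i, x => T.pr (T.a (T.rA i) (cl (x 0)))
  | 1, Sum.inr i, x => T.pr (T.b (T.rB i) (cl (x 0)))
  | 2, i, x => T.pr (T.f (T.rF i) (cl (x 0), cl (x 1)))
  | _ + 3, i, _ => Empty.elim i

theorem continuous_Ph (n : ℕ) (i : T.Cel n) : Continuous (T.Ph n i) := by
  match n, i with
  | 0, i => exact continuous_const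
  | 1, Sum.inl i =>
    exact T.continuous_pr.comp ((continuous_ea' _).comp (continuous_cl.comp (continuous_apply 0)))
  | 1, Sum.inr i =>
    exact T.continuous_pr.comp ((continuous_eb' _).comp (continuous_cl.comp (continuous_apply 0)))
  | 2, i =>
    exact T.continuous_pr.comp ((continuous_sq' _).comp
      ((continuous_cl.comp (continuous_apply 0)).prodMk (continuous_cl.comp (continuous_apply 1))))
  | _ + 3, i => exact Empty.elim i

theorem abs_lt_of_ball {n : ℕ} {x : Fin n → ℝ} (hx : x ∈ ball (0 : Fin n → ℝ) 1) (i : Fin n) :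
    |x i| < 1 := by
  rw [mem_ball_zero_iff] at hx
  exact (norm_le_pi_norm x i).trans_lt hx

theorem abs_le_of_ball {n : ℕ} {x : Fin n → ℝ} (hx : x ∈ closedBall (0 : Fin n → ℝ) 1)
    (i : Fin n) : |x i| ≤ 1 := by
  rw [mem_closedBall_zero_iff] at hx
  exact (norm_le_pi_norm x i).trans hx

theorem mem_ball_of {n : ℕ} {x : Fin n → ℝ} (hx : ∀ i, |x i| < 1) : x ∈ ball (0 : Fin n → ℝ) 1 := by
  rw [mem_ball_zero_iff, pi_norm_lt_iff one_pos]
  exact hx

theorem mem_closedBall_of {n : ℕ} {x : Fin n → ℝ} (hx : ∀ i, |x i| ≤ 1) :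
    x ∈ closedBall (0 : Fin n → ℝ) 1 := by
  rw [mem_closedBall_zero_iff, pi_norm_le_iff_of_nonneg zero_le_one]
  exact hx

theorem exists_of_sphere {n : ℕ} {x : Fin n → ℝ} (hx : x ∈ sphere (0 : Fin n → ℝ) 1) :
    ∃ i, |x i| = 1 := by
  by_contra h
  push Not at h
  have h1 : x ∈ ball (0 : Fin n → ℝ) 1 := mem_ball_of fun i =>
    lt_of_le_of_ne (abs_le_of_ball (sphere_subset_closedBall hx) i) (h i)
  rw [mem_ball_zero_iff] at h1
  rw [mem_sphere_zero_iff_norm] at hx
  exact absurd hx h1.ne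

theorem cover_v (p : X.P) : ∃ z ∈ closedBall (0 : Fin 0 → ℝ) 1,
    T.Ph 0 (T.tP p) z = T.pr (T.v p) :=
  ⟨0, mem_closedBall_of fun i => i.elim0, T.pr_v p⟩

theorem cover_a (p : X.A) (s : I) : ∃ z ∈ closedBall (0 : Fin 1 → ℝ) 1,
    T.Ph 1 (Sum.inl (T.tA p)) z = T.pr (T.a p s) := by
  obtain ⟨r, hr, rfl⟩ := exists_cl s
  exact ⟨fun _ => r, mem_closedBall_of fun i => hr, T.pr_a p _⟩

theorem cover_b (p : X.B) (s : I) : ∃ z ∈ closedBall (0 : Fin 1 → ℝ) 1,
    T.Ph 1 (Sum.inr (T.tB p)) z = T.pr (T.b p s) := by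
  obtain ⟨r, hr, rfl⟩ := exists_cl s
  exact ⟨fun _ => r, mem_closedBall_of fun i => hr, T.pr_b p _⟩

theorem cover_f (p : X.F) (s t : I) : ∃ z ∈ closedBall (0 : Fin 2 → ℝ) 1,
    T.Ph 2 (T.tF p) z = T.pr (T.f p (s, t)) := by
  obtain ⟨r, hr, rfl⟩ := exists_cl s
  obtain ⟨r', hr', rfl⟩ := exists_cl t
  refine ⟨![r, r'], mem_closedBall_of fun i => ?_, T.pr_f p _⟩
  fin_cases i
  · exact hr
  · exact hr'

theorem Ph_inj (n : ℕ) (i : T.Cel n) : InjOn (T.Ph n i) (ball 0 1) := by
  intro x hx y hy h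
  match n, i with
  | 0, i => exact Subsingleton.elim _ _
  | 1, Sum.inl i =>
    obtain ⟨-, h2⟩ := T.eq_aa (cl_int (abs_lt_of_ball hx 0)) (T.invEq_of_pr h)
    funext j
    rw [Fin.eq_zero j]
    exact cl_inj (abs_lt_of_ball hx 0).le (abs_lt_of_ball hy 0).le h2
  | 1, Sum.inr i =>
    obtain ⟨-, h2⟩ := T.eq_bb (cl_int (abs_lt_of_ball hx 0)) (T.invEq_of_pr h)
    funext j
    rw [Fin.eq_zero j]
    exact cl_inj (abs_lt_of_ball hx 0).le (abs_lt_of_ball hy 0).le h2
  | 2, i =>
    obtain ⟨-, h2, h3⟩ := T.eq_ff (cl_int (abs_lt_of_ball hx 0)) (cl_int (abs_lt_of_ball hx 1))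
      (T.invEq_of_pr h)
    funext j
    fin_cases j
    · exact cl_inj (abs_lt_of_ball hx 0).le (abs_lt_of_ball hy 0).le h2
    · exact cl_inj (abs_lt_of_ball hx 1).le (abs_lt_of_ball hy 1).le h3
  | _ + 3, i => exact Empty.elim i

theorem not_int_zero : ¬ Int (0 : I) := fun h => absurd h.1 (lt_irrefl _)
theorem not_int_one : ¬ Int (1 : I) := fun h => absurd h.2 (lt_irrefl _)

theorem Ph_sat (n : ℕ) (i : T.Cel n) (x y : Fin n → ℝ) (hx : x ∈ ball (0 : Fin n → ℝ) 1)
    (hy : y ∈ sphere (0 : Fin n → ℝ) 1) : T.Ph n i x ≠ T.Ph n i y := by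
  intro h
  obtain ⟨k, hk⟩ := exists_of_sphere hy
  match n, i with
  | 0, i => exact k.elim0
  | 1, Sum.inl i =>
    obtain ⟨-, h2⟩ := T.eq_aa (cl_int (abs_lt_of_ball hx 0)) (T.invEq_of_pr h)
    rw [Fin.eq_zero k] at hk
    have h3 := cl_int (abs_lt_of_ball hx 0)
    rcases cl_not_int hk with h4 | h4 <;> rw [h2, h4] at h3
    · exact not_int_zero h3
    · exact not_int_one h3
  | 1, Sum.inr i =>
    obtain ⟨-, h2⟩ := T.eq_bb (cl_int (abs_lt_of_ball hx 0)) (T.invEq_of_pr h)
    rw [Fin.eq_zero k] at hk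
    have h3 := cl_int (abs_lt_of_ball hx 0)
    rcases cl_not_int hk with h4 | h4 <;> rw [h2, h4] at h3
    · exact not_int_zero h3
    · exact not_int_one h3
  | 2, i =>
    obtain ⟨-, h2, h3⟩ := T.eq_ff (cl_int (abs_lt_of_ball hx 0)) (cl_int (abs_lt_of_ball hx 1))
      (T.invEq_of_pr h)
    have h5 := cl_int (abs_lt_of_ball hx 0)
    have h6 := cl_int (abs_lt_of_ball hx 1)
    rw [h2] at h5
    rw [h3] at h6
    fin_cases k
    · rcases cl_not_int hk with h4 | h4 <;> simp only [Fin.zero_eta] at h4 <;> rw [h4] at h5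
      · exact not_int_zero h5
      · exact not_int_one h5
    · rcases cl_not_int hk with h4 | h4 <;> simp only [Fin.mk_one] at h4 <;> rw [h4] at h6
      · exact not_int_zero h6
      · exact not_int_one h6
  | _ + 3, i => exact Empty.elim i

theorem Ph_disj (n m : ℕ) (i : T.Cel n) (j : T.Cel m) (x : Fin n → ℝ) (y : Fin m → ℝ)
    (hx : x ∈ ball (0 : Fin n → ℝ) 1) (hy : y ∈ ball (0 : Fin m → ℝ) 1)
    (h : T.Ph n i x = T.Ph m j y) : (⟨n, i⟩ : Σ n, T.Cel n) = ⟨m, j⟩ := by
  match n, i, m, j with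
  | 0, i, 0, j =>
    have h1 := T.eq_vv (T.invEq_of_pr h)
    have h2 : i = j := ((T.tP_rP i).symm.trans h1.symm).trans (T.tP_rP j)
    exact congrArg (Sigma.mk 0) h2
  | 0, i, 1, Sum.inl j => exact (T.ne_av (cl_int (abs_lt_of_ball hy 0)) (T.invEq_of_pr h.symm)).elim
  | 0, i, 1, Sum.inr j => exact (T.ne_bv (cl_int (abs_lt_of_ball hy 0)) (T.invEq_of_pr h.symm)).elim
  | 0, i, 2, j => exact (T.ne_fv (cl_int (abs_lt_of_ball hy 0)) (cl_int (abs_lt_of_ball hy 1))
      (T.invEq_of_pr h.symm)).elim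
  | 1, Sum.inl i, 0, j => exact (T.ne_av (cl_int (abs_lt_of_ball hx 0)) (T.invEq_of_pr h)).elim
  | 1, Sum.inr i, 0, j => exact (T.ne_bv (cl_int (abs_lt_of_ball hx 0)) (T.invEq_of_pr h)).elim
  | 1, Sum.inl i, 1, Sum.inl j =>
    have := (T.eq_aa (cl_int (abs_lt_of_ball hx 0)) (T.invEq_of_pr h)).1
    rw [T.tA_rA, T.tA_rA] at this
    rw [this]
  | 1, Sum.inr i, 1, Sum.inr j =>
    have := (T.eq_bb (cl_int (abs_lt_of_ball hx 0)) (T.invEq_of_pr h)).1
    rw [T.tB_rB, T.tB_rB] at this
    rw [this]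
  | 1, Sum.inl i, 1, Sum.inr j => exact (T.ne_ab (cl_int (abs_lt_of_ball hx 0)) (T.invEq_of_pr h)).elim
  | 1, Sum.inr i, 1, Sum.inl j =>
    exact (T.ne_ab (cl_int (abs_lt_of_ball hy 0)) (T.invEq_of_pr h.symm)).elim
  | 1, Sum.inl i, 2, j => exact (T.ne_fa (cl_int (abs_lt_of_ball hy 0))
      (cl_int (abs_lt_of_ball hy 1)) (T.invEq_of_pr h.symm)).elim
  | 1, Sum.inr i, 2, j => exact (T.ne_fb (cl_int (abs_lt_of_ball hy 0))
      (cl_int (abs_lt_of_ball hy 1)) (T.invEq_of_pr h.symm)).elim
  | 2, i, 0, j => exact (T.ne_fv (cl_int (abs_lt_of_ball hx 0))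
      (cl_int (abs_lt_of_ball hx 1)) (T.invEq_of_pr h)).elim
  | 2, i, 1, Sum.inl j => exact (T.ne_fa (cl_int (abs_lt_of_ball hx 0))
      (cl_int (abs_lt_of_ball hx 1)) (T.invEq_of_pr h)).elim
  | 2, i, 1, Sum.inr j => exact (T.ne_fb (cl_int (abs_lt_of_ball hx 0))
      (cl_int (abs_lt_of_ball hx 1)) (T.invEq_of_pr h)).elim
  | 2, i, 2, j =>
    have := (T.eq_ff (cl_int (abs_lt_of_ball hx 0)) (cl_int (abs_lt_of_ball hx 1))
      (T.invEq_of_pr h)).1
    have h2 : i = j := ((T.tF_rF i).symm.trans this.symm).trans (T.tF_rF j)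
    exact congrArg (Sigma.mk 2) h2
  | _ + 3, i, _, _ => exact Empty.elim i
  | _, _, _ + 3, j => exact Empty.elim j

/-- the CW structure -/
theorem exists_cw [Finite T.TP] [Finite T.TA] [Finite T.TB] [Finite T.TF] :
    ∃ _C : _root_.Topology.CWComplex (Set.univ : Set T.Qt),
      _root_.Topology.RelCWComplex.Finite (Set.univ : Set T.Qt) ∧
      ∀ n, 2 < n → IsEmpty (_root_.Topology.RelCWComplex.cell (Set.univ : Set T.Qt) n) := by
  have hfin : ∀ n, Finite (T.Cel n) := by
    intro n
    match n with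
    | 0 => exact inferInstanceAs (Finite T.TP)
    | 1 => exact inferInstanceAs (Finite (T.TA ⊕ T.TB))
    | 2 => exact inferInstanceAs (Finite T.TF)
    | _ + 3 => exact inferInstanceAs (Finite Empty)
  have hemp : ∀ n, 2 < n → IsEmpty (T.Cel n) := by
    intro n hn
    match n, hn with
    | m + 3, _ => exact inferInstanceAs (IsEmpty Empty)
  have hev : ∀ᶠ n in Filter.atTop, IsEmpty (T.Cel n) :=
    Filter.eventually_atTop.mpr ⟨3, fun n hn => hemp n hn⟩
  have h1 : ∀ (n : ℕ) (i : T.Cel n), ContinuousOn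
      ((T.Ph_inj n i).toPartialEquiv (T.Ph n i) (ball 0 1)) (closedBall 0 1) :=
    fun n i => (T.continuous_Ph n i).continuousOn
  have h2 : ∀ (n : ℕ) (i : T.Cel n), ContinuousOn
      ((T.Ph_inj n i).toPartialEquiv (T.Ph n i) (ball 0 1)).symm
      ((T.Ph_inj n i).toPartialEquiv (T.Ph n i) (ball 0 1)).target :=
    fun n i => Crest.Agent.R197.cw_build_symm (T.Ph n i) (T.continuous_Ph n i).continuousOn
      (T.Ph_inj n i) (T.Ph_sat n i)
  have h3 : (univ : Set (Σ n, T.Cel n)).PairwiseDisjoint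
      (fun ni ↦ ((T.Ph_inj ni.1 ni.2).toPartialEquiv (T.Ph ni.1 ni.2) (ball 0 1)) '' ball 0 1) := by
    rintro ⟨n, i⟩ - ⟨m, j⟩ - hne
    rw [Function.onFun, Set.disjoint_left]
    rintro x ⟨y, hy, hyx⟩ ⟨z, hz, hzx⟩
    exact hne (T.Ph_disj n m i j y z hy hz (hyx.trans hzx.symm))
  have h4 : ∀ (n : ℕ) (i : T.Cel n),
      MapsTo ((T.Ph_inj n i).toPartialEquiv (T.Ph n i) (ball 0 1)) (sphere 0 1)
      (⋃ (m < n) (j : T.Cel m),
        ((T.Ph_inj m j).toPartialEquiv (T.Ph m j) (ball 0 1)) '' closedBall 0 1) := by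
    intro n i x hx
    obtain ⟨k, hk⟩ := exists_of_sphere hx
    have hv : ∀ (p : X.P), 0 < n → T.pr (T.v p) ∈ (⋃ (m < n) (j : T.Cel m),
        ((T.Ph_inj m j).toPartialEquiv (T.Ph m j) (ball 0 1)) '' closedBall 0 1) := by
      intro p hn
      obtain ⟨z, hz, h⟩ := T.cover_v p
      simp only [mem_iUnion]
      exact ⟨0, hn, T.tP p, z, hz, h⟩
    have ha : ∀ (p : X.A) (s : I), 1 < n → T.pr (T.a p s) ∈ (⋃ (m < n) (j : T.Cel m),
        ((T.Ph_inj m j).toPartialEquiv (T.Ph m j) (ball 0 1)) '' closedBall 0 1) := by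
      intro p s hn
      obtain ⟨z, hz, h⟩ := T.cover_a p s
      simp only [mem_iUnion]
      exact ⟨1, hn, Sum.inl (T.tA p), z, hz, h⟩
    have hb : ∀ (p : X.B) (s : I), 1 < n → T.pr (T.b p s) ∈ (⋃ (m < n) (j : T.Cel m),
        ((T.Ph_inj m j).toPartialEquiv (T.Ph m j) (ball 0 1)) '' closedBall 0 1) := by
      intro p s hn
      obtain ⟨z, hz, h⟩ := T.cover_b p s
      simp only [mem_iUnion]
      exact ⟨1, hn, Sum.inr (T.tB p), z, hz, h⟩
    match n, i with
    | 0, i => exact k.elim0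
    | 1, Sum.inl i =>
      rw [Fin.eq_zero k] at hk
      have h5 : T.Ph 1 (Sum.inl i) x = T.pr (T.a (T.rA i) (cl (x 0))) := rfl
      change T.Ph 1 (Sum.inl i) x ∈ _
      rw [h5]
      rcases cl_not_int hk with h4 | h4 <;> rw [h4]
      · have : T.a (T.rA i) 0 = T.v _ := ea'_zero _
        rw [this]
        exact hv _ zero_lt_one
      · have : T.a (T.rA i) 1 = T.v _ := ea'_one _
        rw [this]
        exact hv _ zero_lt_one
    | 1, Sum.inr i =>
      rw [Fin.eq_zero k] at hk
      have h5 : T.Ph 1 (Sum.inr i) x = T.pr (T.b (T.rB i) (cl (x 0))) := rfl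
      change T.Ph 1 (Sum.inr i) x ∈ _
      rw [h5]
      rcases cl_not_int hk with h4 | h4 <;> rw [h4]
      · have : T.b (T.rB i) 0 = T.v _ := eb'_zero _
        rw [this]
        exact hv _ zero_lt_one
      · have : T.b (T.rB i) 1 = T.v _ := eb'_one _
        rw [this]
        exact hv _ zero_lt_one
    | 2, i =>
      have h5 : T.Ph 2 i x = T.pr (T.f (T.rF i) (cl (x 0), cl (x 1))) := rfl
      change T.Ph 2 i x ∈ _
      rw [h5]
      fin_cases k
      · rcases cl_not_int hk with h4 | h4 <;> simp only [Fin.zero_eta] at h4 <;> rw [h4]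
        · have : T.f (T.rF i) (0, cl (x 1)) = T.b _ _ := sq'_left _ _
          rw [this]
          exact hb _ _ one_lt_two
        · have : T.f (T.rF i) (1, cl (x 1)) = T.b _ _ := sq'_right _ _
          rw [this]
          exact hb _ _ one_lt_two
      · rcases cl_not_int hk with h4 | h4 <;> simp only [Fin.mk_one] at h4 <;> rw [h4]
        · have : T.f (T.rF i) (cl (x 0), 0) = T.v _ := sq'_bot _ _
          rw [this]
          exact hv _ zero_lt_two
        · have : T.f (T.rF i) (cl (x 0), 1) = T.a _ _ := sq'_top _ _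
          rw [this]
          exact ha _ _ one_lt_two
    | _ + 3, i => exact Empty.elim i
  have h5 : ⋃ (n : ℕ) (j : T.Cel n),
      ((T.Ph_inj n j).toPartialEquiv (T.Ph n j) (ball 0 1)) '' closedBall 0 1 =
      (univ : Set T.Qt) := by
    rw [eq_univ_iff_forall]
    intro x
    induction x using Quotient.inductionOn' with | _ x => ?_
    simp only [mem_iUnion]
    rcases T.norm x with ⟨q, rfl⟩ | ⟨a, s', hs', rfl⟩ | ⟨b, s', hs', rfl⟩ |
      ⟨f', s', t', hs', ht', rfl⟩
    · obtain ⟨z, hz, h⟩ := T.cover_v q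
      exact ⟨0, T.tP q, z, hz, h⟩
    · obtain ⟨z, hz, h⟩ := T.cover_a a s'
      exact ⟨1, Sum.inl (T.tA a), z, hz, h⟩
    · obtain ⟨z, hz, h⟩ := T.cover_b b s'
      exact ⟨1, Sum.inr (T.tB b), z, hz, h⟩
    · obtain ⟨z, hz, h⟩ := T.cover_f f' s' t'
      exact ⟨2, T.tF f', z, hz, h⟩
  refine ⟨_root_.Topology.CWComplex.mkFinite (Set.univ : Set T.Qt) T.Cel
    (fun n i => (T.Ph_inj n i).toPartialEquiv (T.Ph n i) (ball 0 1)) hev hfin
    (fun n i => rfl) h1 h2 h3 h4 h5, ?_, fun n hn => hemp n hn⟩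
  exact _root_.Topology.CWComplex.finite_mkFinite _ _ _ hev hfin _ h1 h2 h3 h4 h5

/-- final statement of (8a), (8b): the quotient of a contractible cone complex -/
theorem classifying [Finite T.TP] [Finite T.TA] [Finite T.TB] [Finite T.TF]
    [ContractibleSpace (Real X)] : Crest.Topology.HasFiniteClassifyingComplex G 2 := by
  have : ContractibleSpace T.Sp := inferInstanceAs (ContractibleSpace (Real X))
  obtain ⟨C, h1, h2⟩ := T.exists_cw
  obtain ⟨z⟩ : Nonempty T.Sp := inferInstance
  exact ⟨T.Qt, inferInstance, C, T.t2, h1, h2, T.hasContractibleCover, T.pr z, T.pi1 z⟩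

end GCx

end Crest.Agent.R177.Top
end

-- ▼ part R177/TopCone
section

/-!
# Rows 177 / 184, module TOPOLOGY (8b): the group acts on its cone complex (helper961)
-/

set_option autoImplicit false

open scoped unitInterval Topology

namespace Crest.Agent.R177.Top

open Crest.Agent.R199 (PAct)

variable {S V : Type} (A : PAct S V)

/-- pairs in the same cell are connected by a word -/
theorem cell_eq {x y : Grp A × V} (h : cell A x = cell A y) :
    ∃ w, A.read w x.2 = some y.2 ∧ y.1 = x.1 * gw A w := by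
  have h1 := Quot.eqvGen_exact h
  clear h
  induction h1 with
  | rel x y h =>
    obtain ⟨s, h1, h2⟩ := h
    exact ⟨[(s, true)], by rw [Dev.read_single, h1], h2⟩
  | refl x => exact ⟨[], rfl, by rw [Dev.gw_nil, mul_one]⟩
  | symm x y _ ih =>
    obtain ⟨w, h1, h2⟩ := ih
    exact ⟨FreeGroup.invRev w, Dev.read_invRev A w _ _ h1, by
      rw [Dev.gw_invRev, h2, mul_inv_cancel_right]⟩
  | trans x y z _ _ ih1 ih2 =>
    obtain ⟨u, h1, h2⟩ := ih1
    obtain ⟨v, h3, h4⟩ := ih2
    exact ⟨u ++ v, by rw [Dev.read_append A u v _ _ h1, h3], by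
      rw [Dev.gw_append, h4, h2, mul_assoc]⟩

theorem cell_st (p : Grp A) (v w : V) (a : S × Bool) (h : A.st a v = some w) :
    cell A (p * gw A [a], w) = cell A (p, v) := by
  obtain ⟨s, b⟩ := a
  cases b with
  | true => exact cell_step A p v w s h
  | false =>
    have h1 : A.st (s, true) w = some v := A.symm (s, false) v w h
    have h2 := cell_step A (p * gw A [(s, false)]) w v s h1
    rw [← h2]
    have : gw A [(s, false)] = (gw A [(s, true)])⁻¹ := Dev.gw_hinv A (s, true)
    rw [this, inv_mul_cancel_right]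

theorem cell_read (w : List (S × Bool)) : ∀ (p : Grp A) (v v' : V), A.read w v = some v' →
    cell A (p * gw A w, v') = cell A (p, v) := by
  induction w with
  | nil =>
    intro p v v' h
    simp only [PAct.read] at h
    rw [Dev.gw_nil, mul_one, ← Option.some_inj.1 h]
  | cons a w ih =>
    intro p v v' h
    simp only [PAct.read] at h
    cases hx : A.st a v with
    | none => rw [hx] at h; simp at h
    | some z =>
      rw [hx] at h
      simp only [Option.bind_some] at h
      rw [Dev.gw_cons, ← mul_assoc, ih _ z v' h, cell_st A p v z a hx]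

/-- action on the cells -/
def cellMul (g : Grp A) : Cell A → Cell A :=
  Quot.map (fun x => (g * x.1, x.2)) fun _ _ ⟨s, h1, h2⟩ => ⟨s, h1, by rw [h2, mul_assoc]⟩

theorem cellMul_cell (g : Grp A) (x : Grp A × V) : cellMul A g (cell A x) = cell A (g * x.1, x.2) :=
  rfl

/-- component of a cell -/
def cellTy : Cell A → Quotient (Dev.conn A) :=
  Quot.lift (fun x => Quotient.mk _ x.2) fun _ _ ⟨s, h1, _⟩ =>
    Quotient.sound ⟨[(s, true)], by rw [Dev.read_single, h1]⟩

theorem cellMul_free (g : Grp A) (c : Cell A) (h : cellMul A g c = c) : g = 1 := by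
  obtain ⟨x, rfl⟩ : ∃ x, cell A x = c := Quot.exists_rep c
  rw [cellMul_cell] at h
  obtain ⟨w, h1, h2⟩ := cell_eq A h
  have h3 := Dev.gw_closed A w x.2 h1
  simp only at h2
  rw [h3, mul_one] at h2
  exact mul_eq_right.1 h2.symm

/-- the group of a folded graph acts on its cone complex -/
def gcxCone : GCx (Grp A) (coneX A) where
  P g := Sum.map (fun p => g * p) (cellMul A g)
  A g x := (g * x.1, x.2)
  B g x := (g * x.1, x.2)
  F g x := ⟨(g * x.1.1, x.1.2), x.2⟩
  P_one := by
    rintro (p | c)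
    · exact congrArg Sum.inl (one_mul p)
    · obtain ⟨x, rfl⟩ : ∃ x, cell A x = c := Quot.exists_rep c
      exact congrArg (fun q => Sum.inr (cell A (q, x.2))) (one_mul x.1)
  A_one x := Prod.ext (one_mul _) rfl
  B_one x := Prod.ext (one_mul _) rfl
  F_one x := Subtype.ext (Prod.ext (one_mul _) rfl)
  P_mul := by
    rintro g h (p | c)
    · exact congrArg Sum.inl (mul_assoc g h p)
    · obtain ⟨x, rfl⟩ : ∃ x, cell A x = c := Quot.exists_rep c
      exact congrArg (fun q => Sum.inr (cell A (q, x.2))) (mul_assoc g h x.1)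
  A_mul g h x := Prod.ext (mul_assoc _ _ _) rfl
  B_mul g h x := Prod.ext (mul_assoc _ _ _) rfl
  F_mul g h x := Subtype.ext (Prod.ext (mul_assoc _ _ _) rfl)
  asrc _ _ := rfl
  atgt g x := congrArg Sum.inl (mul_assoc g x.1 _)
  bsrc _ _ := rfl
  btgt _ _ := rfl
  fb _ _ := rfl
  fl _ _ := rfl
  fr g x := Prod.ext (mul_assoc _ _ _) rfl
  ft _ _ := rfl
  freeP := by
    rintro g (p | c) h
    · exact mul_eq_right.1 (Sum.inl_injective h)
    · exact cellMul_free A g c (Sum.inr_injective h)
  freeA g x h := mul_eq_right.1 (congrArg Prod.fst h)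
  cp x := x.isRight
  cp_asrc _ := by simp [coneX]
  cp_atgt _ := by simp [coneX]
  cp_bsrc _ := by simp [coneX]
  cp_btgt _ := by simp [coneX]
  cp_inv g x h := by
    rcases x with p | c
    · simp at h
    · rfl
  TP := Option (Quotient (Dev.conn A))
  TA := S
  TB := V
  TF := {e : V × S // (A.st (e.2, true) e.1).isSome}
  tP x := Sum.elim (fun _ => none) (fun c => some (cellTy A c)) x
  tA x := x.2
  tB x := x.2
  tF x := ⟨x.1.2, x.2⟩
  tP_inv := by
    rintro g (p | c)
    · rfl
    · obtain ⟨x, rfl⟩ : ∃ x, cell A x = c := Quot.exists_rep c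
      rfl
  tA_inv _ _ := rfl
  tB_inv _ _ := rfl
  tF_inv _ _ := rfl
  tP_tr := by
    rintro (p | c) (q | d) h
    · exact ⟨q * p⁻¹, congrArg Sum.inl (inv_mul_cancel_right q p)⟩
    · simp at h
    · simp at h
    · obtain ⟨x, rfl⟩ : ∃ x, cell A x = c := Quot.exists_rep c
      obtain ⟨y, rfl⟩ : ∃ y, cell A y = d := Quot.exists_rep d
      obtain ⟨w, hw⟩ : ∃ w, A.read w x.2 = some y.2 := Quotient.exact (Option.some_inj.1 h)
      refine ⟨y.1 * (gw A w)⁻¹ * x.1⁻¹, congrArg Sum.inr ?_⟩
      rw [cellMul_cell, inv_mul_cancel_right, ← cell_read A w _ _ _ hw, inv_mul_cancel_right]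
  tA_tr x y h := ⟨y.1 * x.1⁻¹, Prod.ext (inv_mul_cancel_right _ _) h⟩
  tB_tr x y h := ⟨y.1 * x.1⁻¹, Prod.ext (inv_mul_cancel_right _ _) h⟩
  tF_tr x y h := ⟨y.1.1 * x.1.1⁻¹, Subtype.ext (Prod.ext (inv_mul_cancel_right _ _)
    (congrArg Subtype.val h))⟩
  tP_sj := by
    rintro (_ | q)
    · exact ⟨Sum.inl 1, rfl⟩
    · obtain ⟨v, rfl⟩ := Quotient.exists_rep q
      exact ⟨Sum.inr (cell A (1, v)), rfl⟩
  tA_sj s := ⟨(1, s), rfl⟩
  tB_sj v := ⟨(1, v), rfl⟩
  tF_sj e := ⟨⟨(1, e.1), e.2⟩, rfl⟩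

end Crest.Agent.R177.Top
end

-- ▼ part R177/TopAlg
section

/-!
# Rows 177 / 184, module TOPOLOGY, part (8d): algebra of the cone complex (helper753)

* `triv_coneX` : flat labellings of the cone complex are coboundaries (simple connectivity);
* `solv_coneX` : `Aspherical A` implies that all 2-cochains are coboundaries.
-/

set_option autoImplicit false

namespace Crest.Agent.R177.Top

open Crest.Agent.R199 (PAct)

section triv

variable {S V : Type} (A : PAct S V) {H : Type} [Group H]

/-- the permutation of `Grp A × H` defined by a letter -/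
def letterPerm (θA : Grp A × S → H) (s : S) : Equiv.Perm (Grp A × H) where
  toFun x := (x.1 * gw A [(s, true)], x.2 * θA (x.1, s))
  invFun x := (x.1 * (gw A [(s, true)])⁻¹, x.2 * (θA (x.1 * (gw A [(s, true)])⁻¹, s))⁻¹)
  left_inv x := by
    ext <;> simp [mul_assoc]
  right_inv x := by
    ext <;> simp [mul_assoc]

/-- the right action of the free group on `Grp A × H` -/
def actHom (θA : Grp A × S → H) : FreeGroup S →* (Equiv.Perm (Grp A × H))ᵐᵒᵖ :=
  FreeGroup.lift fun s => MulOpposite.op (letterPerm A θA s)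

theorem actHom_of (θA : Grp A × S → H) (s : S) (x : Grp A × H) :
    (actHom A θA (FreeGroup.of s)).unop x = (x.1 * gw A [(s, true)], x.2 * θA (x.1, s)) := by
  simp [actHom, letterPerm]

theorem actHom_mul (θA : Grp A × S → H) (w w' : FreeGroup S) (x : Grp A × H) :
    (actHom A θA (w * w')).unop x = (actHom A θA w').unop ((actHom A θA w).unop x) := by
  simp

theorem gw_nil : gw A ([] : List (S × Bool)) = 1 := by
  unfold gw
  rw [← FreeGroup.one_eq_mk, map_one]

theorem gw_cons (a : S × Bool) (w : List (S × Bool)) : gw A (a :: w) = gw A [a] * gw A w := by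
  unfold gw
  rw [← map_mul, FreeGroup.mul_mk]
  rfl

theorem gw_false (s : S) : gw A [(s, false)] = (gw A [(s, true)])⁻¹ := by
  unfold gw
  rw [← map_inv, FreeGroup.inv_mk]
  rfl

/-- along a readable word -/
theorem actHom_read (θA : Grp A × S → H) (θB : Grp A × V → H)
    (h : ∀ (p : Grp A) (v v' : V) (s : S), A.st (s, true) v = some v' →
      θB (p, v) * θA (p, s) = θB (p * gw A [(s, true)], v')) :
    ∀ (w : List (S × Bool)) (v v' : V) (p : Grp A) (a : H), A.read w v = some v' →
      (actHom A θA (FreeGroup.mk w)).unop (p, a * θB (p, v)) =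
        (p * gw A w, a * θB (p * gw A w, v')) := by
  intro w
  induction w with
  | nil =>
    intro v v' p a hr
    simp only [PAct.read, Option.some.injEq] at hr
    subst hr
    rw [gw_nil, mul_one, ← FreeGroup.one_eq_mk, map_one]
    rfl
  | cons b w ih =>
    intro v v' p a hr
    obtain ⟨u, hu, hr'⟩ := Option.bind_eq_some_iff.mp hr
    have hsplit : (FreeGroup.mk (b :: w) : FreeGroup S) = FreeGroup.mk [b] * FreeGroup.mk w := by
      rw [FreeGroup.mul_mk]; rfl
    have hstep : (actHom A θA (FreeGroup.mk [b])).unop (p, a * θB (p, v)) =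
        (p * gw A [b], a * θB (p * gw A [b], u)) := by
      obtain ⟨s, c⟩ := b
      cases c with
      | true =>
        have : (FreeGroup.mk [(s, true)] : FreeGroup S) = FreeGroup.of s := rfl
        rw [this, actHom_of]
        simp only
        rw [mul_assoc, h p v u s hu]
      | false =>
        have hinv' : (FreeGroup.mk [(s, false)] : FreeGroup S) = (FreeGroup.of s)⁻¹ := by
          rw [FreeGroup.of, FreeGroup.inv_mk]; rfl
        have hback : A.st (s, true) u = some v := A.symm (s, false) v u hu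
        rw [hinv', map_inv, MulOpposite.unop_inv, Equiv.Perm.inv_def, Equiv.symm_apply_eq,
          actHom_of]
        have h1 := h (p * gw A [(s, false)]) u v s hback
        have h2 : p * gw A [(s, false)] * gw A [(s, true)] = p := by
          rw [gw_false]; group
        rw [h2] at h1
        simp only
        rw [mul_assoc a, h1, h2]
    rw [hsplit, actHom_mul, hstep, ih u v' (p * gw A [b]) a hr', gw_cons A b w, mul_assoc]

theorem actHom_rels (θA : Grp A × S → H) (θB : Grp A × V → H)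
    (h : ∀ (p : Grp A) (v v' : V) (s : S), A.st (s, true) v = some v' →
      θB (p, v) * θA (p, s) = θB (p * gw A [(s, true)], v')) :
    ∀ r ∈ rels A, actHom A θA r = 1 := by
  rintro r ⟨x, w, hw, rfl⟩
  apply MulOpposite.unop_injective
  ext1 ⟨p, a⟩
  have h1 := actHom_read A θA θB h w x x p (a * (θB (p, x))⁻¹) hw
  have hg : gw A w = 1 := by
    unfold gw
    exact PresentedGroup.one_of_mem ⟨x, w, hw, rfl⟩
  rw [hg, mul_one, inv_mul_cancel_right] at h1
  rw [h1]
  rfl

/-- (d1) -/
theorem triv_coneX {S V : Type} (A : PAct S V) : Triv (coneX A) := by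
  intro H _ θA θB hf
  change (Grp A × S → H) at θA
  change (Grp A × V → H) at θB
  have h : ∀ (p : Grp A) (v v' : V) (s : S), A.st (s, true) v = some v' →
      θB (p, v) * θA (p, s) = θB (p * gw A [(s, true)], v') := by
    intro p v v' s hs
    have hsome : (A.st (s, true) v).isSome := by rw [hs]; rfl
    have h1 := hf ⟨(p, v, s), hsome⟩
    have h2 : (A.st (s, true) v).get hsome = v' := by simp [hs]
    have h3 : θB (p, v) * θA (p, s) =
        θB (p * gw A [(s, true)], (A.st (s, true) v).get hsome) := h1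
    rw [h3, h2]
  have hrels := actHom_rels A θA θB h
  let Φ : Grp A →* (Equiv.Perm (Grp A × H))ᵐᵒᵖ :=
    PresentedGroup.toGroup (f := fun s => MulOpposite.op (letterPerm A θA s)) hrels
  have hΦs : ∀ (s : S) (x : Grp A × H), (Φ (gw A [(s, true)])).unop x =
      (x.1 * gw A [(s, true)], x.2 * θA (x.1, s)) := by
    intro s x
    have : Φ (gw A [(s, true)]) = MulOpposite.op (letterPerm A θA s) :=
      PresentedGroup.toGroup.of hrels
    rw [this]
    rfl
  have hΦ1 : ∀ (g : Grp A) (x : Grp A × H), ((Φ g).unop x).1 = x.1 * g := by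
    intro g
    induction g using PresentedGroup.induction_on with
    | _ w =>
      induction w using FreeGroup.induction_on with
      | C1 => intro x; simp
      | of s =>
        intro x
        exact congrArg Prod.fst (hΦs s x)
      | inv_of s ih =>
        intro x
        have h4 : (PresentedGroup.mk (rels A)) (FreeGroup.of s) = gw A [(s, true)] := rfl
        rw [map_inv, map_inv, MulOpposite.unop_inv, Equiv.Perm.inv_def]
        have h5 := ih ((Equiv.symm (Φ (PresentedGroup.mk (rels A) (FreeGroup.of s))).unop) x)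
        rw [Equiv.apply_symm_apply] at h5
        rw [h5]
        group
      | mul w w' ih ih' =>
        intro x
        rw [map_mul, map_mul, MulOpposite.unop_mul, Equiv.Perm.mul_apply, ih', ih, mul_assoc]
  let ρ0 : Grp A → H := fun g => ((Φ g).unop (1, 1)).2
  have hpair : ∀ g, (Φ g).unop (1, 1) = (g, ρ0 g) := by
    intro g
    apply Prod.ext
    · rw [hΦ1]; simp
    · rfl
  have hρ : ∀ (g : Grp A) (s : S), ρ0 (g * gw A [(s, true)]) = ρ0 g * θA (g, s) := by
    intro g s
    have h6 : (Φ (g * gw A [(s, true)])).unop (1, 1) =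
        (g * gw A [(s, true)], ρ0 g * θA (g, s)) := by
      rw [map_mul, MulOpposite.unop_mul, Equiv.Perm.mul_apply, hpair, hΦs]
    exact congrArg Prod.snd h6
  let ρ1 : Cell A → H := Quot.lift (fun x : Grp A × V => ρ0 x.1 * (θB x)⁻¹) (by
    rintro ⟨p, v⟩ ⟨q, v'⟩ ⟨s, hs, hq⟩
    simp only at hs hq ⊢
    rw [hq, hρ, ← h p v v' s hs]
    group)
  refine ⟨Sum.elim ρ0 ρ1, ?_, ?_⟩
  · rintro ⟨p, s⟩
    change θA (p, s) = (ρ0 p)⁻¹ * ρ0 (p * gw A [(s, true)])
    rw [hρ, inv_mul_cancel_left]
  · rintro ⟨p, v⟩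
    change θB (p, v) = (ρ0 p * (θB (p, v))⁻¹)⁻¹ * ρ0 p
    group

end triv

section solv

variable (X : Cx)

/-- the cellular boundary of the 2-cells -/
noncomputable def bdry : (X.F →₀ ℤ) →+ ((X.A ⊕ X.B) →₀ ℤ) :=
  Finsupp.liftAddHom fun f => Finsupp.singleAddHom (Sum.inl (X.ft f)) +
    Finsupp.singleAddHom (Sum.inr (X.fl f)) - Finsupp.singleAddHom (Sum.inr (X.fr f))

theorem bdry_single (f : X.F) (n : ℤ) : bdry X (Finsupp.single f n) =
    Finsupp.single (Sum.inl (X.ft f)) n + Finsupp.single (Sum.inr (X.fl f)) n -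
      Finsupp.single (Sum.inr (X.fr f)) n := by
  simp [bdry]

/-- `Triv` and injectivity of the boundary give `Solv` -/
theorem solv_of_triv (hT : Triv X) (hinj : Function.Injective (bdry X)) : Solv X := by
  classical
  intro K _ o
  let Q := ((X.A ⊕ X.B) →₀ ℤ) ⧸ (bdry X).range
  let π : ((X.A ⊕ X.B) →₀ ℤ) →+ Q := QuotientAddGroup.mk' (bdry X).range
  obtain ⟨ρ, hρA, hρB⟩ := hT (Multiplicative Q)
    (fun a => Multiplicative.ofAdd (π (Finsupp.single (Sum.inl a) 1)))
    (fun b => Multiplicative.ofAdd (π (Finsupp.single (Sum.inr b) 1))) (by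
      intro f
      rw [← ofAdd_add]
      congr 1
      rw [← map_add]
      refine (QuotientAddGroup.eq).mpr ?_
      refine ⟨-(Finsupp.single f 1), ?_⟩
      rw [map_neg, bdry_single]
      abel)
  have hlift : ∀ p, ∃ c : ((X.A ⊕ X.B) →₀ ℤ), π c = Multiplicative.toAdd (ρ p) := fun p =>
    QuotientAddGroup.mk'_surjective _ _
  choose σ hσ using hlift
  have hA : ∀ a, ∃ w : X.F →₀ ℤ, bdry X w =
      σ (X.asrc a) + Finsupp.single (Sum.inl a) 1 - σ (X.atgt a) := by
    intro a
    have h1 : π (σ (X.asrc a) + Finsupp.single (Sum.inl a) 1 - σ (X.atgt a)) = 0 := by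
      rw [map_sub, map_add, hσ, hσ]
      have h2 := congrArg Multiplicative.toAdd (hρA a)
      rw [toAdd_ofAdd, toAdd_mul, toAdd_inv] at h2
      rw [h2]
      abel
    have h3 := (QuotientAddGroup.eq_zero_iff _).mp h1
    exact h3
  have hB : ∀ b, ∃ w : X.F →₀ ℤ, bdry X w =
      σ (X.bsrc b) + Finsupp.single (Sum.inr b) 1 - σ (X.btgt b) := by
    intro b
    have h1 : π (σ (X.bsrc b) + Finsupp.single (Sum.inr b) 1 - σ (X.btgt b)) = 0 := by
      rw [map_sub, map_add, hσ, hσ]
      have h2 := congrArg Multiplicative.toAdd (hρB b)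
      rw [toAdd_ofAdd, toAdd_mul, toAdd_inv] at h2
      rw [h2]
      abel
    have h3 := (QuotientAddGroup.eq_zero_iff _).mp h1
    exact h3
  choose wA hwA using hA
  choose wB hwB using hB
  have key : ∀ f, wA (X.ft f) + wB (X.fl f) - wB (X.fr f) = Finsupp.single f 1 := by
    intro f
    apply hinj
    rw [map_sub, map_add, hwA, hwB, hwB, bdry_single, X.bsrc_fl, X.bsrc_fr, X.btgt_fl, X.btgt_fr]
    abel
  let oh : (X.F →₀ ℤ) →+ K := Finsupp.liftAddHom fun f => (zmultiplesHom K) (o f)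
  have hoh : ∀ f, oh (Finsupp.single f 1) = o f := by
    intro f
    simp [oh]
  refine ⟨fun a => oh (wA a), fun b => - oh (wB b), fun f => ?_⟩
  rw [← hoh f, ← key f, map_sub, map_add]
  beta_reduce
  rw [sub_neg_eq_add]
  abel1

end solv

section asph

variable {S V : Type} (A : PAct S V)

/-- left part of a chain on a sum -/
noncomputable def projL (α β : Type) : ((α ⊕ β) →₀ ℤ) →+ (α →₀ ℤ) :=
  Finsupp.liftAddHom (Sum.elim (fun a => Finsupp.singleAddHom a) (fun _ => 0))

/-- right part of a chain on a sum -/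
noncomputable def projR (α β : Type) : ((α ⊕ β) →₀ ℤ) →+ (β →₀ ℤ) :=
  Finsupp.liftAddHom (Sum.elim (fun _ => 0) (fun b => Finsupp.singleAddHom b))

theorem projL_inl {α β : Type} (a : α) (n : ℤ) :
    projL α β (Finsupp.single (Sum.inl a) n) = Finsupp.single a n := by
  unfold projL
  rw [Finsupp.liftAddHom_apply_single]
  rfl

theorem projL_inr {α β : Type} (b : β) (n : ℤ) :
    projL α β (Finsupp.single (Sum.inr b) n) = 0 := by
  unfold projL
  rw [Finsupp.liftAddHom_apply_single]
  rfl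

theorem projR_inl {α β : Type} (a : α) (n : ℤ) :
    projR α β (Finsupp.single (Sum.inl a) n) = 0 := by
  unfold projR
  rw [Finsupp.liftAddHom_apply_single]
  rfl

theorem projR_inr {α β : Type} (b : β) (n : ℤ) :
    projR α β (Finsupp.single (Sum.inr b) n) = Finsupp.single b n := by
  unfold projR
  rw [Finsupp.liftAddHom_apply_single]
  rfl

theorem push_single (e : Grp A × V × S) (n : ℤ) :
    push A (Finsupp.single e n) = Finsupp.single (e.1, e.2.2) n := by
  simp [push]

theorem cbd_single (e : Grp A × V × S) (v' : V) (n : ℤ)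
    (h : A.st (e.2.2, true) e.2.1 = some v') :
    cbd A (Finsupp.single e n) = Finsupp.single (e.1 * gw A [(e.2.2, true)], v') n -
      Finsupp.single (e.1, e.2.1) n := by
  unfold cbd
  rw [Finsupp.liftAddHom_apply_single]
  simp only [h]
  rfl

/-- the triangles of the cone complex -/
abbrev Tri : Type := {e : Grp A × V × S // (A.st (e.2.2, true) e.2.1).isSome}

/-- the boundary with explicit types -/
noncomputable def bd' : (Tri A →₀ ℤ) →+ (((Grp A × S) ⊕ (Grp A × V)) →₀ ℤ) :=
  bdry (coneX A)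

theorem bd'_single (f : Tri A) (n : ℤ) (v' : V)
    (h : A.st (f.1.2.2, true) f.1.2.1 = some v') : bd' A (Finsupp.single f n) =
    Finsupp.single (Sum.inl (f.1.1, f.1.2.2)) n + Finsupp.single (Sum.inr (f.1.1, f.1.2.1)) n -
      Finsupp.single (Sum.inr (f.1.1 * gw A [(f.1.2.2, true)], v')) n := by
  have h1 := bdry_single (coneX A) f n
  have h2 : (A.st (f.1.2.2, true) f.1.2.1).get f.2 = v' := by simp [h]
  subst h2
  exact h1

theorem push_eq (z : Tri A →₀ ℤ) : push A (Finsupp.mapDomain Subtype.val z) =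
    projL (Grp A × S) (Grp A × V) (bd' A z) := by
  have hpush : (push A).comp (Finsupp.mapDomain.addMonoidHom Subtype.val) =
      (projL (Grp A × S) (Grp A × V)).comp (bd' A) := by
    apply Finsupp.addHom_ext
    intro f n
    obtain ⟨v', hv'⟩ := Option.isSome_iff_exists.mp f.2
    rw [AddMonoidHom.comp_apply, AddMonoidHom.comp_apply, bd'_single A f n v' hv', map_sub,
      map_add, projL_inl, projL_inr, projL_inr, add_zero, sub_zero,
      Finsupp.mapDomain.addMonoidHom_apply, Finsupp.mapDomain_single, push_single]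
  exact DFunLike.congr_fun hpush z

theorem cbd_eq (z : Tri A →₀ ℤ) : cbd A (Finsupp.mapDomain Subtype.val z) =
    -(projR (Grp A × S) (Grp A × V) (bd' A z)) := by
  have hcbd : (cbd A).comp (Finsupp.mapDomain.addMonoidHom Subtype.val) =
      -((projR (Grp A × S) (Grp A × V)).comp (bd' A)) := by
    apply Finsupp.addHom_ext
    intro f n
    obtain ⟨v', hv'⟩ := Option.isSome_iff_exists.mp f.2
    rw [AddMonoidHom.neg_apply, AddMonoidHom.comp_apply, AddMonoidHom.comp_apply,
      bd'_single A f n v' hv', map_sub, map_add, projR_inl, projR_inr, projR_inr, zero_add,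
      neg_sub, Finsupp.mapDomain.addMonoidHom_apply, Finsupp.mapDomain_single,
      cbd_single A _ v' n hv']
  exact DFunLike.congr_fun hcbd z

theorem bd'_injective (h : Aspherical A) : Function.Injective (bd' A) := by
  classical
  rw [injective_iff_map_eq_zero]
  intro z hz
  have hsupp : ∀ e ∈ (Finsupp.mapDomain (Subtype.val : Tri A → Grp A × V × S) z).support,
      (A.st (e.2.2, true) e.2.1).isSome := by
    intro e he
    have h1 := Finsupp.mapDomain_support he
    rw [Finset.mem_image] at h1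
    obtain ⟨f, -, rfl⟩ := h1
    exact f.2
  have h1 : cbd A (Finsupp.mapDomain Subtype.val z) = 0 := by
    rw [cbd_eq, hz, map_zero, neg_zero]
  have h2 : push A (Finsupp.mapDomain Subtype.val z) = 0 := by
    rw [push_eq, hz, map_zero]
  have h3 := h _ hsupp h1 h2
  exact Finsupp.mapDomain_injective Subtype.val_injective (h3.trans Finsupp.mapDomain_zero.symm)

theorem bdry_coneX_injective (h : Aspherical A) : Function.Injective (bdry (coneX A)) :=
  bd'_injective A h

/-- (d2) -/
theorem solv_coneX {S V : Type} (A : PAct S V) (h : Aspherical A) : Solv (coneX A) :=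
  solv_of_triv (coneX A) (triv_coneX A) (bdry_coneX_injective A h)

end asph

end Crest.Agent.R177.Top
end

-- ▼ part R177/TopBox
section

/-!
# Rows 177 / 184, module (8c), part 1: open box filling in dimension three

`exists_glue_closed` : gluing continuous maps along a finite closed cover.
`exists_box_fill` : a map on five faces of the cube `I × I × I` (all but `τ = 1`) extends to the cube.
-/

set_option autoImplicit false

open scoped unitInterval
open Set

namespace Crest.Agent.R177.Top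

/-- gluing along a finite closed cover -/
theorem exists_glue_closed {ι X E : Type} [Finite ι] [TopologicalSpace X] [TopologicalSpace E]
    (C : ι → Set X) (hC : ∀ i, IsClosed (C i)) (hcov : ∀ x, ∃ i, x ∈ C i) (g : ι → C(X, E))
    (agree : ∀ i j x, x ∈ C i → x ∈ C j → g i x = g j x) :
    ∃ G : C(X, E), ∀ i x, x ∈ C i → G x = g i x := by
  classical
  choose c hc using hcov
  have key : ∀ i x, x ∈ C i → g (c x) x = g i x := fun i x hx => agree _ _ _ (hc x) hx
  refine ⟨⟨fun x => g (c x) x, ?_⟩, key⟩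
  refine (locallyFinite_of_finite C).continuous ?_ hC ?_
  · exact eq_univ_of_forall fun x => mem_iUnion.2 ⟨c x, hc x⟩
  · intro i
    exact (g i).continuous.continuousOn.congr fun x hx => key i x hx

/-- the five closed faces -/
def openBox : Set (I × I × I) :=
  {p | p.2.2 = 0 ∨ p.1 = 0 ∨ p.1 = 1 ∨ p.2.1 = 0 ∨ p.2.1 = 1}

/-- scaling factor of the retraction -/
noncomputable def boxM (p : I × I × I) : ℝ :=
  max (max |2 * (p.1 : ℝ) - 1| |2 * (p.2.1 : ℝ) - 1|) (1 - (p.2.2 : ℝ) / 2)

theorem boxM_ge (p : I × I × I) : 1 / 2 ≤ boxM p := by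
  refine le_trans ?_ (le_max_right _ _)
  have := p.2.2.2.2
  linarith

theorem boxM_pos (p : I × I × I) : 0 < boxM p := lt_of_lt_of_le (by norm_num) (boxM_ge p)

theorem boxM_le (p : I × I × I) : boxM p ≤ 1 := by
  have h1 := p.1.2.1; have h2 := p.1.2.2
  have h3 := p.2.1.2.1; have h4 := p.2.1.2.2
  have h5 := p.2.2.2.1
  refine max_le (max_le ?_ ?_) ?_
  · rw [abs_le]; constructor <;> linarith
  · rw [abs_le]; constructor <;> linarith
  · linarith

theorem continuous_boxM : Continuous boxM := by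
  unfold boxM
  fun_prop

theorem box_aux1 (x m : ℝ) (hm : 0 < m) (h : |x| ≤ m) : (x / m + 1) / 2 ∈ Icc (0 : ℝ) 1 := by
  have h1 : |x / m| ≤ 1 := by
    rw [abs_div, abs_of_pos hm, div_le_one hm]; exact h
  rw [abs_le] at h1
  constructor <;> linarith [h1.1, h1.2]

theorem box_aux2 (p : I × I × I) : 2 - (2 - (p.2.2 : ℝ)) / boxM p ∈ Icc (0 : ℝ) 1 := by
  have hm := boxM_pos p
  have h1 : 1 - (p.2.2 : ℝ) / 2 ≤ boxM p := le_max_right _ _
  have h2 := boxM_le p
  have h3 := p.2.2.2.2
  have h4 := p.2.2.2.1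
  constructor
  · rw [sub_nonneg, div_le_iff₀ hm]; linarith
  · rw [sub_le_comm, le_div_iff₀ hm]; nlinarith

/-- the retraction of the cube onto the open box -/
noncomputable def boxR (p : I × I × I) : I × I × I :=
  (⟨((2 * (p.1 : ℝ) - 1) / boxM p + 1) / 2,
      box_aux1 _ _ (boxM_pos p) ((le_max_left _ _).trans (le_max_left _ _))⟩,
   ⟨((2 * (p.2.1 : ℝ) - 1) / boxM p + 1) / 2,
      box_aux1 _ _ (boxM_pos p) ((le_max_right _ _).trans (le_max_left _ _))⟩,
   ⟨2 - (2 - (p.2.2 : ℝ)) / boxM p, box_aux2 p⟩)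

theorem continuous_boxR : Continuous boxR := by
  have h := continuous_boxM
  have h0 : ∀ p, boxM p ≠ 0 := fun p => (boxM_pos p).ne'
  unfold boxR
  refine Continuous.prodMk ?_ (Continuous.prodMk ?_ ?_) <;> refine Continuous.subtype_mk ?_ _
  · fun_prop (disch := exact h0 _)
  · fun_prop (disch := exact h0 _)
  · fun_prop (disch := exact h0 _)

theorem box_half (x : ℝ) (m : ℝ) (hm : 0 < m) (h : |x| = m) : (x / m + 1) / 2 = 0 ∨ (x / m + 1) / 2 = 1 := by
  rcases abs_eq hm.le |>.1 h with h1 | h1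
  · right; rw [h1, div_self hm.ne']; norm_num
  · left; rw [h1, neg_div, div_self hm.ne']; norm_num

theorem boxR_mem (p : I × I × I) : boxR p ∈ openBox := by
  have hm := boxM_pos p
  unfold openBox
  rcases max_choice (max |2 * (p.1 : ℝ) - 1| |2 * (p.2.1 : ℝ) - 1|) (1 - (p.2.2 : ℝ) / 2)
    with h | h
  · rcases max_choice |2 * (p.1 : ℝ) - 1| |2 * (p.2.1 : ℝ) - 1| with h' | h'
    · have : |2 * (p.1 : ℝ) - 1| = boxM p := by unfold boxM; rw [h, h']
      rcases box_half _ _ hm this with h1 | h1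
      · right; left; exact Subtype.ext h1
      · right; right; left; exact Subtype.ext h1
    · have : |2 * (p.2.1 : ℝ) - 1| = boxM p := by unfold boxM; rw [h, h']
      rcases box_half _ _ hm this with h1 | h1
      · right; right; right; left; exact Subtype.ext h1
      · right; right; right; right; exact Subtype.ext h1
  · left
    have h2 : boxM p = 1 - (p.2.2 : ℝ) / 2 := h
    apply Subtype.ext
    show 2 - (2 - (p.2.2 : ℝ)) / boxM p = 0
    rw [sub_eq_zero, eq_comm, div_eq_iff hm.ne', h2]; ring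

theorem boxR_eq (p : I × I × I) (hp : p ∈ openBox) : boxR p = p := by
  have h1 := p.1.2.1; have h2 := p.1.2.2
  have h3 := p.2.1.2.1; have h4 := p.2.1.2.2
  have h5 := p.2.2.2.1
  have hm : boxM p = 1 := by
    refine le_antisymm (boxM_le p) ?_
    rcases hp with h | h | h | h | h
    · refine le_trans ?_ (le_max_right _ _)
      rw [h]; norm_num
    · refine le_trans ?_ ((le_max_left _ _).trans (le_max_left _ _))
      rw [h]; norm_num
    · refine le_trans ?_ ((le_max_left _ _).trans (le_max_left _ _))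
      rw [h]; norm_num
    · refine le_trans ?_ ((le_max_right _ _).trans (le_max_left _ _))
      rw [h]; norm_num
    · refine le_trans ?_ ((le_max_right _ _).trans (le_max_left _ _))
      rw [h]; norm_num
  refine Prod.ext (Subtype.ext ?_) (Prod.ext (Subtype.ext ?_) (Subtype.ext ?_))
  · show ((2 * (p.1 : ℝ) - 1) / boxM p + 1) / 2 = _
    rw [hm]; ring
  · show ((2 * (p.2.1 : ℝ) - 1) / boxM p + 1) / 2 = _
    rw [hm]; ring
  · show 2 - (2 - (p.2.2 : ℝ)) / boxM p = _
    rw [hm]; ring

/-- Open box filling: five faces (all but `τ = 1`) extend to the cube. -/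
theorem exists_box_fill {E : Type} [TopologicalSpace E] (f0 fl fr fb ft : C(I × I, E))
    (hl : ∀ t, f0 (0, t) = fl (t, 0)) (hr : ∀ t, f0 (1, t) = fr (t, 0))
    (hb : ∀ s, f0 (s, 0) = fb (s, 0)) (ht : ∀ s, f0 (s, 1) = ft (s, 0))
    (hlb : ∀ τ, fl (0, τ) = fb (0, τ)) (hlt : ∀ τ, fl (1, τ) = ft (0, τ))
    (hrb : ∀ τ, fr (0, τ) = fb (1, τ)) (hrt : ∀ τ, fr (1, τ) = ft (1, τ)) :
    ∃ Q : C(I × I × I, E), (∀ s t, Q (s, t, 0) = f0 (s, t)) ∧ (∀ t τ, Q (0, t, τ) = fl (t, τ)) ∧
      (∀ t τ, Q (1, t, τ) = fr (t, τ)) ∧ (∀ s τ, Q (s, 0, τ) = fb (s, τ)) ∧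
      (∀ s τ, Q (s, 1, τ) = ft (s, τ)) := by
  let C : Fin 5 → Set openBox := ![{p | p.1.2.2 = 0}, {p | p.1.1 = 0}, {p | p.1.1 = 1},
    {p | p.1.2.1 = 0}, {p | p.1.2.1 = 1}]
  let g : Fin 5 → C(openBox, E) := ![f0.comp ⟨fun p => (p.1.1, p.1.2.1), by fun_prop⟩,
    fl.comp ⟨fun p => (p.1.2.1, p.1.2.2), by fun_prop⟩,
    fr.comp ⟨fun p => (p.1.2.1, p.1.2.2), by fun_prop⟩,
    fb.comp ⟨fun p => (p.1.1, p.1.2.2), by fun_prop⟩,
    ft.comp ⟨fun p => (p.1.1, p.1.2.2), by fun_prop⟩]
  have hC : ∀ i, IsClosed (C i) := by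
    intro i
    fin_cases i <;> simp only [C] <;> exact isClosed_eq (by fun_prop) continuous_const
  have hcov : ∀ x, ∃ i, x ∈ C i := by
    rintro ⟨p, hp⟩
    rcases hp with h | h | h | h | h
    · exact ⟨0, h⟩
    · exact ⟨1, h⟩
    · exact ⟨2, h⟩
    · exact ⟨3, h⟩
    · exact ⟨4, h⟩
  have h01 : (0 : I) ≠ 1 := by
    intro h
    have := congrArg Subtype.val h
    simp at this
  have agree : ∀ i j x, x ∈ C i → x ∈ C j → g i x = g j x := by
    have key : ∀ i j x, i < j → x ∈ C i → x ∈ C j → g i x = g j x := by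
      rintro i j ⟨⟨s, t, τ⟩, hp⟩ hij hi hj
      fin_cases i <;> fin_cases j <;> first | (exact absurd hij (by decide)) | skip
      all_goals
        simp [C, g] at hi hj ⊢
        subst hi
        first
          | subst hj
            first
              | exact hl _
              | exact hr _
              | exact hb _
              | exact ht _
              | exact hlb _
              | exact hlt _
              | exact hrb _
              | exact hrt _
          | exact absurd hj h01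
          | exact absurd hj.symm h01
    intro i j x hi hj
    rcases lt_trichotomy i j with h | h | h
    · exact key i j x h hi hj
    · rw [h]
    · exact (key j i x h hj hi).symm
  obtain ⟨B, hB⟩ := exists_glue_closed C hC hcov g agree
  refine ⟨B.comp ⟨fun p => ⟨boxR p, boxR_mem p⟩, continuous_boxR.subtype_mk _⟩, ?_, ?_, ?_, ?_, ?_⟩
  · intro s t
    have h : ((s, t, 0) : I × I × I) ∈ openBox := Or.inl rfl
    have h2 : (⟨boxR (s, t, 0), boxR_mem _⟩ : openBox) = ⟨(s, t, 0), h⟩ :=
      Subtype.ext (boxR_eq _ h)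
    show B ⟨boxR (s, t, 0), boxR_mem _⟩ = _
    rw [h2]
    exact hB 0 _ rfl
  · intro t τ
    have h : ((0, t, τ) : I × I × I) ∈ openBox := Or.inr (Or.inl rfl)
    have h2 : (⟨boxR (0, t, τ), boxR_mem _⟩ : openBox) = ⟨(0, t, τ), h⟩ :=
      Subtype.ext (boxR_eq _ h)
    show B ⟨boxR (0, t, τ), boxR_mem _⟩ = _
    rw [h2]
    exact hB 1 _ rfl
  · intro t τ
    have h : ((1, t, τ) : I × I × I) ∈ openBox := Or.inr (Or.inr (Or.inl rfl))
    have h2 : (⟨boxR (1, t, τ), boxR_mem _⟩ : openBox) = ⟨(1, t, τ), h⟩ :=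
      Subtype.ext (boxR_eq _ h)
    show B ⟨boxR (1, t, τ), boxR_mem _⟩ = _
    rw [h2]
    exact hB 2 _ rfl
  · intro s τ
    have h : ((s, 0, τ) : I × I × I) ∈ openBox := Or.inr (Or.inr (Or.inr (Or.inl rfl)))
    have h2 : (⟨boxR (s, 0, τ), boxR_mem _⟩ : openBox) = ⟨(s, 0, τ), h⟩ :=
      Subtype.ext (boxR_eq _ h)
    show B ⟨boxR (s, 0, τ), boxR_mem _⟩ = _
    rw [h2]
    exact hB 3 _ rfl
  · intro s τ
    have h : ((s, 1, τ) : I × I × I) ∈ openBox := Or.inr (Or.inr (Or.inr (Or.inr rfl)))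
    have h2 : (⟨boxR (s, 1, τ), boxR_mem _⟩ : openBox) = ⟨(s, 1, τ), h⟩ :=
      Subtype.ext (boxR_eq _ h)
    show B ⟨boxR (s, 1, τ), boxR_mem _⟩ = _
    rw [h2]
    exact hB 4 _ rfl

end Crest.Agent.R177.Top
end

-- ▼ part R177/TopPi2
section

/-!
# Rows 177 / 184, module (8c), part 2: the class of the missing face of a cube in `π₂`
-/

set_option autoImplicit false

open scoped unitInterval Topology Topology.Homotopy
open Set

namespace Crest.Agent.R177.Top

variable {E : Type} [TopologicalSpace E] {x : E}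

/-- a square with boundary at `x`, as a generalized loop -/
def gl (f : C(I × I, E)) (h0 : ∀ t, f (0, t) = x) (h1 : ∀ t, f (1, t) = x)
    (h2 : ∀ s, f (s, 0) = x) (h3 : ∀ s, f (s, 1) = x) : Ω^ (Fin 2) E x :=
  ⟨f.comp ⟨fun y => (y 0, y 1), by fun_prop⟩, by
    rintro y ⟨i, hi⟩
    fin_cases i
    · rcases hi with hi | hi
      · have hi' : y 0 = 0 := hi
        show f (y 0, y 1) = x
        rw [hi']; exact h0 _
      · have hi' : y 0 = 1 := hi
        show f (y 0, y 1) = x
        rw [hi']; exact h1 _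
    · rcases hi with hi | hi
      · have hi' : y 1 = 0 := hi
        show f (y 0, y 1) = x
        rw [hi']; exact h2 _
      · have hi' : y 1 = 1 := hi
        show f (y 0, y 1) = x
        rw [hi']; exact h3 _⟩

@[simp] theorem gl_apply (f : C(I × I, E)) (h0 : ∀ t, f (0, t) = x) (h1 : ∀ t, f (1, t) = x)
    (h2 : ∀ s, f (s, 0) = x) (h3 : ∀ s, f (s, 1) = x) (y : Fin 2 → I) :
    gl f h0 h1 h2 h3 y = f (y 0, y 1) := rfl

/-- boundary values of a generalized loop of dimension two -/
theorem gen_left (β : Ω^ (Fin 2) E x) (t : I) : β ![0, t] = x := β.2 _ ⟨0, Or.inl rfl⟩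
theorem gen_right (β : Ω^ (Fin 2) E x) (t : I) : β ![1, t] = x := β.2 _ ⟨0, Or.inr rfl⟩
theorem gen_bot (β : Ω^ (Fin 2) E x) (t : I) : β ![t, 0] = x := β.2 _ ⟨1, Or.inl rfl⟩
theorem gen_top (β : Ω^ (Fin 2) E x) (t : I) : β ![t, 1] = x := β.2 _ ⟨1, Or.inr rfl⟩


/-- the class of a generalized loop -/
def cl (p : Ω^ (Fin 2) E x) : HomotopyGroup (Fin 2) E x :=
  @Quotient.mk _ (GenLoop.Homotopic.setoid (Fin 2) x) p

theorem cl_surj (c : HomotopyGroup (Fin 2) E x) : ∃ p, cl p = c := Quotient.exists_rep c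

theorem cl_exact {p q : Ω^ (Fin 2) E x} (h : cl p = cl q) : GenLoop.Homotopic p q :=
  Quotient.exact h

theorem cl_sound {p q : Ω^ (Fin 2) E x} (h : GenLoop.Homotopic p q) : cl p = cl q :=
  Quotient.sound h

theorem cl_transAt (i : Fin 2) (p q : Ω^ (Fin 2) E x) :
    cl (GenLoop.transAt i p q) = cl q * cl p :=
  (HomotopyGroup.mul_spec (i := i) (p := q) (q := p)).symm

theorem cl_const : cl (GenLoop.const : Ω^ (Fin 2) E x) = 1 := rfl

theorem cl_symmAt (i : Fin 2) (p : Ω^ (Fin 2) E x) :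
    cl (GenLoop.symmAt i p) = (cl p)⁻¹ :=
  (HomotopyGroup.inv_spec (i := i) (p := p)).symm

/-- first half / second half reparametrizations of `Path.trans` -/
noncomputable def d1 (t : I) : I := Set.projIcc 0 1 zero_le_one (2 * (t : ℝ))
noncomputable def d2 (t : I) : I := Set.projIcc 0 1 zero_le_one (2 * (t : ℝ) - 1)

theorem continuous_d1 : Continuous d1 := by unfold d1; fun_prop
theorem continuous_d2 : Continuous d2 := by unfold d2; fun_prop

theorem d1_zero : d1 0 = 0 := by
  unfold d1; simp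

theorem d1_half {t : I} (h : (t : ℝ) = 1 / 2) : d1 t = 1 := by
  unfold d1; rw [h]; norm_num

theorem d2_half {t : I} (h : (t : ℝ) = 1 / 2) : d2 t = 0 := by
  unfold d2; rw [h]; norm_num

theorem d2_one : d2 1 = 1 := by
  unfold d2; norm_num

/-- stacking two cubes in the middle coordinate -/
theorem exists_stack {Y : Type} [TopologicalSpace Y] (A B : C(I × I × I, Y))
    (h : ∀ s τ, A (s, 1, τ) = B (s, 0, τ)) :
    ∃ D : C(I × I × I, Y), ∀ s t τ, D (s, t, τ) =
      if (t : ℝ) ≤ 1 / 2 then A (s, d1 t, τ) else B (s, d2 t, τ) := by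
  refine ⟨⟨fun p => if (p.2.1 : ℝ) ≤ 1 / 2 then A (p.1, d1 p.2.1, p.2.2)
    else B (p.1, d2 p.2.1, p.2.2), ?_⟩, fun s t τ => rfl⟩
  have h1 := continuous_d1
  have h2 := continuous_d2
  refine Continuous.if_le (by fun_prop) (by fun_prop) (by fun_prop) (by fun_prop) ?_
  rintro ⟨s, t, τ⟩ ht
  show A (s, d1 t, τ) = B (s, d2 t, τ)
  rw [d1_half ht, d2_half ht]
  exact h s τ

/-- A cube with `s, τ` coordinates and loops in the `t` coordinate. -/
theorem square_homotopic (D : C(I × I × I, E)) (h0 : ∀ s τ, D (s, 0, τ) = x)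
    (h1 : ∀ s τ, D (s, 1, τ) = x) (hτ : ∀ s t, D (s, t, 0) = x)
    (l r g : Ω^ (Fin 2) E x) (hl : ∀ y, l y = D (0, y 1, y 0)) (hr : ∀ y, r y = D (1, y 1, y 0))
    (hg : ∀ y, g y = D (y 0, y 1, 1)) :
    cl r = cl g * cl l := by
  classical
  -- the map of the square into the space of one dimensional loops
  let Y := Ω^ {j : Fin 2 // j ≠ 0} E x
  let j1 : {j : Fin 2 // j ≠ 0} := ⟨1, by decide⟩
  have hj : ∀ j : {j : Fin 2 // j ≠ 0}, j = j1 := by
    rintro ⟨j, hj⟩
    apply Subtype.ext
    fin_cases j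
    · exact absurd rfl hj
    · rfl
  let Φ₀ : C(I × I, C({j : Fin 2 // j ≠ 0} → I, E)) :=
    (D.comp ⟨fun p : (I × I) × ({j : Fin 2 // j ≠ 0} → I) => (p.1.1, p.2 j1, p.1.2),
      by fun_prop⟩).curry
  have hΦ₀ : ∀ p u, Φ₀ p u = D (p.1, u j1, p.2) := fun p u => rfl
  have hmem : ∀ p, Φ₀ p ∈ Y := by
    rintro p u ⟨j, hju⟩
    rw [hj j] at hju
    rw [hΦ₀]
    rcases hju with h | h
    · rw [h]; exact h0 _ _
    · rw [h]; exact h1 _ _
  let Φ : C(I × I, Y) := ⟨fun p => ⟨Φ₀ p, hmem p⟩, Φ₀.continuous.subtype_mk hmem⟩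
  -- four sides in the square
  have hI : ContractibleSpace I :=
    (convex_Icc (0 : ℝ) 1).contractibleSpace ⟨0, by simp⟩
  have hins0 : ∀ (a : I) (u : {j : Fin 2 // j ≠ 0} → I), Cube.insertAt (0 : Fin 2) (a, u) 0 = a := by
    intro a u
    simp [Homeomorph.funSplitAt_symm_apply]
  have hins1 : ∀ (a : I) (u : {j : Fin 2 // j ≠ 0} → I),
      Cube.insertAt (0 : Fin 2) (a, u) 1 = u j1 := by
    intro a u
    simp [Homeomorph.funSplitAt_symm_apply, j1]
  let pb : Path ((0, 0) : I × I) (1, 0) := ⟨⟨fun s => (s, 0), by fun_prop⟩, rfl, rfl⟩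
  let pr : Path ((1, 0) : I × I) (1, 1) := ⟨⟨fun τ => (1, τ), by fun_prop⟩, rfl, rfl⟩
  let pl : Path ((0, 0) : I × I) (0, 1) := ⟨⟨fun τ => (0, τ), by fun_prop⟩, rfl, rfl⟩
  let pt : Path ((0, 1) : I × I) (1, 1) := ⟨⟨fun s => (s, 1), by fun_prop⟩, rfl, rfl⟩
  have hhom : (pb.trans pr).Homotopic (pl.trans pt) :=
    SimplyConnectedSpace.paths_homotopic _ _
  have hmap := hhom.map Φ
  have c00 : Φ (0, 0) = GenLoop.const := by
    apply GenLoop.ext; intro u; exact hτ _ _
  have c10 : Φ (1, 0) = GenLoop.const := by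
    apply GenLoop.ext; intro u; exact hτ _ _
  have c11 : Φ (1, 1) = GenLoop.const := by
    apply GenLoop.ext; intro u
    show D (1, u j1, 1) = x
    have := hr ![1, u j1]
    rw [gen_right] at this
    exact this.symm
  have c01 : Φ (0, 1) = GenLoop.const := by
    apply GenLoop.ext; intro u
    show D (0, u j1, 1) = x
    have := hl ![1, u j1]
    rw [gen_right] at this
    exact this.symm
  -- translate to transAt
  have e1 : ((pb.trans pr).map Φ.continuous).cast c00.symm c11.symm =
      (GenLoop.toLoop 0 (GenLoop.const : Ω^ (Fin 2) E x)).trans (GenLoop.toLoop 0 r) := by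
    ext τ u
    simp only [Path.cast_coe, Path.map_coe, Function.comp, Path.trans_apply]
    split_ifs with h
    · show D (_, _, 0) = x
      exact hτ _ _
    · show D (1, u j1, _) = r (Cube.insertAt (0 : Fin 2) (_, u))
      rw [hr, hins0, hins1]
      rfl
  have e2 : ((pl.trans pt).map Φ.continuous).cast c00.symm c11.symm =
      (GenLoop.toLoop 0 l).trans (GenLoop.toLoop 0 g) := by
    ext τ u
    simp only [Path.cast_coe, Path.map_coe, Function.comp, Path.trans_apply]
    split_ifs with h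
    · show D (0, u j1, _) = l (Cube.insertAt (0 : Fin 2) (_, u))
      rw [hl, hins0, hins1]
      rfl
    · show D (_, u j1, 1) = g (Cube.insertAt (0 : Fin 2) (_, u))
      rw [hg, hins0, hins1]
      rfl
  have h3 : (((pb.trans pr).map Φ.continuous).cast c00.symm c11.symm).Homotopic
      (((pl.trans pt).map Φ.continuous).cast c00.symm c11.symm) := by
    obtain ⟨H⟩ := hmap
    exact ⟨H.cast rfl rfl⟩
  rw [e1, e2] at h3
  have h4 : (GenLoop.toLoop 0 (GenLoop.transAt 0 GenLoop.const r)).Homotopic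
      (GenLoop.toLoop 0 (GenLoop.transAt 0 l g)) := by
    rw [← GenLoop.fromLoop_trans_toLoop, ← GenLoop.fromLoop_trans_toLoop, GenLoop.to_from,
      GenLoop.to_from]
    exact h3
  have h5 := cl_sound (GenLoop.homotopicFrom 0 h4)
  rw [cl_transAt, cl_transAt, cl_const, mul_one] at h5
  exact h5

/-- Homotopy addition for a cube with two trivial faces: `Q (s, t, τ)` is trivial for `τ = 0` and for
`t = 0`; the class of the face `τ = 1` is `[t = 1] + [s = 1] - [s = 0]`. -/
theorem missing_face (Q : C(I × I × I, E)) (L R T : Ω^ (Fin 2) E x)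
    (hQ0 : ∀ s t, Q (s, t, 0) = x) (hQb : ∀ s τ, Q (s, 0, τ) = x)
    (hL : ∀ t τ, Q (0, t, τ) = L ![τ, t]) (hR : ∀ t τ, Q (1, t, τ) = R ![τ, t])
    (hT : ∀ s τ, Q (s, 1, τ) = T ![s, τ]) (r0 : Ω^ (Fin 2) E x)
    (hr0 : ∀ y, r0 y = Q (y 0, y 1, 1)) :
    cl r0 = cl T * cl R * (cl L)⁻¹ := by
  classical
  let T' : C(I × I × I, E) := ⟨fun p => T ![p.1, min p.2.2 (unitInterval.symm p.2.1)], by
      have : Continuous fun p : I × I × I => (![p.1, min p.2.2 (unitInterval.symm p.2.1)] : Fin 2 → I) := by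
        refine continuous_pi fun i => ?_
        fin_cases i
        · exact continuous_fst
        · exact (continuous_snd.snd).min (unitInterval.continuous_symm.comp continuous_snd.fst)
      exact T.1.continuous.comp this⟩
  have hT' : ∀ s t τ, T' (s, t, τ) = T ![s, min τ (unitInterval.symm t)] := fun s t τ => rfl
  obtain ⟨D, hD⟩ := exists_stack Q T' (fun s τ => by
      rw [hT, hT', unitInterval.symm_zero]
      congr 3
      exact (min_eq_left (unitInterval.le_one' (t := τ))).symm)
  have hu : ∀ (y : Fin 2 → I) (c : I), Function.update y 1 c 0 = y 0 := fun y c => by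
    rw [Function.update_of_ne (by decide)]
  have hu1 : ∀ (y : Fin 2 → I) (c : I), Function.update y 1 c = ![y 0, c] := fun y c => by
    ext i; fin_cases i
    · show ((Function.update y 1 c 0 : I) : ℝ) = y 0
      rw [hu]
    · simp
  have htr : ∀ (f g : Ω^ (Fin 2) E x) (y : Fin 2 → I), GenLoop.transAt 1 f g y =
      if (y 1 : ℝ) ≤ 1 / 2 then f ![y 0, d1 (y 1)] else g ![y 0, d2 (y 1)] := by
    intro f g y
    show (if (y 1 : ℝ) ≤ 1 / 2 then f (Function.update y 1 (d1 (y 1)))
      else g (Function.update y 1 (d2 (y 1)))) = _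
    rw [hu1, hu1]
  have key := square_homotopic D (x := x) ?_ ?_ ?_ (GenLoop.transAt 1 L GenLoop.const)
    (GenLoop.transAt 1 R GenLoop.const) (GenLoop.transAt 1 r0 (GenLoop.symmAt 1 T)) ?_ ?_ ?_
  · rw [cl_transAt, cl_transAt, cl_transAt, cl_const, one_mul, one_mul, cl_symmAt] at key
    rw [key]
    group
  · intro s τ
    rw [hD, if_pos (by norm_num), d1_zero]
    exact hQb _ _
  · intro s τ
    rw [hD, if_neg (by norm_num), d2_one, hT', unitInterval.symm_one]
    have : min τ 0 = 0 := min_eq_right (unitInterval.nonneg τ)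
    rw [this]
    exact gen_bot _ _
  · intro s t
    rw [hD]
    split_ifs
    · exact hQ0 _ _
    · rw [hT']
      have : min 0 (unitInterval.symm (d2 t)) = 0 := min_eq_left (unitInterval.nonneg _)
      rw [this]
      exact gen_bot _ _
  · intro y
    rw [hD, htr]
    split_ifs
    · rw [hL]
    · rw [hT', gen_left]
      rfl
  · intro y
    rw [hD, htr]
    split_ifs
    · rw [hR]
    · rw [hT', gen_right]
      rfl
  · intro y
    rw [hD, htr]
    split_ifs
    · rw [hr0]
      rfl
    · rw [hT']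
      have : min 1 (unitInterval.symm (d2 (y 1))) = unitInterval.symm (d2 (y 1)) :=
        min_eq_right (unitInterval.le_one _)
      rw [this]
      show T (fun j => if j = 1 then unitInterval.symm (![y 0, d2 (y 1)] 1) else ![y 0, d2 (y 1)] j) = _
      congr 1
      ext i; fin_cases i <;> simp

end Crest.Agent.R177.Top
end

-- ▼ part R177/TopContract
section

/-!
# Rows 177 / 184, module (8c): the contraction theorem

A realization of a cone complex whose edge loops are null-homotopic and all of whose 2-cochains are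
coboundaries is contractible (obstruction theory with values in `π₂`).
-/

set_option autoImplicit false

open scoped unitInterval Topology Topology.Homotopy
open Set

namespace Crest.Agent.R177.Top

section fill

variable {E : Type} [TopologicalSpace E]

/-- a commutative triangle of paths as a square with constant top -/
theorem exists_square {a b c : E} (q : Path a b) (r : Path b c) (p : Path a c)
    (h : (q.trans r).Homotopic p) :
    ∃ F : C(I × I, E), (∀ s, F (s, 0) = q s) ∧ (∀ s, F (s, 1) = c) ∧ (∀ τ, F (0, τ) = p τ) ∧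
      ∀ τ, F (1, τ) = r τ := by
  obtain ⟨H⟩ := h
  have hφ : ∀ z : I × I, (z.1 : ℝ) * (1 - z.2) / 2 + z.2 ∈ Icc (0 : ℝ) 1 := by
    rintro ⟨s, t⟩
    have h1 := s.2.1; have h2 := s.2.2; have h3 := t.2.1; have h4 := t.2.2
    constructor
    · have : 0 ≤ (s : ℝ) * (1 - t) := mul_nonneg h1 (by linarith)
      show 0 ≤ (s : ℝ) * (1 - t) / 2 + t
      linarith
    · have : (s : ℝ) * (1 - t) ≤ 1 * (1 - t) := mul_le_mul_of_nonneg_right h2 (by linarith)
      show (s : ℝ) * (1 - t) / 2 + t ≤ 1
      linarith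
  let F0 : C(I × I, E) := ⟨fun z => (q.trans r) ⟨(z.1 : ℝ) * (1 - z.2) / 2 + z.2, hφ z⟩, by
    refine (q.trans r).continuous.comp (Continuous.subtype_mk ?_ _)
    fun_prop⟩
  have F0e : ∀ s t, F0 (s, t) = (q.trans r) ⟨(s : ℝ) * (1 - t) / 2 + t, hφ (s, t)⟩ :=
    fun s t => rfl
  have e1 : ∀ s, F0 (s, 0) = q s := by
    intro s
    rw [F0e, Path.trans_apply, dif_pos (by simp; have := s.2.2; linarith)]
    congr 1
    ext
    simp
    ring
  have e2 : ∀ s, F0 (s, 1) = c := by
    intro s
    rw [F0e]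
    have : (⟨(s : ℝ) * (1 - (1 : I)) / 2 + (1 : I), hφ (s, 1)⟩ : I) = 1 := by
      ext; simp
    rw [this]
    exact (q.trans r).target
  have e3 : ∀ t, F0 (0, t) = (q.trans r) t := by
    intro t
    rw [F0e]
    congr 1
    ext; simp
  have e4 : ∀ t, F0 (1, t) = r t := by
    intro t
    rw [F0e, Path.trans_apply]
    split_ifs with h
    · have ht : (t : ℝ) = 0 := by
        have := t.2.1
        simp at h
        linarith
      have ht' : t = 0 := Subtype.ext ht
      subst ht'
      rw [r.source]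
      have : (⟨2 * (((1 : I) : ℝ) * (1 - ((0 : I) : ℝ)) / 2 + ((0 : I) : ℝ)), by simp⟩ : I) = 1 := by
        ext; simp
      rw [this]
      exact q.target
    · congr 1
      ext
      simp
      ring
  obtain ⟨Q, h0, hl, hr, hb, ht⟩ := exists_box_fill F0
    (⟨fun z => H (z.2, z.1), by fun_prop⟩) (⟨fun z => r z.1, by fun_prop⟩)
    (⟨fun z => q z.1, by fun_prop⟩) (ContinuousMap.const _ c)
    (fun t => by
      rw [e3]
      show _ = H (0, t)
      rw [H.apply_zero]; rfl)
    (fun t => e4 t) (fun s => e1 s) (fun s => e2 s)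
    (fun τ => by
      show H (τ, 0) = q 0
      rw [H.source, q.source])
    (fun τ => by
      show H (τ, 1) = c
      rw [H.target])
    (fun τ => by
      show r 0 = q 1
      rw [r.source, q.target])
    (fun τ => by
      show r 1 = c
      rw [r.target])
  refine ⟨⟨fun z => Q (z.1, z.2, 1), by fun_prop⟩, ?_, ?_, ?_, ?_⟩
  · intro s
    exact hb s 1
  · intro s
    exact ht s 1
  · intro τ
    show Q (0, τ, 1) = p τ
    rw [hl]
    show H (1, τ) = p τ
    rw [H.apply_one]; rfl
  · intro τ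
    exact hr τ 1

end fill

section homot

variable {E : Type} [TopologicalSpace E]

theorem homotopic_of_curry (g : C(E, C(I, E))) (f0 f1 : C(E, E)) (h0 : ∀ x, g x 0 = f0 x)
    (h1 : ∀ x, g x 1 = f1 x) : f0.Homotopic f1 :=
  ⟨{ toFun := fun z => g z.2 z.1
     continuous_toFun := by fun_prop
     map_zero_left := h0
     map_one_left := h1 }⟩

/-- a cube as a map of the square into the space of paths -/
def cubeCurry (Q : C(I × I × I, E)) : C(I × I, C(I, E)) :=
  (Q.comp ⟨fun p : (I × I) × I => (p.1.1, p.1.2, p.2), by fun_prop⟩).curry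

@[simp] theorem cubeCurry_apply (Q : C(I × I × I, E)) (s t τ : I) :
    cubeCurry Q (s, t) τ = Q (s, t, τ) := rfl

end homot

section main

variable {X : Cx} {E : Type} [TopologicalSpace E]

theorem ext_cover (M : ConeCx X E) {Z : Type} (f g : E → Z) (hv : ∀ p, f (M.vert p) = g (M.vert p))
    (ha : ∀ a s, f (M.ea a s) = g (M.ea a s)) (hb : ∀ b s, f (M.eb b s) = g (M.eb b s))
    (hf : ∀ c s t, f (M.sq c (s, t)) = g (M.sq c (s, t))) : ∀ x, f x = g x := by
  intro x
  rcases M.cover x with ⟨p, rfl⟩ | ⟨a, s, rfl⟩ | ⟨b, s, rfl⟩ | ⟨c, ⟨s, t⟩, rfl⟩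
  · exact hv _
  · exact ha _ _
  · exact hb _ _
  · exact hf _ _ _

/-- Step 1: push the one-skeleton to the base point. -/
theorem exists_step1 (M : ConeCx X E) (p0 : X.P)
    (gam : ∀ p, Path (M.vert p) (M.vert p0))
    (H1a : ∀ a, ((M.pa a).trans (gam (X.atgt a))).Homotopic (gam (X.asrc a)))
    (H1b : ∀ b, ((M.pb b).trans (gam (X.btgt b))).Homotopic (gam (X.bsrc b))) :
    ∃ r : C(E, E), (ContinuousMap.id E).Homotopic r ∧ (∀ a s, r (M.ea a s) = M.vert p0) ∧
      (∀ b s, r (M.eb b s) = M.vert p0) ∧ ∀ p, r (M.vert p) = M.vert p0 := by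
  choose FA ha0 ha1 hal har using fun a => exists_square (M.pa a) (gam (X.atgt a)) _ (H1a a)
  choose FB hb0 hb1 hbl hbr using fun b => exists_square (M.pb b) (gam (X.btgt b)) _ (H1b b)
  choose Q hQ0 hQl hQr hQb hQt using fun f => exists_box_fill (M.sq f) (FB (X.fl f)) (FB (X.fr f))
    (⟨fun z => gam (X.fb f) z.2, by fun_prop⟩) (FA (X.ft f))
    (fun t => by rw [M.sq_left, hb0]; rfl) (fun t => by rw [M.sq_right, hb0]; rfl)
    (fun s => by
      rw [M.sq_bot]
      show _ = gam (X.fb f) 0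
      rw [(gam (X.fb f)).source])
    (fun s => by rw [M.sq_top, ha0]; rfl)
    (fun τ => by
      rw [hbl]
      show _ = gam (X.fb f) τ
      rw [X.bsrc_fl f])
    (fun τ => by rw [hbr, hal, X.btgt_fl f])
    (fun τ => by
      rw [hbl]
      show _ = gam (X.fb f) τ
      rw [X.bsrc_fr f])
    (fun τ => by rw [hbr, har, X.btgt_fr f])
  let h : Fam X C(I, E) :=
    { vert := fun p => (gam p).toContinuousMap
      ea := fun a => (FA a).curry
      eb := fun b => (FB b).curry
      sq := fun f => cubeCurry (Q f)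
      ea_zero := fun a => by ext τ; exact hal a τ
      ea_one := fun a => by ext τ; exact har a τ
      eb_zero := fun b => by ext τ; exact hbl b τ
      eb_one := fun b => by ext τ; exact hbr b τ
      sq_bot := fun f s => by ext τ; exact hQb f s τ
      sq_left := fun f t => by ext τ; exact hQl f t τ
      sq_right := fun f t => by ext τ; exact hQr f t τ
      sq_top := fun f s => by ext τ; exact hQt f s τ }
  obtain ⟨g, gv, ga, gb, gf⟩ := M.glue C(I, E) h
  refine ⟨⟨fun x => g x 1, by fun_prop⟩, homotopic_of_curry g _ _ ?_ (fun x => rfl), ?_, ?_, ?_⟩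
  · refine ext_cover M (fun x => g x 0) (fun x => x) ?_ ?_ ?_ ?_
    · intro p
      show g (M.vert p) 0 = _
      rw [gv]
      exact (gam p).source
    · intro a s
      show g (M.ea a s) 0 = _
      rw [ga]
      exact ha0 a s
    · intro b s
      show g (M.eb b s) 0 = _
      rw [gb]
      exact hb0 b s
    · intro f s t
      show g (M.sq f (s, t)) 0 = _
      rw [gf]
      exact hQ0 f s t
  · intro a s
    show g (M.ea a s) 1 = _
    rw [ga]
    exact ha1 a s
  · intro b s
    show g (M.eb b s) 1 = _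
    rw [gb]
    exact hb1 b s
  · intro p
    show g (M.vert p) 1 = _
    rw [gv]
    exact (gam p).target

/-- a map that is constant on the one-skeleton, on a triangle -/
def glSq (M : ConeCx X E) {x : E} (r : C(E, E)) (ha : ∀ a s, r (M.ea a s) = x)
    (hb : ∀ b s, r (M.eb b s) = x) (hv : ∀ p, r (M.vert p) = x) (f : X.F) : Ω^ (Fin 2) E x :=
  gl (r.comp (M.sq f))
    (fun t => by
      show r (M.sq f (0, t)) = x
      rw [M.sq_left]; exact hb _ _)
    (fun t => by
      show r (M.sq f (1, t)) = x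
      rw [M.sq_right]; exact hb _ _)
    (fun s => by
      show r (M.sq f (s, 0)) = x
      rw [M.sq_bot]; exact hv _)
    (fun s => by
      show r (M.sq f (s, 1)) = x
      rw [M.sq_top]; exact ha _ _)

/-- Step 2: two maps constant on the one-skeleton with the same classes are homotopic. -/
theorem step2 (M : ConeCx X E) {x : E} (r r' : C(E, E)) (ha : ∀ a s, r (M.ea a s) = x)
    (hb : ∀ b s, r (M.eb b s) = x) (hv : ∀ p, r (M.vert p) = x)
    (ha' : ∀ a s, r' (M.ea a s) = x)
    (hb' : ∀ b s, r' (M.eb b s) = x) (hv' : ∀ p, r' (M.vert p) = x)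
    (h : ∀ f, cl (glSq M r ha hb hv f) = cl (glSq M r' ha' hb' hv' f)) : r.Homotopic r' := by
  have W : ∀ f, (glSq M r ha hb hv f).1.HomotopyRel (glSq M r' ha' hb' hv' f).1
      (Cube.boundary (Fin 2)) := fun f => Classical.choice (cl_exact (h f))
  have hW : ∀ f τ y, y ∈ Cube.boundary (Fin 2) → W f (τ, y) = x := by
    intro f τ y hy
    rw [(W f).eq_fst τ hy]
    exact (glSq M r ha hb hv f).2 y hy
  let Q : X.F → C(I × I × I, E) := fun f =>
    ⟨fun p => W f (p.2.2, ![p.1, p.2.1]), by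
      have : Continuous fun p : I × I × I => (![p.1, p.2.1] : Fin 2 → I) := by
        refine continuous_pi fun i => ?_
        fin_cases i
        · exact continuous_fst
        · exact continuous_snd.fst
      fun_prop⟩
  have hQ : ∀ f s t τ, Q f (s, t, τ) = W f (τ, ![s, t]) := fun _ _ _ _ => rfl
  let h : Fam X C(I, E) :=
    { vert := fun p => ContinuousMap.const _ x
      ea := fun a => ContinuousMap.const _ (ContinuousMap.const _ x)
      eb := fun b => ContinuousMap.const _ (ContinuousMap.const _ x)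
      sq := fun f => cubeCurry (Q f)
      ea_zero := fun a => rfl
      ea_one := fun a => rfl
      eb_zero := fun b => rfl
      eb_one := fun b => rfl
      sq_bot := fun f s => by
        ext τ
        exact hW _ _ _ ⟨1, Or.inl rfl⟩
      sq_left := fun f t => by
        ext τ
        exact hW _ _ _ ⟨0, Or.inl rfl⟩
      sq_right := fun f t => by
        ext τ
        exact hW _ _ _ ⟨0, Or.inr rfl⟩
      sq_top := fun f s => by
        ext τ
        exact hW _ _ _ ⟨1, Or.inr rfl⟩ }
  obtain ⟨g, gv, ga, gb, gf⟩ := M.glue C(I, E) h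
  refine homotopic_of_curry g _ _ ?_ ?_
  · refine ext_cover M (fun x => g x 0) r ?_ ?_ ?_ ?_
    · intro p
      show g (M.vert p) 0 = _
      rw [gv, hv]
      rfl
    · intro a s
      show g (M.ea a s) 0 = _
      rw [ga, ha]
      rfl
    · intro b s
      show g (M.eb b s) 0 = _
      rw [gb, hb]
      rfl
    · intro f s t
      show g (M.sq f (s, t)) 0 = _
      rw [gf]
      exact (W f).apply_zero _
  · refine ext_cover M (fun x => g x 1) r' ?_ ?_ ?_ ?_
    · intro p
      show g (M.vert p) 1 = _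
      rw [gv, hv']
      rfl
    · intro a s
      show g (M.ea a s) 1 = _
      rw [ga, ha']
      rfl
    · intro b s
      show g (M.eb b s) 1 = _
      rw [gb, hb']
      rfl
    · intro f s t
      show g (M.sq f (s, t)) 1 = _
      rw [gf]
      exact (W f).apply_one _

/-- Step 3: for prescribed classes on the edges there is a null-homotopic map, constant on the
one-skeleton, whose class on a triangle is the coboundary of the prescribed classes. -/
theorem exists_step3 (M : ConeCx X E) (x : E) (βa : X.A → Ω^ (Fin 2) E x)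
    (βb : X.B → Ω^ (Fin 2) E x) :
    ∃ (r : C(E, E)) (ha : ∀ a s, r (M.ea a s) = x) (hb : ∀ b s, r (M.eb b s) = x)
      (hv : ∀ p, r (M.vert p) = x), (ContinuousMap.const E x).Homotopic r ∧
      ∀ f, cl (glSq M r ha hb hv f) =
        cl (βa (X.ft f)) * cl (βb (X.fr f)) * (cl (βb (X.fl f)))⁻¹ := by
  have c1 : Continuous fun p : I × I => (![p.1, p.2] : Fin 2 → I) := by
    refine continuous_pi fun i => ?_
    fin_cases i
    · exact continuous_fst
    · exact continuous_snd
  have c2 : Continuous fun p : I × I => (![p.2, p.1] : Fin 2 → I) := by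
    refine continuous_pi fun i => ?_
    fin_cases i
    · exact continuous_snd
    · exact continuous_fst
  let FA : X.A → C(I × I, E) := fun a => (βa a).1.comp ⟨_, c1⟩
  let FB : X.B → C(I × I, E) := fun b => (βb b).1.comp ⟨_, c2⟩
  have hFA : ∀ a s τ, FA a (s, τ) = βa a ![s, τ] := fun _ _ _ => rfl
  have hFB : ∀ b t τ, FB b (t, τ) = βb b ![τ, t] := fun _ _ _ => rfl
  choose Q hQ0 hQl hQr hQb hQt using fun f => exists_box_fill (ContinuousMap.const _ x)
    (FB (X.fl f)) (FB (X.fr f)) (ContinuousMap.const _ x) (FA (X.ft f))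
    (fun t => by rw [hFB, gen_left]; rfl) (fun t => by rw [hFB, gen_left]; rfl)
    (fun s => rfl) (fun s => by rw [hFA, gen_bot]; rfl)
    (fun τ => by rw [hFB, gen_bot]; rfl)
    (fun τ => by rw [hFB, gen_top, hFA, gen_left])
    (fun τ => by rw [hFB, gen_bot]; rfl)
    (fun τ => by rw [hFB, gen_top, hFA, gen_right])
  let h : Fam X C(I, E) :=
    { vert := fun p => ContinuousMap.const _ x
      ea := fun a => (FA a).curry
      eb := fun b => (FB b).curry
      sq := fun f => cubeCurry (Q f)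
      ea_zero := fun a => by ext τ; exact gen_left _ _
      ea_one := fun a => by ext τ; exact gen_right _ _
      eb_zero := fun b => by ext τ; exact gen_bot _ _
      eb_one := fun b => by ext τ; exact gen_top _ _
      sq_bot := fun f s => by ext τ; exact hQb f s τ
      sq_left := fun f t => by ext τ; exact hQl f t τ
      sq_right := fun f t => by ext τ; exact hQr f t τ
      sq_top := fun f s => by ext τ; exact hQt f s τ }
  obtain ⟨g, gv, ga, gb, gf⟩ := M.glue C(I, E) h
  let r : C(E, E) := ⟨fun x => g x 1, by fun_prop⟩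
  have ha : ∀ a s, r (M.ea a s) = x := by
    intro a s
    show g (M.ea a s) 1 = _
    rw [ga]
    exact gen_top _ _
  have hb : ∀ b s, r (M.eb b s) = x := by
    intro b s
    show g (M.eb b s) 1 = _
    rw [gb]
    exact gen_right _ _
  have hv : ∀ p, r (M.vert p) = x := by
    intro p
    show g (M.vert p) 1 = _
    rw [gv]
    rfl
  refine ⟨r, ha, hb, hv, homotopic_of_curry g _ _ ?_ (fun x => rfl), ?_⟩
  · refine ext_cover M (fun x => g x 0) (fun _ => x) ?_ ?_ ?_ ?_
    · intro p
      show g (M.vert p) 0 = _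
      rw [gv]
      rfl
    · intro a s
      show g (M.ea a s) 0 = _
      rw [ga]
      exact gen_bot _ _
    · intro b s
      show g (M.eb b s) 0 = _
      rw [gb]
      exact gen_left _ _
    · intro f s t
      show g (M.sq f (s, t)) 0 = _
      rw [gf]
      exact hQ0 f s t
  · intro f
    refine missing_face (Q f) _ _ _ (hQ0 f) (hQb f) (hQl f) (hQr f) (hQt f) _ ?_
    intro y
    show g (M.sq f (y 0, y 1)) 1 = _
    rw [gf]
    rfl

/-- **Contraction theorem.** -/
theorem contractible_of_cone (M : ConeCx X E) (p0 : X.P)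
    (gam : ∀ p, Path (M.vert p) (M.vert p0))
    (H1a : ∀ a, ((M.pa a).trans (gam (X.atgt a))).Homotopic (gam (X.asrc a)))
    (H1b : ∀ b, ((M.pb b).trans (gam (X.btgt b))).Homotopic (gam (X.bsrc b)))
    (H2 : Solv X) : ContractibleSpace E := by
  obtain ⟨r, hid, ha, hb, hv⟩ := exists_step1 M p0 gam H1a H1b
  obtain ⟨ka, kb, hk⟩ := H2 (Additive (HomotopyGroup (Fin 2) E (M.vert p0)))
    (fun f => Additive.ofMul (cl (glSq M r ha hb hv f)))
  choose βa hβa using fun a => cl_surj (Additive.toMul (ka a))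
  choose βb hβb using fun b => cl_surj (Additive.toMul (kb b))
  obtain ⟨r', ha', hb', hv', hc, hcl⟩ := exists_step3 M (M.vert p0) βa βb
  have h2 : r.Homotopic r' := by
    refine step2 M r r' ha hb hv ha' hb' hv' fun f => ?_
    rw [hcl, hβa, hβb, hβb]
    have := congrArg Additive.toMul (hk f)
    rw [sub_eq_add_neg] at this
    exact this
  rw [contractible_iff_id_nullhomotopic]
  exact ⟨M.vert p0, (hid.trans h2).trans hc.symm⟩

end main

end Crest.Agent.R177.Top
end

-- ▼ part R177/TopPaths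

/-!
# Rows 177 / 184, module TOPOLOGY: simple connectivity of the cone complex (helper753)

* `exists_gam` : paths from the vertices to a base vertex, compatible with all edges, from `Triv`;
* `contractible_coneX` : realizations of `coneX A` are contractible if `A` is aspherical.
-/

set_option autoImplicit false

open scoped unitInterval Topology

namespace Crest.Agent.R177.Top

section square

variable {E : Type} [TopologicalSpace E]

theorem contractibleI : ContractibleSpace I :=
  (convex_Icc (0 : ℝ) 1).contractibleSpace ⟨0, by simp⟩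

/-- a square with constant bottom side -/
theorem square_tri (W : C(I × I, E)) {x y z : E} (l : Path x y) (t : Path y z) (r : Path x z)
    (hb : ∀ s, W (s, 0) = x) (hl : ∀ s, W (0, s) = l s) (ht : ∀ s, W (s, 1) = t s)
    (hr : ∀ s, W (1, s) = r s) : (l.trans t).Homotopic r := by
  have := contractibleI
  obtain rfl : W (0, 0) = x := hb 0
  obtain rfl : W (0, 1) = y := (hl 1).trans l.target
  obtain rfl : W (1, 1) = z := (hr 1).trans r.target
  let L : Path ((0, 0) : I × I) (0, 1) :=
    { toFun := fun s => (0, s), continuous_toFun := by fun_prop, source' := rfl, target' := rfl }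
  let T : Path ((0, 1) : I × I) (1, 1) :=
    { toFun := fun s => (s, 1), continuous_toFun := by fun_prop, source' := rfl, target' := rfl }
  let B : Path ((0, 0) : I × I) (1, 0) :=
    { toFun := fun s => (s, 0), continuous_toFun := by fun_prop, source' := rfl, target' := rfl }
  let R : Path ((1, 0) : I × I) (1, 1) :=
    { toFun := fun s => (1, s), continuous_toFun := by fun_prop, source' := rfl, target' := rfl }
  have h1 : (L.trans T).Homotopic (B.trans R) := SimplyConnectedSpace.paths_homotopic _ _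
  have h2 := h1.map W
  rw [Path.map_trans, Path.map_trans] at h2
  have e1 : L.map W.continuous = l := by ext s; exact hl s
  have e2 : T.map W.continuous = t := by ext s; exact ht s
  rw [e1, e2] at h2
  refine h2.trans ?_
  have e3 : (R.map W.continuous).cast (hb 1).symm rfl = r := by ext s; exact hr s
  have e4 : (B.map W.continuous).trans (R.map W.continuous) =
      (Path.refl (W (0, 0))).trans ((R.map W.continuous).cast (hb 1).symm rfl) := by
    ext s
    rw [Path.trans_apply, Path.trans_apply]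
    split_ifs
    · exact hb _
    · rfl
  rw [e4, e3]
  exact ⟨Path.Homotopy.reflTrans r⟩

end square

section gam

variable {X : Cx} {E : Type} [TopologicalSpace E]

open Path.Homotopic (Quotient)

/-- the loops at `x` up to homotopy -/
@[reducible] noncomputable def loopGroup (x : E) : Group (Path.Homotopic.Quotient x x) where
  mul := Path.Homotopic.Quotient.trans
  one := Path.Homotopic.Quotient.refl x
  inv := Path.Homotopic.Quotient.symm
  mul_assoc := Path.Homotopic.Quotient.trans_assoc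
  one_mul := Path.Homotopic.Quotient.refl_trans
  mul_one := Path.Homotopic.Quotient.trans_refl
  inv_mul_cancel := Path.Homotopic.Quotient.symm_trans

/-- flat labellings defined by a choice of paths to the base point -/
theorem exists_gam (M : Fam X E) (hT : Triv X) (p0 : X.P)
    (hc : ∀ p, Nonempty (Path (M.vert p) (M.vert p0))) :
    ∃ gam : ∀ p, Path (M.vert p) (M.vert p0),
      (∀ a, ((M.pa a).trans (gam (X.atgt a))).Homotopic (gam (X.asrc a))) ∧
      ∀ b, ((M.pb b).trans (gam (X.btgt b))).Homotopic (gam (X.bsrc b)) := by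
  let c : ∀ p, Path (M.vert p) (M.vert p0) := fun p => (hc p).some
  let _ : Group (Path.Homotopic.Quotient (M.vert p0) (M.vert p0)) := loopGroup _
  -- the loop of a path
  let th : ∀ (p q : X.P), Path (M.vert p) (M.vert q) →
      Path.Homotopic.Quotient (M.vert p0) (M.vert p0) := fun p q γ =>
    ((Path.Homotopic.Quotient.mk (c p)).symm.trans (Path.Homotopic.Quotient.mk γ)).trans
      (Path.Homotopic.Quotient.mk (c q))
  have hth : ∀ (p q r : X.P) (γ : Path (M.vert p) (M.vert q)) (δ : Path (M.vert q) (M.vert r))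
      (ε : Path (M.vert p) (M.vert r)), (γ.trans δ).Homotopic ε → th p q γ * th q r δ = th p r ε := by
    intro p q r γ δ ε h
    have h1 : (Path.Homotopic.Quotient.mk γ).trans (Path.Homotopic.Quotient.mk δ) =
        Path.Homotopic.Quotient.mk ε := Path.Homotopic.Quotient.eq.mpr h
    change Path.Homotopic.Quotient.trans (th p q γ) (th q r δ) = th p r ε
    simp only [th]
    rw [← h1]
    simp only [Path.Homotopic.Quotient.trans_assoc]
    congr 2
    rw [← Path.Homotopic.Quotient.trans_assoc (Path.Homotopic.Quotient.mk (c q)),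
      Path.Homotopic.Quotient.trans_symm, Path.Homotopic.Quotient.refl_trans]
  have hcast : ∀ (p p' q q' : X.P) (γ : Path (M.vert p) (M.vert q))
      (γ' : Path (M.vert p') (M.vert q')), p = p' → q = q' → (∀ s, γ s = γ' s) →
      th p q γ = th p' q' γ' := by
    rintro p _ q _ γ γ' rfl rfl h
    obtain rfl : γ = γ' := by ext s; exact h s
    rfl
  obtain ⟨ρ, hA, hB⟩ := hT (Path.Homotopic.Quotient (M.vert p0) (M.vert p0))
    (fun a => th _ _ (M.pa a)) (fun b => th _ _ (M.pb b)) (by
      intro f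
      let l : Path (M.vert (X.fb f)) (M.vert (X.asrc (X.ft f))) :=
        (M.pb (X.fl f)).cast (by rw [X.bsrc_fl]) (by rw [X.btgt_fl])
      let r : Path (M.vert (X.fb f)) (M.vert (X.atgt (X.ft f))) :=
        (M.pb (X.fr f)).cast (by rw [X.bsrc_fr]) (by rw [X.btgt_fr])
      have h1 : (l.trans (M.pa (X.ft f))).Homotopic r :=
        square_tri (M.sq f) l (M.pa (X.ft f)) r (M.sq_bot f) (M.sq_left f) (M.sq_top f)
          (M.sq_right f)
      have h2 := hth _ _ _ _ _ _ h1
      rw [hcast _ _ _ _ (M.pb (X.fl f)) l (X.bsrc_fl f) (X.btgt_fl f) (fun s => rfl),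
        hcast _ _ _ _ (M.pb (X.fr f)) r (X.bsrc_fr f) (X.btgt_fr f) (fun s => rfl)]
      exact h2)
  have hg : ∀ p, ∃ g : Path (M.vert p) (M.vert p0), Path.Homotopic.Quotient.mk g =
      (Path.Homotopic.Quotient.mk (c p)).trans (ρ p)⁻¹ := fun p =>
    Path.Homotopic.Quotient.mk_surjective _
  choose gam hgam using hg
  have key : ∀ (p q : X.P) (γ : Path (M.vert p) (M.vert q)), th p q γ = (ρ p)⁻¹ * ρ q →
      (γ.trans (gam q)).Homotopic (gam p) := by
    intro p q γ h
    apply Path.Homotopic.Quotient.eq.mp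
    rw [Path.Homotopic.Quotient.mk_trans, hgam, hgam]
    have h3 : th p q γ * (ρ q)⁻¹ = (ρ p)⁻¹ := by rw [h]; group
    rw [← h3]
    change _ = (Path.Homotopic.Quotient.mk (c p)).trans
      (Path.Homotopic.Quotient.trans (th p q γ) (ρ q)⁻¹)
    simp only [th]
    simp only [Path.Homotopic.Quotient.trans_assoc]
    rw [← Path.Homotopic.Quotient.trans_assoc (Path.Homotopic.Quotient.mk (c p)),
      Path.Homotopic.Quotient.trans_symm, Path.Homotopic.Quotient.refl_trans]
  exact ⟨gam, fun a => key _ _ _ (hA a), fun b => key _ _ _ (hB b)⟩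

end gam

section cone

open Crest.Agent.R199 (PAct)

variable {S V : Type} (A : PAct S V) {E : Type} [TopologicalSpace E]

/-- the realization of the cone complex is path connected (on vertices) -/
theorem joined_letter (M : Fam (coneX A) E) (g : Grp A) :
    Joined (M.vert (Sum.inl (1 : Grp A))) (M.vert (Sum.inl g)) := by
  induction g using PresentedGroup.induction_on with
  | _ w =>
    suffices h : ∀ p : Grp A, Joined (M.vert (Sum.inl p))
        (M.vert (Sum.inl (p * PresentedGroup.mk (rels A) w))) by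
      have := h 1
      rwa [one_mul] at this
    induction w using FreeGroup.induction_on with
    | C1 =>
      intro p
      rw [map_one, mul_one]
    | of s =>
      intro p
      exact ⟨M.pa (p, s)⟩
    | inv_of s ih =>
      intro p
      rw [map_inv]
      have h1 := ih (p * (PresentedGroup.mk (rels A) (FreeGroup.of s))⁻¹)
      rw [inv_mul_cancel_right] at h1
      exact h1.symm
    | mul w w' ih ih' =>
      intro p
      rw [map_mul, ← mul_assoc]
      exact (ih p).trans (ih' _)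

theorem joined_vert (M : Fam (coneX A) E) (p : (coneX A).P) :
    Joined (M.vert (Sum.inl (1 : Grp A))) (M.vert p) := by
  rcases p with g | x
  · exact joined_letter A M g
  · induction x using Quot.inductionOn with
    | _ y =>
      obtain ⟨g, v⟩ := y
      have h1 : Joined (M.vert (Sum.inr (cell A (g, v)))) (M.vert (Sum.inl g)) := ⟨M.pb (g, v)⟩
      exact (joined_letter A M g).trans h1.symm

/-- (8) the cone complex of an aspherical graph is contractible -/
theorem contractible_coneX (h : Aspherical A) (M : ConeCx (coneX A) E) : ContractibleSpace E := by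
  obtain ⟨gam, H1a, H1b⟩ := exists_gam M.toFam (triv_coneX A) (Sum.inl 1) (fun p =>
    (joined_vert A M.toFam p).symm)
  exact contractible_of_cone M (Sum.inl 1) gam H1a H1b (solv_coneX A h)

end cone

end Crest.Agent.R177.Top
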